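import Crest.Agent.R216.Skel
import Crest.Agent.R216.GlobChart

/-!
# Row 216: BASE MAP, the paraboloid `Phi : ℝ³ → ℝ⁴` (helper904)
-/

set_option autoImplicit false
open scoped Manifold ContDiff Topology
open Set

noncomputable section
namespace Crest.Agent.R216
namespace Base

/-- `x ↦ (x, 0)` -/
def J3 : E3 →L[ℝ] E4 := LinearMap.toContinuousLinearMap
  { toFun := fun x => !₂[x 0, x 1, x 2, 0]
    map_add' := by intro x y; ext i; fin_cases i <;> simp
    map_smul' := by intro c x; ext i; fin_cases i <;> simp }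

/-- the vertical unit vector -/
def e4 : E4 := !₂[0, 0, 0, 1]

lemma J3_apply (x : E3) : J3 x = !₂[x 0, x 1, x 2, 0] := rfl

lemma inner_J3 (x y : E3) : inner ℝ (J3 x) (J3 y) = inner ℝ x y := by
  simp [J3_apply, PiLp.inner_apply, Fin.sum_univ_succ]

lemma inner_J3_e4 (x : E3) : inner ℝ (J3 x) e4 = 0 := by
  simp [J3_apply, e4, PiLp.inner_apply, Fin.sum_univ_succ]

lemma inner_e4_J3 (x : E3) : inner ℝ e4 (J3 x) = 0 := by
  rw [real_inner_comm]; exact inner_J3_e4 x

lemma inner_e4 : inner ℝ e4 e4 = (1 : ℝ) := by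
  rw [PiLp.inner_apply]
  simp [e4, Fin.sum_univ_succ]

/-- the paraboloid `x ↦ (x, |x|²/2)` -/
def Phi (x : E3) : E4 := J3 x + (inner ℝ x x / 2) • e4


/-- derivative of `Phi` at `x`: `h ↦ (h, ⟨x,h⟩)` -/
def TT (x : E3) : E3 →L[ℝ] E4 := J3 + (innerSL ℝ x).smulRight e4

lemma TT_apply (x h : E3) : TT x h = J3 h + inner ℝ x h • e4 := by
  simp [TT]

lemma contDiff_Phi : ContDiff ℝ ∞ Phi := by
  unfold Phi
  exact J3.contDiff.add (((contDiff_id.inner ℝ contDiff_id).div_const 2).smul contDiff_const)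

lemma hasFDerivAt_Phi (x : E3) : HasFDerivAt Phi (TT x) x := by
  have h1 : HasFDerivAt (fun y : E3 => inner ℝ y y / 2) (innerSL ℝ x) x := by
    have h2 := (hasFDerivAt_id x).inner ℝ (hasFDerivAt_id x)
    have h3 := h2.mul_const (2 : ℝ)⁻¹
    have h4 : (fun y : E3 => inner ℝ y y / 2) = fun y : E3 => inner ℝ (id y) (id y) * (2 : ℝ)⁻¹ := by
      funext y; simp [div_eq_mul_inv]
    rw [h4]
    refine h3.congr_fderiv ?_
    ext v
    simp [real_inner_comm]
    ring
  exact (J3.hasFDerivAt).add (h1.smul_const e4)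

lemma inner_TT (x h k : E3) :
    inner ℝ (TT x h) (TT x k) = inner ℝ h k + inner ℝ x h * inner ℝ x k := by
  simp only [TT_apply, inner_add_left, inner_add_right, inner_smul_left, inner_smul_right,
    inner_J3, inner_J3_e4, inner_e4_J3, inner_e4]
  simp
  ring

lemma TT_injective (x : E3) : Function.Injective (TT x) := by
  rw [injective_iff_map_eq_zero]
  intro h hh
  have h1 := inner_TT x h h
  rw [hh, inner_zero_left] at h1
  have h2 : 0 ≤ inner ℝ h h := real_inner_self_nonneg
  have h3 : inner ℝ h h = 0 := by nlinarith [mul_self_nonneg (inner ℝ x h)]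
  exact inner_self_eq_zero.1 h3

end Base
end Crest.Agent.R216
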