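import Crest.Agent.R216.Skel
import Crest.Agent.R216.GlobChart

/-!
# Row 216 (S0335), part (6): calculus of the coefficients of 2-tensors in charts (helper125)

* `TBil h`: the tensor `h` is bilinear at every point;
* `coef_trans`: change of charts (every `Tens`);
* `coef_pull`: the coefficients of `pull F` are those of the planar map `rep F ψ`;
* `coef_gT_contDiffOn`, `coef_pull_contDiffOn`: smoothness;
* `coef_prim`: the primitive metric of a stage in a chart.
-/

set_option autoImplicit false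
set_option linter.unusedSectionVars false

open scoped Manifold ContDiff Topology
open Set

noncomputable section
namespace Crest.Agent.R216.DC

variable {M : Type*} [TopologicalSpace M] [ChartedSpace E2 M]

/-- the tensor of a smooth metric -/
def gT [IsManifold (𝓡 2) ∞ M]
    (g : Bundle.ContMDiffRiemannianMetric (𝓡 2) ∞ E2 (TangentSpace (𝓡 2) : M → Type)) : Tens M :=
  fun p v w => g.inner p v w

/-- bilinear tensors -/
structure TBil (h : Tens M) : Prop where
  add_left : ∀ (p : M) (v v' w : TangentSpace (𝓡 2) p), h p (v + v') w = h p v w + h p v' w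
  smul_left : ∀ (p : M) (a : ℝ) (v w : TangentSpace (𝓡 2) p), h p (a • v) w = a * h p v w
  add_right : ∀ (p : M) (v w w' : TangentSpace (𝓡 2) p), h p v (w + w') = h p v w + h p v w'
  smul_right : ∀ (p : M) (a : ℝ) (v w : TangentSpace (𝓡 2) p), h p v (a • w) = a * h p v w




section metric
variable [IsManifold (𝓡 2) ∞ M]
  (g : Bundle.ContMDiffRiemannianMetric (𝓡 2) ∞ E2 (TangentSpace (𝓡 2) : M → Type))

theorem tBil_gT : TBil (gT g) where
  add_left p v v' w := by
    have := congrArg (fun L : TangentSpace (𝓡 2) p →L[ℝ] ℝ => L w) ((g.inner p).map_add v v')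
    exact this
  smul_left p a v w := by
    have := congrArg (fun L : TangentSpace (𝓡 2) p →L[ℝ] ℝ => L w) ((g.inner p).map_smul a v)
    exact this
  add_right p v w w' := (g.inner p v).map_add w w'
  smul_right p a v w := (g.inner p v).map_smul a w


end metric




/-! ### bilinearity of `coef` -/

section coef_bil

variable {h : Tens M} (hb : TBil h) (ψ : OpenPartialHomeomorph M E2)
include hb

theorem coef_add_left (v v' w y : E2) :
    coef h ψ (v + v') w y = coef h ψ v w y + coef h ψ v' w y := by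
  unfold coef
  rw [← hb.add_left]
  congr 1
  exact (mfderiv 𝓘(ℝ, E2) (𝓡 2) ψ.symm y).map_add v v'

theorem coef_smul_left (a : ℝ) (v w y : E2) :
    coef h ψ (a • v) w y = a * coef h ψ v w y := by
  unfold coef
  rw [← hb.smul_left]
  congr 1
  exact (mfderiv 𝓘(ℝ, E2) (𝓡 2) ψ.symm y).map_smul a v

theorem coef_add_right (v w w' y : E2) :
    coef h ψ v (w + w') y = coef h ψ v w y + coef h ψ v w' y := by
  unfold coef
  rw [← hb.add_right]
  congr 1
  exact (mfderiv 𝓘(ℝ, E2) (𝓡 2) ψ.symm y).map_add w w'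

theorem coef_smul_right (a : ℝ) (v w y : E2) :
    coef h ψ v (a • w) y = a * coef h ψ v w y := by
  unfold coef
  rw [← hb.smul_right]
  congr 1
  exact (mfderiv 𝓘(ℝ, E2) (𝓡 2) ψ.symm y).map_smul a w

end coef_bil

/-- a vector of the plane in the standard basis -/
theorem vec_eq (v : E2) : v = v 0 • bv 0 + v 1 • bv 1 := by
  ext i
  fin_cases i <;> simp [bv]

theorem coef_expand {h : Tens M} (hb : TBil h) (ψ : OpenPartialHomeomorph M E2) (v w y : E2) :
    coef h ψ v w y = v 0 * w 0 * coef h ψ (bv 0) (bv 0) y + v 0 * w 1 * coef h ψ (bv 0) (bv 1) y +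
      v 1 * w 0 * coef h ψ (bv 1) (bv 0) y + v 1 * w 1 * coef h ψ (bv 1) (bv 1) y := by
  conv_lhs => rw [vec_eq v, vec_eq w]
  simp only [coef_add_left hb, coef_add_right hb, coef_smul_left hb, coef_smul_right hb]
  ring

theorem coef_expand' {h : Tens M} (hb : TBil h) (ψ : OpenPartialHomeomorph M E2) (v w y : E2) :
    coef h ψ v w y = ∑ i : Fin 2, ∑ j : Fin 2, v i * w j * coef h ψ (bv i) (bv j) y := by
  rw [coef_expand hb]
  simp only [Fin.sum_univ_two]
  ring



section charts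

variable [IsManifold (𝓡 2) ∞ M]

theorem mdifferentiableAt_symm {ψ : OpenPartialHomeomorph M E2}
    (hψ : ψ ∈ IsManifold.maximalAtlas (𝓡 2) ∞ M) {y : E2} (hy : y ∈ ψ.target) :
    MDifferentiableAt 𝓘(ℝ, E2) (𝓡 2) ψ.symm y :=
  ((contMDiffOn_symm_of_mem_maximalAtlas hψ).contMDiffAt
    (ψ.open_target.mem_nhds hy)).mdifferentiableAt (by simp)

theorem mdifferentiableAt_chart {ψ : OpenPartialHomeomorph M E2}
    (hψ : ψ ∈ IsManifold.maximalAtlas (𝓡 2) ∞ M) {p : M} (hp : p ∈ ψ.source) :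
    MDifferentiableAt (𝓡 2) 𝓘(ℝ, E2) ψ p :=
  ((contMDiffOn_of_mem_maximalAtlas hψ).contMDiffAt
    (ψ.open_source.mem_nhds hp)).mdifferentiableAt (by simp)


/-- congruence for tensors -/
theorem tens_congr (h : Tens M) {p q : M} (hpq : p = q) {v w v' w' : E2} (hv : v = v')
    (hw : w = w') : h p v w = h q v' w' := by
  subst hpq; subst hv; subst hw; rfl


/-- the derivative of `F` along the coordinate fields -/
theorem mfderiv_comp_symm {E : Type*} [NormedAddCommGroup E] [NormedSpace ℝ E] {F : M → E}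
    (hF : ContMDiff (𝓡 2) 𝓘(ℝ, E) ∞ F) {ψ : OpenPartialHomeomorph M E2}
    (hψ : ψ ∈ IsManifold.maximalAtlas (𝓡 2) ∞ M) {y : E2} (hy : y ∈ ψ.target) (v : E2) :
    mfderiv (𝓡 2) 𝓘(ℝ, E) F (ψ.symm y) (mfderiv 𝓘(ℝ, E2) (𝓡 2) ψ.symm y v)
      = fderiv ℝ (rep F ψ) y v := by
  have h1 : MDifferentiableAt (𝓡 2) 𝓘(ℝ, E) F (ψ.symm y) :=
    (hF (ψ.symm y)).mdifferentiableAt (by simp)
  have h2 := mfderiv_comp y h1 (mdifferentiableAt_symm hψ hy)
  have h3 : mfderiv 𝓘(ℝ, E2) 𝓘(ℝ, E) (F ∘ ψ.symm) y = fderiv ℝ (F ∘ ψ.symm) y :=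
    mfderiv_eq_fderiv
  rw [h3] at h2
  unfold rep
  rw [h2]
  rfl

/-- the coefficients of a pulled back metric -/
theorem coef_pull {F : M → E4} (hF : ContMDiff (𝓡 2) 𝓘(ℝ, E4) ∞ F)
    {ψ : OpenPartialHomeomorph M E2} (hψ : ψ ∈ IsManifold.maximalAtlas (𝓡 2) ∞ M) {y : E2}
    (hy : y ∈ ψ.target) (v w : E2) :
    coef (pull F) ψ v w y = met (rep F ψ) y v w := by
  unfold coef pull met d1
  rw [mfderiv_comp_symm hF hψ hy, mfderiv_comp_symm hF hψ hy]

theorem coef_pull_contDiffOn {F : M → E4} (hF : ContMDiff (𝓡 2) 𝓘(ℝ, E4) ∞ F)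
    {ψ : OpenPartialHomeomorph M E2} (hψ : ψ ∈ IsManifold.maximalAtlas (𝓡 2) ∞ M) (v w : E2) :
    ContDiffOn ℝ ∞ (coef (pull F) ψ v w) ψ.target := by
  have h1 : ContDiffOn ℝ ∞ (fun y => met (rep F ψ) y v w) ψ.target := by
    have h2 : ContDiffOn ℝ ∞ (fderiv ℝ (rep F ψ)) ψ.target :=
      (rep_contDiffOn hF hψ).fderiv_of_isOpen ψ.open_target (by simp)
    exact (h2.clm_apply contDiffOn_const).inner ℝ (h2.clm_apply contDiffOn_const)
  exact h1.congr (fun y hy => coef_pull hF hψ hy v w)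








end charts

end Crest.Agent.R216.DC
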