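import Crest.Agent.R216.Skel
import Crest.Agent.R216.GlobChart
import Crest.Agent.R216.BaseA0
import Crest.Agent.R216.GlobCoef
import Crest.Agent.R216.DC3C

-- ▼ part R216/Main
section

/-!
Row 216 (S0335): final assembly from the three statements of `Skel.lean`.
-/

set_option autoImplicit false
open scoped Manifold ContDiff Topology
open Set

noncomputable section
namespace Crest.Agent.R216

variable {M : Type*} [TopologicalSpace M] [ChartedSpace E2 M]

lemma Stage.C_subset (S : Stage M) : S.C ⊆ S.ψ.target :=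
  (frontier_subset_closure).trans S.sub

lemma Stage.circ_mem (S : Stage M) {p : M} (hp : p ∈ S.circ) :
    p ∈ S.ψ.source ∧ S.ψ p ∈ S.C := by
  obtain ⟨y, hy, rfl⟩ := hp
  have hy' := S.C_subset hy
  exact ⟨S.ψ.map_target hy', by rw [S.ψ.right_inv hy']; exact hy⟩

/-- every compact surface has a finite atlas with compact pieces -/
lemma exists_finAtlas (M : Type*) [TopologicalSpace M] [ChartedSpace E2 M]
    [IsManifold (𝓡 2) ∞ M] [CompactSpace M] : Nonempty (FinAtlas M) := by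
  classical
  -- for each point choose a closed ball in the chart
  have h : ∀ p : M, ∃ r : ℝ, 0 < r ∧ Metric.closedBall (chartAt E2 p p) r ⊆ (chartAt E2 p).target := by
    intro p
    have h1 : (chartAt E2 p).target ∈ 𝓝 (chartAt E2 p p) :=
      (chartAt E2 p).open_target.mem_nhds (mem_chart_target E2 p)
    exact Metric.nhds_basis_closedBall.mem_iff.1 h1
  choose r hr hsub using h
  let O : M → Set M := fun p => (chartAt E2 p).source ∩ (chartAt E2 p) ⁻¹' Metric.ball (chartAt E2 p p) (r p)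
  have hO : ∀ p, IsOpen (O p) := fun p =>
    (chartAt E2 p).isOpen_inter_preimage Metric.isOpen_ball
  have hmem : ∀ p, p ∈ O p := fun p => ⟨mem_chart_source E2 p, Metric.mem_ball_self (hr p)⟩
  obtain ⟨t, ht⟩ := isCompact_univ.elim_finite_subcover O hO
    (fun p _ => mem_iUnion.2 ⟨p, hmem p⟩)
  refine ⟨{
    n := t.card
    χ := fun i => chartAt E2 (t.equivFin.symm i : M)
    hχ := fun i => IsManifold.chart_mem_maximalAtlas _
    K := fun i => Metric.closedBall (chartAt E2 (t.equivFin.symm i : M) (t.equivFin.symm i : M))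
      (r (t.equivFin.symm i : M))
    cpt := fun i => isCompact_closedBall _ _
    sub := fun i => hsub _
    cover := ?_ }⟩
  intro p
  obtain ⟨q, hq⟩ := mem_iUnion.1 (ht (mem_univ p))
  obtain ⟨hqt, hpq⟩ := mem_iUnion.1 hq
  refine ⟨t.equivFin ⟨q, hqt⟩, ?_, ?_⟩
  · simpa using hpq.1
  · have : (chartAt E2 q) p ∈ Metric.ball (chartAt E2 q q) (r q) := hpq.2
    have h2 := Metric.ball_subset_interior_closedBall this
    simpa using h2

lemma Stage.levIn_ne_zero [IsManifold (𝓡 2) ∞ M] (S T : Stage M) {p : M} (h1 : p ∈ S.ψ.source)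
    (h2 : p ∈ T.ψ.source) : S.levIn T p ≠ 0 := by
  intro h
  have hinj := fderiv_trans_injective T.hψ S.hψ (x := T.ψ p) (T.ψ.map_source h2)
    (by rw [T.ψ.left_inv h2]; exact h1)
  have h3 : fderiv ℝ (trans T.ψ S.ψ) (T.ψ p) (bv 1) = fderiv ℝ (trans T.ψ S.ψ) (T.ψ p) 0 := by
    rw [map_zero]; exact h
  have h4 := hinj h3
  have h5 : (bv 1 : E2) 1 = 0 := by rw [h4]; rfl
  simp [bv] at h5

lemma bv_one_ne_zero : bv 1 ≠ 0 := by
  intro h
  have h5 : (bv 1 : E2) 1 = 0 := by rw [h]; rfl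
  simp [bv] at h5

/-- **Assembly**: the three parts imply the theorem. -/
theorem main_of_parts (M : Type*) [TopologicalSpace M] [T2Space M] [CompactSpace M]
    [ChartedSpace E2 M] [IsManifold (𝓡 2) ∞ M]
    (hD : DecompStatement M) (hB : BaseStatement M) (hS : StepStatement M)
    (g : Bundle.ContMDiffRiemannianMetric (𝓡 2) ∞ E2 (TangentSpace (𝓡 2) : M → Type)) :
    ∃ F : M → E4, ContMDiff (𝓡 2) 𝓘(ℝ, E4) ∞ F ∧
      ∀ (p : M) (v w : TangentSpace (𝓡 2) p),
        @inner ℝ E4 _ (mfderiv (𝓡 2) 𝓘(ℝ, E4) F p v) (mfderiv (𝓡 2) 𝓘(ℝ, E4) F p w)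
          = g.inner p v w := by
  obtain ⟨A⟩ := exists_finAtlas M
  obtain ⟨fs, hfs, hfs', hbase⟩ := hB g A
  obtain ⟨η, J, S, hη, hgp, hdec⟩ := hD g A fs hfs hfs'
  classical
  -- the finite set of crossing points
  let X : Set M := ⋃ j : Fin J, ⋃ k : Fin J,
    if (S j).circ = (S k).circ then ∅ else (S j).circ ∩ (S k).circ
  have hX : X.Finite := by
    refine Set.finite_iUnion fun j => Set.finite_iUnion fun k => ?_
    by_cases h : (S j).circ = (S k).circ
    · simp [h]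
    · simp only [h, if_false]
      rcases hgp.fin j k with h' | h'
      · exact absurd h' h
      · exact h'
  obtain ⟨f0, ν0, hf0, hν0, hf0pos, hunit, hnorm, hclass, hpos, hP2⟩ := hbase η X hη hX
  obtain ⟨β, hβ, hβpos, hsum, hgam⟩ := hdec f0 hf0 hclass
  -- positivity of the base metric and of all intermediate metrics
  have hG : ∀ k (p : M) (v : TangentSpace (𝓡 2) p), v ≠ 0 → 0 < Gk S β (pull f0) k p v v := by
    intro k p v hv
    have h1 : 0 < pull f0 p v v := hf0pos p v hv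
    have h2 : 0 ≤ ∑ j : Fin J, if j.1 < k then (S j).prim (β j) p v v else 0 := by
      refine Finset.sum_nonneg fun j _ => ?_
      split_ifs
      · have : (S j).prim (β j) p v v = ((S j).amp (β j) p * (S j).dphi p v) ^ 2 := by
          simp only [Stage.prim]; ring
        rw [this]; positivity
      · exact le_rfl
    have : Gk S β (pull f0) k p v v = pull f0 p v v +
      ∑ j : Fin J, if j.1 < k then (S j).prim (β j) p v v else 0 := rfl
    rw [this]; linarith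
  -- induction
  have hind : ∀ k : ℕ, k ≤ J → ∃ f ν : M → E4, Inv S β (pull f0) k f ν := by
    intro k
    induction k with
    | zero =>
      intro _
      refine ⟨f0, ν0, ?_⟩
      constructor
      · exact hf0
      · exact hν0
      · exact hunit
      · exact hnorm
      · intro p v w
        simp [Gk]
      · intro j _ y hy c hc h
        have hyt := (S j).C_subset hy
        have h1 := hpos (S j).ψ (S j).hψ y hyt (bv 1) bv_one_ne_zero
        rw [h, inner_neg_left, inner_smul_left] at h1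
        have h2 : inner ℝ (ν0 ((S j).ψ.symm y)) (ν0 ((S j).ψ.symm y)) = 1 := by
          rw [real_inner_self_eq_norm_sq, hunit]; norm_num
        rw [h2] at h1
        simp at h1
        linarith
      · intro j l _ hjl hne p hp
        obtain ⟨hpj, hpj'⟩ := (S j).circ_mem hp.1
        obtain ⟨hpl, hpl'⟩ := (S l).circ_mem hp.2
        have hpX : p ∈ X := by
          refine mem_iUnion.2 ⟨j, mem_iUnion.2 ⟨l, ?_⟩⟩
          simp only [hne, if_false]; exact hp
        rcases hP2 (S j).ψ (S j).hψ p hpX hpj ((S j).levIn (S l) p) (bv 1) bv_one_ne_zero with h | h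
        · exact h
        · exact absurd h ((S j).levIn_ne_zero (S l) hpj hpl)
      · intro j l _ hjl hne p hp
        obtain ⟨hpj, hpj'⟩ := (S j).circ_mem hp.1
        obtain ⟨hpl, hpl'⟩ := (S l).circ_mem hp.2
        have hleft : (S j).ψ.symm ((S j).ψ p) = p := (S j).ψ.left_inv hpj
        have h1 := hpos (S j).ψ (S j).hψ ((S j).ψ p) ((S j).ψ.map_source hpj) (bv 1) bv_one_ne_zero
        have h2 := hpos (S j).ψ (S j).hψ ((S j).ψ p) ((S j).ψ.map_source hpj)
          ((S j).levIn (S l) p) ((S j).levIn_ne_zero (S l) hpj hpl)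
        rw [hleft] at h1 h2
        refine ⟨ν0 p, ?_, ?_, ?_⟩
        · rw [real_inner_self_eq_norm_sq, hunit]; norm_num
        · rw [real_inner_comm]; exact h1
        · rw [real_inner_comm]; exact h2
    | succ k ih =>
      intro hk
      obtain ⟨f, ν, hinv⟩ := ih (by omega)
      have hkJ : k < J := by omega
      exact hS S β (pull f0) ⟨k, hkJ⟩ hgp hβ hβpos f ν hinv
        (fun p v hv => by rw [hinv.met]; exact hG k p v hv)
        (hgam ⟨k, hkJ⟩ f hinv.smf hinv.met)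
  obtain ⟨f, ν, hinv⟩ := hind J le_rfl
  refine ⟨f, hinv.smf, fun p v w => ?_⟩
  have := hinv.met p v w
  rw [hsum p v w] at this
  exact this

end Crest.Agent.R216
end
end

-- ▼ part R216/BaseS
section

/-!
Row 216 (S0335), module BASE: pointwise facts (sphere version).
* radial projection `nrm`,
* second derivative of a composition,
* second fundamental form of a sphere-valued immersion,
* `(P2)` from a positive semidefinite second fundamental form inside the sphere.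
-/

set_option autoImplicit false

noncomputable section

open scoped Manifold ContDiff Topology
open Set Module

namespace Crest.Agent.R216.Base

open Crest.Agent.R216

/-! ### radial projection -/







/-! ### second derivative of a composition -/

section comp
variable {E F G : Type*} [NormedAddCommGroup E] [NormedSpace ℝ E] [NormedAddCommGroup F]
  [NormedSpace ℝ F] [NormedAddCommGroup G] [NormedSpace ℝ G]

lemma snd_comp {g : F → G} {f : E → F} {x : E}
    (hg : ContDiffAt ℝ 2 g (f x)) (hf : ContDiffAt ℝ 2 f x) (v w : E) :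
    fderiv ℝ (fderiv ℝ (g ∘ f)) x v w
      = fderiv ℝ (fderiv ℝ g) (f x) (fderiv ℝ f x v) (fderiv ℝ f x w)
        + fderiv ℝ g (f x) (fderiv ℝ (fderiv ℝ f) x v w) := by
  have hgev : ∀ᶠ y in 𝓝 x, ContDiffAt ℝ 2 g (f y) :=
    hf.continuousAt.eventually (hg.eventually (by simp))
  have hfev : ∀ᶠ y in 𝓝 x, ContDiffAt ℝ 2 f y := hf.eventually (by simp)
  have h1 : fderiv ℝ (g ∘ f) =ᶠ[𝓝 x] fun y => (fderiv ℝ g (f y)).comp (fderiv ℝ f y) := by
    filter_upwards [hgev, hfev] with y h1 h2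
    exact fderiv_comp y (h1.differentiableAt (by norm_num)) (h2.differentiableAt (by norm_num))
  have hdg : DifferentiableAt ℝ (fderiv ℝ g) (f x) :=
    (hg.fderiv_right (m := 1) (by norm_num)).differentiableAt (by norm_num)
  have hdf : DifferentiableAt ℝ (fderiv ℝ f) x :=
    (hf.fderiv_right (m := 1) (by norm_num)).differentiableAt (by norm_num)
  have hfx : DifferentiableAt ℝ f x := hf.differentiableAt (by norm_num)
  have h2 : HasFDerivAt (fun y => fderiv ℝ g (f y))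
      ((fderiv ℝ (fderiv ℝ g) (f x)).comp (fderiv ℝ f x)) x :=
    hdg.hasFDerivAt.comp x hfx.hasFDerivAt
  have h3 := h2.clm_comp hdf.hasFDerivAt
  rw [h1.fderiv_eq, h3.fderiv]
  simp
  abel

end comp

/-! ### orthogonal projection -/

lemma orthP_inner {K : Submodule ℝ P4} {v n : P4} (hn : n ∈ Kᗮ) :
    inner ℝ (orthP K v) n = (inner ℝ v n : ℝ) := by
  have h := sub_orthP_mem K v
  have h2 : inner ℝ (v - orthP K v) n = (0 : ℝ) := (Submodule.mem_orthogonal K n).1 hn _ h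
  rw [inner_sub_left] at h2
  linarith

/-! ### sphere-valued immersions -/

section sphere
variable {f : P2 → P4} {y : P2}






end sphere

/-! ### `(P2)` -/

section P2
variable {f : P2 → P4} {y : P2}






end P2

end Crest.Agent.R216.Base
end
end

-- ▼ part R216/BaseA
section

/-!
Row 216 (S0335), module BASE, part A: the paraboloid `Phi ∘ a` of a planar immersion `a`,
its unit normal, positivity, `(P2)` at flat points. (helper326)
-/

set_option autoImplicit false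

noncomputable section

open scoped Manifold ContDiff Topology
open Set

namespace Crest.Agent.R216.Base

/-- second derivative of `Phi` -/
lemma fderiv2_Phi (x h k : E3) : fderiv ℝ (fderiv ℝ Phi) x h k = (inner ℝ h k : ℝ) • e4 := by
  have e : fderiv ℝ Phi = fun x => TT x := by ext1 x; exact (hasFDerivAt_Phi x).fderiv
  have h1 : HasFDerivAt (fun x : E3 => TT x)
      (((ContinuousLinearMap.smulRightL ℝ E3 E4).flip e4).comp (innerSL ℝ)) x := by
    have h2 : HasFDerivAt (fun x : E3 => (innerSL ℝ x).smulRight e4)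
        (((ContinuousLinearMap.smulRightL ℝ E3 E4).flip e4).comp (innerSL ℝ)) x :=
      (((ContinuousLinearMap.smulRightL ℝ E3 E4).flip e4).comp (innerSL ℝ)).hasFDerivAt
    have h3 := h2.const_add J3
    exact h3
  rw [e, h1.fderiv]
  simp

section planar
variable {a : E2 → E3} {y : E2}

lemma fderiv_Phi_comp (ha : DifferentiableAt ℝ a y) (v : E2) :
    fderiv ℝ (Phi ∘ a) y v = TT (a y) (fderiv ℝ a y v) := by
  have h := ((hasFDerivAt_Phi (a y)).comp y ha.hasFDerivAt).fderiv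
  rw [h]; rfl

lemma fderiv2_Phi_comp (ha : ContDiffAt ℝ 2 a y) (v w : E2) :
    fderiv ℝ (fderiv ℝ (Phi ∘ a)) y v w = TT (a y) (fderiv ℝ (fderiv ℝ a) y v w)
      + (inner ℝ (fderiv ℝ a y v) (fderiv ℝ a y w) : ℝ) • e4 := by
  have h := snd_comp (contDiff_Phi.contDiffAt.of_le ENat.LEInfty.out : ContDiffAt ℝ 2 Phi (a y)) ha v w
  rw [h, fderiv2_Phi, (hasFDerivAt_Phi (a y)).fderiv, add_comm]

/-- the unit normal of the paraboloid -/
def nu (x : E3) : E4 := (Real.sqrt (1 + ‖x‖ ^ 2))⁻¹ • (e4 - J3 x)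

lemma contDiff_nu : ContDiff ℝ ∞ nu := by
  unfold nu
  have h1 : ContDiff ℝ ∞ (fun x : E3 => Real.sqrt (1 + ‖x‖ ^ 2)) :=
    (contDiff_const.add (contDiff_norm_sq ℝ)).sqrt (fun x => by positivity)
  exact (h1.inv (fun x => by positivity)).smul (contDiff_const.sub J3.contDiff)

lemma norm_nu (x : E3) : ‖nu x‖ = 1 := by
  have h0 : (0 : ℝ) < 1 + ‖x‖ ^ 2 := by positivity
  have h1 : ‖e4 - J3 x‖ ^ 2 = 1 + ‖x‖ ^ 2 := by
    rw [← real_inner_self_eq_norm_sq, inner_sub_left, inner_sub_right, inner_sub_right,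
      inner_e4, inner_J3, inner_J3_e4, inner_e4_J3, real_inner_self_eq_norm_sq]
    ring
  have h2 : ‖e4 - J3 x‖ = Real.sqrt (1 + ‖x‖ ^ 2) := by
    rw [← h1, Real.sqrt_sq (norm_nonneg _)]
  rw [nu, norm_smul, norm_inv, Real.norm_of_nonneg (Real.sqrt_nonneg _), h2]
  exact inv_mul_cancel₀ (Real.sqrt_pos.2 h0).ne'

lemma inner_nu_TT (x h : E3) : inner ℝ (nu x) (TT x h) = (0 : ℝ) := by
  rw [nu, inner_smul_left, TT_apply, inner_sub_left, inner_add_right, inner_add_right,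
    inner_smul_right, inner_smul_right, inner_e4_J3, inner_e4, inner_J3, inner_J3_e4]
  ring

lemma inner_e4_nu (x : E3) : 0 < (inner ℝ e4 (nu x) : ℝ) := by
  rw [nu, inner_smul_right, inner_sub_right, inner_e4, inner_e4_J3]
  have : 0 < Real.sqrt (1 + ‖x‖ ^ 2) := Real.sqrt_pos.2 (by positivity)
  simp
  positivity

lemma nu_mem_orth (ha : DifferentiableAt ℝ a y) : nu (a y) ∈ (tanSp (Phi ∘ a) y)ᗮ := by
  rw [Submodule.mem_orthogonal']
  rintro _ ⟨v, rfl⟩
  show (inner ℝ (nu (a y)) (fderiv ℝ (Phi ∘ a) y v) : ℝ) = 0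
  rw [fderiv_Phi_comp ha]
  exact inner_nu_TT _ _

/-- positivity of the second fundamental form in the direction `nu` -/
lemma sff_Phi_pos (ha : ContDiffAt ℝ 2 a y) (hinj : Function.Injective (fderiv ℝ a y)) {v : E2}
    (hv : v ≠ 0) : 0 < (inner ℝ (sff (Phi ∘ a) y v v) (nu (a y)) : ℝ) := by
  have hd := ha.differentiableAt (by norm_num)
  show 0 < (inner ℝ (orthP (tanSp (Phi ∘ a) y)
    (fderiv ℝ (fderiv ℝ (Phi ∘ a)) y v v)) (nu (a y)) : ℝ)
  rw [orthP_inner (nu_mem_orth hd), fderiv2_Phi_comp ha, inner_add_left, inner_smul_left,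
    real_inner_comm, inner_nu_TT, zero_add]
  have h1 : fderiv ℝ a y v ≠ 0 := fun h => hv (hinj (by rw [h, map_zero]))
  have h2 : 0 < (inner ℝ (fderiv ℝ a y v) (fderiv ℝ a y v) : ℝ) := real_inner_self_pos.2 h1
  simpa using mul_pos h2 (inner_e4_nu (a y))

/-- at a flat point all values of the second fundamental form are multiples of one vector -/
lemma sff_flat (ha : ContDiffAt ℝ 2 a y)
    (hflat : ∀ v w : E2, ∃ z : E2, fderiv ℝ (fderiv ℝ a) y v w = fderiv ℝ a y z) (v w : E2) :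
    sff (Phi ∘ a) y v w = (inner ℝ (fderiv ℝ a y v) (fderiv ℝ a y w) : ℝ) •
      orthP (tanSp (Phi ∘ a) y) e4 := by
  have hd := ha.differentiableAt (by norm_num)
  obtain ⟨z, hz⟩ := hflat v w
  show orthP (tanSp (Phi ∘ a) y) (fderiv ℝ (fderiv ℝ (Phi ∘ a)) y v w) = _
  rw [fderiv2_Phi_comp ha, hz, map_add, map_smul, orthP_of_mem, zero_add]
  exact ⟨z, fderiv_Phi_comp hd z⟩

/-- `(P2)` at a flat point -/
theorem P2at_flat (ha : ContDiffAt ℝ 2 a y) (hinj : Function.Injective (fderiv ℝ a y))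
    (hflat : ∀ v w : E2, ∃ z : E2, fderiv ℝ (fderiv ℝ a) y v w = fderiv ℝ a y z)
    {v w : E2} (hv : v ≠ 0) (hw : w ≠ 0) : P2at (Phi ∘ a) y w v := by
  have hd := ha.differentiableAt (by norm_num)
  set z0 := orthP (tanSp (Phi ∘ a) y) e4 with hz0
  have hz : z0 ≠ 0 := by
    intro h
    have h1 : (inner ℝ z0 (nu (a y)) : ℝ) = inner ℝ e4 (nu (a y)) := orthP_inner (nu_mem_orth hd)
    rw [h, inner_zero_left] at h1
    have h2 := inner_e4_nu (a y)
    linarith
  have hz1 : 0 < (inner ℝ z0 z0 : ℝ) := real_inner_self_pos.2 hz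
  have h1 : fderiv ℝ a y v ≠ 0 := fun h => hv (hinj (by rw [h, map_zero]))
  have h2 : fderiv ℝ a y w ≠ 0 := fun h => hw (hinj (by rw [h, map_zero]))
  have h3 : 0 < (inner ℝ (fderiv ℝ a y v) (fderiv ℝ a y v) : ℝ) := real_inner_self_pos.2 h1
  have h4 : 0 < (inner ℝ (fderiv ℝ a y w) (fderiv ℝ a y w) : ℝ) := real_inner_self_pos.2 h2
  show ‖sff (Phi ∘ a) y v w‖ ^ 2 * ‖sff (Phi ∘ a) y w w‖ ^ 2
      - (inner ℝ (sff (Phi ∘ a) y v w) (sff (Phi ∘ a) y w w)) ^ 2 <
    inner ℝ (sff (Phi ∘ a) y v v) (sff (Phi ∘ a) y w w) * ‖sff (Phi ∘ a) y w w‖ ^ 2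
  rw [sff_flat ha hflat v w, sff_flat ha hflat w w, sff_flat ha hflat v v, ← hz0,
    ← real_inner_self_eq_norm_sq, ← real_inner_self_eq_norm_sq]
  simp only [inner_smul_left, inner_smul_right, conj_trivial]
  set A : ℝ := inner ℝ (fderiv ℝ a y v) (fderiv ℝ a y w)
  set B : ℝ := inner ℝ (fderiv ℝ a y v) (fderiv ℝ a y v)
  set C : ℝ := inner ℝ (fderiv ℝ a y w) (fderiv ℝ a y w)
  set Z : ℝ := inner ℝ z0 z0
  have e1 : A * (A * Z) * (C * (C * Z)) - (A * (C * Z)) ^ 2 = 0 := by ring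
  have e2 : 0 < B * (C * Z) * (C * (C * Z)) := by positivity
  linarith

end planar

end Crest.Agent.R216.Base
end
end

-- ▼ part R216/BaseAsm

/-!
Row 216 (S0335), module BASE, part C: short paraboloid lift and assembly of `BaseStatement`
from an immersion into `ℝ³` and from the flattening lemma. (helper326)
-/

set_option autoImplicit false

noncomputable section

open scoped Manifold ContDiff Topology
open Set

namespace Crest.Agent.R216.Base

variable {M : Type*} [TopologicalSpace M] [ChartedSpace E2 M] [IsManifold (𝓡 2) ∞ M]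

/-- The flattening lemma (`BaseFlat.lean`, helper904). -/
def FlatStatement (M : Type*) [TopologicalSpace M] [ChartedSpace E2 M]
    [IsManifold (𝓡 2) ∞ M] : Prop :=
  ∀ (A : FinAtlas M) (j : M → E3), ContMDiff (𝓡 2) 𝓘(ℝ, E3) ∞ j →
    (∀ (p : M) (v : TangentSpace (𝓡 2) p), v ≠ 0 → 0 < pull (Phi ∘ j) p v v) →
    ∀ (X : Set M), X.Finite → ∀ η : ℝ, 0 < η →
    ∃ jp : M → E3, ContMDiff (𝓡 2) 𝓘(ℝ, E3) ∞ jp ∧
      (∀ (p : M) (v : TangentSpace (𝓡 2) p), v ≠ 0 → 0 < pull (Phi ∘ jp) p v v) ∧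
      InClass A (pull (Phi ∘ j)) η (pull (Phi ∘ jp)) ∧
      ∀ ψ ∈ IsManifold.maximalAtlas (𝓡 2) ∞ M, ∀ p ∈ X, p ∈ ψ.source → ∀ v w : E2, ∃ z : E2,
        fderiv ℝ (fderiv ℝ (jp ∘ ψ.symm)) (ψ p) v w = fderiv ℝ (jp ∘ ψ.symm) (ψ p) z

/-! ### positivity of the given metric in charts -/

lemma dsymm_ne_zero {ψ : OpenPartialHomeomorph M E2}
    (hψ : ψ ∈ IsManifold.maximalAtlas (𝓡 2) ∞ M) {y : E2} (hy : y ∈ ψ.target) {v : E2}
    (hv : v ≠ 0) :
    (mfderiv 𝓘(ℝ, E2) (𝓡 2) ψ.symm y v : TangentSpace (𝓡 2) (ψ.symm y)) ≠ 0 := by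
  intro h
  have h1 := dchart_symm hψ hy v
  rw [show mfderiv (𝓡 2) (𝓡 2) ψ.symm y v = 0 from h, map_zero] at h1
  exact hv h1.symm


/-- lower bound for a metric in a chart on a compact set -/
lemma coef_lower (g : Bundle.ContMDiffRiemannianMetric (𝓡 2) ∞ E2
      (TangentSpace (𝓡 2) : M → Type)) {ψ : OpenPartialHomeomorph M E2}
    (hψ : ψ ∈ IsManifold.maximalAtlas (𝓡 2) ∞ M) {K : Set E2} (hK : IsCompact K)
    (hKt : K ⊆ ψ.target) :
    ∃ m : ℝ, 0 < m ∧ ∀ y ∈ K, ∀ v : E2, m * ‖v‖ ^ 2 ≤ coef (DC.gT g) ψ v v y := by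
  rcases K.eq_empty_or_nonempty with rfl | hne
  · exact ⟨1, one_pos, fun y hy => absurd hy (by simp)⟩
  have hbil := DC.tBil_gT g
  have hcont : ContinuousOn (fun q : E2 × E2 => coef (DC.gT g) ψ q.2 q.2 q.1)
      (K ×ˢ Metric.sphere (0 : E2) 1) := by
    have h0 : ∀ i j : Fin 2, ContinuousOn (fun q : E2 × E2 => coef (DC.gT g) ψ (bv i) (bv j) q.1)
        (K ×ˢ Metric.sphere (0 : E2) 1) := fun i j =>
      ((coef_contDiffOn g hψ (bv i) (bv j)).continuousOn.mono hKt).comp continuousOn_fst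
        (fun q hq => hq.1)
    have h1 : ∀ i : Fin 2, ContinuousOn (fun q : E2 × E2 => q.2 i)
        (K ×ˢ Metric.sphere (0 : E2) 1) := fun i =>
      ((EuclideanSpace.proj (𝕜 := ℝ) i).continuous.comp continuous_snd).continuousOn
    have h2 : ContinuousOn (fun q : E2 × E2 => ∑ i : Fin 2, ∑ j : Fin 2, q.2 i * q.2 j *
        coef (DC.gT g) ψ (bv i) (bv j) q.1) (K ×ˢ Metric.sphere (0 : E2) 1) :=
      continuousOn_finsetSum _ fun i _ => continuousOn_finsetSum _ fun j _ =>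
        ((h1 i).mul (h1 j)).mul (h0 i j)
    exact h2.congr fun q _ => DC.coef_expand' hbil ψ q.2 q.2 q.1
  have hcomp : IsCompact (K ×ˢ Metric.sphere (0 : E2) 1) := hK.prod (isCompact_sphere _ _)
  have hsph : (Metric.sphere (0 : E2) 1).Nonempty := NormedSpace.sphere_nonempty.2 zero_le_one
  obtain ⟨q, hq, hmin⟩ := hcomp.exists_isMinOn (hne.prod hsph) hcont
  have hqpos : 0 < coef (DC.gT g) ψ q.2 q.2 q.1 := by
    have hq2 : q.2 ≠ 0 := by
      intro h; have := hq.2; rw [h] at this; simp at this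
    exact g.pos _ _ (dsymm_ne_zero hψ (hKt hq.1) hq2)
  refine ⟨_, hqpos, fun y hy v => ?_⟩
  by_cases hv : v = 0
  · subst hv
    have : coef (DC.gT g) ψ 0 0 y = 0 := by
      have := DC.coef_smul_left hbil ψ 0 (0 : E2) 0 y
      simpa using this
    rw [this]; simp
  · have hn : 0 < ‖v‖ := norm_pos_iff.2 hv
    have h1 : (y, ‖v‖⁻¹ • v) ∈ K ×ˢ Metric.sphere (0 : E2) 1 := by
      refine ⟨hy, ?_⟩
      simp [norm_smul, hn.ne']
    have h2 := hmin h1
    simp only [mem_ofPred_eq] at h2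
    rw [DC.coef_smul_left hbil, DC.coef_smul_right hbil] at h2
    have h3 : coef (DC.gT g) ψ v v y = ‖v‖ ^ 2 * (‖v‖⁻¹ * (‖v‖⁻¹ * coef (DC.gT g) ψ v v y)) := by
      field_simp
    rw [h3, mul_comm]
    exact mul_le_mul_of_nonneg_left h2 (by positivity)

variable [CompactSpace M]

/-- the differential of a smooth map is bounded with respect to `g` -/
lemma exists_metric_bound (g : Bundle.ContMDiffRiemannianMetric (𝓡 2) ∞ E2
      (TangentSpace (𝓡 2) : M → Type)) {j : M → E3} (hj : ContMDiff (𝓡 2) 𝓘(ℝ, E3) ∞ j) :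
    ∃ C : ℝ, 0 < C ∧ ∀ (p : M) (v : TangentSpace (𝓡 2) p),
      @norm E3 _ (mfderiv (𝓡 2) 𝓘(ℝ, E3) j p v) ^ 2 ≤ C * g.inner p v v := by
  obtain ⟨A⟩ := exists_finAtlas M
  have hloc : ∀ c : Fin A.n, ∃ C : ℝ, 0 < C ∧ ∀ y ∈ A.K c, ∀ u : E2,
      ‖fderiv ℝ (rep j (A.χ c)) y u‖ ^ 2 ≤ C * coef (DC.gT g) (A.χ c) u u y := by
    intro c
    obtain ⟨m, hm, hlow⟩ := coef_lower g (A.hχ c) (A.cpt c) (A.sub c)
    have h1 : ContinuousOn (fderiv ℝ (rep j (A.χ c))) (A.K c) :=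
      (((rep_contDiffOn hj (A.hχ c)).fderiv_of_isOpen (A.χ c).open_target
        (m := ∞) (by simp)).continuousOn).mono (A.sub c)
    obtain ⟨B, hB⟩ := (A.cpt c).exists_bound_of_continuousOn h1
    refine ⟨(B ^ 2 + 1) / m, by positivity, fun y hy u => ?_⟩
    have h2 : ‖fderiv ℝ (rep j (A.χ c)) y u‖ ≤ B * ‖u‖ :=
      ((fderiv ℝ (rep j (A.χ c)) y).le_opNorm u).trans
        (mul_le_mul_of_nonneg_right (hB y hy) (norm_nonneg _))
    have h3 := hlow y hy u
    calc ‖fderiv ℝ (rep j (A.χ c)) y u‖ ^ 2 ≤ (B * ‖u‖) ^ 2 :=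
          pow_le_pow_left₀ (norm_nonneg _) h2 2
      _ ≤ (B ^ 2 + 1) / m * (m * ‖u‖ ^ 2) := by
          have e : (B ^ 2 + 1) / m * (m * ‖u‖ ^ 2) = (B ^ 2 + 1) * ‖u‖ ^ 2 := by field_simp
          rw [e, mul_pow]
          nlinarith [sq_nonneg ‖u‖]
      _ ≤ _ := mul_le_mul_of_nonneg_left h3 (by positivity)
  choose C hC hCb using hloc
  refine ⟨1 + ∑ c, C c, by have := Finset.sum_nonneg (fun c (_ : c ∈ Finset.univ) => (hC c).le); linarith, ?_⟩
  intro p v
  obtain ⟨c, hc, hci⟩ := A.cover p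
  have h1 := mfderiv_eq hj (A.hχ c) hc v
  have h2 := tens_eq_coef (DC.gT g) (A.hχ c) hc v v
  have h3 := hCb c _ (interior_subset hci) (mfderiv (𝓡 2) (𝓡 2) (A.χ c) p v)
  have h4 : 0 ≤ DC.gT g p v v := by
    by_cases hv : v = 0
    · subst hv; simp [DC.gT]
    · exact (g.pos p v hv).le
  rw [h1]
  refine h3.trans ?_
  rw [← h2]
  have h5 : C c ≤ 1 + ∑ c, C c := by
    have := Finset.single_le_sum (fun c _ => (hC c).le) (Finset.mem_univ c)
    linarith
  exact mul_le_mul_of_nonneg_right h5 h4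

omit [CompactSpace M] [IsManifold (𝓡 2) ∞ M] in
lemma mfderiv_Phi_comp {j : M → E3} (hj : ContMDiff (𝓡 2) 𝓘(ℝ, E3) ∞ j) (p : M)
    (v : TangentSpace (𝓡 2) p) :
    mfderiv (𝓡 2) 𝓘(ℝ, E4) (Phi ∘ j) p v = TT (j p) (mfderiv (𝓡 2) 𝓘(ℝ, E3) j p v) := by
  have h1 : MDifferentiableAt 𝓘(ℝ, E3) 𝓘(ℝ, E4) Phi (j p) :=
    (hasFDerivAt_Phi (j p)).differentiableAt.mdifferentiableAt
  have h2 : MDifferentiableAt (𝓡 2) 𝓘(ℝ, E3) j p := (hj p).mdifferentiableAt (by simp)
  rw [mfderiv_comp p h1 h2, mfderiv_eq_fderiv, (hasFDerivAt_Phi (j p)).fderiv]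
  rfl

omit [CompactSpace M] in
lemma pull_Phi {j : M → E3} (hj : ContMDiff (𝓡 2) 𝓘(ℝ, E3) ∞ j) (p : M)
    (v : TangentSpace (𝓡 2) p) :
    pull (Phi ∘ j) p v v = @inner ℝ E3 _ (mfderiv (𝓡 2) 𝓘(ℝ, E3) j p v)
        (mfderiv (𝓡 2) 𝓘(ℝ, E3) j p v)
      + @inner ℝ E3 _ (j p) (mfderiv (𝓡 2) 𝓘(ℝ, E3) j p v)
        * @inner ℝ E3 _ (j p) (mfderiv (𝓡 2) 𝓘(ℝ, E3) j p v) := by
  rw [pull, mfderiv_Phi_comp hj]
  exact inner_TT _ _ _

omit [CompactSpace M] [IsManifold (𝓡 2) ∞ M] in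
lemma mfderiv_const_smul' {j : M → E3} (hj : ContMDiff (𝓡 2) 𝓘(ℝ, E3) ∞ j) (l : ℝ) (p : M)
    (v : TangentSpace (𝓡 2) p) :
    mfderiv (𝓡 2) 𝓘(ℝ, E3) (fun x => l • j x) p v
      = (l • (mfderiv (𝓡 2) 𝓘(ℝ, E3) j p v : E3) : E3) := by
  have h1 : MDifferentiableAt 𝓘(ℝ, E3) 𝓘(ℝ, E3) (fun y : E3 => l • y) (j p) :=
    (differentiableAt_id.const_smul l).mdifferentiableAt
  have h2 : MDifferentiableAt (𝓡 2) 𝓘(ℝ, E3) j p := (hj p).mdifferentiableAt (by simp)
  have h3 : mfderiv (𝓡 2) 𝓘(ℝ, E3) ((fun y : E3 => l • y) ∘ j) p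
      = (mfderiv 𝓘(ℝ, E3) 𝓘(ℝ, E3) (fun y : E3 => l • y) (j p)).comp
        (mfderiv (𝓡 2) 𝓘(ℝ, E3) j p) := mfderiv_comp p h1 h2
  show mfderiv (𝓡 2) 𝓘(ℝ, E3) ((fun y : E3 => l • y) ∘ j) p v = _
  have h4 : fderiv ℝ (fun y : E3 => l • y) (j p) = l • ContinuousLinearMap.id ℝ E3 :=
    ((hasFDerivAt_id (j p)).const_smul l).fderiv
  rw [h3, mfderiv_eq_fderiv, h4]
  rfl

/-- a short paraboloid lift of an immersion into `ℝ³` -/
lemma exists_short (g : Bundle.ContMDiffRiemannianMetric (𝓡 2) ∞ E2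
      (TangentSpace (𝓡 2) : M → Type)) {j : M → E3} (hj : ContMDiff (𝓡 2) 𝓘(ℝ, E3) ∞ j)
    (hinj : ∀ p, Function.Injective (mfderiv (𝓡 2) 𝓘(ℝ, E3) j p)) :
    ∃ j' : M → E3, ContMDiff (𝓡 2) 𝓘(ℝ, E3) ∞ j' ∧
      ∀ (p : M) (v : TangentSpace (𝓡 2) p), v ≠ 0 →
        0 < pull (Phi ∘ j') p v v ∧ pull (Phi ∘ j') p v v < g.inner p v v := by
  obtain ⟨C, hC, hCb⟩ := exists_metric_bound g hj
  obtain ⟨R, hR⟩ := isCompact_univ.exists_bound_of_continuousOn hj.continuous.continuousOn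
  set D : ℝ := (1 + R ^ 2) * C with hD
  have hDpos : 0 < D := by positivity
  set l : ℝ := (1 + 2 * D)⁻¹ with hl
  have hlpos : 0 < l := by positivity
  have hl1 : l ≤ 1 := inv_le_one_of_one_le₀ (by linarith)
  have hlD : l * D < 1 := by
    rw [hl, inv_mul_lt_iff₀ (by positivity)]; linarith
  have hj' : ContMDiff (𝓡 2) 𝓘(ℝ, E3) ∞ (fun x => l • j x) := by
    have := (contDiff_id.const_smul l : ContDiff ℝ ∞ (fun y : E3 => l • y)).contMDiff.comp hj
    exact this
  refine ⟨fun x => l • j x, hj', fun p v hv => ?_⟩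
  set w : E3 := (mfderiv (𝓡 2) 𝓘(ℝ, E3) j p v : E3) with hw
  have hw0 : w ≠ 0 := by
    intro h
    exact hv (hinj p (by rw [map_zero]; exact h))
  have h1 : pull (Phi ∘ fun x => l • j x) p v v
      = l ^ 2 * inner ℝ w w + l ^ 4 * (inner ℝ (j p) w) ^ 2 := by
    rw [pull_Phi hj', mfderiv_const_smul' hj]
    show (inner ℝ (l • w) (l • w) : ℝ) + inner ℝ (l • j p) (l • w) * inner ℝ (l • j p) (l • w) = _
    simp only [inner_smul_left, inner_smul_right, conj_trivial]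
    ring
  have h2 : 0 < (inner ℝ w w : ℝ) := real_inner_self_pos.2 hw0
  have h3 : (inner ℝ (j p) w : ℝ) ^ 2 ≤ R ^ 2 * inner ℝ w w := by
    have h4 := real_inner_mul_inner_self_le (j p) w
    have h5 : (inner ℝ (j p) (j p) : ℝ) ≤ R ^ 2 := by
      rw [real_inner_self_eq_norm_sq]
      exact pow_le_pow_left₀ (norm_nonneg _) (hR p (mem_univ p)) 2
    nlinarith [mul_le_mul_of_nonneg_right h5 h2.le]
  have h6 : (inner ℝ w w : ℝ) ≤ C * g.inner p v v := by
    rw [real_inner_self_eq_norm_sq]; exact hCb p v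
  have hg : 0 < g.inner p v v := g.pos p v hv
  rw [h1]
  constructor
  · have : 0 ≤ l ^ 4 * (inner ℝ (j p) w : ℝ) ^ 2 := by positivity
    have : 0 < l ^ 2 * (inner ℝ w w : ℝ) := by positivity
    linarith
  · have hl2 : l ^ 2 ≤ l := by nlinarith
    have hl4 : l ^ 4 ≤ l := by
      have : l ^ 4 = l ^ 2 * l ^ 2 := by ring
      rw [this]; nlinarith [mul_le_mul hl2 hl2 (by positivity) hlpos.le]
    calc l ^ 2 * (inner ℝ w w : ℝ) + l ^ 4 * (inner ℝ (j p) w) ^ 2
        ≤ l * inner ℝ w w + l * (R ^ 2 * inner ℝ w w) :=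
          add_le_add (mul_le_mul_of_nonneg_right hl2 h2.le)
            (mul_le_mul hl4 h3 (by positivity) hlpos.le)
      _ = l * ((1 + R ^ 2) * inner ℝ w w) := by ring
      _ ≤ l * ((1 + R ^ 2) * (C * g.inner p v v)) := by gcongr
      _ = (l * D) * g.inner p v v := by rw [hD]; ring
      _ < 1 * g.inner p v v := mul_lt_mul_of_pos_right hlD hg
      _ = _ := one_mul _

omit [CompactSpace M] in
/-- injectivity in charts from positivity of the pulled back metric -/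
lemma injective_fderiv_chart {j : M → E3} (hj : ContMDiff (𝓡 2) 𝓘(ℝ, E3) ∞ j)
    (hpos : ∀ (p : M) (v : TangentSpace (𝓡 2) p), v ≠ 0 → 0 < pull (Phi ∘ j) p v v)
    {ψ : OpenPartialHomeomorph M E2} (hψ : ψ ∈ IsManifold.maximalAtlas (𝓡 2) ∞ M) {y : E2}
    (hy : y ∈ ψ.target) : Function.Injective (fderiv ℝ (j ∘ ψ.symm) y) := by
  rw [injective_iff_map_eq_zero]
  intro v hv
  by_contra hne
  have h1 := hpos (ψ.symm y) _ (dsymm_ne_zero hψ hy hne)
  rw [pull_Phi hj] at h1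
  have h2 : mfderiv (𝓡 2) 𝓘(ℝ, E3) j (ψ.symm y)
      (mfderiv 𝓘(ℝ, E2) (𝓡 2) ψ.symm y v : TangentSpace (𝓡 2) (ψ.symm y)) = (0 : E3) :=
    (mfderiv_symm hj hψ hy v).trans hv
  rw [h2] at h1
  simp at h1

/-- **BASE**: an immersion into `ℝ³` and the flattening lemma give `BaseStatement`. -/
theorem base_of_immersion_of_flat (hflat : FlatStatement M)
    {j : M → E3} (hj : ContMDiff (𝓡 2) 𝓘(ℝ, E3) ∞ j)
    (hinj : ∀ p, Function.Injective (mfderiv (𝓡 2) 𝓘(ℝ, E3) j p)) : BaseStatement M := by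
  intro g A
  obtain ⟨j', hj', hshort⟩ := exists_short g hj hinj
  have hsm : ∀ {a : M → E3}, ContMDiff (𝓡 2) 𝓘(ℝ, E3) ∞ a →
      ContMDiff (𝓡 2) 𝓘(ℝ, E4) ∞ (Phi ∘ a) := fun ha => contDiff_Phi.contMDiff.comp ha
  refine ⟨Phi ∘ j', hsm hj', hshort, fun η X hη hX => ?_⟩
  obtain ⟨jp, hjp, hpos, hclass, hfl⟩ := hflat A j' hj' (fun p v hv => (hshort p v hv).1) X hX η hη
  have hrep : ∀ ψ ∈ IsManifold.maximalAtlas (𝓡 2) ∞ M, ∀ y ∈ ψ.target,
      ContDiffAt ℝ 2 (jp ∘ ψ.symm) y := fun ψ hψ y hy =>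
    ((rep_contDiffOn hjp hψ).contDiffAt (ψ.open_target.mem_nhds hy)).of_le ENat.LEInfty.out
  refine ⟨Phi ∘ jp, fun p => nu (jp p), hsm hjp, contDiff_nu.contMDiff.comp hjp, hpos,
    fun p => norm_nu _, ?_, hclass, ?_, ?_⟩
  · intro p v
    rw [mfderiv_Phi_comp hjp]
    exact inner_nu_TT _ _
  · intro ψ hψ y hy v hv
    exact sff_Phi_pos (hrep ψ hψ y hy) (injective_fderiv_chart hjp hpos hψ hy) hv
  · intro ψ hψ p hp hpψ v w hw
    by_cases hv : v = 0
    · exact Or.inr hv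
    · left
      have hy := ψ.map_source hpψ
      exact P2at_flat (hrep ψ hψ _ hy) (injective_fderiv_chart hjp hpos hψ hy)
        (hfl ψ hψ p hp hpψ) hv hw

end Crest.Agent.R216.Base
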