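import Crest.Agent.R216.BaseA0

-- ▼ part R216/BaseC
section

/-!
# Row 216: BASE MAP, `C¹`-small families (helper904)
-/

set_option autoImplicit false
open scoped Manifold ContDiff Topology
open Set

noncomputable section
namespace Crest.Agent.R216
namespace Base

section smallness
variable {V V' Z : Type*} [NormedAddCommGroup V] [NormedSpace ℝ V]
  [NormedAddCommGroup V'] [NormedSpace ℝ V'] [NormedAddCommGroup Z] [NormedSpace ℝ Z]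

/-- `u κ → 0` in `C¹(K)` -/
def Sm (K : Set E2) (u : ℝ → E2 → V) : Prop :=
  (∀ κ, 0 < κ → ∀ y ∈ K, DifferentiableAt ℝ (u κ) y) ∧
  ∀ ε > 0, ∃ κ0 > 0, ∀ κ, 0 < κ → κ < κ0 → ∀ y ∈ K, ‖u κ y‖ ≤ ε ∧ ‖fderiv ℝ (u κ) y‖ ≤ ε

/-- `u κ → 0` in `C⁰(K)` with bounded first derivatives -/
def Bd (K : Set E2) (u : ℝ → E2 → V) : Prop :=
  (∀ κ, 0 < κ → ∀ y ∈ K, DifferentiableAt ℝ (u κ) y) ∧
  (∀ ε > 0, ∃ κ0 > 0, ∀ κ, 0 < κ → κ < κ0 → ∀ y ∈ K, ‖u κ y‖ ≤ ε) ∧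
  ∃ C > 0, ∃ κ0 > 0, ∀ κ, 0 < κ → κ < κ0 → ∀ y ∈ K, ‖fderiv ℝ (u κ) y‖ ≤ C

/-- a fixed `C¹` function, bounded on `K` -/
def Fx (K : Set E2) (a : E2 → V) : Prop :=
  (∀ y ∈ K, DifferentiableAt ℝ a y) ∧ ∃ C > 0, ∀ y ∈ K, ‖a y‖ ≤ C ∧ ‖fderiv ℝ a y‖ ≤ C

variable {K : Set E2}

lemma Fx.of_contDiffOn {W : Set E2} (hW : IsOpen W) (hK : IsCompact K) (hKW : K ⊆ W) {a : E2 → V}
    {n : ℕ∞ω} (hn : n ≠ 0) (ha : ContDiffOn ℝ n a W) : Fx K a := by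
  have h1n : (1 : ℕ∞ω) ≤ n := ENat.one_le_iff_ne_zero_withTop.mpr hn
  have hd : ContinuousOn (fderiv ℝ a) W := ha.continuousOn_fderiv_of_isOpen hW h1n
  obtain ⟨C1, hC1⟩ := hK.exists_bound_of_continuousOn (ha.continuousOn.mono hKW)
  obtain ⟨C2, hC2⟩ := hK.exists_bound_of_continuousOn (hd.mono hKW)
  refine ⟨fun y hy => (ha.contDiffAt (hW.mem_nhds (hKW hy))).differentiableAt hn,
    |C1| + |C2| + 1, by positivity, fun y hy => ⟨?_, ?_⟩⟩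
  · have := hC1 y hy
    have h2 := le_abs_self C1
    have h3 := abs_nonneg C2
    linarith
  · have := hC2 y hy
    have h2 := le_abs_self C2
    have h3 := abs_nonneg C1
    linarith

lemma Sm.bd {u : ℝ → E2 → V} (h : Sm K u) : Bd K u := by
  refine ⟨h.1, fun ε hε => ?_, ?_⟩
  · obtain ⟨κ0, h0, h1⟩ := h.2 ε hε
    exact ⟨κ0, h0, fun κ hκ hκ' y hy => (h1 κ hκ hκ' y hy).1⟩
  · obtain ⟨κ0, h0, h1⟩ := h.2 1 one_pos
    exact ⟨1, one_pos, κ0, h0, fun κ hκ hκ' y hy => (h1 κ hκ hκ' y hy).2⟩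

lemma Sm.add {u v : ℝ → E2 → V} (hu : Sm K u) (hv : Sm K v) :
    Sm K (fun κ y => u κ y + v κ y) := by
  refine ⟨fun κ hκ y hy => (hu.1 κ hκ y hy).add (hv.1 κ hκ y hy), fun ε hε => ?_⟩
  obtain ⟨κ1, h1, h1'⟩ := hu.2 (ε / 2) (half_pos hε)
  obtain ⟨κ2, h2, h2'⟩ := hv.2 (ε / 2) (half_pos hε)
  refine ⟨min κ1 κ2, lt_min h1 h2, fun κ hκ hκ' y hy => ?_⟩
  obtain ⟨a1, a2⟩ := h1' κ hκ (hκ'.trans_le (min_le_left _ _)) y hy
  obtain ⟨b1, b2⟩ := h2' κ hκ (hκ'.trans_le (min_le_right _ _)) y hy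
  constructor
  · exact (norm_add_le _ _).trans (by linarith)
  · rw [fderiv_fun_add (hu.1 κ hκ y hy) (hv.1 κ hκ y hy)]
    exact (norm_add_le _ _).trans (by linarith)

lemma Bd.add {u v : ℝ → E2 → V} (hu : Bd K u) (hv : Bd K v) :
    Bd K (fun κ y => u κ y + v κ y) := by
  refine ⟨fun κ hκ y hy => (hu.1 κ hκ y hy).add (hv.1 κ hκ y hy), fun ε hε => ?_, ?_⟩
  · obtain ⟨κ1, h1, h1'⟩ := hu.2.1 (ε / 2) (half_pos hε)
    obtain ⟨κ2, h2, h2'⟩ := hv.2.1 (ε / 2) (half_pos hε)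
    refine ⟨min κ1 κ2, lt_min h1 h2, fun κ hκ hκ' y hy => ?_⟩
    have a1 := h1' κ hκ (hκ'.trans_le (min_le_left _ _)) y hy
    have b1 := h2' κ hκ (hκ'.trans_le (min_le_right _ _)) y hy
    exact (norm_add_le _ _).trans (by linarith)
  · obtain ⟨C1, hC1, κ1, h1, h1'⟩ := hu.2.2
    obtain ⟨C2, hC2, κ2, h2, h2'⟩ := hv.2.2
    refine ⟨C1 + C2, by positivity, min κ1 κ2, lt_min h1 h2, fun κ hκ hκ' y hy => ?_⟩
    have a1 := h1' κ hκ (hκ'.trans_le (min_le_left _ _)) y hy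
    have b1 := h2' κ hκ (hκ'.trans_le (min_le_right _ _)) y hy
    rw [fderiv_fun_add (hu.1 κ hκ y hy) (hv.1 κ hκ y hy)]
    exact (norm_add_le _ _).trans (by linarith)

/-- derivative bound for bilinear expressions -/
lemma bil_fderiv_le (B : V →L[ℝ] V' →L[ℝ] Z) {u : E2 → V} {v : E2 → V'} {y : E2}
    (hu : DifferentiableAt ℝ u y) (hv : DifferentiableAt ℝ v y) :
    ‖fderiv ℝ (fun z => B (u z) (v z)) y‖
      ≤ ‖B‖ * (‖u y‖ * ‖fderiv ℝ v y‖ + ‖fderiv ℝ u y‖ * ‖v y‖) := by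
  have h := (B.hasFDerivAt_of_bilinear hu.hasFDerivAt hv.hasFDerivAt).fderiv
  rw [h]
  refine (norm_add_le _ _).trans ?_
  have h1 : ‖B.precompR E2 (u y) (fderiv ℝ v y)‖ ≤ ‖B‖ * ‖u y‖ * ‖fderiv ℝ v y‖ := by
    refine (ContinuousLinearMap.le_opNorm₂ _ _ _).trans ?_
    gcongr
    exact ContinuousLinearMap.norm_precompR_le _ _
  have h2 : ‖B.precompL E2 (fderiv ℝ u y) (v y)‖ ≤ ‖B‖ * ‖fderiv ℝ u y‖ * ‖v y‖ := by
    refine (ContinuousLinearMap.le_opNorm₂ _ _ _).trans ?_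
    gcongr
    exact ContinuousLinearMap.norm_precompL_le _ _
  calc _ ≤ ‖B‖ * ‖u y‖ * ‖fderiv ℝ v y‖ + ‖B‖ * ‖fderiv ℝ u y‖ * ‖v y‖ := add_le_add h1 h2
    _ = _ := by ring

lemma bil_diff (B : V →L[ℝ] V' →L[ℝ] Z) {u : E2 → V} {v : E2 → V'} {y : E2}
    (hu : DifferentiableAt ℝ u y) (hv : DifferentiableAt ℝ v y) :
    DifferentiableAt ℝ (fun z => B (u z) (v z)) y :=
  (B.hasFDerivAt_of_bilinear hu.hasFDerivAt hv.hasFDerivAt).differentiableAt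

lemma bil_norm_le (B : V →L[ℝ] V' →L[ℝ] Z) (a : V) (b : V') : ‖B a b‖ ≤ ‖B‖ * (‖a‖ * ‖b‖) := by
  have := B.le_opNorm₂ a b
  linarith [this, mul_assoc ‖B‖ ‖a‖ ‖b‖]

lemma Sm.bil_fx (B : V →L[ℝ] V' →L[ℝ] Z) {u : ℝ → E2 → V} {a : E2 → V'} (hu : Sm K u)
    (ha : Fx K a) : Sm K (fun κ y => B (u κ y) (a y)) := by
  refine ⟨fun κ hκ y hy => bil_diff B (hu.1 κ hκ y hy) (ha.1 y hy), fun ε hε => ?_⟩
  obtain ⟨C, hC, hC'⟩ := ha.2
  obtain ⟨κ0, h0, h1⟩ := hu.2 (ε / (2 * (‖B‖ + 1) * C)) (by positivity)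
  refine ⟨κ0, h0, fun κ hκ hκ' y hy => ?_⟩
  obtain ⟨a1, a2⟩ := h1 κ hκ hκ' y hy
  obtain ⟨b1, b2⟩ := hC' y hy
  set δ := ε / (2 * (‖B‖ + 1) * C) with hδ
  have hδ0 : 0 < δ := by positivity
  have key : (‖B‖ + 1) * (δ * C + δ * C) = ε := by rw [hδ]; field_simp; ring
  have hB := norm_nonneg B
  constructor
  · refine (bil_norm_le B _ _).trans ?_
    have : ‖u κ y‖ * ‖a y‖ ≤ δ * C := by gcongr
    nlinarith [mul_nonneg hδ0.le hC.le, mul_nonneg (norm_nonneg (u κ y)) (norm_nonneg (a y))]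
  · refine (bil_fderiv_le B (hu.1 κ hκ y hy) (ha.1 y hy)).trans ?_
    have h3 : ‖u κ y‖ * ‖fderiv ℝ a y‖ ≤ δ * C := by gcongr
    have h4 : ‖fderiv ℝ (u κ) y‖ * ‖a y‖ ≤ δ * C := by gcongr
    have h5 : 0 ≤ ‖u κ y‖ * ‖fderiv ℝ a y‖ + ‖fderiv ℝ (u κ) y‖ * ‖a y‖ := by positivity
    nlinarith

lemma Bd.bil_fx (B : V →L[ℝ] V' →L[ℝ] Z) {u : ℝ → E2 → V} {a : E2 → V'} (hu : Bd K u)
    (ha : Fx K a) : Bd K (fun κ y => B (u κ y) (a y)) := by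
  obtain ⟨C, hC, hC'⟩ := ha.2
  have hB := norm_nonneg B
  refine ⟨fun κ hκ y hy => bil_diff B (hu.1 κ hκ y hy) (ha.1 y hy), fun ε hε => ?_, ?_⟩
  · obtain ⟨κ0, h0, h1⟩ := hu.2.1 (ε / ((‖B‖ + 1) * C)) (by positivity)
    refine ⟨κ0, h0, fun κ hκ hκ' y hy => ?_⟩
    have a1 := h1 κ hκ hκ' y hy
    obtain ⟨b1, b2⟩ := hC' y hy
    set δ := ε / ((‖B‖ + 1) * C) with hδ
    have hδ0 : 0 < δ := by positivity
    have key : (‖B‖ + 1) * (δ * C) = ε := by rw [hδ]; field_simp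
    refine (bil_norm_le B _ _).trans ?_
    have : ‖u κ y‖ * ‖a y‖ ≤ δ * C := by gcongr
    nlinarith [mul_nonneg hδ0.le hC.le, mul_nonneg (norm_nonneg (u κ y)) (norm_nonneg (a y))]
  · obtain ⟨C1, hC1, κ1, h1, h1'⟩ := hu.2.2
    obtain ⟨κ2, h2, h2'⟩ := hu.2.1 1 one_pos
    refine ⟨(‖B‖ + 1) * (1 * C + C1 * C), by positivity, min κ1 κ2, lt_min h1 h2,
      fun κ hκ hκ' y hy => ?_⟩
    have a1 := h1' κ hκ (hκ'.trans_le (min_le_left _ _)) y hy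
    have a2 := h2' κ hκ (hκ'.trans_le (min_le_right _ _)) y hy
    obtain ⟨b1, b2⟩ := hC' y hy
    refine (bil_fderiv_le B (hu.1 κ hκ y hy) (ha.1 y hy)).trans ?_
    have h3 : ‖u κ y‖ * ‖fderiv ℝ a y‖ ≤ 1 * C := by gcongr
    have h4 : ‖fderiv ℝ (u κ) y‖ * ‖a y‖ ≤ C1 * C := by gcongr
    have h5 : 0 ≤ ‖u κ y‖ * ‖fderiv ℝ a y‖ + ‖fderiv ℝ (u κ) y‖ * ‖a y‖ := by positivity
    nlinarith

lemma Bd.bil (B : V →L[ℝ] V' →L[ℝ] Z) {u : ℝ → E2 → V} {v : ℝ → E2 → V'} (hu : Bd K u)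
    (hv : Bd K v) : Sm K (fun κ y => B (u κ y) (v κ y)) := by
  have hB := norm_nonneg B
  refine ⟨fun κ hκ y hy => bil_diff B (hu.1 κ hκ y hy) (hv.1 κ hκ y hy), fun ε hε => ?_⟩
  obtain ⟨C1, hC1, κ1, h1, h1'⟩ := hu.2.2
  obtain ⟨C2, hC2, κ2, h2, h2'⟩ := hv.2.2
  set C := C1 + C2 + 1 with hC
  have hCp : 0 < C := by positivity
  set δ := min 1 (ε / (2 * (‖B‖ + 1) * C)) with hδ
  have hδ0 : 0 < δ := lt_min one_pos (by positivity)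
  have hδ1 : δ ≤ 1 := min_le_left _ _
  have key : (‖B‖ + 1) * (δ * C + δ * C) ≤ ε := by
    have h3 : δ ≤ ε / (2 * (‖B‖ + 1) * C) := min_le_right _ _
    have h4 : (‖B‖ + 1) * (δ * C + δ * C) = δ * (2 * (‖B‖ + 1) * C) := by ring
    rw [h4]
    rwa [le_div_iff₀ (by positivity)] at h3
  obtain ⟨κ3, h3, h3'⟩ := hu.2.1 δ hδ0
  obtain ⟨κ4, h4, h4'⟩ := hv.2.1 δ hδ0
  refine ⟨min (min κ1 κ2) (min κ3 κ4), lt_min (lt_min h1 h2) (lt_min h3 h4),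
    fun κ hκ hκ' y hy => ?_⟩
  have l1 := hκ'.trans_le ((min_le_left _ _).trans (min_le_left _ _))
  have l2 := hκ'.trans_le ((min_le_left _ _).trans (min_le_right _ _))
  have l3 := hκ'.trans_le ((min_le_right _ _).trans (min_le_left _ _))
  have l4 := hκ'.trans_le ((min_le_right _ _).trans (min_le_right _ _))
  have a1 := h1' κ hκ l1 y hy
  have a2 := h2' κ hκ l2 y hy
  have a3 := h3' κ hκ l3 y hy
  have a4 := h4' κ hκ l4 y hy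
  have hC1' : C1 ≤ C := by rw [hC]; linarith
  have hC2' : C2 ≤ C := by rw [hC]; linarith
  have hC3 : 1 ≤ C := by rw [hC]; linarith
  constructor
  · refine (bil_norm_le B _ _).trans ?_
    have h5 : ‖u κ y‖ * ‖v κ y‖ ≤ δ * C :=
      mul_le_mul a3 (a4.trans (hδ1.trans hC3)) (norm_nonneg _) hδ0.le
    have h6 : 0 ≤ ‖u κ y‖ * ‖v κ y‖ := by positivity
    nlinarith
  · refine (bil_fderiv_le B (hu.1 κ hκ y hy) (hv.1 κ hκ y hy)).trans ?_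
    have h3 : ‖u κ y‖ * ‖fderiv ℝ (v κ) y‖ ≤ δ * C :=
      mul_le_mul a3 (a2.trans hC2') (norm_nonneg _) hδ0.le
    have h4 : ‖fderiv ℝ (u κ) y‖ * ‖v κ y‖ ≤ δ * C := by
      rw [mul_comm]
      exact mul_le_mul a4 (a1.trans hC1') (norm_nonneg _) hδ0.le
    have h5 : 0 ≤ ‖u κ y‖ * ‖fderiv ℝ (v κ) y‖ + ‖fderiv ℝ (u κ) y‖ * ‖v κ y‖ := by positivity
    nlinarith

/-- the support of `u κ` shrinks to the zero set of `a` -/
lemma Bd.bil_supp (B : V →L[ℝ] V' →L[ℝ] Z) {u : ℝ → E2 → V} {a : E2 → V'} (hu : Bd K u)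
    (ha : Fx K a)
    (hs : ∀ ε > 0, ∃ κ0 > 0, ∀ κ, 0 < κ → κ < κ0 → ∀ y ∈ K,
      (u κ y ≠ 0 ∨ fderiv ℝ (u κ) y ≠ 0) → ‖a y‖ ≤ ε) :
    Sm K (fun κ y => B (u κ y) (a y)) := by
  have hB := norm_nonneg B
  refine ⟨fun κ hκ y hy => bil_diff B (hu.1 κ hκ y hy) (ha.1 y hy), fun ε hε => ?_⟩
  obtain ⟨C, hC, hC'⟩ := ha.2
  obtain ⟨C1, hC1, κ1, h1, h1'⟩ := hu.2.2
  set δ := ε / (2 * (‖B‖ + 1) * (C + C1)) with hδ
  have hδ0 : 0 < δ := by positivity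
  have key : (‖B‖ + 1) * (δ * (C + C1) + δ * (C + C1)) = ε := by rw [hδ]; field_simp; ring
  obtain ⟨κ2, h2, h2'⟩ := hu.2.1 δ hδ0
  obtain ⟨κ3, h3, h3'⟩ := hs δ hδ0
  refine ⟨min κ1 (min κ2 κ3), lt_min h1 (lt_min h2 h3), fun κ hκ hκ' y hy => ?_⟩
  have l1 := hκ'.trans_le (min_le_left _ _)
  have l2 := hκ'.trans_le ((min_le_right _ _).trans (min_le_left _ _))
  have l3 := hκ'.trans_le ((min_le_right _ _).trans (min_le_right _ _))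
  have a1 := h1' κ hκ l1 y hy
  have a2 := h2' κ hκ l2 y hy
  obtain ⟨b1, b2⟩ := hC' y hy
  have e1 : ‖u κ y‖ * ‖a y‖ ≤ δ * (C + C1) :=
    mul_le_mul a2 (by linarith) (norm_nonneg _) hδ0.le
  have e2 : ‖u κ y‖ * ‖fderiv ℝ a y‖ ≤ δ * (C + C1) :=
    mul_le_mul a2 (by linarith) (norm_nonneg _) hδ0.le
  have e3 : ‖fderiv ℝ (u κ) y‖ * ‖a y‖ ≤ δ * (C + C1) := by
    by_cases h0 : fderiv ℝ (u κ) y = 0
    · rw [h0]; simp; positivity
    · have := h3' κ hκ l3 y hy (Or.inr h0)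
      rw [mul_comm]
      exact mul_le_mul this (by linarith) (norm_nonneg _) hδ0.le
  have p1 : 0 ≤ ‖u κ y‖ * ‖a y‖ := by positivity
  have p2 : 0 ≤ ‖u κ y‖ * ‖fderiv ℝ a y‖ := by positivity
  have p3 : 0 ≤ ‖fderiv ℝ (u κ) y‖ * ‖a y‖ := by positivity
  constructor
  · refine (bil_norm_le B _ _).trans ?_
    nlinarith
  · refine (bil_fderiv_le B (hu.1 κ hκ y hy) (ha.1 y hy)).trans ?_
    nlinarith

lemma Sm.congr {W : Set E2} (hW : IsOpen W) (hKW : K ⊆ W) {u v : ℝ → E2 → V} (hu : Sm K u)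
    (h : ∀ κ, 0 < κ → ∀ y ∈ W, v κ y = u κ y) : Sm K v := by
  have hev : ∀ κ, 0 < κ → ∀ y ∈ K, v κ =ᶠ[𝓝 y] u κ := fun κ hκ y hy => by
    filter_upwards [hW.mem_nhds (hKW hy)] with z hz
    exact h κ hκ z hz
  refine ⟨fun κ hκ y hy => (hu.1 κ hκ y hy).congr_of_eventuallyEq (hev κ hκ y hy), fun ε hε => ?_⟩
  obtain ⟨κ0, h0, h1⟩ := hu.2 ε hε
  refine ⟨κ0, h0, fun κ hκ hκ' y hy => ?_⟩
  rw [(hev κ hκ y hy).fderiv_eq, h κ hκ y (hKW hy)]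
  exact h1 κ hκ hκ' y hy

end smallness

end Base
end Crest.Agent.R216
end
end

-- ▼ part R216/BaseD

/-!
# Row 216: BASE MAP, planar `C¹`-closeness of the metrics (helper904)
-/

set_option autoImplicit false
open scoped Manifold ContDiff Topology
open Set

noncomputable section
namespace Crest.Agent.R216
namespace Base

variable {m : ℕ}

/-- the bump `y ↦ κ² θ ((i y - z₀)/κ)` -/
def phiF (θ : EuclideanSpace ℝ (Fin m) → ℝ) (z0 : EuclideanSpace ℝ (Fin m)) (κ : ℝ)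
    (z : EuclideanSpace ℝ (Fin m)) : ℝ := κ ^ 2 * θ (κ⁻¹ • (z - z0))

section phi
variable {θ : EuclideanSpace ℝ (Fin m) → ℝ} {z0 : EuclideanSpace ℝ (Fin m)}

lemma phiF_contDiff (hθ : ContDiff ℝ ∞ θ) (κ : ℝ) : ContDiff ℝ ∞ (phiF θ z0 κ) := by
  unfold phiF
  have h1 : ContDiff ℝ ∞ (fun z : EuclideanSpace ℝ (Fin m) => κ⁻¹ • (z - z0)) :=
    (contDiff_id.sub contDiff_const).const_smul κ⁻¹
  exact contDiff_const.mul (hθ.comp h1)

lemma fderiv_phiF (hθ : ContDiff ℝ ∞ θ) {κ : ℝ} (hκ : 0 < κ) (z : EuclideanSpace ℝ (Fin m)) :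
    fderiv ℝ (phiF θ z0 κ) z = κ • fderiv ℝ θ (κ⁻¹ • (z - z0)) := by
  have h1 : HasFDerivAt (fun w : EuclideanSpace ℝ (Fin m) => κ⁻¹ • (w - z0))
      (κ⁻¹ • ContinuousLinearMap.id ℝ _) z :=
    ((hasFDerivAt_id z).sub_const z0).const_smul κ⁻¹
  have h2 : HasFDerivAt θ (fderiv ℝ θ (κ⁻¹ • (z - z0))) (κ⁻¹ • (z - z0)) :=
    (hθ.differentiable (by simp) _).hasFDerivAt
  have h3 := (h2.comp z h1).const_mul (κ ^ 2)
  have h4 : HasFDerivAt (phiF θ z0 κ)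
      (κ ^ 2 • (fderiv ℝ θ (κ⁻¹ • (z - z0))).comp (κ⁻¹ • ContinuousLinearMap.id ℝ _)) z := h3
  rw [h4.fderiv]
  ext v
  simp only [FunLike.coe_smul, Pi.smul_apply, ContinuousLinearMap.comp_apply,
    ContinuousLinearMap.id_apply, map_smul, smul_eq_mul]
  field_simp

lemma fderiv2_phiF (hθ : ContDiff ℝ ∞ θ) {κ : ℝ} (hκ : 0 < κ) (z : EuclideanSpace ℝ (Fin m)) :
    fderiv ℝ (fderiv ℝ (phiF θ z0 κ)) z = fderiv ℝ (fderiv ℝ θ) (κ⁻¹ • (z - z0)) := by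
  have h0 : fderiv ℝ (phiF θ z0 κ) = fun z => κ • fderiv ℝ θ (κ⁻¹ • (z - z0)) := by
    funext z; exact fderiv_phiF hθ hκ z
  rw [h0]
  have h1 : HasFDerivAt (fun w : EuclideanSpace ℝ (Fin m) => κ⁻¹ • (w - z0))
      (κ⁻¹ • ContinuousLinearMap.id ℝ _) z :=
    ((hasFDerivAt_id z).sub_const z0).const_smul κ⁻¹
  have hd : ContDiff ℝ ∞ (fderiv ℝ θ) := hθ.fderiv_right (m := ∞) (by simp)
  have h2 : HasFDerivAt (fderiv ℝ θ) (fderiv ℝ (fderiv ℝ θ) (κ⁻¹ • (z - z0))) (κ⁻¹ • (z - z0)) :=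
    (hd.differentiable (by simp) _).hasFDerivAt
  have h3 := (h2.comp z h1).const_smul κ
  have h4 : HasFDerivAt (fun z => κ • fderiv ℝ θ (κ⁻¹ • (z - z0)))
      (κ • (fderiv ℝ (fderiv ℝ θ) (κ⁻¹ • (z - z0))).comp (κ⁻¹ • ContinuousLinearMap.id ℝ _)) z := h3
  rw [h4.fderiv]
  ext v w
  simp only [FunLike.coe_smul, Pi.smul_apply, ContinuousLinearMap.comp_apply,
    ContinuousLinearMap.id_apply, map_smul, smul_eq_mul]
  field_simp

lemma bdd_of_supp {X V : Type*} [TopologicalSpace X] [NormedAddCommGroup V] {f : X → V}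
    (hf : Continuous f) (hc : HasCompactSupport f) : ∃ C : ℝ, ∀ x, ‖f x‖ ≤ C :=
  hf.bounded_above_of_compact_support hc

/-- bounds of a compactly supported function -/
lemma exists_bounds (hθ : ContDiff ℝ ∞ θ) (hc : HasCompactSupport θ) :
    ∃ C > 0, ∃ R > 0, (∀ z, ‖θ z‖ ≤ C ∧ ‖fderiv ℝ θ z‖ ≤ C ∧ ‖fderiv ℝ (fderiv ℝ θ) z‖ ≤ C) ∧
      tsupport θ ⊆ Metric.closedBall 0 R := by
  have hd : ContDiff ℝ ∞ (fderiv ℝ θ) := hθ.fderiv_right (m := ∞) (by simp)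
  have hdd : ContDiff ℝ ∞ (fderiv ℝ (fderiv ℝ θ)) := hd.fderiv_right (m := ∞) (by simp)
  have c1 : HasCompactSupport (fderiv ℝ θ) := hc.fderiv ℝ
  have c2 : HasCompactSupport (fderiv ℝ (fderiv ℝ θ)) := c1.fderiv ℝ
  obtain ⟨C0, h0⟩ := bdd_of_supp hθ.continuous hc
  obtain ⟨C1, h1⟩ := bdd_of_supp hd.continuous c1
  obtain ⟨C2, h2⟩ := bdd_of_supp hdd.continuous c2
  obtain ⟨R, hR⟩ := hc.isCompact.isBounded.subset_closedBall (0 : EuclideanSpace ℝ (Fin m))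
  have e0 := abs_nonneg C0
  have e1 := abs_nonneg C1
  have e2 := abs_nonneg C2
  refine ⟨|C0| + |C1| + |C2| + 1, by positivity, |R| + 1, by positivity, fun z => ⟨?_, ?_, ?_⟩, ?_⟩
  · have := h0 z; have := le_abs_self C0; linarith
  · have := h1 z; have := le_abs_self C1; linarith
  · have := h2 z; have := le_abs_self C2; linarith
  · exact hR.trans (Metric.closedBall_subset_closedBall (by linarith [le_abs_self R]))

end phi

section planar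

variable {K W : Set E2} {i : E2 → EuclideanSpace ℝ (Fin m)}
  {θ : EuclideanSpace ℝ (Fin m) → ℝ} {z0 : EuclideanSpace ℝ (Fin m)}

/-- `φ κ y = κ² θ((i y - z0)/κ)` is `C¹`-small -/
lemma sm_phi (hW : IsOpen W) (hK : IsCompact K) (hKW : K ⊆ W) (hi : ContDiffOn ℝ ∞ i W)
    (hθ : ContDiff ℝ ∞ θ) (hc : HasCompactSupport θ) :
    Sm K (fun κ y => phiF θ z0 κ (i y)) := by
  obtain ⟨C, hC, R, hR, hb, -⟩ := exists_bounds hθ hc
  have hfx : Fx K i := Fx.of_contDiffOn hW hK hKW (n := ∞) (by simp) hi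
  obtain ⟨D, hD, hD'⟩ := hfx.2
  have hdiff : ∀ κ, 0 < κ → ∀ y ∈ K, HasFDerivAt (fun y => phiF θ z0 κ (i y))
      ((fderiv ℝ (phiF θ z0 κ) (i y)).comp (fderiv ℝ i y)) y := fun κ hκ y hy =>
    (((phiF_contDiff hθ κ).differentiable (by simp) _).hasFDerivAt).comp y
      (hfx.1 y hy).hasFDerivAt
  refine ⟨fun κ hκ y hy => (hdiff κ hκ y hy).differentiableAt, fun ε hε => ?_⟩
  refine ⟨min 1 (ε / (C * (D + 1))), lt_min one_pos (by positivity), fun κ hκ hκ' y hy => ?_⟩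
  have hκ1 : κ ≤ 1 := hκ'.le.trans (min_le_left _ _)
  have hκ2 : κ * (C * (D + 1)) ≤ ε := by
    have := hκ'.le.trans (min_le_right _ _)
    rwa [le_div_iff₀ (by positivity)] at this
  obtain ⟨b1, b2, b3⟩ := hb (κ⁻¹ • (i y - z0))
  obtain ⟨d1, d2⟩ := hD' y hy
  constructor
  · simp only [phiF, norm_mul, norm_pow, Real.norm_of_nonneg hκ.le]
    calc κ ^ 2 * ‖θ (κ⁻¹ • (i y - z0))‖ ≤ κ * (C * (D + 1)) := by
          have : κ ^ 2 ≤ κ := by nlinarith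
          have h2 : ‖θ (κ⁻¹ • (i y - z0))‖ ≤ C * (D + 1) := b1.trans (by nlinarith)
          exact mul_le_mul this h2 (norm_nonneg _) hκ.le
      _ ≤ ε := hκ2
  · rw [(hdiff κ hκ y hy).fderiv, fderiv_phiF hθ hκ]
    refine (ContinuousLinearMap.opNorm_comp_le _ _).trans ?_
    rw [norm_smul, Real.norm_of_nonneg hκ.le]
    calc κ * ‖fderiv ℝ θ (κ⁻¹ • (i y - z0))‖ * ‖fderiv ℝ i y‖ ≤ κ * C * D := by gcongr
      _ ≤ κ * (C * (D + 1)) := by nlinarith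
      _ ≤ ε := hκ2

/-- the derivative of `φ κ` in a fixed direction -/
lemma bd_phi_v (hW : IsOpen W) (hK : IsCompact K) (hKW : K ⊆ W) (hi : ContDiffOn ℝ ∞ i W)
    (hθ : ContDiff ℝ ∞ θ) (hc : HasCompactSupport θ) (v : E2) :
    Bd K (fun κ y => fderiv ℝ (fun y => phiF θ z0 κ (i y)) y v) := by
  obtain ⟨C, hC, R, hR, hb, -⟩ := exists_bounds hθ hc
  have hfx : Fx K i := Fx.of_contDiffOn hW hK hKW (n := ∞) (by simp) hi
  obtain ⟨D, hD, hD'⟩ := hfx.2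
  have hdi : ContDiffOn ℝ ∞ (fun y => fderiv ℝ i y v) W :=
    ((hi.fderiv_of_isOpen hW (m := ∞) (by simp)).clm_apply contDiffOn_const)
  have hfxv : Fx K (fun y => fderiv ℝ i y v) := Fx.of_contDiffOn hW hK hKW (n := ∞) (by simp) hdi
  obtain ⟨D2, hD2, hD2'⟩ := hfxv.2
  -- formula for the directional derivative near K
  have hform : ∀ κ, 0 < κ → ∀ y ∈ W, fderiv ℝ (fun y => phiF θ z0 κ (i y)) y v
      = fderiv ℝ (phiF θ z0 κ) (i y) (fderiv ℝ i y v) := fun κ hκ y hy => by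
    have h1 : DifferentiableAt ℝ i y := (hi.contDiffAt (hW.mem_nhds hy)).differentiableAt (by simp)
    have := (((phiF_contDiff (z0 := z0) hθ κ).differentiable (by simp) (i y)).hasFDerivAt).comp y
      h1.hasFDerivAt
    have h2 : HasFDerivAt (fun y => phiF θ z0 κ (i y))
      ((fderiv ℝ (phiF θ z0 κ) (i y)).comp (fderiv ℝ i y)) y := this
    rw [h2.fderiv]; rfl
  have hev : ∀ κ, 0 < κ → ∀ y ∈ K, (fun y => fderiv ℝ (fun y => phiF θ z0 κ (i y)) y v)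
      =ᶠ[𝓝 y] fun y => fderiv ℝ (phiF θ z0 κ) (i y) (fderiv ℝ i y v) := fun κ hκ y hy => by
    filter_upwards [hW.mem_nhds (hKW hy)] with z hz
    exact hform κ hκ z hz
  have hdiff : ∀ κ, 0 < κ → ∀ y ∈ K,
      HasFDerivAt (fun y => fderiv ℝ (phiF θ z0 κ) (i y) (fderiv ℝ i y v))
      ((fderiv ℝ (phiF θ z0 κ) (i y)).comp (fderiv ℝ (fun y => fderiv ℝ i y v) y)
        + (((fderiv ℝ (fderiv ℝ (phiF θ z0 κ)) (i y)).comp (fderiv ℝ i y))).flip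
          (fderiv ℝ i y v)) y := fun κ hκ y hy => by
    have h1 : HasFDerivAt (fun y => fderiv ℝ (phiF θ z0 κ) (i y))
        ((fderiv ℝ (fderiv ℝ (phiF θ z0 κ)) (i y)).comp (fderiv ℝ i y)) y := by
      have hd : ContDiff ℝ ∞ (fderiv ℝ (phiF θ z0 κ)) :=
        (phiF_contDiff hθ κ).fderiv_right (m := ∞) (by simp)
      exact ((hd.differentiable (by simp) _).hasFDerivAt).comp y (hfx.1 y hy).hasFDerivAt
    exact h1.clm_apply (hfxv.1 y hy).hasFDerivAt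
  have hval : ∀ κ, 0 < κ → ∀ y ∈ K, ‖fderiv ℝ (fun y => phiF θ z0 κ (i y)) y v‖ ≤ κ * (C * D2) := by
    intro κ hκ y hy
    rw [hform κ hκ y (hKW hy), fderiv_phiF hθ hκ]
    obtain ⟨b1, b2, b3⟩ := hb (κ⁻¹ • (i y - z0))
    obtain ⟨e1, e2⟩ := hD2' y hy
    refine (ContinuousLinearMap.le_opNorm _ _).trans ?_
    rw [norm_smul, Real.norm_of_nonneg hκ.le]
    calc κ * ‖fderiv ℝ θ (κ⁻¹ • (i y - z0))‖ * ‖fderiv ℝ i y v‖ ≤ κ * C * D2 := by gcongr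
      _ = _ := by ring
  refine ⟨fun κ hκ y hy => ((hdiff κ hκ y hy).differentiableAt).congr_of_eventuallyEq
    (hev κ hκ y hy), fun ε hε => ?_, ?_⟩
  · refine ⟨ε / (C * D2), by positivity, fun κ hκ hκ' y hy => (hval κ hκ y hy).trans ?_⟩
    have := hκ'.le
    rwa [le_div_iff₀ (by positivity)] at this
  · refine ⟨C * D2 + C * D * D2, by positivity, 1, one_pos, fun κ hκ hκ' y hy => ?_⟩
    rw [(hev κ hκ y hy).fderiv_eq, (hdiff κ hκ y hy).fderiv]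
    obtain ⟨b1, b2, b3⟩ := hb (κ⁻¹ • (i y - z0))
    obtain ⟨e1, e2⟩ := hD2' y hy
    obtain ⟨f1, f2⟩ := hD' y hy
    refine (norm_add_le _ _).trans (add_le_add ?_ ?_)
    · refine (ContinuousLinearMap.opNorm_comp_le _ _).trans ?_
      rw [fderiv_phiF hθ hκ, norm_smul, Real.norm_of_nonneg hκ.le]
      calc κ * ‖fderiv ℝ θ (κ⁻¹ • (i y - z0))‖ * ‖fderiv ℝ (fun y => fderiv ℝ i y v) y‖
          ≤ 1 * C * D2 := by gcongr
        _ = _ := by ring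
    · refine (ContinuousLinearMap.le_opNorm _ _).trans ?_
      rw [ContinuousLinearMap.opNorm_flip]
      have h1 : ‖(fderiv ℝ (fderiv ℝ (phiF θ z0 κ)) (i y)).comp (fderiv ℝ i y)‖ ≤ C * D := by
        refine (ContinuousLinearMap.opNorm_comp_le _ _).trans ?_
        rw [fderiv2_phiF hθ hκ]
        gcongr
      gcongr

/-- off the `κR`-ball the bump vanishes together with its derivatives -/
lemma phi_zero_off (hR : ∃ R, tsupport θ ⊆ Metric.closedBall 0 R) :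
    ∃ R > 0, tsupport θ ⊆ Metric.closedBall 0 R ∧ ∀ κ, 0 < κ → ∀ z : EuclideanSpace ℝ (Fin m),
      κ * R < ‖z - z0‖ → phiF θ z0 κ z = 0 := by
  obtain ⟨R, hR⟩ := hR
  have hR' : tsupport θ ⊆ Metric.closedBall 0 (|R| + 1) :=
    hR.trans (Metric.closedBall_subset_closedBall (by linarith [le_abs_self R]))
  refine ⟨|R| + 1, by positivity, hR', fun κ hκ z hz => ?_⟩
  have h1 : θ (κ⁻¹ • (z - z0)) = 0 := by
    by_contra h
    have h2 : κ⁻¹ • (z - z0) ∈ Metric.closedBall (0 : EuclideanSpace ℝ (Fin m)) (|R| + 1) :=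
      hR' (subset_tsupport θ h)
    rw [mem_closedBall_zero_iff, norm_smul, norm_inv, Real.norm_of_nonneg hκ.le,
      inv_mul_le_iff₀ hκ] at h2
    linarith
  simp [phiF, h1]

/-- compactness: a continuous function that vanishes on `{i = z0}` is small near that set -/
lemma small_near {V : Type*} [NormedAddCommGroup V] (hK : IsCompact K)
    (hi : ContinuousOn i K) {a : E2 → V} (ha : ContinuousOn a K)
    (h0 : ∀ y ∈ K, i y = z0 → a y = 0) (ε : ℝ) (hε : 0 < ε) :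
    ∃ δ > 0, ∀ y ∈ K, ‖i y - z0‖ ≤ δ → ‖a y‖ ≤ ε := by
  by_contra hcon
  push Not at hcon
  have h1 : ∀ n : ℕ, ∃ y ∈ K, ‖i y - z0‖ ≤ 1 / (n + 1 : ℝ) ∧ ε < ‖a y‖ := fun n =>
    hcon (1 / (n + 1 : ℝ)) (by positivity)
  choose y hy hy1 hy2 using h1
  obtain ⟨y0, hy0, φ, hφ, hlim⟩ := hK.tendsto_subseq hy
  have hW : Filter.Tendsto (y ∘ φ) Filter.atTop (𝓝[K] y0) :=
    tendsto_nhdsWithin_iff.2 ⟨hlim, Filter.Eventually.of_forall fun n => hy _⟩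
  have h2 : Filter.Tendsto (fun n => ‖i (y (φ n)) - z0‖) Filter.atTop (𝓝 ‖i y0 - z0‖) :=
    (((hi y0 hy0).tendsto.comp hW).sub_const z0).norm
  have h3 : Filter.Tendsto (fun n => ‖a (y (φ n))‖) Filter.atTop (𝓝 ‖a y0‖) :=
    ((ha y0 hy0).tendsto.comp hW).norm
  have h4 : ‖i y0 - z0‖ ≤ 0 := by
    have h5 : Filter.Tendsto (fun n : ℕ => 1 / ((φ n : ℕ) + 1 : ℝ)) Filter.atTop (𝓝 0) :=
      tendsto_one_div_add_atTop_nhds_zero_nat.comp hφ.tendsto_atTop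
    exact le_of_tendsto_of_tendsto h2 h5 (Filter.Eventually.of_forall fun n => hy1 _)
  have h5 : i y0 = z0 := by
    have := norm_le_zero_iff.1 h4
    exact sub_eq_zero.1 this
  have h6 : ε ≤ ‖a y0‖ := ge_of_tendsto h3 (Filter.Eventually.of_forall fun n => (hy2 _).le)
  rw [h0 y0 hy0 h5, norm_zero] at h6
  linarith

end planar

end Base
end Crest.Agent.R216
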