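import Crest.Agent.R216.BaseD
import Crest.Agent.R216.GlobCoef

-- ▼ part R216/BaseE
section

/-!
# Row 216: BASE MAP, planar `C¹`-closeness of the metric coefficients (helper904)
-/

set_option autoImplicit false
open scoped Manifold ContDiff Topology
open Set

noncomputable section
namespace Crest.Agent.R216
namespace Base

variable {m : ℕ}

/-- inner product of `ℝ⁴` as a bilinear map -/
def iB : E4 →L[ℝ] E4 →L[ℝ] ℝ :=
  (isBoundedBilinearMap_inner (𝕜 := ℝ) (E := E4)).toContinuousLinearMap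

lemma iB_apply (u v : E4) : iB u v = inner ℝ u v := rfl

section
variable {K W : Set E2} {i : E2 → EuclideanSpace ℝ (Fin m)}
  {θ : EuclideanSpace ℝ (Fin m) → ℝ} {z0 : EuclideanSpace ℝ (Fin m)}

lemma contDiffOn_TT {W : Set E2} {a b : E2 → E3} (ha : ContDiffOn ℝ ∞ a W)
    (hb : ContDiffOn ℝ ∞ b W) : ContDiffOn ℝ ∞ (fun y => TT (a y) (b y)) W := by
  have : (fun y => TT (a y) (b y)) = fun y => J3 (b y) + (inner ℝ (a y) (b y) : ℝ) • e4 := by
    funext y; exact TT_apply _ _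
  rw [this]
  exact (J3.contDiff.comp_contDiffOn hb).add ((ha.inner ℝ hb).smul contDiffOn_const)

/-- derivative of the modified map -/
lemma fderiv_mod (hW : IsOpen W) (hi : ContDiffOn ℝ ∞ i W) (hθ : ContDiff ℝ ∞ θ)
    {a : E2 → E3} (ha : ContDiffOn ℝ ∞ a W) (N : E3) (κ : ℝ) {y : E2} (hy : y ∈ W) (v : E2) :
    fderiv ℝ (fun y => Phi (a y + phiF θ z0 κ (i y) • N)) y v
      = TT (a y) (fderiv ℝ a y v) + (fderiv ℝ (fun y => phiF θ z0 κ (i y)) y v • TT (a y) N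
        + (phiF θ z0 κ (i y) • ((inner ℝ N (fderiv ℝ a y v) : ℝ) • e4)
          + (phiF θ z0 κ (i y) * fderiv ℝ (fun y => phiF θ z0 κ (i y)) y v)
            • ((inner ℝ N N : ℝ) • e4))) := by
  have ha1 : HasFDerivAt a (fderiv ℝ a y) y :=
    ((ha.contDiffAt (hW.mem_nhds hy)).differentiableAt (by simp)).hasFDerivAt
  have hi1 : DifferentiableAt ℝ i y := (hi.contDiffAt (hW.mem_nhds hy)).differentiableAt (by simp)
  have hφ : HasFDerivAt (fun y => phiF θ z0 κ (i y))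
      (fderiv ℝ (fun y => phiF θ z0 κ (i y)) y) y := by
    have h1 : DifferentiableAt ℝ (phiF θ z0 κ) (i y) :=
      (phiF_contDiff hθ κ).differentiable (by simp) _
    exact (h1.comp y hi1).hasFDerivAt
  have h2 := ha1.add (hφ.smul_const N)
  have h3 := (hasFDerivAt_Phi (a y + phiF θ z0 κ (i y) • N)).comp y h2
  have h4 : HasFDerivAt (fun y => Phi (a y + phiF θ z0 κ (i y) • N))
      ((TT (a y + phiF θ z0 κ (i y) • N)).comp (fderiv ℝ a y +
        (fderiv ℝ (fun y => phiF θ z0 κ (i y)) y).smulRight N)) y := h3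
  rw [h4.fderiv]
  simp only [ContinuousLinearMap.comp_apply, add_apply,
    ContinuousLinearMap.smulRight_apply, TT_apply, map_add, map_smul, inner_add_left,
    inner_smul_left]
  simp only [conj_trivial]
  module

lemma fderiv_Phi_compW (hW : IsOpen W) {a : E2 → E3} (ha : ContDiffOn ℝ ∞ a W) {y : E2}
    (hy : y ∈ W) (v : E2) :
    fderiv ℝ (fun y => Phi (a y)) y v = TT (a y) (fderiv ℝ a y v) := by
  have ha1 : HasFDerivAt a (fderiv ℝ a y) y :=
    ((ha.contDiffAt (hW.mem_nhds hy)).differentiableAt (by simp)).hasFDerivAt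
  have h3 := (hasFDerivAt_Phi (a y)).comp y ha1
  have h4 : HasFDerivAt (fun y => Phi (a y)) ((TT (a y)).comp (fderiv ℝ a y)) y := h3
  rw [h4.fderiv]; rfl

/-- the term `φ_v ⟨n, F_w⟩` -/
lemma sm_main (hW : IsOpen W) (hK : IsCompact K) (hKW : K ⊆ W) (hi : ContDiffOn ℝ ∞ i W)
    (hθ : ContDiff ℝ ∞ θ) (hc : HasCompactSupport θ) {q : E2 → ℝ} (hq : ContDiffOn ℝ ∞ q W)
    (h0 : ∀ y ∈ K, i y = z0 → q y = 0) (v : E2) :
    Sm K (fun κ y => fderiv ℝ (fun y => phiF θ z0 κ (i y)) y v * q y) := by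
  have hfq : Fx K q := Fx.of_contDiffOn hW hK hKW (n := ∞) (by simp) hq
  have h := Bd.bil_supp (ContinuousLinearMap.mul ℝ ℝ)
    (bd_phi_v (z0 := z0) hW hK hKW hi hθ hc v) hfq ?_
  · exact h
  intro ε hε
  obtain ⟨C, hC, R, hR, hb, hsupp⟩ := exists_bounds hθ hc
  obtain ⟨R', hR', -, hoff⟩ := phi_zero_off (z0 := z0) (θ := θ) ⟨R, hsupp⟩
  obtain ⟨δ, hδ, hsm⟩ := small_near (z0 := z0) hK (hi.continuousOn.mono hKW)
    (hq.continuousOn.mono hKW) h0 ε hε
  refine ⟨δ / R', by positivity, fun κ hκ hκ' y hy hne => ?_⟩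
  by_cases hcase : κ * R' < ‖i y - z0‖
  · exfalso
    -- `φ` vanishes near `y`
    have hic : ContinuousAt i y := (hi.continuousOn.continuousAt (hW.mem_nhds (hKW hy)))
    have hev : ∀ᶠ z in 𝓝 y, κ * R' < ‖i z - z0‖ :=
      ((hic.sub continuousAt_const).norm).eventually (lt_mem_nhds hcase)
    have hev0 : (fun y => phiF θ z0 κ (i y)) =ᶠ[𝓝 y] fun _ => (0 : ℝ) := by
      filter_upwards [hev] with z hz
      exact hoff κ hκ _ hz
    have hev1 : (fun y => fderiv ℝ (fun y => phiF θ z0 κ (i y)) y v) =ᶠ[𝓝 y] fun _ => (0 : ℝ) := by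
      filter_upwards [hev0.fderiv (𝕜 := ℝ)] with z hz
      rw [hz]; simp
    rcases hne with hne | hne
    · exact hne hev1.self_of_nhds
    · apply hne
      rw [hev1.fderiv_eq]; simp
  · apply hsm y hy
    push Not at hcase
    refine hcase.trans ?_
    have := hκ'.le
    rwa [le_div_iff₀ hR'] at this

/-- **the metric coefficients of the modified map are `C¹`-close** -/
theorem sm_coef (hW : IsOpen W) (hK : IsCompact K) (hKW : K ⊆ W) (hi : ContDiffOn ℝ ∞ i W)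
    (hθ : ContDiff ℝ ∞ θ) (hc : HasCompactSupport θ) {a : E2 → E3} (ha : ContDiffOn ℝ ∞ a W)
    (N : E3)
    (hN : ∀ y ∈ K, i y = z0 → ∀ v, inner ℝ (TT (a y) N) (TT (a y) (fderiv ℝ a y v)) = 0)
    (v w : E2) :
    Sm K (fun κ y => inner ℝ (fderiv ℝ (fun y => Phi (a y + phiF θ z0 κ (i y) • N)) y v)
        (fderiv ℝ (fun y => Phi (a y + phiF θ z0 κ (i y) • N)) y w)
      - inner ℝ (fderiv ℝ (fun y => Phi (a y)) y v) (fderiv ℝ (fun y => Phi (a y)) y w)) := by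
  have hda : ∀ u : E2, ContDiffOn ℝ ∞ (fun y => fderiv ℝ a y u) W := fun u =>
    (ha.fderiv_of_isOpen hW (m := ∞) (by simp)).clm_apply contDiffOn_const
  have hn : ContDiffOn ℝ ∞ (fun y => TT (a y) N) W := contDiffOn_TT ha contDiffOn_const
  have hF : ∀ u : E2, ContDiffOn ℝ ∞ (fun y => TT (a y) (fderiv ℝ a y u)) W := fun u =>
    contDiffOn_TT ha (hda u)
  have fxn : Fx K (fun y => TT (a y) N) := Fx.of_contDiffOn hW hK hKW (n := ∞) (by simp) hn
  have fxF : ∀ u : E2, Fx K (fun y => TT (a y) (fderiv ℝ a y u)) := fun u =>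
    Fx.of_contDiffOn hW hK hKW (n := ∞) (by simp) (hF u)
  have fxA : ∀ u : E2, Fx K (fun y => (inner ℝ N (fderiv ℝ a y u) : ℝ) • e4) := fun u =>
    Fx.of_contDiffOn hW hK hKW (n := ∞) (by simp)
      ((contDiffOn_const.inner ℝ (hda u)).smul contDiffOn_const)
  have fxc : Fx K (fun _ : E2 => (inner ℝ N N : ℝ) • e4) :=
    Fx.of_contDiffOn hW hK hKW (n := ∞) (by simp) contDiffOn_const
  have sφ := sm_phi (z0 := z0) hW hK hKW hi hθ hc
  have bφ := fun u : E2 => bd_phi_v (z0 := z0) hW hK hKW hi hθ hc u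
  -- the small part `G`
  have sG : ∀ u : E2, Sm K (fun κ y => phiF θ z0 κ (i y) • ((inner ℝ N (fderiv ℝ a y u) : ℝ) • e4)
          + (phiF θ z0 κ (i y) * fderiv ℝ (fun y => phiF θ z0 κ (i y)) y u)
            • ((inner ℝ N N : ℝ) • e4)) := fun u => by
    have h1 := Sm.bil_fx (ContinuousLinearMap.lsmul ℝ ℝ) sφ (fxA u)
    have h2 := Bd.bil (ContinuousLinearMap.mul ℝ ℝ) sφ.bd (bφ u)
    have h3 := Sm.bil_fx (ContinuousLinearMap.lsmul ℝ ℝ) h2 fxc
    exact h1.add h3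
  have bH : ∀ u : E2, Bd K (fun κ y => fderiv ℝ (fun y => phiF θ z0 κ (i y)) y u • TT (a y) N
        + (phiF θ z0 κ (i y) • ((inner ℝ N (fderiv ℝ a y u) : ℝ) • e4)
          + (phiF θ z0 κ (i y) * fderiv ℝ (fun y => phiF θ z0 κ (i y)) y u)
            • ((inner ℝ N N : ℝ) • e4))) := fun u => by
    have h1 := Bd.bil_fx (ContinuousLinearMap.lsmul ℝ ℝ) (bφ u) fxn
    exact h1.add (sG u).bd
  have hq : ∀ u : E2, ContDiffOn ℝ ∞
      (fun y => (inner ℝ (TT (a y) N) (TT (a y) (fderiv ℝ a y u)) : ℝ)) W := fun u =>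
    hn.inner ℝ (hF u)
  have sM : ∀ u u' : E2, Sm K (fun κ y => fderiv ℝ (fun y => phiF θ z0 κ (i y)) y u *
      (inner ℝ (TT (a y) N) (TT (a y) (fderiv ℝ a y u')) : ℝ)) := fun u u' =>
    sm_main hW hK hKW hi hθ hc (hq u') (fun y hy h => hN y hy h u') u
  have sGF : ∀ u u' : E2, Sm K (fun κ y => iB
      (phiF θ z0 κ (i y) • ((inner ℝ N (fderiv ℝ a y u) : ℝ) • e4)
          + (phiF θ z0 κ (i y) * fderiv ℝ (fun y => phiF θ z0 κ (i y)) y u)
            • ((inner ℝ N N : ℝ) • e4)) (TT (a y) (fderiv ℝ a y u'))) := fun u u' =>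
    Sm.bil_fx iB (sG u) (fxF u')
  have sHH := Bd.bil iB (bH v) (bH w)
  have hall := ((sM v w).add (sGF v w)).add (((sM w v).add (sGF w v)).add sHH)
  refine Sm.congr hW hKW hall fun κ hκ y hy => ?_
  rw [fderiv_mod hW hi hθ ha N κ hy v, fderiv_mod hW hi hθ ha N κ hy w,
    fderiv_Phi_compW hW ha hy v, fderiv_Phi_compW hW ha hy w]
  simp only [iB_apply]
  set Fv := TT (a y) (fderiv ℝ a y v)
  set Fw := TT (a y) (fderiv ℝ a y w)
  set n := TT (a y) N
  set Gv := (phiF θ z0 κ (i y) • ((inner ℝ N (fderiv ℝ a y v) : ℝ) • e4)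
          + (phiF θ z0 κ (i y) * fderiv ℝ (fun y => phiF θ z0 κ (i y)) y v)
            • ((inner ℝ N N : ℝ) • e4))
  set Gw := (phiF θ z0 κ (i y) • ((inner ℝ N (fderiv ℝ a y w) : ℝ) • e4)
          + (phiF θ z0 κ (i y) * fderiv ℝ (fun y => phiF θ z0 κ (i y)) y w)
            • ((inner ℝ N N : ℝ) • e4))
  set pv := fderiv ℝ (fun y => phiF θ z0 κ (i y)) y v
  set pw := fderiv ℝ (fun y => phiF θ z0 κ (i y)) y w
  simp only [inner_add_left, inner_add_right, inner_smul_left, inner_smul_right, conj_trivial]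
  rw [real_inner_comm n Fv, real_inner_comm Gw Fv]
  ring

end

end Base
end Crest.Agent.R216
end
end

-- ▼ part R216/BaseF
section

/-!
# Row 216: BASE MAP, flattening at one point, planar part (helper904)
-/

set_option autoImplicit false
open scoped Manifold ContDiff Topology
open Set

noncomputable section
namespace Crest.Agent.R216
namespace Base

variable {m : ℕ}

/-! ## linear algebra -/

/-- the bilinear form `⟨TT x h, TT x k⟩` of `E3`, as a functional in `h` -/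
def ell (x k : E3) : E3 →L[ℝ] ℝ := (innerSL ℝ (TT x k)).comp (TT x)

lemma ell_apply (x k h : E3) : ell x k h = inner ℝ (TT x k) (TT x h) := rfl

lemma plane_decomp (v : E2) : v = v 0 • bv 0 + v 1 • bv 1 := by
  ext i; fin_cases i <;> simp [bv]

lemma exists_normal {a' : E2 →L[ℝ] E3} (ha : Function.Injective a') (x : E3) :
    ∃ N : E3, N ≠ 0 ∧ (∀ v, inner ℝ (TT x N) (TT x (a' v)) = 0) ∧
      ∀ h : E3, inner ℝ (TT x h) (TT x N) = 0 → ∃ z, a' z = h := by
  classical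
  let T : E3 →ₗ[ℝ] (Fin 2 → ℝ) :=
    LinearMap.pi fun i => (ell x (a' (bv i)) : E3 →ₗ[ℝ] ℝ)
  have hfin : Module.finrank ℝ (Fin 2 → ℝ) < Module.finrank ℝ E3 := by simp
  have hker : LinearMap.ker T ≠ ⊥ := LinearMap.ker_ne_bot_of_finrank_lt hfin
  obtain ⟨N, hN, hN0⟩ := Submodule.exists_mem_ne_zero_of_ne_bot hker
  have hT : ∀ i, inner ℝ (TT x (a' (bv i))) (TT x N) = 0 := fun i => by
    have := congrFun (LinearMap.mem_ker.1 hN) i
    exact this
  have horth : ∀ v, inner ℝ (TT x N) (TT x (a' v)) = 0 := fun v => by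
    rw [plane_decomp v]
    simp only [map_add, map_smul, inner_add_right, inner_smul_right]
    rw [real_inner_comm, hT 0, real_inner_comm, hT 1]
    simp
  refine ⟨N, hN0, horth, fun h hh => ?_⟩
  -- dimension count
  have hlN : ell x N N ≠ 0 := by
    rw [ell_apply]
    intro h0
    exact hN0 (TT_injective x (by rw [inner_self_eq_zero.1 h0, map_zero]))
  have hsurj : Function.Surjective (ell x N : E3 →ₗ[ℝ] ℝ) := by
    intro c
    exact ⟨(c / ell x N N) • N, by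
      simp only [ContinuousLinearMap.coe_coe, map_smul, smul_eq_mul]
      field_simp⟩
  have hr := LinearMap.finrank_range_add_finrank_ker (ell x N : E3 →ₗ[ℝ] ℝ)
  have hr' : Module.finrank ℝ (LinearMap.range (ell x N : E3 →ₗ[ℝ] ℝ)) = 1 := by
    rw [LinearMap.range_eq_top.2 hsurj]; simp
  have hk : Module.finrank ℝ (LinearMap.ker (ell x N : E3 →ₗ[ℝ] ℝ)) = 2 := by
    have h3 : Module.finrank ℝ E3 = 3 := by simp
    omega
  have hra : Module.finrank ℝ (LinearMap.range (a' : E2 →ₗ[ℝ] E3)) = 2 := by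
    rw [LinearMap.finrank_range_of_inj (f := (a' : E2 →ₗ[ℝ] E3)) ha]; simp
  have hle : LinearMap.range (a' : E2 →ₗ[ℝ] E3) ≤ LinearMap.ker (ell x N : E3 →ₗ[ℝ] ℝ) := by
    rintro _ ⟨v, rfl⟩
    exact horth v
  have heq := Submodule.eq_of_le_of_finrank_eq hle (by rw [hra, hk])
  have hmem : h ∈ LinearMap.ker (ell x N : E3 →ₗ[ℝ] ℝ) := by
    rw [LinearMap.mem_ker]
    show inner ℝ (TT x N) (TT x h) = 0
    rw [real_inner_comm]; exact hh
  rw [← heq] at hmem
  exact hmem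

lemma exists_leftInv {E F : Type*} [NormedAddCommGroup E] [NormedSpace ℝ E] [FiniteDimensional ℝ E]
    [NormedAddCommGroup F] [NormedSpace ℝ F] [FiniteDimensional ℝ F] {f : E →L[ℝ] F}
    (hf : Function.Injective f) : ∃ L : F →L[ℝ] E, ∀ v, L (f v) = v := by
  obtain ⟨g, hg⟩ := LinearMap.exists_leftInverse_of_injective (f : E →ₗ[ℝ] F)
    (LinearMap.ker_eq_bot.2 hf)
  refine ⟨LinearMap.toContinuousLinearMap g, fun v => ?_⟩
  exact congrArg (fun T => T v) hg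

/-- a compactly supported function with prescribed Hessian at the origin -/
lemma exists_theta (L : EuclideanSpace ℝ (Fin m) →L[ℝ] E2) (b : E2 →L[ℝ] E2 →L[ℝ] ℝ)
    (hb : ∀ u v, b u v = b v u) :
    ∃ θ : EuclideanSpace ℝ (Fin m) → ℝ, ContDiff ℝ ∞ θ ∧ HasCompactSupport θ ∧
      fderiv ℝ θ 0 = 0 ∧ ∀ u v, fderiv ℝ (fderiv ℝ θ) 0 u v = - b (L u) (L v) := by
  let ρ : ContDiffBump (0 : EuclideanSpace ℝ (Fin m)) := default
  let B : EuclideanSpace ℝ (Fin m) →L[ℝ] EuclideanSpace ℝ (Fin m) →L[ℝ] ℝ :=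
    (ContinuousLinearMap.compL ℝ _ _ _).flip L |>.comp (b.comp L)
  have hB : ∀ u v, B u v = b (L u) (L v) := fun u v => rfl
  let q : EuclideanSpace ℝ (Fin m) → ℝ := fun z => (-(1 / 2 : ℝ)) * B z z
  have hq : ContDiff ℝ ∞ q := contDiff_const.mul
    ((B.contDiff).clm_apply contDiff_id)
  have hdq : ∀ z, HasFDerivAt q (-(B z)) z := fun z => by
    have h1 : HasFDerivAt (fun z => B z z) ((B z).comp (ContinuousLinearMap.id ℝ _) + B.flip z) z := by
      have := (B.hasFDerivAt (x := z)).clm_apply (hasFDerivAt_id z)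
      exact this
    have h2 := h1.const_mul (-(1 / 2 : ℝ))
    refine h2.congr_fderiv ?_
    ext v
    simp only [FunLike.coe_smul, Pi.smul_apply, add_apply, ContinuousLinearMap.comp_apply,
      ContinuousLinearMap.id_apply, ContinuousLinearMap.flip_apply, neg_apply, smul_eq_mul]
    rw [hB, hB, hb (L v) (L z)]
    ring
  have hfq : fderiv ℝ q = fun z => -(B z) := by
    funext z; exact (hdq z).fderiv
  have hdd : ∀ z, HasFDerivAt (fderiv ℝ q) (-B) z := fun z => by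
    rw [hfq]
    exact (B.hasFDerivAt (x := z)).neg
  refine ⟨fun z => q z * ρ z, hq.mul ρ.contDiff, ρ.hasCompactSupport.mul_left, ?_, fun u v => ?_⟩
  · have hev : (fun z => q z * ρ z) =ᶠ[𝓝 0] q := by
      filter_upwards [ρ.eventuallyEq_one] with z hz
      rw [hz]; simp
    rw [hev.fderiv_eq, (hdq 0).fderiv]; simp
  · have hev : (fun z => q z * ρ z) =ᶠ[𝓝 0] q := by
      filter_upwards [ρ.eventuallyEq_one] with z hz
      rw [hz]; simp
    have hev1 : fderiv ℝ (fun z => q z * ρ z) =ᶠ[𝓝 0] fderiv ℝ q := hev.fderiv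
    rw [hev1.fderiv_eq, (hdd 0).fderiv]
    simp only [neg_apply, hB]

/-! ## flatness -/

/-- all second derivatives are tangential -/
def FlatAt (a : E2 → E3) (y : E2) : Prop :=
  ∀ v w : E2, ∃ z : E2, fderiv ℝ (fderiv ℝ a) y v w = fderiv ℝ a y z

lemma FlatAt.congr {a b : E2 → E3} {y : E2} (h : FlatAt a y) (hab : b =ᶠ[𝓝 y] a) : FlatAt b y := by
  intro v w
  obtain ⟨z, hz⟩ := h v w
  refine ⟨z, ?_⟩
  rw [hab.fderiv_eq, hab.fderiv.fderiv_eq, hz]

lemma d2_comp_gen {E F G : Type*} [NormedAddCommGroup E] [NormedSpace ℝ E]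
    [NormedAddCommGroup F] [NormedSpace ℝ F] [NormedAddCommGroup G] [NormedSpace ℝ G]
    {f : F → G} {τ : E → F} {x : E}
    (hf : ContDiffAt ℝ 2 f (τ x)) (hτ : ContDiffAt ℝ 2 τ x) (v w : E) :
    fderiv ℝ (fderiv ℝ (f ∘ τ)) x v w
      = fderiv ℝ (fderiv ℝ f) (τ x) (fderiv ℝ τ x v) (fderiv ℝ τ x w)
      + fderiv ℝ f (τ x) (fderiv ℝ (fderiv ℝ τ) x v w) := by
  have hfev : ∀ᶠ y in 𝓝 x, ContDiffAt ℝ 2 f (τ y) :=
    hτ.continuousAt.eventually (hf.eventually (by simp))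
  have hτev : ∀ᶠ y in 𝓝 x, ContDiffAt ℝ 2 τ y := hτ.eventually (by simp)
  have h1 : fderiv ℝ (f ∘ τ) =ᶠ[𝓝 x] fun y => (fderiv ℝ f (τ y)).comp (fderiv ℝ τ y) := by
    filter_upwards [hfev, hτev] with y h1 h2
    exact fderiv_comp y (h1.differentiableAt (by norm_num)) (h2.differentiableAt (by norm_num))
  have hdf : DifferentiableAt ℝ (fderiv ℝ f) (τ x) :=
    (hf.fderiv_right (m := 1) (by norm_num)).differentiableAt (by norm_num)
  have hdτ : DifferentiableAt ℝ (fderiv ℝ τ) x :=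
    (hτ.fderiv_right (m := 1) (by norm_num)).differentiableAt (by norm_num)
  have hτx : DifferentiableAt ℝ τ x := hτ.differentiableAt (by norm_num)
  have h2 : HasFDerivAt (fun y => fderiv ℝ f (τ y))
      ((fderiv ℝ (fderiv ℝ f) (τ x)).comp (fderiv ℝ τ x)) x :=
    hdf.hasFDerivAt.comp x hτx.hasFDerivAt
  have h3 := h2.clm_comp hdτ.hasFDerivAt
  rw [h1.fderiv_eq, h3.fderiv]
  simp
  abel

lemma FlatAt.comp {a : E2 → E3} {τ : E2 → E2} {x : E2} (h : FlatAt a (τ x))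
    (ha : ContDiffAt ℝ 2 a (τ x)) (hτ : ContDiffAt ℝ 2 τ x)
    (hinv : Function.Surjective (fderiv ℝ τ x)) : FlatAt (a ∘ τ) x := by
  intro v w
  rw [d2_comp_gen ha hτ, fderiv_comp x (ha.differentiableAt (by norm_num))
    (hτ.differentiableAt (by norm_num))]
  obtain ⟨z, hz⟩ := h (fderiv ℝ τ x v) (fderiv ℝ τ x w)
  obtain ⟨u, hu⟩ := hinv (z + fderiv ℝ (fderiv ℝ τ) x v w)
  refine ⟨u, ?_⟩
  rw [ContinuousLinearMap.comp_apply, hu, hz, map_add]

/-- planar flattening: there is `θ` such that all the maps `a + φ_κ N` are flat at `y0` -/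
theorem exists_flat_planar {W : Set E2} (hW : IsOpen W) {i : E2 → EuclideanSpace ℝ (Fin m)}
    (hi : ContDiffOn ℝ ∞ i W) {a : E2 → E3} (ha : ContDiffOn ℝ ∞ a W) {y0 : E2} (hy0 : y0 ∈ W)
    (hinj : Function.Injective (fderiv ℝ i y0)) {N : E3} (hN0 : N ≠ 0)
    (hN : ∀ h : E3, inner ℝ (TT (a y0) h) (TT (a y0) N) = 0 → ∃ z, fderiv ℝ a y0 z = h) :
    ∃ θ : EuclideanSpace ℝ (Fin m) → ℝ, ContDiff ℝ ∞ θ ∧ HasCompactSupport θ ∧
      ∀ κ, 0 < κ → FlatAt (fun y => a y + phiF θ (i y0) κ (i y) • N) y0 := by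
  obtain ⟨L, hL⟩ := exists_leftInv hinj
  have haC : ContDiffAt ℝ ∞ a y0 := ha.contDiffAt (hW.mem_nhds hy0)
  have hiC : ContDiffAt ℝ ∞ i y0 := hi.contDiffAt (hW.mem_nhds hy0)
  set x := a y0
  have hNN : inner ℝ (TT x N) (TT x N) ≠ 0 := fun h0 =>
    hN0 (TT_injective x (by rw [inner_self_eq_zero.1 h0, map_zero]))
  -- the symmetric bilinear form
  let b : E2 →L[ℝ] E2 →L[ℝ] ℝ :=
    (ContinuousLinearMap.compL ℝ E2 E3 ℝ
      ((inner ℝ (TT x N) (TT x N) : ℝ)⁻¹ • ell x N)).comp (fderiv ℝ (fderiv ℝ a) y0)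
  have hbv : ∀ v w, b v w = (inner ℝ (TT x N) (TT x N) : ℝ)⁻¹ *
      inner ℝ (TT x N) (TT x (fderiv ℝ (fderiv ℝ a) y0 v w)) := fun v w => rfl
  have hsymm : ∀ v w, fderiv ℝ (fderiv ℝ a) y0 v w = fderiv ℝ (fderiv ℝ a) y0 w v := by
    have h1 : IsSymmSndFDerivAt ℝ a y0 := by
      apply haC.isSymmSndFDerivAt
      simp only [minSmoothness_of_isRCLikeNormedField]
      exact ENat.LEInfty.out
    intro v w
    exact h1 v w
  obtain ⟨θ, hθ, hc, hθ0, hθ2⟩ := exists_theta L b (fun u v => by rw [hbv, hbv, hsymm])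
  refine ⟨θ, hθ, hc, fun κ hκ v w => ?_⟩
  have hφC : ContDiff ℝ ∞ (phiF θ (i y0) κ) := phiF_contDiff hθ κ
  have hφi : ContDiffAt ℝ ∞ (phiF θ (i y0) κ ∘ i) y0 := hφC.contDiffAt.comp y0 hiC
  have h00 : κ⁻¹ • (i y0 - i y0) = 0 := by simp
  have e1 : fderiv ℝ (phiF θ (i y0) κ) (i y0) = 0 := by
    rw [fderiv_phiF hθ hκ, h00, hθ0, smul_zero]
  have e2 : fderiv ℝ (phiF θ (i y0) κ ∘ i) y0 = 0 := by
    rw [fderiv_comp y0 (hφC.differentiable (by simp) _) (hiC.differentiableAt (by simp)), e1]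
    simp
  have e3 : ∀ v w, fderiv ℝ (fderiv ℝ (phiF θ (i y0) κ ∘ i)) y0 v w = - b v w := fun v w => by
    rw [d2_comp_gen (hφC.contDiffAt.of_le ENat.LEInfty.out) (hiC.of_le ENat.LEInfty.out), e1,
      fderiv2_phiF hθ hκ, h00, hθ2, hL, hL]
    simp
  -- derivatives of the sum
  have hev : fderiv ℝ (fun y => a y + phiF θ (i y0) κ (i y) • N) =ᶠ[𝓝 y0]
      fun y => fderiv ℝ a y + (fderiv ℝ (phiF θ (i y0) κ ∘ i) y).smulRight N := by
    filter_upwards [hW.mem_nhds hy0] with y hy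
    have h1 : HasFDerivAt a (fderiv ℝ a y) y :=
      ((ha.contDiffAt (hW.mem_nhds hy)).differentiableAt (by simp)).hasFDerivAt
    have h2 : HasFDerivAt (phiF θ (i y0) κ ∘ i) (fderiv ℝ (phiF θ (i y0) κ ∘ i) y) y :=
      ((hφC.differentiable (by simp) _).comp y
        ((hi.contDiffAt (hW.mem_nhds hy)).differentiableAt (by simp))).hasFDerivAt
    exact (h1.add (h2.smul_const N)).fderiv
  have d1 : fderiv ℝ (fun y => a y + phiF θ (i y0) κ (i y) • N) y0 = fderiv ℝ a y0 := by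
    rw [hev.self_of_nhds]
    simp only [e2]
    ext v; simp
  have d2 : fderiv ℝ (fderiv ℝ (fun y => a y + phiF θ (i y0) κ (i y) • N)) y0 v w
      = fderiv ℝ (fderiv ℝ a) y0 v w - b v w • N := by
    rw [hev.fderiv_eq]
    have k1 : HasFDerivAt (fderiv ℝ a) (fderiv ℝ (fderiv ℝ a) y0) y0 :=
      ((haC.fderiv_right (m := ∞) (by simp)).differentiableAt (by simp)).hasFDerivAt
    have k2 : HasFDerivAt (fderiv ℝ (phiF θ (i y0) κ ∘ i))
        (fderiv ℝ (fderiv ℝ (phiF θ (i y0) κ ∘ i)) y0) y0 :=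
      ((hφi.fderiv_right (m := ∞) (by simp)).differentiableAt (by simp)).hasFDerivAt
    have k3 : HasFDerivAt (fun y => (fderiv ℝ (phiF θ (i y0) κ ∘ i) y).smulRight N)
        (((ContinuousLinearMap.smulRightL ℝ E2 E3).flip N).comp
          (fderiv ℝ (fderiv ℝ (phiF θ (i y0) κ ∘ i)) y0)) y0 :=
      (((ContinuousLinearMap.smulRightL ℝ E2 E3).flip N).hasFDerivAt).comp y0 k2
    have k4 : HasFDerivAt (fun y => fderiv ℝ a y + (fderiv ℝ (phiF θ (i y0) κ ∘ i) y).smulRight N)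
        (fderiv ℝ (fderiv ℝ a) y0 + ((ContinuousLinearMap.smulRightL ℝ E2 E3).flip N).comp
          (fderiv ℝ (fderiv ℝ (phiF θ (i y0) κ ∘ i)) y0)) y0 := k1.add k3
    rw [k4.fderiv]
    simp only [add_apply, ContinuousLinearMap.comp_apply, ContinuousLinearMap.flip_apply,
      ContinuousLinearMap.smulRightL_apply_apply, ContinuousLinearMap.smulRight_apply, e3]
    module
  have horth : inner ℝ (TT x (fderiv ℝ (fderiv ℝ a) y0 v w - b v w • N)) (TT x N) = 0 := by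
    rw [map_sub, map_smul, inner_sub_left, inner_smul_left, hbv, conj_trivial]
    rw [real_inner_comm (TT x N) (TT x (fderiv ℝ (fderiv ℝ a) y0 v w))]
    field_simp
    ring
  obtain ⟨z, hz⟩ := hN _ horth
  exact ⟨z, by rw [d2, d1, hz]⟩

end Base
end Crest.Agent.R216
end
end

-- ▼ part R216/BaseG
section

/-!
# Row 216: BASE MAP, flattening at finitely many points of the surface (helper904)
-/

set_option autoImplicit false
open scoped Manifold ContDiff Topology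
open Set

noncomputable section
namespace Crest.Agent.R216
namespace Base

variable {M : Type*} [TopologicalSpace M] [ChartedSpace E2 M] [IsManifold (𝓡 2) ∞ M]

/-! ## small helpers -/

lemma fin_min {ι : Type*} [Finite ι] (δ : ι → ℝ) (h : ∀ c, 0 < δ c) : ∃ d > 0, ∀ c, d ≤ δ c := by
  rcases isEmpty_or_nonempty ι with he | he
  · exact ⟨1, one_pos, fun c => (he.false c).elim⟩
  · obtain ⟨c0, hc0⟩ := Finite.exists_min δ
    exact ⟨δ c0, h c0, hc0⟩

omit [IsManifold (𝓡 2) ∞ M] in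
lemma inClass_trans {A : FinAtlas M} {hs h1 h2 : Tens M} {η1 η2 : ℝ}
    (a : InClass A hs η1 h1) (b : InClass A h1 η2 h2) : InClass A hs (η1 + η2) h2 where
  c0 := fun c y hy i j => by
    have e1 := a.c0 c y hy i j
    have e2 := b.c0 c y hy i j
    have e3 := abs_add_le (coef h2 (A.χ c) (bv i) (bv j) y - coef h1 (A.χ c) (bv i) (bv j) y)
      (coef h1 (A.χ c) (bv i) (bv j) y - coef hs (A.χ c) (bv i) (bv j) y)
    rw [sub_add_sub_cancel] at e3
    linarith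
  c1 := fun c y hy i j => by
    have e1 := a.c1 c y hy i j
    have e2 := b.c1 c y hy i j
    have e3 := norm_add_le
      (fderiv ℝ (coef h2 (A.χ c) (bv i) (bv j)) y - fderiv ℝ (coef h1 (A.χ c) (bv i) (bv j)) y)
      (fderiv ℝ (coef h1 (A.χ c) (bv i) (bv j)) y - fderiv ℝ (coef hs (A.χ c) (bv i) (bv j)) y)
    rw [sub_add_sub_cancel] at e3
    linarith

omit [IsManifold (𝓡 2) ∞ M] in
lemma inClass_mono {A : FinAtlas M} {hs h1 : Tens M} {η1 η2 : ℝ}
    (a : InClass A hs η1 h1) (h : η1 ≤ η2) : InClass A hs η2 h1 where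
  c0 := fun c y hy i j => (a.c0 c y hy i j).trans h
  c1 := fun c y hy i j => (a.c1 c y hy i j).trans h

omit [IsManifold (𝓡 2) ∞ M] in
lemma inClass_refl (A : FinAtlas M) (hs : Tens M) {η : ℝ} (h : 0 ≤ η) : InClass A hs η hs where
  c0 := fun c y hy i j => by simpa using h
  c1 := fun c y hy i j => by simpa using h

/-! ## positivity -/

lemma coef_pull_expand {F : M → E4} (hF : ContMDiff (𝓡 2) 𝓘(ℝ, E4) ∞ F)
    {ψ : OpenPartialHomeomorph M E2} (hψ : ψ ∈ IsManifold.maximalAtlas (𝓡 2) ∞ M)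
    {y : E2} (hy : y ∈ ψ.target) (v : E2) :
    coef (pull F) ψ v v y =
      v 0 * v 0 * coef (pull F) ψ (bv 0) (bv 0) y + v 0 * v 1 * coef (pull F) ψ (bv 0) (bv 1) y +
      v 1 * v 0 * coef (pull F) ψ (bv 1) (bv 0) y
      + v 1 * v 1 * coef (pull F) ψ (bv 1) (bv 1) y := by
  simp only [coef_pull hF hψ hy]
  conv_lhs => rw [plane_decomp v]
  simp only [map_add, map_smul, inner_add_left, inner_add_right, inner_smul_left,
    inner_smul_right, conj_trivial]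
  ring

lemma coef_pos {F : M → E4}
    (hpos : ∀ (p : M) (v : TangentSpace (𝓡 2) p), v ≠ 0 → 0 < pull F p v v)
    {ψ : OpenPartialHomeomorph M E2} (hψ : ψ ∈ IsManifold.maximalAtlas (𝓡 2) ∞ M)
    {y : E2} (hy : y ∈ ψ.target) {v : E2} (hv : v ≠ 0) : 0 < coef (pull F) ψ v v y := by
  apply hpos
  intro h0
  apply hv
  have h1 := dchart_symm hψ hy v
  have h2 : mfderiv (𝓡 2) (𝓡 2) ψ.symm y v = 0 := h0
  rw [h2] at h1
  rw [← h1]
  exact map_zero _

lemma norm_sq_E2 (v : E2) : ‖v‖ ^ 2 = v 0 ^ 2 + v 1 ^ 2 := by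
  rw [EuclideanSpace.norm_sq_eq]
  simp

theorem exists_lower (A : FinAtlas M) {F : M → E4} (hF : ContMDiff (𝓡 2) 𝓘(ℝ, E4) ∞ F)
    (hpos : ∀ (p : M) (v : TangentSpace (𝓡 2) p), v ≠ 0 → 0 < pull F p v v) :
    ∃ δ > 0, ∀ c, ∀ y ∈ A.K c, ∀ v : E2, δ * ‖v‖ ^ 2 ≤ coef (pull F) (A.χ c) v v y := by
  have h1 : ∀ c, ∃ δ > 0, ∀ y ∈ A.K c, ∀ v : E2, δ * ‖v‖ ^ 2 ≤ coef (pull F) (A.χ c) v v y := by
    intro c
    rcases (A.K c).eq_empty_or_nonempty with he | hne
    · exact ⟨1, one_pos, fun y hy => by simp [he] at hy⟩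
    · have hcpt : IsCompact (A.K c ×ˢ Metric.sphere (0 : E2) 1) :=
        (A.cpt c).prod (isCompact_sphere _ _)
      have hne2 : (A.K c ×ˢ Metric.sphere (0 : E2) 1).Nonempty := by
        obtain ⟨y, hy⟩ := hne
        exact ⟨(y, bv 0), hy, by simp [bv]⟩
      have hc : ∀ i j : Fin 2, ContinuousOn (fun q : E2 × E2 =>
          coef (pull F) (A.χ c) (bv i) (bv j) q.1) (A.K c ×ˢ Metric.sphere (0 : E2) 1) :=
        fun i j => ((coef_pull_contDiffOn hF (A.hχ c) (bv i) (bv j)).continuousOn.mono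
          (A.sub c)).comp continuousOn_fst (fun q hq => hq.1)
      have hv : ∀ i : Fin 2, ContinuousOn (fun q : E2 × E2 => q.2 i)
          (A.K c ×ˢ Metric.sphere (0 : E2) 1) := fun i => by
        have : Continuous (fun q : E2 × E2 => q.2 i) := by fun_prop
        exact this.continuousOn
      have hcont : ContinuousOn (fun q : E2 × E2 =>
        q.2 0 * q.2 0 * coef (pull F) (A.χ c) (bv 0) (bv 0) q.1
        + q.2 0 * q.2 1 * coef (pull F) (A.χ c) (bv 0) (bv 1) q.1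
        + q.2 1 * q.2 0 * coef (pull F) (A.χ c) (bv 1) (bv 0) q.1
        + q.2 1 * q.2 1 * coef (pull F) (A.χ c) (bv 1) (bv 1) q.1)
          (A.K c ×ˢ Metric.sphere (0 : E2) 1) :=
        (((((hv 0).mul (hv 0)).mul (hc 0 0)).add (((hv 0).mul (hv 1)).mul (hc 0 1))).add
          (((hv 1).mul (hv 0)).mul (hc 1 0))).add (((hv 1).mul (hv 1)).mul (hc 1 1))
      obtain ⟨q, hq, hmin⟩ := hcpt.exists_isMinOn hne2 hcont
      have hqne : q.2 ≠ 0 := by
        intro h0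
        have := hq.2
        rw [h0] at this
        simp at this
      have hqpos := coef_pos hpos (A.hχ c) (A.sub c hq.1) hqne
      rw [coef_pull_expand hF (A.hχ c) (A.sub c hq.1)] at hqpos
      refine ⟨_, hqpos, fun y hy v => ?_⟩
      rcases eq_or_ne v 0 with rfl | hv0
      · have : coef (pull F) (A.χ c) 0 0 y = 0 := by
          rw [coef_pull hF (A.hχ c) (A.sub c hy)]; simp
        rw [this]; simp
      have hn : 0 < ‖v‖ := norm_pos_iff.2 hv0
      have hmem : (y, ‖v‖⁻¹ • v) ∈ A.K c ×ˢ Metric.sphere (0 : E2) 1 :=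
        ⟨hy, by simp [norm_smul, hn.ne']⟩
      have h2 := hmin hmem
      rw [Set.mem_ofPred_eq] at h2
      rw [coef_pull_expand hF (A.hχ c) (A.sub c hy) v]
      refine (mul_le_mul_of_nonneg_right h2 (sq_nonneg ‖v‖)).trans (le_of_eq ?_)
      simp only [PiLp.smul_apply, smul_eq_mul]
      field_simp
  choose δ hδ hδ' using h1
  obtain ⟨d, hd, hd'⟩ := fin_min δ hδ
  exact ⟨d, hd, fun c y hy v => (mul_le_mul_of_nonneg_right (hd' c) (sq_nonneg _)).trans
    (hδ' c y hy v)⟩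

theorem exists_pos_nbhd (A : FinAtlas M) {F : M → E4} (hF : ContMDiff (𝓡 2) 𝓘(ℝ, E4) ∞ F)
    (hpos : ∀ (p : M) (v : TangentSpace (𝓡 2) p), v ≠ 0 → 0 < pull F p v v) :
    ∃ η0 > 0, ∀ F' : M → E4, ContMDiff (𝓡 2) 𝓘(ℝ, E4) ∞ F' →
      InClass A (pull F) η0 (pull F') →
      ∀ (p : M) (v : TangentSpace (𝓡 2) p), v ≠ 0 → 0 < pull F' p v v := by
  obtain ⟨δ, hδ, hlow⟩ := exists_lower A hF hpos
  refine ⟨δ / 4, by positivity, fun F' hF' hcl p v hv => ?_⟩
  obtain ⟨c, hpc, hint⟩ := A.cover p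
  have hyK : A.χ c p ∈ A.K c := interior_subset hint
  rw [tens_eq_coef (pull F') (A.hχ c) hpc]
  set u : E2 := mfderiv (𝓡 2) (𝓡 2) (A.χ c) p v with hu
  have hu0 : u ≠ 0 := by
    intro h0
    apply hv
    have h1 := dsymm_chart (A.hχ c) hpc v
    have h2 : mfderiv (𝓡 2) (𝓡 2) (A.χ c) p v = 0 := h0
    rw [h2] at h1
    rw [← h1]
    exact map_zero _
  have h1 := hlow c _ hyK u
  rw [coef_pull_expand hF (A.hχ c) (A.sub c hyK)] at h1
  rw [coef_pull_expand hF' (A.hχ c) (A.sub c hyK)]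
  have c00 := abs_le.1 (hcl.c0 c _ hyK 0 0)
  have c01 := abs_le.1 (hcl.c0 c _ hyK 0 1)
  have c10 := abs_le.1 (hcl.c0 c _ hyK 1 0)
  have c11 := abs_le.1 (hcl.c0 c _ hyK 1 1)
  set a00 := coef (pull F) (A.χ c) (bv 0) (bv 0) (A.χ c p)
  set a01 := coef (pull F) (A.χ c) (bv 0) (bv 1) (A.χ c p)
  set a10 := coef (pull F) (A.χ c) (bv 1) (bv 0) (A.χ c p)
  set a11 := coef (pull F) (A.χ c) (bv 1) (bv 1) (A.χ c p)
  set b00 := coef (pull F') (A.χ c) (bv 0) (bv 0) (A.χ c p)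
  set b01 := coef (pull F') (A.χ c) (bv 0) (bv 1) (A.χ c p)
  set b10 := coef (pull F') (A.χ c) (bv 1) (bv 0) (A.χ c p)
  set b11 := coef (pull F') (A.χ c) (bv 1) (bv 1) (A.χ c p)
  have hn : 0 < ‖u‖ ^ 2 := by positivity
  rw [norm_sq_E2] at h1 hn
  have habs : ∀ s t : ℝ, -(δ / 4) ≤ t → t ≤ δ / 4 → -(δ / 4 * |s|) ≤ s * t := by
    intro s t h h'
    have h3 : |s * t| ≤ |s| * (δ / 4) := by
      rw [abs_mul]
      exact mul_le_mul_of_nonneg_left (abs_le.2 ⟨h, h'⟩) (abs_nonneg s)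
    have h4 := neg_abs_le (s * t)
    linarith
  have t00 := habs (u 0 * u 0) _ c00.1 c00.2
  have t01 := habs (u 0 * u 1) _ c01.1 c01.2
  have t10 := habs (u 1 * u 0) _ c10.1 c10.2
  have t11 := habs (u 1 * u 1) _ c11.1 c11.2
  have s0 : |u 0 * u 0| = u 0 ^ 2 := by rw [abs_of_nonneg (mul_self_nonneg _)]; ring
  have s1 : |u 1 * u 1| = u 1 ^ 2 := by rw [abs_of_nonneg (mul_self_nonneg _)]; ring
  have s01 : |u 0 * u 1| ≤ (u 0 ^ 2 + u 1 ^ 2) / 2 := by
    rw [abs_le]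
    constructor
    · nlinarith [sq_nonneg (u 0 + u 1)]
    · nlinarith [sq_nonneg (u 0 - u 1)]
  have s10 : |u 1 * u 0| ≤ (u 0 ^ 2 + u 1 ^ 2) / 2 := by rw [mul_comm]; exact s01
  rw [s0] at t00
  rw [s1] at t11
  have m01 : δ / 4 * |u 0 * u 1| ≤ δ / 4 * ((u 0 ^ 2 + u 1 ^ 2) / 2) := by gcongr
  have m10 : δ / 4 * |u 1 * u 0| ≤ δ / 4 * ((u 0 ^ 2 + u 1 ^ 2) / 2) := by gcongr
  have hδn : 0 < δ * (u 0 ^ 2 + u 1 ^ 2) := by positivity
  nlinarith

/-! ## flatness on the surface -/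

def FlatM (j : M → E3) (q : M) : Prop :=
  ∀ ψ ∈ IsManifold.maximalAtlas (𝓡 2) ∞ M, q ∈ ψ.source → FlatAt (rep j ψ) (ψ q)

lemma flatM_of_chart {j : M → E3} (hj : ContMDiff (𝓡 2) 𝓘(ℝ, E3) ∞ j)
    {χ : OpenPartialHomeomorph M E2} (hχ : χ ∈ IsManifold.maximalAtlas (𝓡 2) ∞ M) {q : M}
    (hq : q ∈ χ.source) (h : FlatAt (rep j χ) (χ q)) : FlatM j q := by
  intro ψ hψ hqψ
  have h1 : ψ.symm (ψ q) ∈ χ.source := by rwa [ψ.left_inv hqψ]
  have h2 : trans ψ χ (ψ q) = χ q := by simp [trans, ψ.left_inv hqψ]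
  have hev := rep_trans j (ψ.map_source hqψ) h1
  refine FlatAt.congr (FlatAt.comp (by rwa [h2]) ?_ ?_ ?_) hev
  · rw [h2]
    exact ((rep_contDiffOn hj hχ).contDiffAt (χ.open_target.mem_nhds (χ.map_source hq))).of_le
      ENat.LEInfty.out
  · exact (trans_contDiffAt hψ hχ (ψ.map_source hqψ) h1).of_le ENat.LEInfty.out
  · exact fderiv_trans_surjective hψ hχ (ψ.map_source hqψ) h1

omit [IsManifold (𝓡 2) ∞ M] in
lemma FlatM.congr {j j' : M → E3} {q : M} (h : FlatM j q) (hev : j' =ᶠ[𝓝 q] j) :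
    FlatM j' q := by
  intro ψ hψ hq
  refine (h ψ hψ hq).congr ?_
  have hc : ContinuousAt ψ.symm (ψ q) := ψ.continuousAt_symm (ψ.map_source hq)
  have h1 : Filter.Tendsto ψ.symm (𝓝 (ψ q)) (𝓝 q) := by
    have := hc.tendsto
    rwa [ψ.left_inv hq] at this
  exact h1.eventually hev

end Base
end Crest.Agent.R216
end
end

-- ▼ part R216/BaseFlat

/-!
# Row 216: BASE MAP, flattening at finitely many points of the surface, main result (helper904)
-/

set_option autoImplicit false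
open scoped Manifold ContDiff Topology
open Set

noncomputable section
namespace Crest.Agent.R216
namespace Base

variable {M : Type*} [TopologicalSpace M] [ChartedSpace E2 M] [IsManifold (𝓡 2) ∞ M]

omit [IsManifold (𝓡 2) ∞ M] in
lemma contMDiff_Phi_comp {j : M → E3} (hj : ContMDiff (𝓡 2) 𝓘(ℝ, E3) ∞ j) :
    ContMDiff (𝓡 2) 𝓘(ℝ, E4) ∞ (Phi ∘ j) :=
  contDiff_Phi.contMDiff.comp hj

/-- positivity of the pulled back metric gives injectivity of the planar derivative -/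
lemma rep_injective {j : M → E3} (hj : ContMDiff (𝓡 2) 𝓘(ℝ, E3) ∞ j)
    (hpos : ∀ (p : M) (v : TangentSpace (𝓡 2) p), v ≠ 0 → 0 < pull (Phi ∘ j) p v v)
    {ψ : OpenPartialHomeomorph M E2} (hψ : ψ ∈ IsManifold.maximalAtlas (𝓡 2) ∞ M)
    {y : E2} (hy : y ∈ ψ.target) : Function.Injective (fderiv ℝ (rep j ψ) y) := by
  rw [injective_iff_map_eq_zero]
  intro v hv
  by_contra hne
  have h1 := coef_pos hpos hψ hy hne
  rw [coef_pull (contMDiff_Phi_comp hj) hψ hy] at h1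
  have h2 : fderiv ℝ ((Phi ∘ j) ∘ ψ.symm) y v = TT (rep j ψ y) (fderiv ℝ (rep j ψ) y v) :=
    fderiv_Phi_compW ψ.open_target (rep_contDiffOn hj hψ) hy v
  rw [h2, hv, map_zero, inner_zero_left] at h1
  exact lt_irrefl _ h1

section step
variable {m : ℕ}

/-- the modified map -/
def jmod (j : M → E3) (ι : M → EuclideanSpace ℝ (Fin m)) (θ : EuclideanSpace ℝ (Fin m) → ℝ)
    (p : M) (N : E3) (κ : ℝ) (q : M) : E3 := j q + phiF θ (ι p) κ (ι q) • N

omit [IsManifold (𝓡 2) ∞ M] in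
lemma jmod_contMDiff {j : M → E3} (hj : ContMDiff (𝓡 2) 𝓘(ℝ, E3) ∞ j)
    {ι : M → EuclideanSpace ℝ (Fin m)}
    (hι : ContMDiff (𝓡 2) 𝓘(ℝ, EuclideanSpace ℝ (Fin m)) ∞ ι)
    {θ : EuclideanSpace ℝ (Fin m) → ℝ} (hθ : ContDiff ℝ ∞ θ) (p : M) (N : E3) (κ : ℝ) :
    ContMDiff (𝓡 2) 𝓘(ℝ, E3) ∞ (jmod j ι θ p N κ) := by
  have h1 : ContMDiff (𝓡 2) 𝓘(ℝ, ℝ) ∞ (fun q => phiF θ (ι p) κ (ι q)) :=
    (phiF_contDiff hθ κ).contMDiff.comp hι
  exact hj.add (h1.smul contMDiff_const)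

/-- the coefficients of the modified metrics are close for small `κ` -/
lemma inClass_jmod (A : FinAtlas M) {j : M → E3} (hj : ContMDiff (𝓡 2) 𝓘(ℝ, E3) ∞ j)
    {ι : M → EuclideanSpace ℝ (Fin m)}
    (hι : ContMDiff (𝓡 2) 𝓘(ℝ, EuclideanSpace ℝ (Fin m)) ∞ ι) (hinj : Function.Injective ι)
    {θ : EuclideanSpace ℝ (Fin m) → ℝ} (hθ : ContDiff ℝ ∞ θ) (hc : HasCompactSupport θ)
    (p : M) (N : E3)
    (hN : ∀ v : E2, inner ℝ (TT (j p) N)
      (TT (j p) (fderiv ℝ (rep j (chartAt E2 p)) (chartAt E2 p p) v)) = 0)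
    {η : ℝ} (hη : 0 < η) :
    ∃ κ0 > 0, ∀ κ, 0 < κ → κ < κ0 →
      InClass A (pull (Phi ∘ j)) η (pull (Phi ∘ jmod j ι θ p N κ)) := by
  set ψ := chartAt E2 p with hψdef
  have hψ : ψ ∈ IsManifold.maximalAtlas (𝓡 2) ∞ M := IsManifold.chart_mem_maximalAtlas p
  have hpψ : p ∈ ψ.source := mem_chart_source E2 p
  -- orthogonality at the point, in the charts of the atlas
  have horth : ∀ c, ∀ y ∈ A.K c, rep ι (A.χ c) y = ι p → ∀ v : E2,
      inner ℝ (TT (rep j (A.χ c) y) N)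
        (TT (rep j (A.χ c) y) (fderiv ℝ (rep j (A.χ c)) y v)) = 0 := by
    intro c y hy hιy v
    have hyt := A.sub c hy
    have hyp : (A.χ c).symm y = p := hinj hιy
    have hsrc : (A.χ c).symm y ∈ ψ.source := by rw [hyp]; exact hpψ
    have e1 : rep j (A.χ c) y = j p := by simp only [rep, Function.comp_apply, hyp]
    have e2 : trans (A.χ c) ψ y = ψ p := by simp only [trans, Function.comp_apply, hyp]
    have e3 : fderiv ℝ (rep j (A.χ c)) y v
        = fderiv ℝ (rep j ψ) (ψ p) (fderiv ℝ (trans (A.χ c) ψ) y v) := by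
      have hd : DifferentiableAt ℝ (rep j ψ) (trans (A.χ c) ψ y) := by
        rw [e2]
        exact ((rep_contDiffOn hj hψ).contDiffAt
          (ψ.open_target.mem_nhds (ψ.map_source hpψ))).differentiableAt (by simp)
      rw [(rep_trans j hyt hsrc).fderiv_eq, fderiv_comp y hd
        ((trans_contDiffAt (A.hχ c) hψ hyt hsrc).differentiableAt (by simp)), e2]
      rfl
    rw [e1, e3]
    exact hN _
  -- smallness of all coefficients
  have hsm : ∀ t : Fin A.n × Fin 2 × Fin 2, ∃ κ0 > 0, ∀ κ, 0 < κ → κ < κ0 → ∀ y ∈ A.K t.1,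
      |coef (pull (Phi ∘ jmod j ι θ p N κ)) (A.χ t.1) (bv t.2.1) (bv t.2.2) y
        - coef (pull (Phi ∘ j)) (A.χ t.1) (bv t.2.1) (bv t.2.2) y| ≤ η ∧
      ‖fderiv ℝ (coef (pull (Phi ∘ jmod j ι θ p N κ)) (A.χ t.1) (bv t.2.1) (bv t.2.2)) y
        - fderiv ℝ (coef (pull (Phi ∘ j)) (A.χ t.1) (bv t.2.1) (bv t.2.2)) y‖ ≤ η := by
    rintro ⟨c, a, b⟩
    have h := sm_coef (z0 := ι p) (A.χ c).open_target (A.cpt c) (A.sub c)
      (rep_contDiffOn hι (A.hχ c)) hθ hc (rep_contDiffOn hj (A.hχ c)) N (horth c) (bv a) (bv b)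
    obtain ⟨κ0, h0, h1⟩ := h.2 η hη
    refine ⟨κ0, h0, fun κ hκ hκ' y hy => ?_⟩
    have hyt := A.sub c hy
    have hform : ∀ z ∈ (A.χ c).target,
        coef (pull (Phi ∘ jmod j ι θ p N κ)) (A.χ c) (bv a) (bv b) z
        - coef (pull (Phi ∘ j)) (A.χ c) (bv a) (bv b) z =
        inner ℝ (fderiv ℝ (fun y => Phi (rep j (A.χ c) y
            + phiF θ (ι p) κ (rep ι (A.χ c) y) • N)) z (bv a))
          (fderiv ℝ (fun y => Phi (rep j (A.χ c) y
            + phiF θ (ι p) κ (rep ι (A.χ c) y) • N)) z (bv b))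
        - inner ℝ (fderiv ℝ (fun y => Phi (rep j (A.χ c) y)) z (bv a))
          (fderiv ℝ (fun y => Phi (rep j (A.χ c) y)) z (bv b)) := by
      intro z hz
      rw [coef_pull (contMDiff_Phi_comp (jmod_contMDiff hj hι hθ p N κ)) (A.hχ c) hz,
        coef_pull (contMDiff_Phi_comp hj) (A.hχ c) hz]
      rfl
    obtain ⟨g0, g1⟩ := h1 κ hκ hκ' y hy
    constructor
    · simp only
      rw [hform y hyt]
      exact g0
    · simp only
      have d1 : DifferentiableAt ℝ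
          (coef (pull (Phi ∘ jmod j ι θ p N κ)) (A.χ c) (bv a) (bv b)) y :=
        ((coef_pull_contDiffOn (contMDiff_Phi_comp (jmod_contMDiff hj hι hθ p N κ)) (A.hχ c)
          (bv a) (bv b)).contDiffAt ((A.χ c).open_target.mem_nhds hyt)).differentiableAt (by simp)
      have d2 : DifferentiableAt ℝ (coef (pull (Phi ∘ j)) (A.χ c) (bv a) (bv b)) y :=
        ((coef_pull_contDiffOn (contMDiff_Phi_comp hj) (A.hχ c)
          (bv a) (bv b)).contDiffAt ((A.χ c).open_target.mem_nhds hyt)).differentiableAt (by simp)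
      rw [← fderiv_fun_sub d1 d2]
      have hev : (fun z => coef (pull (Phi ∘ jmod j ι θ p N κ)) (A.χ c) (bv a) (bv b) z
        - coef (pull (Phi ∘ j)) (A.χ c) (bv a) (bv b) z) =ᶠ[𝓝 y]
        (fun z => inner ℝ (fderiv ℝ (fun y => Phi (rep j (A.χ c) y
            + phiF θ (ι p) κ (rep ι (A.χ c) y) • N)) z (bv a))
          (fderiv ℝ (fun y => Phi (rep j (A.χ c) y
            + phiF θ (ι p) κ (rep ι (A.χ c) y) • N)) z (bv b))
        - inner ℝ (fderiv ℝ (fun y => Phi (rep j (A.χ c) y)) z (bv a))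
          (fderiv ℝ (fun y => Phi (rep j (A.χ c) y)) z (bv b))) := by
        filter_upwards [(A.χ c).open_target.mem_nhds hyt] with z hz
        exact hform z hz
      rw [hev.fderiv_eq]
      exact g1
  choose κf hκf hκf' using hsm
  obtain ⟨κ0, h0, h1⟩ := fin_min κf hκf
  refine ⟨κ0, h0, fun κ hκ hκ' => ⟨fun c y hy a b => ?_, fun c y hy a b => ?_⟩⟩
  · exact (hκf' (c, a, b) κ hκ (hκ'.trans_le (h1 _)) y hy).1
  · exact (hκf' (c, a, b) κ hκ (hκ'.trans_le (h1 _)) y hy).2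

end step

/-- flattening at one more point -/
theorem exists_flat_step [T2Space M] [CompactSpace M] (A : FinAtlas M) (j : M → E3)
    (hj : ContMDiff (𝓡 2) 𝓘(ℝ, E3) ∞ j)
    (hpos : ∀ (p : M) (v : TangentSpace (𝓡 2) p), v ≠ 0 → 0 < pull (Phi ∘ j) p v v)
    (X : Set M) (hX : X.Finite) (hflat : ∀ q ∈ X, FlatM j q) (p : M) (hp : p ∉ X)
    (η : ℝ) (hη : 0 < η) :
    ∃ jp : M → E3, ContMDiff (𝓡 2) 𝓘(ℝ, E3) ∞ jp ∧
      (∀ (p : M) (v : TangentSpace (𝓡 2) p), v ≠ 0 → 0 < pull (Phi ∘ jp) p v v) ∧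
      InClass A (pull (Phi ∘ j)) η (pull (Phi ∘ jp)) ∧ ∀ q ∈ insert p X, FlatM jp q := by
  obtain ⟨m, ι, hι, hemb, hιinj⟩ := exists_embedding_euclidean_of_compact (I := 𝓡 2) (M := M)
  have hι' : ContMDiff (𝓡 2) 𝓘(ℝ, EuclideanSpace ℝ (Fin m)) ∞ ι := hι
  have hinj : Function.Injective ι := hemb.injective
  have hψ : chartAt E2 p ∈ IsManifold.maximalAtlas (𝓡 2) ∞ M :=
    IsManifold.chart_mem_maximalAtlas p
  have hpψ : p ∈ (chartAt E2 p).source := mem_chart_source E2 p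
  have hyt : chartAt E2 p p ∈ (chartAt E2 p).target := (chartAt E2 p).map_source hpψ
  have ej : rep j (chartAt E2 p) (chartAt E2 p p) = j p := by
    simp [rep, (chartAt E2 p).left_inv hpψ]
  have ei : rep ι (chartAt E2 p) (chartAt E2 p p) = ι p := by
    simp [rep, (chartAt E2 p).left_inv hpψ]
  obtain ⟨N, hN0, hN1, hN2⟩ := exists_normal (rep_injective hj hpos hψ hyt) (j p)
  -- injectivity of the planar derivative of the embedding
  have hii : Function.Injective (fderiv ℝ (rep ι (chartAt E2 p)) (chartAt E2 p p)) := by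
    rw [injective_iff_map_eq_zero]
    intro v hv
    have h1 := mfderiv_symm hι' hψ hyt v
    rw [hv] at h1
    have h2 : mfderiv (𝓡 2) (𝓡 2) (chartAt E2 p).symm (chartAt E2 p p) v = 0 :=
      hιinj _ (by rw [map_zero]; exact h1)
    have h3 := dchart_symm hψ hyt v
    rw [h2] at h3
    rw [← h3]; exact map_zero _
  obtain ⟨θ, hθ, hc, hfl⟩ := exists_flat_planar (chartAt E2 p).open_target
    (rep_contDiffOn hι' hψ) (rep_contDiffOn hj hψ) hyt hii hN0 (by rw [ej]; exact hN2)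
  -- positivity is stable
  obtain ⟨η0, hη0, hstab⟩ := exists_pos_nbhd A (contMDiff_Phi_comp hj) hpos
  obtain ⟨κ1, hκ1, hcl⟩ := inClass_jmod A hj hι' hinj hθ hc p N hN1 (lt_min hη hη0)
  -- near the other points nothing changes
  obtain ⟨C, hC, R0, hR0, -, hsupp⟩ := exists_bounds hθ hc
  obtain ⟨R, hR, -, hoff⟩ := phi_zero_off (z0 := ι p) (θ := θ) ⟨R0, hsupp⟩
  obtain ⟨d, hd, hdX⟩ : ∃ d > 0, ∀ q ∈ X, d < ‖ι q - ι p‖ := by
    have h1 : IsClosed (ι '' X) := (hX.image ι).isClosed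
    have h2 : ι p ∈ (ι '' X)ᶜ := by
      rintro ⟨q, hq, he⟩
      exact hp (hinj he ▸ hq)
    obtain ⟨e, he, hball⟩ := Metric.isOpen_iff.1 h1.isOpen_compl _ h2
    refine ⟨e / 2, by positivity, fun q hq => ?_⟩
    by_contra hcon
    push Not at hcon
    have h3 : ι q ∈ Metric.ball (ι p) e := by
      rw [Metric.mem_ball, dist_eq_norm]; linarith
    exact hball h3 ⟨q, hq, rfl⟩
  set κ := min κ1 (d / R) / 2 with hκdef
  have hκ : 0 < κ := by positivity
  have hκ1' : κ < κ1 := by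
    have := min_le_left κ1 (d / R)
    have h2 : 0 < min κ1 (d / R) := by positivity
    rw [hκdef]; linarith
  have hκd : κ * R < d := by
    have h1 := min_le_right κ1 (d / R)
    have h2 : 0 < min κ1 (d / R) := by positivity
    have h3 : κ < d / R := by rw [hκdef]; linarith
    rwa [lt_div_iff₀ hR] at h3
  have hsm := jmod_contMDiff hj hι' hθ p N κ
  have hcl' := hcl κ hκ hκ1'
  refine ⟨jmod j ι θ p N κ, hsm, hstab _ (contMDiff_Phi_comp hsm)
    (inClass_mono hcl' (min_le_right _ _)), inClass_mono hcl' (min_le_left _ _), ?_⟩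
  rintro q (rfl | hq)
  · refine flatM_of_chart hsm hψ hpψ ?_
    have := hfl κ hκ
    rw [ei] at this
    exact this
  · refine (hflat q hq).congr ?_
    have h1 : ∀ᶠ z in 𝓝 q, κ * R < ‖ι z - ι p‖ := by
      have hcont : ContinuousAt (fun z => ‖ι z - ι p‖) q :=
        ((hι.continuous.sub continuous_const).norm).continuousAt
      exact hcont.eventually (lt_mem_nhds (hκd.trans (hdX q hq)))
    filter_upwards [h1] with z hz
    simp only [jmod, hoff κ hκ _ hz, zero_smul, add_zero]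

/-- **flattening at finitely many points** -/
theorem exists_flat [T2Space M] [CompactSpace M] (A : FinAtlas M) (j : M → E3)
    (hj : ContMDiff (𝓡 2) 𝓘(ℝ, E3) ∞ j)
    (hpos : ∀ (p : M) (v : TangentSpace (𝓡 2) p), v ≠ 0 → 0 < pull (Phi ∘ j) p v v)
    (X : Set M) (hX : X.Finite) (η : ℝ) (hη : 0 < η) :
    ∃ jp : M → E3, ContMDiff (𝓡 2) 𝓘(ℝ, E3) ∞ jp ∧
      (∀ (p : M) (v : TangentSpace (𝓡 2) p), v ≠ 0 → 0 < pull (Phi ∘ jp) p v v) ∧
      InClass A (pull (Phi ∘ j)) η (pull (Phi ∘ jp)) ∧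
      ∀ ψ ∈ IsManifold.maximalAtlas (𝓡 2) ∞ M, ∀ p ∈ X, p ∈ ψ.source →
        ∀ v w : E2, ∃ z : E2, fderiv ℝ (fderiv ℝ (jp ∘ ψ.symm)) (ψ p) v w
          = fderiv ℝ (jp ∘ ψ.symm) (ψ p) z := by
  suffices h : ∀ η : ℝ, 0 < η → ∃ jp : M → E3, ContMDiff (𝓡 2) 𝓘(ℝ, E3) ∞ jp ∧
      (∀ (p : M) (v : TangentSpace (𝓡 2) p), v ≠ 0 → 0 < pull (Phi ∘ jp) p v v) ∧
      InClass A (pull (Phi ∘ j)) η (pull (Phi ∘ jp)) ∧ ∀ q ∈ X, FlatM jp q by
    obtain ⟨jp, h1, h2, h3, h4⟩ := h η hη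
    exact ⟨jp, h1, h2, h3, fun ψ hψ p hp hpψ => h4 p hp ψ hψ hpψ⟩
  clear hη η
  induction X, hX using Set.Finite.induction_on with
  | empty => exact fun η hη => ⟨j, hj, hpos, inClass_refl A _ hη.le, by simp⟩
  | insert hpX hX ih =>
    intro η hη
    obtain ⟨j1, h1, h2, h3, h4⟩ := ih (η / 2) (half_pos hη)
    obtain ⟨j2, g1, g2, g3, g4⟩ := exists_flat_step A j1 h1 h2 _ hX h4 _ hpX (η / 2) (half_pos hη)
    refine ⟨j2, g1, g2, ?_, g4⟩
    have := inClass_trans h3 g3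
    rwa [add_halves] at this

end Base
end Crest.Agent.R216
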