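import Crest.Agent.R216.EngDefs
import Crest.Agent.R216.Par

/-!
# Row 216: calculus of `mean`, `osc`, `prim`.
-/

open Set Topology MeasureTheory
open scoped ContDiff

set_option linter.unusedSectionVars false

namespace Crest.Agent.R216.TE

section ClsT
variable {V : Type*} [NormedAddCommGroup V] [NormedSpace ℝ V] [CompleteSpace V]

lemma CT.isOpen_fst {D : Set X2} (hD : IsOpen D) : IsOpen {z : Q | z.1 ∈ D} :=
  hD.preimage continuous_fst

/-- continuity along a fibre -/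
lemma CT.fibre_cont {D : Set X2} {u : Q → V} (hu : ContDiffOn ℝ ∞ u {z | z.1 ∈ D}) {x : X2}
    (hx : x ∈ D) : Continuous (fun s => u (x, s)) := by
  have h1 : ContinuousOn u {z | z.1 ∈ D} := hu.continuousOn
  have h2 : ContinuousOn (fun s : ℝ => u (x, s)) univ :=
    h1.comp (by fun_prop) (fun s _ => hx)
  exact continuousOn_univ.1 h2

/-- the map `(z, s) ↦ (z.1, s)` -/
lemma CT.smooth_fibre {D : Set X2} {u : Q → V} (hu : ContDiffOn ℝ ∞ u {z | z.1 ∈ D}) :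
    ContDiffOn ℝ ∞ (fun p : Q × ℝ => u (p.1.1, p.2)) {p : Q × ℝ | p.1.1 ∈ D} :=
  hu.comp (t := {z : Q | z.1 ∈ D}) (by fun_prop) (fun p hp => hp)

lemma CT.isOpen_fibre {D : Set X2} (hD : IsOpen D) : IsOpen {p : Q × ℝ | p.1.1 ∈ D} :=
  hD.preimage (continuous_fst.comp continuous_fst)

/-- smoothness of `z ↦ ∫_a^b u(z.1, s) ds` -/
lemma CT.smooth_int {D : Set X2} (hD : IsOpen D) {u : Q → V} (hu : ContDiffOn ℝ ∞ u {z | z.1 ∈ D})
    (a b : ℝ) : ContDiffOn ℝ ∞ (fun z : Q => ∫ s in a..b, u (z.1, s)) {z | z.1 ∈ D} :=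
  Crest.Agent.R216.Par.contDiffOn_par (E := Q) (CT.isOpen_fst hD) (CT.isOpen_fibre hD) (fun _ hz _ _ => hz)
    (CT.smooth_fibre hu)

lemma CT.smooth_mean {D : Set X2} (hD : IsOpen D) {u : Q → V} (hu : ContDiffOn ℝ ∞ u {z | z.1 ∈ D}) :
    ContDiffOn ℝ ∞ (mean u) {z | z.1 ∈ D} :=
  contDiffOn_const.smul (CT.smooth_int hD hu _ _)

lemma CT.smooth_osc {D : Set X2} (hD : IsOpen D) {u : Q → V} (hu : ContDiffOn ℝ ∞ u {z | z.1 ∈ D}) :
    ContDiffOn ℝ ∞ (osc u) {z | z.1 ∈ D} :=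
  hu.sub (CT.smooth_mean hD hu)

/-- `prim0 u z = z.2 • ∫_0^1 u(z.1, l z.2) dl` -/
lemma CT.prim0_eq (u : Q → V) (z : Q) :
    prim0 u z = z.2 • ∫ l in (0:ℝ)..1, u (z.1, z.2 * l) := by
  unfold prim0
  rw [intervalIntegral.smul_integral_comp_mul_left (fun s => u (z.1, s))]
  simp

lemma CT.smooth_prim0 {D : Set X2} (hD : IsOpen D) {u : Q → V}
    (hu : ContDiffOn ℝ ∞ u {z | z.1 ∈ D}) : ContDiffOn ℝ ∞ (prim0 u) {z | z.1 ∈ D} := by
  have h1 : ContDiffOn ℝ ∞ (fun p : Q × ℝ => u (p.1.1, p.1.2 * p.2)) {p : Q × ℝ | p.1.1 ∈ D} :=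
    hu.comp (t := {z : Q | z.1 ∈ D}) (by fun_prop) (fun p hp => hp)
  have h2 : ContDiffOn ℝ ∞ (fun z : Q => ∫ l in (0:ℝ)..1, u (z.1, z.2 * l)) {z | z.1 ∈ D} :=
    Crest.Agent.R216.Par.contDiffOn_par (E := Q) (CT.isOpen_fst hD) (CT.isOpen_fibre hD) (fun _ hz _ _ => hz) h1
  have h3 : ContDiffOn ℝ ∞ (fun z : Q => z.2 • ∫ l in (0:ℝ)..1, u (z.1, z.2 * l)) {z | z.1 ∈ D} :=
    (by fun_prop : ContDiffOn ℝ ∞ (fun z : Q => z.2) {z | z.1 ∈ D}).smul h2
  exact h3.congr (fun z _ => CT.prim0_eq u z)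


/-- `mean u` does not depend on `t` -/
lemma CT.mean_fst (u : Q → V) (x : X2) (s t : ℝ) : mean u (x, s) = mean u (x, t) := rfl


lemma mean_odd {u : Q → V} {z : Q} (hp : ∀ t, u (z.1, t + 2 * Real.pi) = u (z.1, t))
    (ho : ∀ t, u (z.1, -t) = - u (z.1, t)) : mean u z = 0 := by
  unfold mean
  have h1 : ∫ s in (0:ℝ)..(2 * Real.pi), u (z.1, s) =
      ∫ s in (0:ℝ)..(2 * Real.pi), u (z.1, 2 * Real.pi - s) := by
    rw [intervalIntegral.integral_comp_sub_left (fun s => u (z.1, s)) (2 * Real.pi)]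
    simp
  have h2 : ∀ s, u (z.1, 2 * Real.pi - s) = - u (z.1, s) := by
    intro s
    rw [show 2 * Real.pi - s = -s + 2 * Real.pi by ring, hp, ho]
  simp only [h2, intervalIntegral.integral_neg] at h1
  have h3 : ∫ s in (0:ℝ)..(2 * Real.pi), u (z.1, s) = 0 := by
    have h4 : (2:ℝ) • ∫ s in (0:ℝ)..(2 * Real.pi), u (z.1, s) = 0 := by
      rw [two_smul]
      nth_rewrite 1 [h1]
      simp
    simpa using h4
  rw [h3, smul_zero]

/-- derivative in the direction `j` of `z ↦ ∫ u(z.1, s) ds` -/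
lemma CT.pd_int {D : Set X2} (hD : IsOpen D) {u : Q → V} (hu : ContDiffOn ℝ ∞ u {z | z.1 ∈ D})
    (a b : ℝ) (j : Fin 3) (hj : j ≠ 2) {z : Q} (hz : z.1 ∈ D) :
    pd j (fun z : Q => ∫ s in a..b, u (z.1, s)) z = ∫ s in a..b, pd j u (z.1, s) := by
  unfold pd
  rw [Crest.Agent.R216.Par.fderiv_par_apply (E := Q) (CT.isOpen_fibre hD) (g := fun p : Q × ℝ => u (p.1.1, p.2))
    ((CT.smooth_fibre hu).of_le (by simp)) (fun s _ => hz)]
  refine intervalIntegral.integral_congr (fun s _ => ?_)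
  have h1 : HasFDerivAt u (fderiv ℝ u (z.1, s)) (z.1, s) :=
    (diffAt (CT.isOpen_fst hD) hu (z := (z.1, s)) hz).hasFDerivAt
  have h2 : HasFDerivAt (fun p : Q × ℝ => (p.1.1, p.2))
      ((((ContinuousLinearMap.fst ℝ X2 ℝ).comp (ContinuousLinearMap.fst ℝ Q ℝ))).prod
        (ContinuousLinearMap.snd ℝ Q ℝ)) (z, s) :=
    ((((ContinuousLinearMap.fst ℝ X2 ℝ).comp (ContinuousLinearMap.fst ℝ Q ℝ))).prod
        (ContinuousLinearMap.snd ℝ Q ℝ)).hasFDerivAt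
  have h3 := HasFDerivAt.comp (z, s) (g := u) (f := fun p : Q × ℝ => (p.1.1, p.2)) h1 h2
  have h4 : fderiv ℝ (fun p : Q × ℝ => u (p.1.1, p.2)) (z, s) = _ := h3.fderiv
  show fderiv ℝ (fun p : Q × ℝ => u (p.1.1, p.2)) (z, s) (bas j, 0) = _
  rw [h4]
  have h5 : (bas j).2 = 0 := by fin_cases j <;> simp_all [bas]
  simp only [ContinuousLinearMap.comp_apply, ContinuousLinearMap.prod_apply,
    ContinuousLinearMap.coe_fst', ContinuousLinearMap.coe_snd']
  congr 1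
  exact Prod.ext rfl h5.symm

/-- `mean` commutes with the `x`-derivatives -/
lemma pd_mean {D : Set X2} (hD : IsOpen D) {u : Q → V} (hu : ContDiffOn ℝ ∞ u {z | z.1 ∈ D})
    (j : Fin 3) (hj : j ≠ 2) {z : Q} (hz : z.1 ∈ D) : pd j (mean u) z = mean (pd j u) z := by
  have h1 := CT.pd_int hD hu 0 (2 * Real.pi) j hj hz
  have h2 : DifferentiableAt ℝ (fun z : Q => ∫ s in (0:ℝ)..(2 * Real.pi), u (z.1, s)) z :=
    diffAt (CT.isOpen_fst hD) (CT.smooth_int hD hu _ _) hz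
  unfold mean
  rw [← h1]
  unfold pd
  rw [fderiv_fun_const_smul h2]
  rfl

lemma CT.pd2_of_fst {u : Q → V} (h : ∀ x s t, u (x, s) = u (x, t)) (z : Q) : pd 2 u z = 0 := by
  unfold pd
  by_cases hd : DifferentiableAt ℝ u z
  · have h1 : HasDerivAt (fun s : ℝ => u (z + s • bas 2)) (fderiv ℝ u z (bas 2)) 0 := by
      have h2 : HasFDerivAt u (fderiv ℝ u z) (z + (0:ℝ) • bas 2) := by
        simpa using hd.hasFDerivAt
      have h3 : HasDerivAt (fun s : ℝ => z + s • bas 2) (bas 2) 0 := by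
        simpa using ((hasDerivAt_id (0:ℝ)).smul_const (bas 2)).const_add z
      exact h2.comp_hasDerivAt 0 h3
    have h4 : (fun s : ℝ => u (z + s • bas 2)) = fun _ => u z := by
      funext s
      obtain ⟨x, t⟩ := z
      have : (x, t) + s • bas 2 = (x, t + s) := by
        ext <;> simp [bas]
      rw [this]
      exact h _ _ _
    rw [h4] at h1
    exact h1.unique (hasDerivAt_const _ _)
  · rw [fderiv_zero_of_not_differentiableAt hd]; rfl

lemma pd2_mean (u : Q → V) (z : Q) : pd 2 (mean u) z = 0 :=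
  CT.pd2_of_fst (fun x s t => CT.mean_fst u x s t) z

/-- `pd 2` is the derivative along the fibre -/
lemma CT.hasDerivAt_fibre {D : Set X2} (hD : IsOpen D) {u : Q → V}
    (hu : ContDiffOn ℝ ∞ u {z | z.1 ∈ D}) {x : X2} (hx : x ∈ D) (t : ℝ) :
    HasDerivAt (fun s => u (x, s)) (pd 2 u (x, t)) t := by
  have h2 : HasFDerivAt u (fderiv ℝ u (x, t)) (x, t) :=
    (diffAt (CT.isOpen_fst hD) hu (z := (x, t)) hx).hasFDerivAt
  have h3 : HasDerivAt (fun s : ℝ => (x, s)) (bas 2) t := by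
    have := (hasDerivAt_const t x).prodMk (hasDerivAt_id t)
    exact this
  exact h2.comp_hasDerivAt t h3

/-- the mean of a `t`-derivative vanishes -/
lemma mean_pd2 {D : Set X2} (hD : IsOpen D) {u : Q → V} (hu : ContDiffOn ℝ ∞ u {z | z.1 ∈ D})
    (hp : PerOn D u) {z : Q} (hz : z.1 ∈ D) : mean (pd 2 u) z = 0 := by
  unfold mean
  have h1 : ∫ s in (0:ℝ)..(2 * Real.pi), pd 2 u (z.1, s) = u (z.1, 2 * Real.pi) - u (z.1, 0) := by
    refine intervalIntegral.integral_eq_sub_of_hasDerivAt (f := fun s => u (z.1, s))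
      (fun s _ => CT.hasDerivAt_fibre hD hu hz s) ?_
    exact (CT.fibre_cont (pd_contDiffOn (CT.isOpen_fst hD) hu 2) hz).intervalIntegrable _ _
  have h2 : u (z.1, 2 * Real.pi) = u (z.1, 0) := by
    have := hp z.1 hz 0
    simpa using this
  rw [h1, h2, sub_self, smul_zero]

lemma CT.pd2_prim0 {D : Set X2} (hD : IsOpen D) {u : Q → V} (hu : ContDiffOn ℝ ∞ u {z | z.1 ∈ D})
    {z : Q} (hz : z.1 ∈ D) : pd 2 (prim0 u) z = u z := by
  have h1 := CT.hasDerivAt_fibre hD (CT.smooth_prim0 hD hu) hz z.2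
  have hc := CT.fibre_cont hu hz
  have h2 : HasDerivAt (fun t : ℝ => ∫ s in (0:ℝ)..t, u (z.1, s)) (u (z.1, z.2)) z.2 :=
    intervalIntegral.integral_hasDerivAt_right (hc.intervalIntegrable _ _)
      (hc.stronglyMeasurableAtFilter _ _) hc.continuousAt
  exact h1.unique h2

lemma CT.pd_prim0 {D : Set X2} (hD : IsOpen D) {u : Q → V} (hu : ContDiffOn ℝ ∞ u {z | z.1 ∈ D})
    (j : Fin 3) (hj : j ≠ 2) {z : Q} (hz : z.1 ∈ D) : pd j (prim0 u) z = prim0 (pd j u) z := by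
  -- directional derivative along a line with fixed `t`
  have h5 : (bas j).2 = 0 := by fin_cases j <;> simp_all [bas]
  have hd : HasFDerivAt (prim0 u) (fderiv ℝ (prim0 u) z) z :=
    (diffAt (CT.isOpen_fst hD) (CT.smooth_prim0 hD hu) hz).hasFDerivAt
  have hl : ∀ (c : Q), HasDerivAt (fun s : ℝ => c + s • bas j) (bas j) 0 := fun c => by
    simpa using ((hasDerivAt_id (0:ℝ)).smul_const (bas j)).const_add c
  have h1 : HasDerivAt (fun s : ℝ => prim0 u (z + s • bas j)) (pd j (prim0 u) z) 0 := by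
    have h2 : HasFDerivAt (prim0 u) (fderiv ℝ (prim0 u) z) (z + (0:ℝ) • bas j) := by simpa using hd
    exact h2.comp_hasDerivAt 0 (hl z)
  have h3 : HasDerivAt (fun s : ℝ => ∫ r in (0:ℝ)..z.2, u ((z + s • bas j).1, r))
      (pd j (fun y : Q => ∫ r in (0:ℝ)..z.2, u (y.1, r)) z) 0 := by
    have h2 : HasFDerivAt (fun y : Q => ∫ r in (0:ℝ)..z.2, u (y.1, r))
        (fderiv ℝ (fun y : Q => ∫ r in (0:ℝ)..z.2, u (y.1, r)) z) (z + (0:ℝ) • bas j) := by
      simpa using (diffAt (CT.isOpen_fst hD) (CT.smooth_int hD hu 0 z.2) hz).hasFDerivAt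
    exact h2.comp_hasDerivAt 0 (hl z)
  have h4 : (fun s : ℝ => prim0 u (z + s • bas j)) =
      fun s : ℝ => ∫ r in (0:ℝ)..z.2, u ((z + s • bas j).1, r) := by
    funext s
    unfold prim0
    have : (z + s • bas j).2 = z.2 := by simp [h5]
    rw [this]
  rw [h4] at h1
  rw [h1.unique h3, CT.pd_int hD hu 0 z.2 j hj hz]
  rfl

lemma CT.pd2_osc {D : Set X2} (hD : IsOpen D) {u : Q → V} (hu : ContDiffOn ℝ ∞ u {z | z.1 ∈ D})
    {z : Q} (hz : z.1 ∈ D) : pd 2 (osc u) z = pd 2 u z := by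
  have h1 := diffAt (CT.isOpen_fst hD) hu hz
  have h2 := diffAt (CT.isOpen_fst hD) (CT.smooth_mean hD hu) hz
  have h3 : pd 2 (osc u) z = pd 2 u z - pd 2 (mean u) z := by
    unfold pd osc
    rw [fderiv_fun_sub h1 h2]
    rfl
  rw [h3, pd2_mean, sub_zero]

lemma pd2_prim {D : Set X2} (hD : IsOpen D) {u : Q → V} (hu : ContDiffOn ℝ ∞ u {z | z.1 ∈ D})
    {z : Q} (hz : z.1 ∈ D) : pd 2 (prim u) z = osc u z := by
  unfold prim
  rw [CT.pd2_osc hD (CT.smooth_prim0 hD (CT.smooth_osc hD hu)) hz, CT.pd2_prim0 hD (CT.smooth_osc hD hu) hz]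

lemma CT.osc_fibre (u : Q → V) (x : X2) (t : ℝ) : osc u (x, t) = u (x, t) - mean u (x, 0) := rfl

lemma CT.osc_fibre_cont {u : Q → V} {x : X2} (hc : Continuous (fun s => u (x, s))) :
    Continuous (fun s => osc u (x, s)) := by
  simp only [CT.osc_fibre]
  exact hc.sub continuous_const

lemma CT.prim0_fibre_cont {u : Q → V} {x : X2} (hc : Continuous (fun s => u (x, s))) :
    Continuous (fun s => prim0 u (x, s)) :=
  intervalIntegral.continuous_primitive (fun a b => hc.intervalIntegrable a b) 0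

/-- mean of the oscillating part -/
lemma CT.mean_osc' {u : Q → V} {z : Q} (hc : Continuous (fun s => u (z.1, s))) :
    mean (osc u) z = 0 := by
  have h : (2 * Real.pi) ≠ 0 := by positivity
  show (2 * Real.pi)⁻¹ • ∫ s in (0:ℝ)..(2 * Real.pi), (u (z.1, s) - mean u (z.1, s)) = 0
  have h1 : ∀ s, mean u (z.1, s) = mean u z := fun s => rfl
  simp only [h1]
  rw [intervalIntegral.integral_sub (hc.intervalIntegrable _ _) intervalIntegrable_const,
    smul_sub, intervalIntegral.integral_const, smul_smul]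
  simp only [sub_zero]
  rw [inv_mul_cancel₀ h, one_smul]
  exact sub_self _

lemma CT.mean_osc {D : Set X2} {u : Q → V} (hu : ContDiffOn ℝ ∞ u {z | z.1 ∈ D})
    {z : Q} (hz : z.1 ∈ D) : mean (osc u) z = 0 :=
  CT.mean_osc' (CT.fibre_cont hu hz)

lemma mean_prim {D : Set X2} {u : Q → V} (hu : ContDiffOn ℝ ∞ u {z | z.1 ∈ D})
    {z : Q} (hz : z.1 ∈ D) : mean (prim u) z = 0 :=
  CT.mean_osc' (CT.prim0_fibre_cont (CT.osc_fibre_cont (CT.fibre_cont hu hz)))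

/-- integral over a period = `2π` mean -/
lemma CT.int_eq_mean (u : Q → V) (z : Q) :
    ∫ s in (0:ℝ)..(2 * Real.pi), u (z.1, s) = (2 * Real.pi) • mean u z := by
  have h : (2 * Real.pi) ≠ 0 := by positivity
  unfold mean
  rw [smul_smul, mul_inv_cancel₀ h, one_smul]

/-- `prim0` of a periodic function of mean zero is periodic -/
lemma CT.prim0_per {u : Q → V} {x : X2} (hc : Continuous (fun s => u (x, s)))
    (hp : ∀ t, u (x, t + 2 * Real.pi) = u (x, t)) (hm : mean u (x, 0) = 0) (t : ℝ) :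
    prim0 u (x, t + 2 * Real.pi) = prim0 u (x, t) := by
  unfold prim0
  simp only
  have hi : ∀ a b, IntervalIntegrable (fun s => u (x, s)) volume a b :=
    fun a b => hc.intervalIntegrable a b
  have h1 : ∫ s in (0:ℝ)..(t + 2 * Real.pi), u (x, s) =
      (∫ s in (0:ℝ)..t, u (x, s)) + ∫ s in t..(t + 2 * Real.pi), u (x, s) :=
    (intervalIntegral.integral_add_adjacent_intervals (hi _ _) (hi _ _)).symm
  have hper : Function.Periodic (fun s => u (x, s)) (2 * Real.pi) := hp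
  have h2 : ∫ s in t..(t + 2 * Real.pi), u (x, s) = ∫ s in (0:ℝ)..(0 + 2 * Real.pi), u (x, s) :=
    hper.intervalIntegral_add_eq t 0
  rw [h1, h2, zero_add]
  have h3 := CT.int_eq_mean u (x, 0)
  simp only at h3
  rw [h3, hm, smul_zero, add_zero]

lemma CT.osc_per {u : Q → V} {x : X2} (hp : ∀ t, u (x, t + 2 * Real.pi) = u (x, t)) (t : ℝ) :
    osc u (x, t + 2 * Real.pi) = osc u (x, t) := by
  rw [CT.osc_fibre, CT.osc_fibre, hp]

lemma per_prim {D : Set X2} {u : Q → V} (hu : ContDiffOn ℝ ∞ u {z | z.1 ∈ D}) (hp : PerOn D u)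
    {x : X2} (hx : x ∈ D) (t : ℝ) : prim u (x, t + 2 * Real.pi) = prim u (x, t) := by
  unfold prim
  have hc := CT.fibre_cont hu hx
  exact CT.osc_per (fun t => CT.prim0_per (CT.osc_fibre_cont hc) (CT.osc_per (hp x hx))
    (CT.mean_osc' (z := (x, 0)) hc) t) t

lemma CT.perOn_osc {D : Set X2} {u : Q → V} (hp : PerOn D u) : PerOn D (osc u) :=
  fun x hx t => CT.osc_per (hp x hx) t



/-- the derivatives of a periodic function are periodic -/
lemma CT.perOn_pd {D : Set X2} (hD : IsOpen D) {u : Q → V} (hp : PerOn D u) (j : Fin 3) :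
    PerOn D (pd j u) := by
  intro x hx t
  unfold pd
  have h1 : ∀ z : Q, z.1 ∈ D → u (z + ((0, 0), 2 * Real.pi)) = u z := by
    rintro ⟨y, s⟩ hy
    have : (y, s) + (((0:ℝ), (0:ℝ)), 2 * Real.pi) = (y, s + 2 * Real.pi) := by
      ext <;> simp
    rw [this]
    exact hp y hy s
  have h2 : (fun z : Q => u (z + ((0, 0), 2 * Real.pi))) =ᶠ[𝓝 (x, t)] u :=
    Filter.eventuallyEq_of_mem ((CT.isOpen_fst hD).mem_nhds (x := (x, t)) hx) h1
  have h3 := h2.fderiv_eq (𝕜 := ℝ)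
  rw [fderiv_comp_add_right] at h3
  have h4 : ((x, t) : Q) + ((0, 0), 2 * Real.pi) = (x, t + 2 * Real.pi) := by
    ext <;> simp
  rw [h4] at h3
  rw [h3]

/-- an odd primitive: if `W` is even in `t` and has mean zero then `prim W` is odd -/
lemma prim_odd {D : Set X2} {u : Q → V} (hu : ContDiffOn ℝ ∞ u {z | z.1 ∈ D}) (hp : PerOn D u)
    {x : X2} (hx : x ∈ D) (he : ∀ t, u (x, -t) = u (x, t)) (t : ℝ) :
    prim u (x, -t) = - prim u (x, t) := by
  have hc := CT.fibre_cont hu hx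
  have h0 : ∀ t, prim0 (osc u) (x, -t) = - prim0 (osc u) (x, t) := by
    intro t
    unfold prim0
    simp only
    have h1 : ∀ s, osc u (x, s) = osc u (x, -s) := fun s => by
      rw [CT.osc_fibre, CT.osc_fibre, he]
    have h2 : ∫ s in (0:ℝ)..t, osc u (x, s) = ∫ s in (0:ℝ)..t, osc u (x, -s) := by
      exact intervalIntegral.integral_congr (fun s _ => h1 s)
    rw [h2, intervalIntegral.integral_comp_neg (fun s => osc u (x, s)), neg_zero]
    rw [intervalIntegral.integral_symm]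
  have h1 : mean (prim0 (osc u)) (x, 0) = 0 :=
    mean_odd (z := (x, 0)) (fun t => CT.prim0_per (CT.osc_fibre_cont hc) (CT.osc_per (hp x hx))
      (CT.mean_osc' (z := (x, 0)) hc) t) h0
  unfold prim
  rw [CT.osc_fibre, CT.osc_fibre, h1, h0]
  simp

/-! ### bounds -/
namespace Fam
variable {𝓕 : Fam} {w : 𝓕.I → X2 → ℝ}

lemma nn_lam0 (hw : Nn w) : Nn (fun i x => 𝓕.Lam i * w i x : 𝓕.I → X2 → ℝ) :=
  fun i x hx => mul_nonneg (Lam_pos i).le (hw i x hx)

lemma Sz.mean {u : 𝓕.I → Q → V} (hu : 𝓕.Sz w u) :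
    𝓕.Sz w (fun i => Crest.Agent.R216.TE.mean (u i)) := by
  obtain ⟨C, hC, hu⟩ := hu
  refine ⟨C, hC, fun i z hz => ?_⟩
  have hpi : 0 < 2 * Real.pi := by positivity
  unfold Crest.Agent.R216.TE.mean
  rw [norm_smul, Real.norm_of_nonneg (inv_pos.2 hpi).le]
  have h1 : ‖∫ s in (0:ℝ)..(2 * Real.pi), u i (z.1, s)‖ ≤
      C * w i z.1 * |2 * Real.pi - 0| :=
    intervalIntegral.norm_integral_le_of_norm_le_const (fun s _ => hu i (z.1, s) hz)
  rw [sub_zero, abs_of_pos hpi] at h1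
  calc (2 * Real.pi)⁻¹ * ‖∫ s in (0:ℝ)..(2 * Real.pi), u i (z.1, s)‖
      ≤ (2 * Real.pi)⁻¹ * (C * w i z.1 * (2 * Real.pi)) :=
        mul_le_mul_of_nonneg_left h1 (inv_pos.2 hpi).le
    _ = C * w i z.1 := by field_simp

lemma Bk.zero {k : ℕ} : ∀ {w : 𝓕.I → X2 → ℝ}, Nn w → 𝓕.Bk k w (fun _ _ => (0 : V)) := by
  intro w hw
  exact (B.zero hw).bound k

lemma Bk.mean {k : ℕ} : ∀ {w : 𝓕.I → X2 → ℝ} {u : 𝓕.I → Q → V}, Nn w → 𝓕.Sm u → 𝓕.Bk k w u →
    𝓕.Bk k w (fun i => Crest.Agent.R216.TE.mean (u i)) := by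
  induction k with
  | zero => intro w u _ _ h; exact Sz.mean h
  | succ k ih =>
    intro w u hw hs h
    refine ⟨Sz.mean h.1, fun j => ?_⟩
    by_cases hj : j = 2
    · subst hj
      exact (Bk.zero (nn_lam0 hw)).congr (fun i z _ => (pd2_mean (u i) z).symm)
    · exact (ih (nn_lam0 hw) (hs.pd j) (h.2 j)).congr
        (fun i z hz => (pd_mean (𝓕.isOpen i) (hs i) j hj hz).symm)

lemma B.mean {u : 𝓕.I → Q → V} (hw : Nn w) (hu : 𝓕.B w u) :
    𝓕.B w (fun i => Crest.Agent.R216.TE.mean (u i)) :=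
  ⟨fun i => CT.smooth_mean (𝓕.isOpen i) (hu.smooth i), fun k => (hu.bound k).mean hw hu.smooth⟩

lemma B.osc {u : 𝓕.I → Q → V} (hw : Nn w) (hu : 𝓕.B w u) :
    𝓕.B w (fun i => Crest.Agent.R216.TE.osc (u i)) :=
  B.sub hw hu (hu.mean hw)

lemma Sz.prim0 {u : 𝓕.I → Q → V} (hw : Nn w) (hu : 𝓕.Sz w u) (hs : 𝓕.Sm u)
    (hp : ∀ i, PerOn (𝓕.D i) (u i))
    (hm : ∀ i, ∀ z ∈ 𝓕.dom i, Crest.Agent.R216.TE.mean (u i) z = 0) :
    𝓕.Sz w (fun i => Crest.Agent.R216.TE.prim0 (u i)) := by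
  obtain ⟨C, hC, hu⟩ := hu
  refine ⟨2 * Real.pi * C, by positivity, fun i z hz => ?_⟩
  have hpi : 0 < 2 * Real.pi := by positivity
  have hper : Function.Periodic (fun t => Crest.Agent.R216.TE.prim0 (u i) (z.1, t)) (2 * Real.pi) :=
    fun t => CT.prim0_per (CT.fibre_cont (hs i) hz) (hp i z.1 hz) (hm i (z.1, 0) hz) t
  obtain ⟨t, ht, hte⟩ := hper.exists_mem_Ico₀ hpi z.2
  have h1 : Crest.Agent.R216.TE.prim0 (u i) z = Crest.Agent.R216.TE.prim0 (u i) (z.1, t) := hte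
  show ‖Crest.Agent.R216.TE.prim0 (u i) z‖ ≤ _
  rw [h1]
  have h2 : ‖∫ s in (0:ℝ)..t, u i (z.1, s)‖ ≤ C * w i z.1 * |t - 0| :=
    intervalIntegral.norm_integral_le_of_norm_le_const (fun s _ => hu i (z.1, s) hz)
  have h3 : |t - 0| ≤ 2 * Real.pi := by
    rw [sub_zero, abs_of_nonneg ht.1]; exact ht.2.le
  have h4 : 0 ≤ C * w i z.1 := mul_nonneg hC.le (hw i z.1 hz)
  calc ‖Crest.Agent.R216.TE.prim0 (u i) (z.1, t)‖ ≤ C * w i z.1 * |t - 0| := h2
    _ ≤ C * w i z.1 * (2 * Real.pi) := mul_le_mul_of_nonneg_left h3 h4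
    _ = 2 * Real.pi * C * w i z.1 := by ring

lemma Bk.prim0 {k : ℕ} : ∀ {w : 𝓕.I → X2 → ℝ} {u : 𝓕.I → Q → V}, Nn w → 𝓕.B w u →
    (∀ i, PerOn (𝓕.D i) (u i)) →
    (∀ i, ∀ z ∈ 𝓕.dom i, Crest.Agent.R216.TE.mean (u i) z = 0) →
    𝓕.Bk k w (fun i => Crest.Agent.R216.TE.prim0 (u i)) := by
  induction k with
  | zero => intro w u hw hu hp hm; exact Sz.prim0 hw hu.sz hu.smooth hp hm
  | succ k ih =>
    intro w u hw hu hp hm
    refine ⟨Sz.prim0 hw hu.sz hu.smooth hp hm, fun j => ?_⟩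
    by_cases hj : j = 2
    · subst hj
      refine ((hu.bound k).mono one_pos (w' := fun i x => 𝓕.Lam i * w i x)
        (fun i x hx => ?_)).congr
        (fun i z hz => (CT.pd2_prim0 (𝓕.isOpen i) (hu.smooth i) hz).symm)
      rw [one_mul]
      exact le_mul_of_one_le_left (hw i x hx) (𝓕.one_le i)
    · refine (ih (nn_lam0 hw) (hu.pd j) (fun i => CT.perOn_pd (𝓕.isOpen i) (hp i) j)
        (fun i z hz => ?_)).congr
        (fun i z hz => (CT.pd_prim0 (𝓕.isOpen i) (hu.smooth i) j hj hz).symm)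
      rw [← pd_mean (𝓕.isOpen i) (hu.smooth i) j hj hz]
      have : EqOn (Crest.Agent.R216.TE.mean (u i)) (fun _ => (0:V)) (𝓕.dom i) := fun z hz => hm i z hz
      rw [pd_eqOn (𝓕.isOpen_dom i) this j hz]
      simp [Crest.Agent.R216.TE.pd]

lemma B.prim0 {u : 𝓕.I → Q → V} (hw : Nn w) (hu : 𝓕.B w u) (hp : ∀ i, PerOn (𝓕.D i) (u i))
    (hm : ∀ i, ∀ z ∈ 𝓕.dom i, Crest.Agent.R216.TE.mean (u i) z = 0) :
    𝓕.B w (fun i => Crest.Agent.R216.TE.prim0 (u i)) :=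
  ⟨fun i => CT.smooth_prim0 (𝓕.isOpen i) (hu.smooth i), fun _ => Bk.prim0 hw hu hp hm⟩

lemma B.prim {u : 𝓕.I → Q → V} (hw : Nn w) (hu : 𝓕.B w u) (hp : ∀ i, PerOn (𝓕.D i) (u i)) :
    𝓕.B w (fun i => Crest.Agent.R216.TE.prim (u i)) :=
  B.osc hw (B.prim0 hw (hu.osc hw) (fun i => CT.perOn_osc (hp i))
    (fun i _ hz => CT.mean_osc (hu.smooth i) hz))

end Fam

end ClsT

end Crest.Agent.R216.TE
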