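import Mathlib

-- ▼ part R216/Cls
section

/-!
# Row 216: class calculus for families of functions of `(x,t)`.
-/

open Set Topology
open scoped ContDiff

set_option linter.unusedSectionVars false

namespace Crest.Agent.R216.TE

abbrev X2 := ℝ × ℝ
abbrev Q := (ℝ × ℝ) × ℝ
abbrev E4 := EuclideanSpace ℝ (Fin 4)

/-- the three basis directions of `Q`: `x1`, `x2`, `t` -/
def bas : Fin 3 → Q := ![((1, 0), 0), ((0, 1), 0), ((0, 0), 1)]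

section
variable {V V' V'' : Type*} [NormedAddCommGroup V] [NormedSpace ℝ V]
  [NormedAddCommGroup V'] [NormedSpace ℝ V'] [NormedAddCommGroup V''] [NormedSpace ℝ V'']

/-- partial derivative -/
noncomputable def pd (j : Fin 3) (u : Q → V) : Q → V := fun z => fderiv ℝ u z (bas j)

lemma pd_eqOn {u v : Q → V} {s : Set Q} (hs : IsOpen s) (h : EqOn u v s) (j : Fin 3) :
    EqOn (pd j u) (pd j v) s := by
  intro z hz
  have : u =ᶠ[𝓝 z] v := Filter.eventuallyEq_of_mem (hs.mem_nhds hz) h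
  simp only [pd, this.fderiv_eq]

lemma pd_contDiffOn {u : Q → V} {s : Set Q} (hs : IsOpen s) (h : ContDiffOn ℝ ∞ u s) (j : Fin 3) :
    ContDiffOn ℝ ∞ (pd j u) s := by
  have h1 : ContDiffOn ℝ ∞ (fderiv ℝ u) s := h.fderiv_of_isOpen hs (by simp)
  exact h1.clm_apply contDiffOn_const

lemma diffAt {u : Q → V} {s : Set Q} (hs : IsOpen s) (h : ContDiffOn ℝ ∞ u s) {z : Q}
    (hz : z ∈ s) : DifferentiableAt ℝ u z :=
  (h.contDiffAt (hs.mem_nhds hz)).differentiableAt (by simp)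

/-- A family of open domains in `ℝ²` with a derivative cost `Lam ≥ 1`. -/
structure Fam where
  I : Type
  D : I → Set X2
  isOpen : ∀ i, IsOpen (D i)
  Lam : I → ℝ
  one_le : ∀ i, 1 ≤ Lam i

namespace Fam
variable (𝓕 : Fam)

/-- the domain in `(x,t)`-space -/
def dom (i : 𝓕.I) : Set Q := {z | z.1 ∈ 𝓕.D i}

lemma isOpen_dom (i : 𝓕.I) : IsOpen (𝓕.dom i) := (𝓕.isOpen i).preimage continuous_fst

/-- smooth families -/
def Sm (u : 𝓕.I → Q → V) : Prop := ∀ i, ContDiffOn ℝ ∞ (u i) (𝓕.dom i)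

/-- size bound -/
def Sz (w : 𝓕.I → X2 → ℝ) (u : 𝓕.I → Q → V) : Prop :=
  ∃ C : ℝ, 0 < C ∧ ∀ i, ∀ z ∈ 𝓕.dom i, ‖u i z‖ ≤ C * w i z.1

/-- bounds of all partial derivatives of order `≤ k`: each derivative costs a factor `Lam`. -/
def Bk : ℕ → (𝓕.I → X2 → ℝ) → (𝓕.I → Q → V) → Prop
  | 0, w, u => 𝓕.Sz w u
  | k + 1, w, u => 𝓕.Sz w u ∧ ∀ j, Bk k (fun i x => 𝓕.Lam i * w i x) (fun i => pd j (u i))

/-- The class `B(w)`. -/
structure B (w : 𝓕.I → X2 → ℝ) (u : 𝓕.I → Q → V) : Prop where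
  smooth : 𝓕.Sm u
  bound : ∀ k, 𝓕.Bk k w u

variable {𝓕}
variable {w w' w'' : 𝓕.I → X2 → ℝ}

lemma Lam_pos (i : 𝓕.I) : 0 < 𝓕.Lam i := lt_of_lt_of_le one_pos (𝓕.one_le i)

lemma Bk.sz {k : ℕ} {u : 𝓕.I → Q → V} (h : 𝓕.Bk k w u) : 𝓕.Sz w u := by
  cases k with
  | zero => exact h
  | succ k => exact h.1

lemma B.sz {u : 𝓕.I → Q → V} (h : 𝓕.B w u) : 𝓕.Sz w u := (h.bound 0)

lemma Bk.of_succ {k : ℕ} : ∀ {w : 𝓕.I → X2 → ℝ} {u : 𝓕.I → Q → V},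
    𝓕.Bk (k + 1) w u → 𝓕.Bk k w u := by
  induction k with
  | zero => intro w u h; exact h.1
  | succ k ih => intro w u h; exact ⟨h.1, fun j => ih (h.2 j)⟩

lemma Sz.congr {u v : 𝓕.I → Q → V} (h : 𝓕.Sz w u) (huv : ∀ i, EqOn (u i) (v i) (𝓕.dom i)) :
    𝓕.Sz w v := by
  obtain ⟨C, hC, h⟩ := h
  exact ⟨C, hC, fun i z hz => by rw [← huv i hz]; exact h i z hz⟩

lemma Bk.congr {k : ℕ} : ∀ {w : 𝓕.I → X2 → ℝ} {u v : 𝓕.I → Q → V}, 𝓕.Bk k w u →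
    (∀ i, EqOn (u i) (v i) (𝓕.dom i)) → 𝓕.Bk k w v := by
  induction k with
  | zero => intro w u v h huv; exact Sz.congr h huv
  | succ k ih =>
    intro w u v h huv
    exact ⟨h.1.congr huv, fun j => ih (h.2 j) (fun i => pd_eqOn (𝓕.isOpen_dom i) (huv i) j)⟩

lemma B.congr {u v : 𝓕.I → Q → V} (h : 𝓕.B w u) (huv : ∀ i, EqOn (u i) (v i) (𝓕.dom i)) :
    𝓕.B w v :=
  ⟨fun i => (h.smooth i).congr (fun z hz => (huv i hz).symm), fun k => (h.bound k).congr huv⟩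

lemma Sz.mono {u : 𝓕.I → Q → V} (h : 𝓕.Sz w u) {C : ℝ} (hC : 0 < C)
    (hw : ∀ i, ∀ x ∈ 𝓕.D i, w i x ≤ C * w' i x) : 𝓕.Sz w' u := by
  obtain ⟨C1, hC1, h⟩ := h
  refine ⟨C1 * C, by positivity, fun i z hz => (h i z hz).trans ?_⟩
  rw [mul_assoc]
  exact mul_le_mul_of_nonneg_left (hw i z.1 hz) hC1.le

lemma Bk.mono {k : ℕ} : ∀ {w w' : 𝓕.I → X2 → ℝ} {u : 𝓕.I → Q → V}, 𝓕.Bk k w u →
    ∀ {C : ℝ}, 0 < C → (∀ i, ∀ x ∈ 𝓕.D i, w i x ≤ C * w' i x) → 𝓕.Bk k w' u := by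
  induction k with
  | zero => intro w w' u h C hC hw; exact Sz.mono h hC hw
  | succ k ih =>
    intro w w' u h C hC hw
    refine ⟨h.1.mono hC hw, fun j => ih (h.2 j) hC (fun i x hx => ?_)⟩
    have := mul_le_mul_of_nonneg_left (hw i x hx) (Lam_pos i).le
    linarith

lemma B.mono {u : 𝓕.I → Q → V} (h : 𝓕.B w u) {C : ℝ} (hC : 0 < C)
    (hw : ∀ i, ∀ x ∈ 𝓕.D i, w i x ≤ C * w' i x) : 𝓕.B w' u :=
  ⟨h.smooth, fun k => (h.bound k).mono hC hw⟩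

lemma B.weight_congr {u : 𝓕.I → Q → V} (h : 𝓕.B w u)
    (hw : ∀ i, ∀ x ∈ 𝓕.D i, w i x = w' i x) : 𝓕.B w' u :=
  h.mono one_pos (fun i x hx => by rw [hw i x hx, one_mul])

lemma B.le {u : 𝓕.I → Q → V} (h : 𝓕.B w u)
    (hw : ∀ i, ∀ x ∈ 𝓕.D i, w i x ≤ w' i x) : 𝓕.B w' u :=
  h.mono one_pos (fun i x hx => by rw [one_mul]; exact hw i x hx)

lemma Sm.pd {u : 𝓕.I → Q → V} (h : 𝓕.Sm u) (j : Fin 3) : 𝓕.Sm (fun i => pd j (u i)) :=
  fun i => pd_contDiffOn (𝓕.isOpen_dom i) (h i) j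

lemma B.pd {u : 𝓕.I → Q → V} (h : 𝓕.B w u) (j : Fin 3) :
    𝓕.B (fun i x => 𝓕.Lam i * w i x) (fun i => pd j (u i)) :=
  ⟨h.smooth.pd j, fun k => (h.bound (k + 1)).2 j⟩


/-! ### additive structure -/

lemma Sz.add {u v : 𝓕.I → Q → V} (hu : 𝓕.Sz w u) (hv : 𝓕.Sz w v) :
    𝓕.Sz w (fun i z => u i z + v i z) := by
  obtain ⟨C, hC, hu⟩ := hu
  obtain ⟨C', hC', hv⟩ := hv
  refine ⟨C + C', by positivity, fun i z hz => (norm_add_le _ _).trans ?_⟩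
  rw [add_mul]
  exact add_le_add (hu i z hz) (hv i z hz)

lemma Bk.add {k : ℕ} : ∀ {w : 𝓕.I → X2 → ℝ} {u v : 𝓕.I → Q → V}, 𝓕.Sm u → 𝓕.Sm v →
    𝓕.Bk k w u → 𝓕.Bk k w v → 𝓕.Bk k w (fun i z => u i z + v i z) := by
  induction k with
  | zero => intro w u v _ _ hu hv; exact Sz.add hu hv
  | succ k ih =>
    intro w u v su sv hu hv
    refine ⟨hu.1.add hv.1, fun j => ?_⟩
    refine (ih (su.pd j) (sv.pd j) (hu.2 j) (hv.2 j)).congr (fun i z hz => ?_)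
    have h1 := diffAt (𝓕.isOpen_dom i) (su i) hz
    have h2 := diffAt (𝓕.isOpen_dom i) (sv i) hz
    show _ = fderiv ℝ (fun z => u i z + v i z) z (bas j)
    rw [fderiv_fun_add h1 h2]; rfl

lemma B.add {u v : 𝓕.I → Q → V} (hu : 𝓕.B w u) (hv : 𝓕.B w v) :
    𝓕.B w (fun i z => u i z + v i z) :=
  ⟨fun i => (hu.smooth i).add (hv.smooth i),
    fun k => (hu.bound k).add hu.smooth hv.smooth (hv.bound k)⟩

/-- linear maps -/
lemma Bk.clm {k : ℕ} (L : V →L[ℝ] V') : ∀ {w : 𝓕.I → X2 → ℝ} {u : 𝓕.I → Q → V}, 𝓕.Sm u →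
    (∀ i, ∀ x ∈ 𝓕.D i, 0 ≤ w i x) →
    𝓕.Bk k w u → 𝓕.Bk k w (fun i z => L (u i z)) := by
  have key : ∀ {w : 𝓕.I → X2 → ℝ} {u : 𝓕.I → Q → V}, (∀ i, ∀ x ∈ 𝓕.D i, 0 ≤ w i x) →
      𝓕.Sz w u → 𝓕.Sz w (fun i z => L (u i z)) := by
    intro w u hw hu
    obtain ⟨C, hC, hu⟩ := hu
    refine ⟨(‖L‖ + 1) * C, by positivity, fun i z hz => (L.le_opNorm _).trans ?_⟩
    have h1 := hu i z hz
    have h2 := hw i z.1 hz
    calc ‖L‖ * ‖u i z‖ ≤ (‖L‖ + 1) * (C * w i z.1) :=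
          mul_le_mul (by linarith) h1 (norm_nonneg _) (by positivity)
      _ = _ := by ring
  induction k with
  | zero => intro w u _ hw hu; exact key hw hu
  | succ k ih =>
    intro w u su hw hu
    refine ⟨key hw hu.1, fun j => ?_⟩
    refine (ih (su.pd j) (fun i x hx => mul_nonneg (Lam_pos i).le (hw i x hx)) (hu.2 j)).congr
      (fun i z hz => ?_)
    have h1 := diffAt (𝓕.isOpen_dom i) (su i) hz
    show _ = fderiv ℝ (fun z => L (u i z)) z (bas j)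
    have : HasFDerivAt (fun z => L (u i z)) (L.comp (fderiv ℝ (u i) z)) z :=
      L.hasFDerivAt.comp z h1.hasFDerivAt
    rw [this.fderiv]; rfl

lemma B.clm (L : V →L[ℝ] V') {u : 𝓕.I → Q → V} (hw : ∀ i, ∀ x ∈ 𝓕.D i, 0 ≤ w i x)
    (hu : 𝓕.B w u) : 𝓕.B w (fun i z => L (u i z)) :=
  ⟨fun i => L.contDiff.comp_contDiffOn (hu.smooth i),
    fun k => (hu.bound k).clm L hu.smooth hw⟩

/-! ### products -/

lemma Sz.bilin (L : V →L[ℝ] V' →L[ℝ] V'') {u : 𝓕.I → Q → V} {v : 𝓕.I → Q → V'}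
    (hw' : ∀ i, ∀ x ∈ 𝓕.D i, 0 ≤ w' i x) (hw : ∀ i, ∀ x ∈ 𝓕.D i, 0 ≤ w i x)
    (hu : 𝓕.Sz w u) (hv : 𝓕.Sz w' v) :
    𝓕.Sz (fun i x => w i x * w' i x) (fun i z => L (u i z) (v i z)) := by
  obtain ⟨C, hC, hu⟩ := hu
  obtain ⟨C', hC', hv⟩ := hv
  refine ⟨(‖L‖ + 1) * C * C', by positivity, fun i z hz => (L.le_opNorm₂ _ _).trans ?_⟩
  have h1 := hu i z hz
  have h2 := hv i z hz
  have h3 := hw i z.1 hz
  have h4 := hw' i z.1 hz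
  calc ‖L‖ * ‖u i z‖ * ‖v i z‖ ≤ (‖L‖ + 1) * (C * w i z.1) * (C' * w' i z.1) := by
        gcongr
        linarith
    _ = _ := by ring

lemma Bk.bilin {k : ℕ} (L : V →L[ℝ] V' →L[ℝ] V'') : ∀ {w w' : 𝓕.I → X2 → ℝ}
    {u : 𝓕.I → Q → V} {v : 𝓕.I → Q → V'}, 𝓕.Sm u → 𝓕.Sm v →
    (∀ i, ∀ x ∈ 𝓕.D i, 0 ≤ w i x) → (∀ i, ∀ x ∈ 𝓕.D i, 0 ≤ w' i x) →
    𝓕.Bk k w u → 𝓕.Bk k w' v → 𝓕.Bk k (fun i x => w i x * w' i x) (fun i z => L (u i z) (v i z)) := by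
  induction k with
  | zero => intro w w' u v _ _ hw hw' hu hv; exact Sz.bilin L hw' hw hu hv
  | succ k ih =>
    intro w w' u v su sv hw hw' hu hv
    refine ⟨Sz.bilin L hw' hw hu.1 hv.1, fun j => ?_⟩
    have hL : ∀ (w : 𝓕.I → X2 → ℝ), (∀ i, ∀ x ∈ 𝓕.D i, 0 ≤ w i x) →
      ∀ i, ∀ x ∈ 𝓕.D i, 0 ≤ 𝓕.Lam i * w i x :=
      fun w hw i x hx => mul_nonneg (Lam_pos i).le (hw i x hx)
    have h1 := ih (su.pd j) sv (hL w hw) hw' (hu.2 j) hv.of_succ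
    have h2 := ih su (sv.pd j) hw (hL w' hw') hu.of_succ (hv.2 j)
    have h2' : 𝓕.Bk k (fun i x => 𝓕.Lam i * w i x * w' i x)
        (fun i z => L (u i z) (Crest.Agent.R216.TE.pd j (v i) z)) :=
      h2.mono one_pos (fun i x _ => by rw [one_mul]; apply le_of_eq; ring)
    have s1 : 𝓕.Sm (fun i z => L (Crest.Agent.R216.TE.pd j (u i) z) (v i z)) := fun i =>
      L.isBoundedBilinearMap.contDiff.comp_contDiffOn ((su.pd j i).prodMk (sv i))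
    have s2 : 𝓕.Sm (fun i z => L (u i z) (Crest.Agent.R216.TE.pd j (v i) z)) := fun i =>
      L.isBoundedBilinearMap.contDiff.comp_contDiffOn ((su i).prodMk (sv.pd j i))
    refine ((Bk.add s1 s2 h1 h2').congr (fun i z hz => ?_)).mono one_pos
      (fun i x _ => by rw [one_mul]; apply le_of_eq; ring)
    have d1 := diffAt (𝓕.isOpen_dom i) (su i) hz
    have d2 := diffAt (𝓕.isOpen_dom i) (sv i) hz
    show _ = fderiv ℝ (fun z => L (u i z) (v i z)) z (bas j)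
    have := (L.hasFDerivAt_of_bilinear d1.hasFDerivAt d2.hasFDerivAt).fderiv
    rw [this]
    simp [Crest.Agent.R216.TE.pd, add_comm]

lemma B.bilin (L : V →L[ℝ] V' →L[ℝ] V'') {u : 𝓕.I → Q → V} {v : 𝓕.I → Q → V'}
    (hw : ∀ i, ∀ x ∈ 𝓕.D i, 0 ≤ w i x) (hw' : ∀ i, ∀ x ∈ 𝓕.D i, 0 ≤ w' i x)
    (hu : 𝓕.B w u) (hv : 𝓕.B w' v) :
    𝓕.B (fun i x => w i x * w' i x) (fun i z => L (u i z) (v i z)) :=
  ⟨fun i => L.isBoundedBilinearMap.contDiff.comp_contDiffOn ((hu.smooth i).prodMk (hv.smooth i)),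
    fun k => Bk.bilin L hu.smooth hv.smooth hw hw' (hu.bound k) (hv.bound k)⟩

end Fam
end
end Crest.Agent.R216.TE
end

-- ▼ part R216/ClsAlg
section

/-!
# Row 216: class calculus, algebraic corollaries (sub, mul, smul, inner, inv, sqrt).
-/

open Set Topology
open scoped ContDiff

set_option linter.unusedSectionVars false

namespace Crest.Agent.R216.TE

variable {V V' V'' : Type*} [NormedAddCommGroup V] [NormedSpace ℝ V]
  [NormedAddCommGroup V'] [NormedSpace ℝ V'] [NormedAddCommGroup V''] [NormedSpace ℝ V'']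

namespace Fam
variable {𝓕 : Fam}
variable {w w' w'' : 𝓕.I → X2 → ℝ}

/-- nonnegative weights -/
def Nn (w : 𝓕.I → X2 → ℝ) : Prop := ∀ i, ∀ x ∈ 𝓕.D i, 0 ≤ w i x

lemma B.const_smul {u : 𝓕.I → Q → V} (c : ℝ) (hw : Nn w) (hu : 𝓕.B w u) :
    𝓕.B w (fun i z => c • u i z) :=
  hu.clm (c • ContinuousLinearMap.id ℝ V) hw

lemma B.neg {u : 𝓕.I → Q → V} (hw : Nn w) (hu : 𝓕.B w u) : 𝓕.B w (fun i z => - u i z) := by
  have := hu.const_smul (-1) hw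
  simpa using this

lemma B.sub {u v : 𝓕.I → Q → V} (hw : Nn w) (hu : 𝓕.B w u) (hv : 𝓕.B w v) :
    𝓕.B w (fun i z => u i z - v i z) := by
  have := hu.add (hv.neg hw)
  simpa [sub_eq_add_neg] using this

lemma B.mul {u v : 𝓕.I → Q → ℝ} (hw : Nn w) (hw' : Nn w') (hu : 𝓕.B w u) (hv : 𝓕.B w' v) :
    𝓕.B (fun i x => w i x * w' i x) (fun i z => u i z * v i z) :=
  B.bilin (ContinuousLinearMap.mul ℝ ℝ) hw hw' hu hv

lemma B.smul {u : 𝓕.I → Q → ℝ} {v : 𝓕.I → Q → V} (hw : Nn w) (hw' : Nn w') (hu : 𝓕.B w u)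
    (hv : 𝓕.B w' v) :
    𝓕.B (fun i x => w i x * w' i x) (fun i z => u i z • v i z) :=
  B.bilin (ContinuousLinearMap.lsmul ℝ ℝ) hw hw' hu hv

lemma B.inner {u v : 𝓕.I → Q → E4} (hw : Nn w) (hw' : Nn w') (hu : 𝓕.B w u)
    (hv : 𝓕.B w' v) :
    𝓕.B (fun i x => w i x * w' i x) (fun i z => inner ℝ (u i z) (v i z)) :=
  B.bilin (innerSL ℝ) hw hw' hu hv

lemma Sm.inner {u v : 𝓕.I → Q → E4} (hu : 𝓕.Sm u) (hv : 𝓕.Sm v) :
    𝓕.Sm (fun i z => inner ℝ (u i z) (v i z)) := fun i => (hu i).inner ℝ (hv i)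

/-- a constant-in-`z` family -/
lemma B.const (c : 𝓕.I → V) (h : ∃ C : ℝ, 0 < C ∧ ∀ i, ∀ x ∈ 𝓕.D i, ‖c i‖ ≤ C * w i x)
    (hw : Nn w) : 𝓕.B w (fun i _ => c i) := by
  have hzero : ∀ k, ∀ w : 𝓕.I → X2 → ℝ, Nn w → 𝓕.Bk k w (fun _ _ => (0 : V)) := by
    intro k
    induction k with
    | zero =>
      intro w hw
      exact ⟨1, one_pos, fun i z hz => by simpa using hw i z.1 hz⟩
    | succ k ih =>
      intro w hw
      refine ⟨⟨1, one_pos, fun i z hz => by simpa using hw i z.1 hz⟩, fun j => ?_⟩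
      refine (ih _ (fun i x hx => mul_nonneg (Lam_pos i).le (hw i x hx))).congr (fun i z hz => ?_)
      simp [Crest.Agent.R216.TE.pd]
  have hsz : 𝓕.Sz w (fun i _ => c i) := by
    obtain ⟨C, hC, h⟩ := h
    exact ⟨C, hC, fun i z hz => h i z.1 hz⟩
  refine ⟨fun i => contDiffOn_const, fun k => ?_⟩
  cases k with
  | zero => exact hsz
  | succ k =>
    refine ⟨hsz, fun j => ?_⟩
    refine (hzero k _ (fun i x hx => mul_nonneg (Lam_pos i).le (hw i x hx))).congr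
      (fun i z hz => ?_)
    simp [Crest.Agent.R216.TE.pd]

lemma B.zero (hw : Nn w) : 𝓕.B w (fun _ _ => (0 : V)) :=
  B.const (fun _ => 0) ⟨1, one_pos, fun i x hx => by simpa using hw i x hx⟩ hw

/-- multiplication by `z`-independent numbers -/
lemma B.smul_const {u : 𝓕.I → Q → V} (c : 𝓕.I → ℝ) (hw : Nn w) (hu : 𝓕.B w u) :
    𝓕.B (fun i x => |c i| * w i x) (fun i z => c i • u i z) :=
  B.smul (fun i x _ => abs_nonneg _) hw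
    (B.const (w := fun i _ => |c i|) c ⟨1, one_pos, fun i x _ => by simp⟩
      (fun i x _ => abs_nonneg _)) hu

/-! ### inverses and square roots -/

lemma Sz.inv {u : 𝓕.I → Q → ℝ} {c : ℝ} (hc : 0 < c) (hw : ∀ i, ∀ x ∈ 𝓕.D i, 0 < w i x)
    (hlow : ∀ i, ∀ z ∈ 𝓕.dom i, c * w i z.1 ≤ u i z) :
    𝓕.Sz (fun i x => (w i x)⁻¹) (fun i z => (u i z)⁻¹) := by
  refine ⟨c⁻¹, inv_pos.2 hc, fun i z hz => ?_⟩
  have h1 := hlow i z hz
  have h2 := hw i z.1 hz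
  have h3 : 0 < c * w i z.1 := mul_pos hc h2
  rw [Real.norm_eq_abs, abs_of_pos (inv_pos.2 (lt_of_lt_of_le h3 h1)), ← mul_inv]
  exact inv_anti₀ h3 h1

lemma Bk.inv {k : ℕ} : ∀ {w : 𝓕.I → X2 → ℝ} {u : 𝓕.I → Q → ℝ} {c : ℝ}, 𝓕.Sm u →
    0 < c → (∀ i, ∀ x ∈ 𝓕.D i, 0 < w i x) →
    (∀ i, ∀ z ∈ 𝓕.dom i, c * w i z.1 ≤ u i z) →
    𝓕.Bk k w u → 𝓕.Bk k (fun i x => (w i x)⁻¹) (fun i z => (u i z)⁻¹) := by
  induction k with
  | zero => intro w u c _ hc hw hlow _; exact Sz.inv hc hw hlow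
  | succ k ih =>
    intro w u c su hc hw hlow hu
    have hpos : ∀ i, ∀ z ∈ 𝓕.dom i, 0 < u i z := fun i z hz =>
      lt_of_lt_of_le (mul_pos hc (hw i z.1 hz)) (hlow i z hz)
    refine ⟨Sz.inv hc hw hlow, fun j => ?_⟩
    have sinv : 𝓕.Sm (fun i z => (u i z)⁻¹) := fun i =>
      (su i).inv (fun z hz => (hpos i z hz).ne')
    have hinv := ih su hc hw hlow hu.of_succ
    have nw : Nn w := fun i x hx => (hw i x hx).le
    have nwi : Nn (fun i x => (w i x)⁻¹ : 𝓕.I → X2 → ℝ) := fun i x hx => (inv_pos.2 (hw i x hx)).le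
    have nl : Nn (fun i x => 𝓕.Lam i * w i x : 𝓕.I → X2 → ℝ) := fun i x hx =>
      mul_nonneg (Lam_pos i).le (nw i x hx)
    have sq := Bk.bilin (ContinuousLinearMap.mul ℝ ℝ) sinv sinv nwi nwi hinv hinv
    have s2 : 𝓕.Sm (fun i z => ContinuousLinearMap.mul ℝ ℝ (u i z)⁻¹ (u i z)⁻¹) := fun i => by
      simpa using (sinv i).mul (sinv i)
    have pr := Bk.bilin (ContinuousLinearMap.mul ℝ ℝ) (su.pd j) s2 nl
      (fun i x hx => mul_nonneg (nwi i x hx) (nwi i x hx)) (hu.2 j) sq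
    have s3 : 𝓕.Sm (fun i z => ContinuousLinearMap.mul ℝ ℝ (Crest.Agent.R216.TE.pd j (u i) z)
        (ContinuousLinearMap.mul ℝ ℝ (u i z)⁻¹ (u i z)⁻¹)) := fun i => by
      simpa using (su.pd j i).mul (s2 i)
    have pr' := pr.clm (-ContinuousLinearMap.id ℝ ℝ) s3
      (fun i x hx => mul_nonneg (nl i x hx) (mul_nonneg (nwi i x hx) (nwi i x hx)))
    refine (pr'.mono one_pos (fun i x hx => ?_)).congr (fun i z hz => ?_)
    · rw [one_mul]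
      have := (hw i x hx).ne'
      apply le_of_eq
      field_simp
    · have d1 := diffAt (𝓕.isOpen_dom i) (su i) hz
      show _ = fderiv ℝ (fun z => (u i z)⁻¹) z (bas j)
      have e : fderiv ℝ (fun z => (u i z)⁻¹) z = -(u i z ^ 2)⁻¹ • fderiv ℝ (u i) z :=
        ((hasDerivAt_inv (hpos i z hz).ne').comp_hasFDerivAt z d1.hasFDerivAt).fderiv
      rw [e]
      simp [Crest.Agent.R216.TE.pd]
      ring

lemma B.inv {u : 𝓕.I → Q → ℝ} {c : ℝ} (hc : 0 < c) (hw : ∀ i, ∀ x ∈ 𝓕.D i, 0 < w i x)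
    (hlow : ∀ i, ∀ z ∈ 𝓕.dom i, c * w i z.1 ≤ u i z) (hu : 𝓕.B w u) :
    𝓕.B (fun i x => (w i x)⁻¹) (fun i z => (u i z)⁻¹) :=
  ⟨fun i => (hu.smooth i).inv (fun z hz =>
      (lt_of_lt_of_le (mul_pos hc (hw i z.1 hz)) (hlow i z hz)).ne'),
    fun k => (hu.bound k).inv hu.smooth hc hw hlow⟩

lemma Sz.sqrt {u : 𝓕.I → Q → ℝ} (hw : ∀ i, ∀ x ∈ 𝓕.D i, 0 < w i x) (hu : 𝓕.Sz w u) :
    𝓕.Sz (fun i x => Real.sqrt (w i x)) (fun i z => Real.sqrt (u i z)) := by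
  obtain ⟨C, hC, h⟩ := hu
  refine ⟨Real.sqrt C, Real.sqrt_pos.2 hC, fun i z hz => ?_⟩
  rw [← Real.sqrt_mul hC.le, Real.norm_eq_abs, abs_of_nonneg (Real.sqrt_nonneg _)]
  exact Real.sqrt_le_sqrt ((le_abs_self _).trans (h i z hz))

lemma Bk.sqrt {k : ℕ} : ∀ {w : 𝓕.I → X2 → ℝ} {u : 𝓕.I → Q → ℝ} {c : ℝ}, 𝓕.Sm u →
    0 < c → (∀ i, ∀ x ∈ 𝓕.D i, 0 < w i x) →
    (∀ i, ∀ z ∈ 𝓕.dom i, c * w i z.1 ≤ u i z) →
    𝓕.Bk k w u → 𝓕.Bk k (fun i x => Real.sqrt (w i x)) (fun i z => Real.sqrt (u i z)) := by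
  induction k with
  | zero => intro w u c _ hc hw hlow hu; exact Sz.sqrt hw hu
  | succ k ih =>
    intro w u c su hc hw hlow hu
    have hpos : ∀ i, ∀ z ∈ 𝓕.dom i, 0 < u i z := fun i z hz =>
      lt_of_lt_of_le (mul_pos hc (hw i z.1 hz)) (hlow i z hz)
    refine ⟨Sz.sqrt hw hu.1, fun j => ?_⟩
    have ss : 𝓕.Sm (fun i z => Real.sqrt (u i z)) := fun i =>
      (su i).sqrt (fun z hz => (hpos i z hz).ne')
    have hs := ih su hc hw hlow hu.of_succ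
    have hws : ∀ i, ∀ x ∈ 𝓕.D i, 0 < Real.sqrt (w i x) := fun i x hx => Real.sqrt_pos.2 (hw i x hx)
    have hlow' : ∀ i, ∀ z ∈ 𝓕.dom i, Real.sqrt c * Real.sqrt (w i z.1) ≤ Real.sqrt (u i z) := by
      intro i z hz
      rw [← Real.sqrt_mul hc.le]
      exact Real.sqrt_le_sqrt (hlow i z hz)
    have hsi := Bk.inv ss (Real.sqrt_pos.2 hc) hws hlow' hs
    have ssi : 𝓕.Sm (fun i z => (Real.sqrt (u i z))⁻¹) := fun i =>
      (ss i).inv (fun z hz => (Real.sqrt_pos.2 (hpos i z hz)).ne')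
    have nw : Nn w := fun i x hx => (hw i x hx).le
    have nl : Nn (fun i x => 𝓕.Lam i * w i x : 𝓕.I → X2 → ℝ) := fun i x hx =>
      mul_nonneg (Lam_pos i).le (nw i x hx)
    have nsi : Nn (fun i x => (Real.sqrt (w i x))⁻¹ : 𝓕.I → X2 → ℝ) := fun i x hx =>
      (inv_pos.2 (hws i x hx)).le
    have pr := Bk.bilin (ContinuousLinearMap.mul ℝ ℝ) (su.pd j) ssi nl nsi (hu.2 j) hsi
    have s3 : 𝓕.Sm (fun i z => ContinuousLinearMap.mul ℝ ℝ (Crest.Agent.R216.TE.pd j (u i) z)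
        (Real.sqrt (u i z))⁻¹) := fun i => by
      simpa using (su.pd j i).mul (ssi i)
    have pr' := pr.clm ((2⁻¹ : ℝ) • ContinuousLinearMap.id ℝ ℝ) s3
      (fun i x hx => mul_nonneg (nl i x hx) (nsi i x hx))
    refine (pr'.mono one_pos (fun i x hx => ?_)).congr (fun i z hz => ?_)
    · rw [one_mul]
      have h1 := hw i x hx
      have h2 := (hws i x hx).ne'
      apply le_of_eq
      have : w i x = Real.sqrt (w i x) * Real.sqrt (w i x) := (Real.mul_self_sqrt h1.le).symm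
      calc 𝓕.Lam i * w i x * (Real.sqrt (w i x))⁻¹
          = 𝓕.Lam i * (Real.sqrt (w i x) * Real.sqrt (w i x)) * (Real.sqrt (w i x))⁻¹ := by
            rw [← this]
        _ = 𝓕.Lam i * Real.sqrt (w i x) := by field_simp
    · have d1 := diffAt (𝓕.isOpen_dom i) (su i) hz
      show _ = fderiv ℝ (fun z => Real.sqrt (u i z)) z (bas j)
      have h := (d1.hasFDerivAt.sqrt (hpos i z hz).ne').fderiv
      rw [h]
      simp [Crest.Agent.R216.TE.pd]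
      ring

lemma B.sqrt {u : 𝓕.I → Q → ℝ} {c : ℝ} (hc : 0 < c) (hw : ∀ i, ∀ x ∈ 𝓕.D i, 0 < w i x)
    (hlow : ∀ i, ∀ z ∈ 𝓕.dom i, c * w i z.1 ≤ u i z) (hu : 𝓕.B w u) :
    𝓕.B (fun i x => Real.sqrt (w i x)) (fun i z => Real.sqrt (u i z)) :=
  ⟨fun i => (hu.smooth i).sqrt (fun z hz =>
      (lt_of_lt_of_le (mul_pos hc (hw i z.1 hz)) (hlow i z hz)).ne'),
    fun k => (hu.bound k).sqrt hu.smooth hc hw hlow⟩

end Fam
end Crest.Agent.R216.TE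
end

-- ▼ part R216/EngDefs

/-!
# Row 216, Theorem E: definitions for the engine.
`t` has period `2π`. `mean`, `osc`, `prim` act in `t`.
-/

open Set Topology MeasureTheory
open scoped ContDiff

namespace Crest.Agent.R216.TE

section ops
variable {V : Type*} [NormedAddCommGroup V] [NormedSpace ℝ V]

/-- `2π`-periodic in `t` over the set `D` -/
def PerOn (D : Set X2) (u : Q → V) : Prop := ∀ x ∈ D, ∀ t, u (x, t + 2 * Real.pi) = u (x, t)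

/-- mean over `t` -/
noncomputable def mean (u : Q → V) : Q → V :=
  fun z => (2 * Real.pi)⁻¹ • ∫ s in (0:ℝ)..(2 * Real.pi), u (z.1, s)

/-- oscillating part -/
noncomputable def osc (u : Q → V) : Q → V := fun z => u z - mean u z

/-- primitive in `t` from `0` -/
noncomputable def prim0 (u : Q → V) : Q → V := fun z => ∫ s in (0:ℝ)..z.2, u (z.1, s)

/-- mean-zero primitive in `t` of the oscillating part -/
noncomputable def prim (u : Q → V) : Q → V := osc (prim0 (osc u))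

/-- shift in `t` by a function of `x` -/
def shift (g : X2 → ℝ) (u : Q → V) : Q → V := fun z => u (z.1, z.2 + g z.1)

/-- primitive in `x2` from the axis -/
noncomputable def int2 (v : X2 → ℝ) : X2 → ℝ := fun x => ∫ s in (0:ℝ)..x.2, v (x.1, s)

/-- a function of `x` seen as a function of `(x,t)` -/
def lift (v : X2 → V) : Q → V := fun z => v z.1

end ops

/-! ### partial derivatives of functions of `x` -/
noncomputable def d1 {V : Type*} [NormedAddCommGroup V] [NormedSpace ℝ V] (f : X2 → V) : X2 → V :=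
  fun x => fderiv ℝ f x (1, 0)
noncomputable def d2 {V : Type*} [NormedAddCommGroup V] [NormedSpace ℝ V] (f : X2 → V) : X2 → V :=
  fun x => fderiv ℝ f x (0, 1)

/-! ### linear algebra in `ℝ⁴` -/

/-- Gram determinant of two vectors -/
noncomputable def gram (B C : E4) : ℝ :=
  inner ℝ B B * inner ℝ C C - inner ℝ B C ^ 2

/-- dual vector: `⟪xiB, B⟫ = 1`, `⟪xiB, C⟫ = 0` -/
noncomputable def xiB (B C : E4) : E4 := (gram B C)⁻¹ • (inner ℝ C C • B - inner ℝ B C • C)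
/-- dual vector: `⟪xiC, C⟫ = 1`, `⟪xiC, B⟫ = 0` -/
noncomputable def xiC (B C : E4) : E4 := (gram B C)⁻¹ • (inner ℝ B B • C - inner ℝ B C • B)

/-- orthogonal projection to `span(B,C)` -/
noncomputable def cpr (A B C : E4) : E4 := inner ℝ A B • xiB B C + inner ℝ A C • xiC B C
/-- orthogonal projection to `Π = span(B,C)ᗮ` -/
noncomputable def ppr (A B C : E4) : E4 := A - cpr A B C

/-- the vector product of three vectors of `ℝ⁴`: `⟪cross3 a b c, v⟫ = det (v,a,b,c)` -/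
noncomputable def cross3 (a b c : E4) : E4 := (WithLp.equiv 2 (Fin 4 → ℝ)).symm
  ![ a 1 * (b 2 * c 3 - b 3 * c 2) - a 2 * (b 1 * c 3 - b 3 * c 1) + a 3 * (b 1 * c 2 - b 2 * c 1),
     -(a 0 * (b 2 * c 3 - b 3 * c 2) - a 2 * (b 0 * c 3 - b 3 * c 0) + a 3 * (b 0 * c 2 - b 2 * c 0)),
     a 0 * (b 1 * c 3 - b 3 * c 1) - a 1 * (b 0 * c 3 - b 3 * c 0) + a 3 * (b 0 * c 1 - b 1 * c 0),
     -(a 0 * (b 1 * c 2 - b 2 * c 1) - a 1 * (b 0 * c 2 - b 2 * c 0) + a 2 * (b 0 * c 1 - b 1 * c 0)) ]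

/-- rotation by 90 degrees in `Π` -/
noncomputable def Jrot (B C v : E4) : E4 := (Real.sqrt (gram B C))⁻¹ • cross3 B C v

/-! ### families for the engine -/

/-- A family with an amplitude `a` and a small parameter `η` (`ε = η^16`). -/
structure EFam extends Fam where
  a : I → X2 → ℝ
  η : I → ℝ
  a_pos : ∀ i, ∀ x ∈ D i, 0 < a i x
  a_le : ∃ C, 0 < C ∧ ∀ i, ∀ x ∈ D i, a i x ≤ C
  η_pos : ∀ i, 0 < η i
  Lam_η : ∀ i, Lam i ^ 10 * η i ≤ 1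
  a_B : toFam.B a (fun i => lift (a i))

namespace EFam
variable (𝓔 : EFam)

/-- `ε = η^16` -/
def eps (i : 𝓔.I) : ℝ := 𝓔.η i ^ 16

/-- the weight `a^j η^m Λ^l` -/
def W (j m l : ℕ) : 𝓔.I → X2 → ℝ := fun i x => 𝓔.a i x ^ j * 𝓔.η i ^ m * 𝓔.Lam i ^ l

variable {V : Type*} [NormedAddCommGroup V] [NormedSpace ℝ V]

/-- the class with weight `a^j η^m` -/
def C (j m : ℕ) (u : 𝓔.I → Q → V) : Prop := 𝓔.toFam.B (𝓔.W j m 0) u

/-- `D1 = ∂₁ + ε⁻¹ ∂_t` -/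
noncomputable def A1 (F : 𝓔.I → Q → V) : 𝓔.I → Q → V :=
  fun i z => pd 0 (F i) z + (𝓔.eps i)⁻¹ • pd 2 (F i) z

/-- `D2 = ∂₂` -/
noncomputable def A2 (F : 𝓔.I → Q → V) : 𝓔.I → Q → V := fun i z => pd 1 (F i) z

end EFam

/-- The data of the engine over a family. -/
structure EData (𝓔 : EFam) where
  f : 𝓔.I → X2 → E4
  /-- orthonormal frame of `Π = {f₂,f₂₂}ᗮ` (functions of `x`) -/
  b1 : 𝓔.I → X2 → E4
  b2 : 𝓔.I → X2 → E4
  /-- the loop minus `f₁` -/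
  Wl : 𝓔.I → Q → E4
  /-- extra target -/
  G11 : 𝓔.I → X2 → ℝ
  G12 : 𝓔.I → X2 → ℝ
  G22 : 𝓔.I → X2 → ℝ

namespace EData
variable {𝓔 : EFam} (d : EData 𝓔)

noncomputable def f1 : 𝓔.I → Q → E4 := fun i => lift (d1 (d.f i))
noncomputable def f2 : 𝓔.I → Q → E4 := fun i => lift (d2 (d.f i))
noncomputable def f12 : 𝓔.I → Q → E4 := fun i => lift (d1 (d2 (d.f i)))
noncomputable def f22 : 𝓔.I → Q → E4 := fun i => lift (d2 (d2 (d.f i)))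

/-- `c`: projection of `f₁` to `span(f₂,f₂₂)` -/
noncomputable def cc : 𝓔.I → Q → E4 := fun i z => cpr (d.f1 i z) (d.f2 i z) (d.f22 i z)

/-- components of `p` and `W` in the frame -/
noncomputable def p1 : 𝓔.I → Q → ℝ := fun i z => inner ℝ (d.f1 i z) (d.b1 i z.1)
noncomputable def p2 : 𝓔.I → Q → ℝ := fun i z => inner ℝ (d.f1 i z) (d.b2 i z.1)
noncomputable def W1 : 𝓔.I → Q → ℝ := fun i z => inner ℝ (d.Wl i z) (d.b1 i z.1)
noncomputable def W2 : 𝓔.I → Q → ℝ := fun i z => inner ℝ (d.Wl i z) (d.b2 i z.1)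

/-- `r² = |p|² + a²` -/
noncomputable def r2 : 𝓔.I → Q → ℝ :=
  fun i z => d.p1 i z ^ 2 + d.p2 i z ^ 2 + 𝓔.a i z.1 ^ 2

/-- the loop `w = f₁ + W` -/
noncomputable def w : 𝓔.I → Q → E4 := fun i z => d.f1 i z + d.Wl i z

/-- `u₁`, the mean-zero primitive of `W` -/
noncomputable def u1 : 𝓔.I → Q → E4 := fun i => prim (d.Wl i)

/-- `r⁴ det <b_w ⊗ b_w>` -/
noncomputable def Del : 𝓔.I → Q → ℝ := fun i z =>
  d.p1 i z ^ 2 * mean (fun z' => d.W2 i z' ^ 2) z + d.p2 i z ^ 2 * mean (fun z' => d.W1 i z' ^ 2) z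
  - 2 * d.p1 i z * d.p2 i z * mean (fun z' => d.W1 i z' * d.W2 i z') z
  + mean (fun z' => d.W1 i z' ^ 2) z * mean (fun z' => d.W2 i z' ^ 2) z
  - mean (fun z' => d.W1 i z' * d.W2 i z') z ^ 2

/-- Hypotheses of the engine. -/
structure Hyp : Prop where
  fsm : 𝓔.toFam.Sm (fun i => lift (d.f i))
  f1B : 𝓔.toFam.B (𝓔.W 0 0 0) d.f1
  f2B : 𝓔.toFam.B (𝓔.W 0 0 0) d.f2
  f12B : 𝓔.toFam.B (𝓔.W 0 0 0) d.f12
  f22B : 𝓔.toFam.B (𝓔.W 0 0 0) d.f22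
  gram_low : ∃ c, 0 < c ∧ ∀ i, ∀ z ∈ 𝓔.toFam.dom i, c ≤ gram (d.f2 i z) (d.f22 i z)
  b1B : 𝓔.toFam.B (𝓔.W 0 0 0) (fun i => lift (d.b1 i))
  b2B : 𝓔.toFam.B (𝓔.W 0 0 0) (fun i => lift (d.b2 i))
  b_on : ∀ i, ∀ x ∈ 𝓔.D i, ‖d.b1 i x‖ = 1 ∧ ‖d.b2 i x‖ = 1 ∧ inner ℝ (d.b1 i x) (d.b2 i x) = 0
  b_perp : ∀ i, ∀ z ∈ 𝓔.toFam.dom i,
    inner ℝ (d.b1 i z.1) (d.f2 i z) = 0 ∧ inner ℝ (d.b1 i z.1) (d.f22 i z) = 0 ∧
    inner ℝ (d.b2 i z.1) (d.f2 i z) = 0 ∧ inner ℝ (d.b2 i z.1) (d.f22 i z) = 0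
  WB : 𝓔.toFam.B (𝓔.W 1 0 0) d.Wl
  Wper : ∀ i, PerOn (𝓔.D i) (d.Wl i)
  Weven : ∀ i, ∀ x ∈ 𝓔.D i, ∀ t, d.Wl i (x, -t) = d.Wl i (x, t)
  Wmean : ∀ i, ∀ z ∈ 𝓔.toFam.dom i, mean (d.Wl i) z = 0
  Wperp : ∀ i, ∀ z ∈ 𝓔.toFam.dom i,
    inner ℝ (d.Wl i z) (d.f2 i z) = 0 ∧ inner ℝ (d.Wl i z) (d.f22 i z) = 0
  circle : ∀ i, ∀ z ∈ 𝓔.toFam.dom i,
    inner ℝ (d.w i z) (d.w i z) = inner ℝ (d.f1 i z) (d.f1 i z) + 𝓔.a i z.1 ^ 2
  r2_low : ∃ c, 0 < c ∧ ∀ i, ∀ z ∈ 𝓔.toFam.dom i, c ≤ d.r2 i z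
  Del_low : ∃ c, 0 < c ∧ ∀ i, ∀ z ∈ 𝓔.toFam.dom i, c * 𝓔.a i z.1 ^ 2 ≤ d.Del i z
  G11B : 𝓔.toFam.B (𝓔.W 2 48 0) (fun i => lift (d.G11 i))
  G12B : 𝓔.toFam.B (𝓔.W 2 48 0) (fun i => lift (d.G12 i))
  G22B : 𝓔.toFam.B (𝓔.W 2 48 0) (fun i => lift (d.G22 i))
  star : ∀ i, ∀ x ∈ 𝓔.D i, ∀ l ∈ Icc (0:ℝ) 1, (x.1, l * x.2) ∈ 𝓔.D i
  bdd2 : ∃ L, 0 < L ∧ ∀ i, ∀ x ∈ 𝓔.D i, |x.2| ≤ L

/-- the errors of a state `F` -/
noncomputable def E11 (F : 𝓔.I → Q → E4) : 𝓔.I → Q → ℝ := fun i z =>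
  inner ℝ (𝓔.A1 F i z) (𝓔.A1 F i z)
    - (inner ℝ (d.f1 i z) (d.f1 i z) + 𝓔.a i z.1 ^ 2 + d.G11 i z.1)
noncomputable def E12 (F : 𝓔.I → Q → E4) : 𝓔.I → Q → ℝ := fun i z =>
  inner ℝ (𝓔.A1 F i z) (𝓔.A2 F i z) - (inner ℝ (d.f1 i z) (d.f2 i z) + d.G12 i z.1)
noncomputable def E22 (F : 𝓔.I → Q → E4) : 𝓔.I → Q → ℝ := fun i z =>
  inner ℝ (𝓔.A2 F i z) (𝓔.A2 F i z) - (inner ℝ (d.f2 i z) (d.f2 i z) + d.G22 i z.1)

/-- `ρ = ε⁻¹ (F - f) - u₁` -/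
noncomputable def rho (F : 𝓔.I → Q → E4) : 𝓔.I → Q → E4 := fun i z =>
  (𝓔.eps i)⁻¹ • (F i z - d.f i z.1) - d.u1 i z

/-- admissible states -/
structure Good (F : 𝓔.I → Q → E4) : Prop where
  sm : 𝓔.toFam.Sm F
  per : ∀ i, PerOn (𝓔.D i) (F i)
  rho_osc : 𝓔.toFam.B (𝓔.W 1 7 1) (fun i => osc (d.rho F i))
  rho_mean : 𝓔.toFam.B (𝓔.W 2 7 1) (fun i => mean (d.rho F i))

/-- error classes: exponents of `η` for the six components
(11 osc, 11 mean, 12 osc, 12 mean, 22 osc, 22 mean) -/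
structure Err (e11o e11m e12o e12m e22o e22m : ℕ) (F : 𝓔.I → Q → E4) : Prop where
  o11 : 𝓔.toFam.B (𝓔.W 1 e11o 0) (fun i => osc (d.E11 F i))
  m11 : 𝓔.toFam.B (𝓔.W 2 e11m 0) (fun i => mean (d.E11 F i))
  o12 : 𝓔.toFam.B (𝓔.W 1 e12o 0) (fun i => osc (d.E12 F i))
  m12 : 𝓔.toFam.B (𝓔.W 2 e12m 0) (fun i => mean (d.E12 F i))
  o22 : 𝓔.toFam.B (𝓔.W 1 e22o 0) (fun i => osc (d.E22 F i))
  m22 : 𝓔.toFam.B (𝓔.W 2 e22m 0) (fun i => mean (d.E22 F i))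

/-- start of round `n` -/
def Err0 (n : ℕ) (F : 𝓔.I → Q → E4) : Prop := d.Err (15+n) (15+n) (15+n) (23+n) (27+n) (27+n) F

/-- the base state `F₀ = f + ε u₁` -/
noncomputable def base : 𝓔.I → Q → E4 := fun i z => d.f i z.1 + 𝓔.eps i • d.u1 i z

end EData

end Crest.Agent.R216.TE
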