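import Mathlib
import Crest.Agent.R216.EngDefs

-- ▼ part R216/Smooth
section

/-!
Row 216, module SMOOTH: averaging operators at scale `t` on a finite dimensional space.
-/

set_option autoImplicit false

open scoped ContDiff Convolution
open MeasureTheory Set Metric

namespace Crest.Agent.R216.Smooth

variable {V : Type*} [NormedAddCommGroup V] [NormedSpace ℝ V] [FiniteDimensional ℝ V]
  [MeasureSpace V] [BorelSpace V] [(volume : Measure V).IsAddHaarMeasure]
variable {F : Type*} [NormedAddCommGroup F] [NormedSpace ℝ F]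
variable {G : Type*} [NormedAddCommGroup G] [NormedSpace ℝ G]

/-- A smooth kernel supported in the closed unit ball. -/
structure IsKer (k : V → ℝ) : Prop where
  smooth : ContDiff ℝ ∞ k
  supp : ∀ y, 1 < ‖y‖ → k y = 0

/-- Averaging with kernel `k` at scale `t`. -/
noncomputable def T (k : V → ℝ) (t : ℝ) (g : V → F) (x : V) : F := ∫ y, k y • g (x - t • y)


namespace IsKer
variable {k : V → ℝ} (hk : IsKer k)
include hk

omit [FiniteDimensional ℝ V] [MeasureSpace V] [BorelSpace V]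
  [(volume : Measure V).IsAddHaarMeasure] in
theorem cont : Continuous k := hk.smooth.continuous

omit [MeasureSpace V] [BorelSpace V] [(volume : Measure V).IsAddHaarMeasure] in
theorem compact : HasCompactSupport k := by
  apply HasCompactSupport.intro (isCompact_closedBall (0 : V) 1)
  intro x hx
  apply hk.supp
  simpa using hx

theorem integrable : Integrable k := hk.cont.integrable_of_hasCompactSupport hk.compact

omit [MeasureSpace V] [BorelSpace V] [(volume : Measure V).IsAddHaarMeasure]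
  [FiniteDimensional ℝ V] in
theorem fderiv_apply (v : V) : IsKer (fun y => fderiv ℝ k y v) := by
  refine ⟨?_, ?_⟩
  · have h1 : ContDiff ℝ ∞ (fderiv ℝ k) := hk.smooth.fderiv_right (m := ∞) (by simp)
    exact h1.clm_apply contDiff_const
  · intro y hy
    have h2 : ∀ᶠ z in nhds y, k z = 0 := by
      have : {z : V | 1 < ‖z‖} ∈ nhds y := (isOpen_lt continuous_const continuous_norm).mem_nhds hy
      filter_upwards [this] with z hz using hk.supp z hz
    have h3 : fderiv ℝ k y = 0 := by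
      have : k =ᶠ[nhds y] fun _ => (0 : ℝ) := h2
      rw [this.fderiv_eq]; simp
    simp [h3]

end IsKer

/-! ### basic properties -/

section basic
variable {k : V → ℝ} (hk : IsKer k)
include hk

theorem integrable_T {g : V → F} (hg : Continuous g) (t : ℝ) (x : V) :
    Integrable (fun y => k y • g (x - t • y)) := by
  apply Continuous.integrable_of_hasCompactSupport
  · exact hk.cont.smul (hg.comp (by fun_prop))
  · exact hk.compact.smul_right

theorem T_clm {g : V → F} (hg : Continuous g) (t : ℝ) (L : F →L[ℝ] G) [CompleteSpace F]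
    [CompleteSpace G] (x : V) :
    T k t (fun z => L (g z)) x = L (T k t g x) := by
  unfold T
  rw [← L.integral_comp_comm (integrable_T hk hg t x)]
  simp




/-- sup bound. -/
theorem norm_T_le {g : V → F} {t : ℝ} (ht : 0 ≤ t) {x : V} {M : ℝ}
    (hM : ∀ z ∈ closedBall x t, ‖g z‖ ≤ M) : ‖T k t g x‖ ≤ (∫ y, ‖k y‖) * M := by
  unfold T
  rw [← integral_mul_const]
  apply norm_integral_le_of_norm_le (hk.integrable.norm.mul_const M)
  refine Filter.Eventually.of_forall fun y => ?_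
  rw [norm_smul]
  by_cases hy : 1 < ‖y‖
  · simp [hk.supp y hy]
  · apply mul_le_mul_of_nonneg_left _ (norm_nonneg _)
    apply hM
    simp only [mem_closedBall, dist_eq_norm]
    have : x - t • y - x = -(t • y) := by abel
    rw [this, norm_neg, norm_smul, Real.norm_of_nonneg ht]
    push Not at hy
    nlinarith

omit hk [FiniteDimensional ℝ V] [BorelSpace V] [(volume : Measure V).IsAddHaarMeasure] in
theorem T_scale {g : V → F} {t : ℝ} (ht : t ≠ 0) (x : V) :
    T k t g x = T k 1 (fun z => g (t • z)) (t⁻¹ • x) := by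
  unfold T
  congr 1
  ext y
  have : t • (t⁻¹ • x - (1 : ℝ) • y) = x - t • y := by
    rw [smul_sub, smul_smul, mul_inv_cancel₀ ht, one_smul, one_smul]
  simp only [this]

omit hk [FiniteDimensional ℝ V] [BorelSpace V] [(volume : Measure V).IsAddHaarMeasure] in
theorem T_one {g : V → F} : T k 1 g = (k ⋆[ContinuousLinearMap.lsmul ℝ ℝ, volume] g) := by
  ext x
  simp [T, convolution]

theorem contDiff_T_one [CompleteSpace F] {g : V → F} (hg : Continuous g) :
    ContDiff ℝ ∞ (T k 1 g) := by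
  rw [T_one]
  exact hk.compact.contDiff_convolution_left _ hk.smooth hg.locallyIntegrable

theorem contDiff_T [CompleteSpace F] {g : V → F} (hg : Continuous g) {t : ℝ} (ht : t ≠ 0) :
    ContDiff ℝ ∞ (T k t g) := by
  have : T k t g = fun x => T k 1 (fun z => g (t • z)) (t⁻¹ • x) := by
    ext x; exact T_scale ht x
  rw [this]
  exact (contDiff_T_one hk (hg.comp (by fun_prop))).comp (by fun_prop)

/-- derivative falls on `g`. -/
theorem hasFDerivAt_T [CompleteSpace F] {g : V → F} (hg : ContDiff ℝ 1 g) (t : ℝ) (x : V) :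
    HasFDerivAt (T k t g) (T k t (fderiv ℝ g) x) x := by
  have hgc : Continuous (fderiv ℝ g) := hg.continuous_fderiv (by simp)
  obtain ⟨C, hC⟩ := (isCompact_closedBall x (1 + |t|)).exists_bound_of_continuousOn hgc.continuousOn
  unfold T
  refine hasFDerivAt_integral_of_dominated_of_fderiv_le (bound := fun y => ‖k y‖ * C)
    (F' := fun z y => k y • fderiv ℝ g (z - t • y)) (ball_mem_nhds x one_pos) ?_ ?_ ?_ ?_ ?_ ?_
  · refine Filter.Eventually.of_forall fun z => ?_
    exact (integrable_T hk hg.continuous t z).aestronglyMeasurable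
  · exact integrable_T hk hg.continuous t x
  · exact (integrable_T hk hgc t x).aestronglyMeasurable
  · refine Filter.Eventually.of_forall fun y z hz => ?_
    rw [norm_smul]
    by_cases hy : 1 < ‖y‖
    · simp [hk.supp y hy]
    · apply mul_le_mul_of_nonneg_left _ (norm_nonneg _)
      apply hC
      push Not at hy
      simp only [mem_closedBall, dist_eq_norm]
      have h1 : z - t • y - x = (z - x) - t • y := by abel
      have h2 : ‖z - x‖ < 1 := by simpa [dist_eq_norm] using hz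
      calc ‖z - t • y - x‖ = ‖(z - x) - t • y‖ := by rw [h1]
        _ ≤ ‖z - x‖ + ‖t • y‖ := norm_sub_le _ _
        _ ≤ 1 + |t| := by
          rw [norm_smul, Real.norm_eq_abs]
          nlinarith [abs_nonneg t, norm_nonneg y]
  · exact hk.integrable.norm.mul_const C
  · refine Filter.Eventually.of_forall fun y z _ => ?_
    have h1 : HasFDerivAt g (fderiv ℝ g (z - t • y)) (z - t • y) :=
      (hg.differentiable (by simp) _).hasFDerivAt
    have h2 : HasFDerivAt (fun z : V => z - t • y) (ContinuousLinearMap.id ℝ V) z :=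
      (hasFDerivAt_id z).sub_const _
    have h3 := h1.comp z h2
    simp only [ContinuousLinearMap.comp_id] at h3
    exact h3.const_smul (k y)

theorem fderiv_T [CompleteSpace F] {g : V → F} (hg : ContDiff ℝ 1 g) (t : ℝ) (x : V) :
    fderiv ℝ (T k t g) x = T k t (fderiv ℝ g) x := (hasFDerivAt_T hk hg t x).fderiv

end basic

/-! ### derivative bounds, derivative falls on the kernel -/

section kernel

/-- a fixed basis -/
noncomputable def bas (V : Type*) [NormedAddCommGroup V] [NormedSpace ℝ V] [FiniteDimensional ℝ V] :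
    Module.Basis (Fin (Module.finrank ℝ V)) ℝ V := Module.finBasis ℝ V

/-- coordinate functional -/
noncomputable def co (i : Fin (Module.finrank ℝ V)) : V →L[ℝ] ℝ :=
  LinearMap.toContinuousLinearMap ((bas V).coord i)

omit [MeasureSpace V] [BorelSpace V] [(volume : Measure V).IsAddHaarMeasure] in
theorem sum_co (v : V) : ∑ i, co i v • bas V i = v := by
  simp [co]

variable {k : V → ℝ} (hk : IsKer k)

/-- directional derivative of the kernel in the `i`-th basis direction -/
noncomputable def dk (k : V → ℝ) (i : Fin (Module.finrank ℝ V)) : V → ℝ :=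
  fun y => fderiv ℝ k y (bas V i)

omit [MeasureSpace V] [BorelSpace V] [(volume : Measure V).IsAddHaarMeasure] in
include hk in
theorem isKer_dk (i : Fin (Module.finrank ℝ V)) : IsKer (dk k i) := hk.fderiv_apply _

/-- The constants. -/
noncomputable def cst : ℕ → (V → ℝ) → ℝ
  | 0, k => ∫ y, ‖k y‖
  | (j+1), k => ∑ i, ‖(co i : V →L[ℝ] ℝ)‖ * cst j (dk k i)

omit [BorelSpace V] [(volume : Measure V).IsAddHaarMeasure] in
theorem cst_nonneg (j : ℕ) (k : V → ℝ) : 0 ≤ cst j k := by
  induction j generalizing k with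
  | zero => exact integral_nonneg fun _ => norm_nonneg _
  | succ j ih => exact Finset.sum_nonneg fun i _ => mul_nonneg (norm_nonneg _) (ih _)

include hk in
theorem fderiv_T_one_apply [CompleteSpace F] {g : V → F} (hg : Continuous g) (x v : V) :
    fderiv ℝ (T k 1 g) x v = T (fun y => fderiv ℝ k y v) 1 g x := by
  have h1 : HasFDerivAt (T k 1 g)
      ((fderiv ℝ k ⋆[(ContinuousLinearMap.lsmul ℝ ℝ).precompL V, volume] g) x) x := by
    rw [T_one]
    exact hk.compact.hasFDerivAt_convolution_left _ (hk.smooth.of_le (by simp))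
      hg.locallyIntegrable x
  rw [h1.fderiv]
  unfold convolution
  have hcont : Continuous (fderiv ℝ k) := hk.smooth.continuous_fderiv (by simp)
  have hsupp : HasCompactSupport (fderiv ℝ k) := hk.compact.fderiv ℝ
  rw [ContinuousLinearMap.integral_apply]
  · unfold T
    congr 1
    ext y
    simp
  · apply Continuous.integrable_of_hasCompactSupport
    · have : Continuous (fun p : (V →L[ℝ] ℝ) × F =>
          ((ContinuousLinearMap.lsmul ℝ ℝ : ℝ →L[ℝ] F →L[ℝ] F).precompL V) p.1 p.2) :=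
        ContinuousLinearMap.continuous₂ _
      exact this.comp (hcont.prodMk (hg.comp (by fun_prop)))
    · apply hsupp.mono'
      intro y hy
      apply subset_tsupport
      intro h0
      apply hy
      simp [h0]

include hk in
theorem fderiv_T_apply [CompleteSpace F] {g : V → F} (hg : Continuous g) {t : ℝ} (ht : t ≠ 0)
    (x v : V) :
    fderiv ℝ (T k t g) x v = t⁻¹ • T (fun y => fderiv ℝ k y v) t g x := by
  have h0 : T k t g = fun x => T k 1 (fun z => g (t • z)) (t⁻¹ • x) := by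
    ext x; exact T_scale ht x
  have hgt : Continuous fun z => g (t • z) := hg.comp (by fun_prop)
  have hd : DifferentiableAt ℝ (T k 1 (fun z => g (t • z))) (t⁻¹ • x) :=
    ((contDiff_T_one hk hgt).differentiable (by simp)) _
  rw [h0]
  have h1 : HasFDerivAt (fun x : V => t⁻¹ • x) (t⁻¹ • ContinuousLinearMap.id ℝ V) x :=
    (hasFDerivAt_id x).const_smul t⁻¹
  have h2 := (hd.hasFDerivAt.comp x h1).fderiv
  simp only [Function.comp_def] at h2
  rw [h2]
  simp only [ContinuousLinearMap.comp_apply, _root_.smul_apply,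
    ContinuousLinearMap.id_apply, map_smul]
  rw [fderiv_T_one_apply hk hgt, ← T_scale ht x]

include hk in
theorem fderiv_T_eq_sum [CompleteSpace F] {g : V → F} (hg : Continuous g) {t : ℝ} (ht : t ≠ 0)
    (x : V) :
    fderiv ℝ (T k t g) x = ∑ i, t⁻¹ • (co i).smulRight (T (dk k i) t g x) := by
  ext v
  conv_lhs => rw [← sum_co v]
  rw [map_sum]
  simp only [_root_.sum_apply, _root_.smul_apply,
    ContinuousLinearMap.smulRight_apply, map_smul]
  refine Finset.sum_congr rfl fun i _ => ?_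
  rw [fderiv_T_apply hk hg ht, smul_comm]
  rfl

include hk in
theorem norm_iteratedFDeriv_T_le [CompleteSpace F] {g : V → F} (hg : Continuous g) {t : ℝ}
    (ht : 0 < t) {x : V} {M : ℝ} (hM : ∀ z ∈ closedBall x t, ‖g z‖ ≤ M) (j : ℕ) :
    ‖iteratedFDeriv ℝ j (T k t g) x‖ ≤ cst j k * (t⁻¹) ^ j * M := by
  induction j generalizing k with
  | zero =>
    simp only [norm_iteratedFDeriv_zero, pow_zero, mul_one]
    exact norm_T_le hk ht.le hM
  | succ j ih =>
    rw [← norm_iteratedFDeriv_fderiv]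
    have h0 : fderiv ℝ (T k t g) = fun x => ∑ i, t⁻¹ • (co i).smulRight (T (dk k i) t g x) := by
      ext1 x; exact fderiv_T_eq_sum hk hg ht.ne' x
    rw [h0]
    have hM0 : 0 ≤ M := (norm_nonneg _).trans (hM x (mem_closedBall_self ht.le))
    have hsm : ∀ i, ContDiff ℝ ∞ (T (dk k i) t g) := fun i => contDiff_T (isKer_dk hk i) hg ht.ne'
    let Φ : Fin (Module.finrank ℝ V) → (F →L[ℝ] (V →L[ℝ] F)) := fun i =>
      t⁻¹ • ContinuousLinearMap.smulRightL ℝ V F (co i)
    have h1 : (fun x => ∑ i, t⁻¹ • (co i).smulRight (T (dk k i) t g x)) =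
        fun x => ∑ i, (Φ i ∘ (T (dk k i) t g)) x := by
      ext x v
      simp [Φ]
    rw [h1]
    have h2 : iteratedFDeriv ℝ j (fun x => ∑ i, (Φ i ∘ (T (dk k i) t g)) x) x =
        ∑ i, iteratedFDeriv ℝ j (Φ i ∘ (T (dk k i) t g)) x := by
      have := iteratedFDeriv_sum (𝕜 := ℝ) (i := j) (u := Finset.univ)
        (f := fun i => (Φ i ∘ (T (dk k i) t g)))
        (fun i _ => ((Φ i).contDiff.comp ((hsm i).of_le (by exact_mod_cast le_top))))
      rw [this]
      simp
    rw [h2]
    calc ‖∑ i, iteratedFDeriv ℝ j (Φ i ∘ (T (dk k i) t g)) x‖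
        ≤ ∑ i, ‖iteratedFDeriv ℝ j (Φ i ∘ (T (dk k i) t g)) x‖ := norm_sum_le _ _
      _ ≤ ∑ i, (t⁻¹ * ‖(co i : V →L[ℝ] ℝ)‖) * (cst j (dk k i) * (t⁻¹) ^ j * M) := by
        refine Finset.sum_le_sum fun i _ => ?_
        rw [ContinuousLinearMap.iteratedFDeriv_comp_left (Φ i)
          (((hsm i).of_le (by exact_mod_cast le_top)).contDiffAt) le_rfl]
        refine (ContinuousLinearMap.norm_compContinuousMultilinearMap_le _ _).trans ?_
        apply mul_le_mul _ (ih (isKer_dk hk i)) (norm_nonneg _) (by positivity)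
        simp only [Φ]
        rw [norm_smul, Real.norm_of_nonneg (by positivity : (0:ℝ) ≤ t⁻¹)]
        apply mul_le_mul_of_nonneg_left _ (by positivity)
        apply ContinuousLinearMap.opNorm_le_bound _ (norm_nonneg _)
        intro w
        simp [ContinuousLinearMap.norm_smulRight_apply]
      _ = cst (j+1) k * (t⁻¹) ^ (j+1) * M := by
        simp only [cst, Finset.sum_mul]
        refine Finset.sum_congr rfl fun i _ => ?_
        ring

end kernel

end Crest.Agent.R216.Smooth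
private theorem rz_02d562bc26 : type_of% @_root_.Crest.Agent.R216.Smooth.cst.eq_def := @_root_.Crest.Agent.R216.Smooth.cst.eq_def -- L215
private theorem rz_60961bbab5 : type_of% @_root_.Crest.Agent.R216.Smooth.cst.eq_1 := @_root_.Crest.Agent.R216.Smooth.cst.eq_1 -- L215
end

-- ▼ part R216/SmoothP
section

/-!
Row 216, module SMOOTH, part 2: the smoothing operators `S`, `R = 1 - S`, `P K = 1 - (1-S)^K`.
-/

set_option autoImplicit false
set_option linter.unusedSectionVars false
set_option linter.unusedTactic false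

open scoped ContDiff Convolution
open MeasureTheory Set Metric

namespace Crest.Agent.R216.Smooth

universe u

variable {V : Type u} [NormedAddCommGroup V] [NormedSpace ℝ V] [FiniteDimensional ℝ V]
  [MeasureSpace V] [BorelSpace V] [(volume : Measure V).IsAddHaarMeasure]
variable {F : Type u} [NormedAddCommGroup F] [NormedSpace ℝ F] [CompleteSpace F]

/-- the bump used for the mollifier -/
noncomputable def bump0 (V : Type u) [NormedAddCommGroup V] : ContDiffBump (0 : V) :=
  ⟨1/2, 1, by norm_num, by norm_num⟩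

/-- the mollifier -/
noncomputable def rho (V : Type u) [NormedAddCommGroup V] [NormedSpace ℝ V] [FiniteDimensional ℝ V]
    [MeasureSpace V] : V → ℝ :=
  (bump0 V).normed volume

omit [BorelSpace V] [(volume : Measure V).IsAddHaarMeasure] in
theorem isKer_rho [BorelSpace V] [(volume : Measure V).IsAddHaarMeasure] : IsKer (rho V) := by
  refine ⟨(bump0 V).contDiff_normed, ?_⟩
  intro y hy
  have h : y ∉ Function.support (rho V) := by
    unfold rho
    rw [ContDiffBump.support_normed_eq]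
    simp only [bump0, mem_ball, dist_zero_right, not_lt]
    exact hy.le
  simpa using h

theorem integral_norm_rho : ∫ y, ‖rho V y‖ = 1 := by
  have h : ∀ y, ‖rho V y‖ = rho V y := fun y =>
    Real.norm_of_nonneg ((bump0 V).nonneg_normed y)
  simp_rw [h]
  exact (bump0 V).integral_normed

theorem integral_rho : ∫ y, rho V y = 1 := (bump0 V).integral_normed

/-- smoothing at scale `t` -/
noncomputable def S (t : ℝ) (g : V → F) : V → F := T (rho V) t g

/-- `R = 1 - S` -/
noncomputable def R (t : ℝ) (g : V → F) : V → F := fun x => g x - S t g x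

/-- `(1-S)^K` -/
noncomputable def Rn (K : ℕ) (t : ℝ) (g : V → F) : V → F := (R t)^[K] g

/-- `P K = 1 - (1-S)^K` -/
noncomputable def P (K : ℕ) (t : ℝ) (g : V → F) : V → F := fun x => g x - Rn K t g x

/-- constants -/
noncomputable def cR (V : Type u) [NormedAddCommGroup V] [NormedSpace ℝ V] [FiniteDimensional ℝ V]
    [MeasureSpace V] (j : ℕ) : ℝ := cst j (rho V)

omit [BorelSpace V] [(volume : Measure V).IsAddHaarMeasure] in
theorem cR_nonneg (j : ℕ) : 0 ≤ cR V j := cst_nonneg _ _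

section S
variable {t : ℝ} {g : V → F}

theorem contDiff_S (ht : t ≠ 0) (hg : Continuous g) : ContDiff ℝ ∞ (S t g) :=
  contDiff_T isKer_rho hg ht

theorem S_clm {G : Type*} [NormedAddCommGroup G] [NormedSpace ℝ G] [CompleteSpace G]
    (hg : Continuous g) (L : F →L[ℝ] G) (x : V) :
    T (rho V) t (fun z => L (g z)) x = L (S t g x) :=
  T_clm isKer_rho hg t L x

theorem fderiv_S (hg : ContDiff ℝ 1 g) : fderiv ℝ (S t g) = S t (fderiv ℝ g) := by
  ext1 x; exact fderiv_T isKer_rho hg t x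

theorem contDiff_S_nat {n : ℕ} (ht : t ≠ 0) (hg : ContDiff ℝ n g) : ContDiff ℝ n (S t g) :=
  (contDiff_S ht hg.continuous).of_le (by exact_mod_cast le_top)

theorem contDiff_S_of {n : WithTop ℕ∞} (hn : n ≤ ∞) (ht : t ≠ 0) (hg : ContDiff ℝ n g) :
    ContDiff ℝ n (S t g) :=
  (contDiff_S ht hg.continuous).of_le hn

theorem iteratedFDeriv_S (j : ℕ) (hg : ContDiff ℝ j g) :
    iteratedFDeriv ℝ j (S t g) = S t (iteratedFDeriv ℝ j g) := by
  induction j with
  | zero =>
    ext1 x
    rw [iteratedFDeriv_zero_eq_comp]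
    simp only [Function.comp_apply]
    have h := T_clm (isKer_rho (V := V)) hg.continuous t
      (continuousMultilinearCurryFin0 ℝ V F).symm.toContinuousLinearEquiv.toContinuousLinearMap x
    unfold S
    rw [iteratedFDeriv_zero_eq_comp]
    exact h.symm
  | succ j ih =>
    have hgj : ContDiff ℝ j g := hg.of_le (by exact_mod_cast Nat.le_succ j)
    have h1 : ContDiff ℝ 1 (iteratedFDeriv ℝ j g) :=
      hg.iteratedFDeriv_right (m := 1) (i := j) (by norm_cast; omega)
    rw [iteratedFDeriv_succ_eq_comp_left, ih hgj, fderiv_S h1]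
    ext1 x
    rw [iteratedFDeriv_succ_eq_comp_left]
    simp only [Function.comp_apply]
    have h2 : Continuous (fderiv ℝ (iteratedFDeriv ℝ j g)) := h1.continuous_fderiv (by simp)
    have h := T_clm (F := V →L[ℝ] (V [×j]→L[ℝ] F)) (G := V [×(j+1)]→L[ℝ] F)
      (isKer_rho (V := V)) h2 t
      (continuousMultilinearCurryLeftEquiv ℝ (fun _ : Fin (j + 1) => V)
        F).symm.toContinuousLinearEquiv.toContinuousLinearMap x
    exact h.symm

theorem norm_S_le (ht : 0 ≤ t) {x : V} {M : ℝ} (hM : ∀ z ∈ closedBall x t, ‖g z‖ ≤ M) :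
    ‖S t g x‖ ≤ M := by
  have := norm_T_le (isKer_rho (V := V)) ht hM
  rwa [integral_norm_rho, one_mul] at this

theorem norm_sub_S_le (ht : 0 ≤ t) (hg : Differentiable ℝ g) {x : V} {M : ℝ}
    (hM : ∀ z ∈ closedBall x t, ‖fderiv ℝ g z‖ ≤ M) :
    ‖g x - S t g x‖ ≤ t * M := by
  have hM0 : 0 ≤ M := (norm_nonneg _).trans (hM x (mem_closedBall_self ht))
  have h0 : g x = ∫ y, rho V y • g x := by
    rw [integral_smul_const, integral_rho, one_smul]
  have h1 : g x - S t g x = ∫ y, rho V y • (g x - g (x - t • y)) := by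
    conv_lhs => rw [h0]
    unfold S T
    rw [← integral_sub]
    · simp [smul_sub]
    · exact isKer_rho.integrable.smul_const _
    · exact integrable_T isKer_rho hg.continuous t x
  rw [h1]
  have h2 : t * M = ∫ y, ‖rho V y‖ * (t * M) := by
    rw [integral_mul_const, integral_norm_rho, one_mul]
  rw [h2]
  apply norm_integral_le_of_norm_le (isKer_rho.integrable.norm.mul_const _)
  refine Filter.Eventually.of_forall fun y => ?_
  rw [norm_smul]
  by_cases hy : 1 < ‖y‖
  · simp [isKer_rho.supp y hy]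
  · apply mul_le_mul_of_nonneg_left _ (norm_nonneg _)
    push Not at hy
    have h3 : x - t • y ∈ closedBall x t := by
      simp only [mem_closedBall, dist_eq_norm]
      have : x - t • y - x = -(t • y) := by abel
      rw [this, norm_neg, norm_smul, Real.norm_of_nonneg ht]
      nlinarith
    have h4 := (convex_closedBall x t).norm_image_sub_le_of_norm_fderiv_le
      (fun z _ => hg z) hM h3 (mem_closedBall_self ht)
    refine h4.trans ?_
    rw [mul_comm]
    apply mul_le_mul_of_nonneg_right _ hM0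
    have : x - (x - t • y) = t • y := by abel
    rw [this, norm_smul, Real.norm_of_nonneg ht]
    nlinarith

theorem norm_iteratedFDeriv_S_le (ht : 0 < t) (hg : Continuous g) {x : V} {M : ℝ}
    (hM : ∀ z ∈ closedBall x t, ‖g z‖ ≤ M) (j : ℕ) :
    ‖iteratedFDeriv ℝ j (S t g) x‖ ≤ cR V j * (t⁻¹) ^ j * M :=
  norm_iteratedFDeriv_T_le isKer_rho hg ht hM j

/-- mixed bound: `i` derivatives fall on `g`, `j` on the kernel. -/
theorem norm_iteratedFDeriv_S_le' (ht : 0 < t) (i j : ℕ) {F : Type u} [NormedAddCommGroup F]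
    [NormedSpace ℝ F] [CompleteSpace F] {g : V → F} (hg : ContDiff ℝ i g) {x : V} {M : ℝ}
    (hM : ∀ z ∈ closedBall x t, ‖iteratedFDeriv ℝ i g z‖ ≤ M) :
    ‖iteratedFDeriv ℝ (i + j) (S t g) x‖ ≤ cR V j * (t⁻¹) ^ j * M := by
  induction i generalizing F g with
  | zero =>
    rw [Nat.zero_add]
    exact norm_iteratedFDeriv_S_le ht hg.continuous (fun z hz => by simpa using hM z hz) j
  | succ i ih =>
    have h1 : i + 1 + j = (i + j) + 1 := by omega
    have hg1 : ContDiff ℝ 1 g := hg.of_le (by norm_cast; omega)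
    rw [h1, ← norm_iteratedFDeriv_fderiv, fderiv_S hg1]
    apply ih
    · exact hg.fderiv_right (m := i) (by norm_cast)
    · intro z hz
      rw [norm_iteratedFDeriv_fderiv]
      exact hM z hz


end S

/-! ### `R` and its iterates -/

section R
variable {t : ℝ}

theorem Rn_zero (g : V → F) : Rn 0 t g = g := rfl

theorem Rn_succ (K : ℕ) (g : V → F) : Rn (K + 1) t g = R t (Rn K t g) := by
  unfold Rn; rw [Function.iterate_succ_apply']

theorem contDiff_R {n : WithTop ℕ∞} (hn : n ≤ ∞) (ht : t ≠ 0) {g : V → F}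
    (hg : ContDiff ℝ n g) : ContDiff ℝ n (R t g) :=
  hg.sub (contDiff_S_of hn ht hg)

theorem contDiff_Rn {n : WithTop ℕ∞} (hn : n ≤ ∞) (ht : t ≠ 0) (K : ℕ) {g : V → F}
    (hg : ContDiff ℝ n g) : ContDiff ℝ n (Rn K t g) := by
  induction K with
  | zero => simpa [Rn_zero] using hg
  | succ K ih => rw [Rn_succ]; exact contDiff_R hn ht ih

theorem contDiff_P {n : WithTop ℕ∞} (hn : n ≤ ∞) (ht : t ≠ 0) (K : ℕ) {g : V → F}
    (hg : ContDiff ℝ n g) : ContDiff ℝ n (P K t g) :=
  hg.sub (contDiff_Rn hn ht K hg)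

theorem fderiv_R (ht : t ≠ 0) {g : V → F} (hg : ContDiff ℝ 1 g) :
    fderiv ℝ (R t g) = R t (fderiv ℝ g) := by
  ext1 x
  have h1 : DifferentiableAt ℝ g x := hg.differentiable (by simp) x
  have h2 : DifferentiableAt ℝ (S t g) x :=
    (contDiff_S ht hg.continuous).differentiable (by simp) x
  change fderiv ℝ (fun x => g x - S t g x) x = _
  rw [fderiv_fun_sub h1 h2, fderiv_S hg]
  rfl

theorem fderiv_Rn (ht : t ≠ 0) (K : ℕ) {g : V → F} (hg : ContDiff ℝ 1 g) :
    fderiv ℝ (Rn K t g) = Rn K t (fderiv ℝ g) := by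
  induction K with
  | zero => rfl
  | succ K ih =>
    rw [Rn_succ, fderiv_R ht (contDiff_Rn (by exact_mod_cast le_top) ht K hg), ih, Rn_succ]

theorem fderiv_P (ht : t ≠ 0) (K : ℕ) {g : V → F} (hg : ContDiff ℝ 1 g) :
    fderiv ℝ (P K t g) = P K t (fderiv ℝ g) := by
  ext1 x
  have h1 : DifferentiableAt ℝ g x := hg.differentiable (by simp) x
  have h2 : DifferentiableAt ℝ (Rn K t g) x :=
    (contDiff_Rn (by exact_mod_cast le_top) ht K hg).differentiable (by simp) x
  change fderiv ℝ (fun x => g x - Rn K t g x) x = _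
  rw [fderiv_fun_sub h1 h2, fderiv_Rn ht K hg]
  rfl

theorem iteratedFDeriv_R (ht : t ≠ 0) (j : ℕ) {g : V → F} (hg : ContDiff ℝ j g) :
    iteratedFDeriv ℝ j (R t g) = R t (iteratedFDeriv ℝ j g) := by
  ext1 x
  have h : R t g = g - S t g := rfl
  have h2 : ContDiffAt ℝ j (S t g) x := (contDiff_S_nat ht hg).contDiffAt
  rw [h, iteratedFDeriv_sub_apply hg.contDiffAt h2, iteratedFDeriv_S j hg]
  rfl

/-- compatibility with continuous linear maps -/
theorem R_clm {G : Type u} [NormedAddCommGroup G] [NormedSpace ℝ G] [CompleteSpace G] {g : V → F}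
    (hg : Continuous g) (L : F →L[ℝ] G) :
    R t (fun z => L (g z)) = fun x => L (R t g x) := by
  ext x
  simp only [R, map_sub]
  congr 1
  exact S_clm hg L x

theorem Rn_clm {G : Type u} [NormedAddCommGroup G] [NormedSpace ℝ G] [CompleteSpace G]
    (ht : t ≠ 0) (K : ℕ) {g : V → F} (hg : Continuous g) (L : F →L[ℝ] G) :
    Rn K t (fun z => L (g z)) = fun x => L (Rn K t g x) := by
  induction K with
  | zero => rfl
  | succ K ih =>
    rw [Rn_succ, ih, R_clm (contDiff_zero.1 (contDiff_Rn (by simp) ht K (contDiff_zero.2 hg))),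
      Rn_succ]

theorem P_clm {G : Type u} [NormedAddCommGroup G] [NormedSpace ℝ G] [CompleteSpace G]
    (ht : t ≠ 0) (K : ℕ) {g : V → F} (hg : Continuous g) (L : F →L[ℝ] G) :
    P K t (fun z => L (g z)) = fun x => L (P K t g x) := by
  ext x
  simp only [P, map_sub, Rn_clm ht K hg L]

/-- directional derivatives commute with `P`. -/
theorem fderiv_P_apply (ht : t ≠ 0) (K : ℕ) {g : V → F} (hg : ContDiff ℝ 1 g) (x v : V) :
    fderiv ℝ (P K t g) x v = P K t (fun z => fderiv ℝ g z v) x := by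
  rw [fderiv_P ht K hg]
  have := P_clm ht K (hg.continuous_fderiv (by simp)) (ContinuousLinearMap.apply ℝ F v)
  exact (congrFun this x).symm


omit [FiniteDimensional ℝ V] [MeasureSpace V] [BorelSpace V]
  [(volume : Measure V).IsAddHaarMeasure] in
theorem closedBall_step {x z : V} {t : ℝ} {K : ℕ} (hz : z ∈ closedBall x t) :
    closedBall z (K * t) ⊆ closedBall x ((K + 1 : ℕ) * t) := by
  intro w hw
  simp only [mem_closedBall] at *
  push_cast
  have := dist_triangle w z x
  linarith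

/-- crude sup bound for `(1-S)^K`. -/
theorem norm_Rn_le (ht : 0 ≤ t) (K : ℕ) {g : V → F} {x : V} {M : ℝ}
    (hM : ∀ z ∈ closedBall x (K * t), ‖g z‖ ≤ M) : ‖Rn K t g x‖ ≤ 2 ^ K * M := by
  induction K generalizing x with
  | zero => simpa [Rn_zero] using hM x (by simp)
  | succ K ih =>
    rw [Rn_succ]
    have h1 : ∀ z ∈ closedBall x t, ‖Rn K t g z‖ ≤ 2 ^ K * M := fun z hz =>
      ih (fun w hw => hM w (closedBall_step hz hw))
    have h2 : ‖S t (Rn K t g) x‖ ≤ 2 ^ K * M := norm_S_le ht h1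
    have h3 := h1 x (mem_closedBall_self ht)
    calc ‖R t (Rn K t g) x‖ ≤ ‖Rn K t g x‖ + ‖S t (Rn K t g) x‖ := norm_sub_le _ _
      _ ≤ 2 ^ (K + 1) * M := by rw [pow_succ]; linarith

/-- derivatives: crude bound for `(1-S)^K`. -/
theorem norm_iteratedFDeriv_Rn_le_crude (ht : 0 < t) (i K : ℕ) {g : V → F} (hg : ContDiff ℝ i g)
    {x : V} {M : ℝ} (hM : ∀ z ∈ closedBall x (K * t), ‖iteratedFDeriv ℝ i g z‖ ≤ M) :
    ‖iteratedFDeriv ℝ i (Rn K t g) x‖ ≤ 2 ^ K * M := by
  have h : ∀ K : ℕ, iteratedFDeriv ℝ i (Rn K t g) = Rn K t (iteratedFDeriv ℝ i g) := by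
    intro K
    induction K with
    | zero => rfl
    | succ K ih =>
      rw [Rn_succ, iteratedFDeriv_R ht.ne' i
        (contDiff_Rn (by exact_mod_cast le_top) ht.ne' K hg), ih, Rn_succ]
  rw [h K]
  exact norm_Rn_le ht.le K hM

/-- the gain: `(1-S)^K` costs `K` derivatives and gains `t^K`. -/
theorem norm_iteratedFDeriv_Rn_le (ht : 0 < t) (i K : ℕ) {g : V → F}
    (hg : ContDiff ℝ (i + K : ℕ) g) {x : V} {M : ℝ}
    (hM : ∀ z ∈ closedBall x (K * t), ‖iteratedFDeriv ℝ (i + K) g z‖ ≤ M) :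
    ‖iteratedFDeriv ℝ i (Rn K t g) x‖ ≤ t ^ K * M := by
  induction K generalizing i x with
  | zero => simpa [Rn_zero] using hM x (by simp)
  | succ K ih =>
    have hgn : ContDiff ℝ ((i + 1) + K : ℕ) g := by
      convert hg using 2; norm_cast; omega
    have hRK : ContDiff ℝ ((i + 1 : ℕ)) (Rn K t g) :=
      contDiff_Rn (by exact_mod_cast le_top) ht.ne' K (hgn.of_le (by norm_cast; omega))
    have h1 : ∀ z ∈ closedBall x t, ‖fderiv ℝ (iteratedFDeriv ℝ i (Rn K t g)) z‖ ≤ t ^ K * M := by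
      intro z hz
      rw [norm_fderiv_iteratedFDeriv]
      apply ih (i + 1) hgn
      intro w hw
      have e : i + 1 + K = i + (K + 1) := by omega
      rw [e]
      exact hM w (closedBall_step hz hw)
    rw [Rn_succ, iteratedFDeriv_R ht.ne' i (hRK.of_le (by norm_cast; omega))]
    have h2 : Differentiable ℝ (iteratedFDeriv ℝ i (Rn K t g)) :=
      (hRK.iteratedFDeriv_right (m := 1) (i := i) (by norm_cast; omega)).differentiable (by simp)
    refine (norm_sub_S_le ht.le h2 h1).trans (le_of_eq ?_)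
    rw [pow_succ]; ring

/-- constants for `P K` -/
noncomputable def cP (V : Type u) [NormedAddCommGroup V] [NormedSpace ℝ V] [FiniteDimensional ℝ V]
    [MeasureSpace V] (K j : ℕ) : ℝ := 2 ^ K * cR V j

omit [BorelSpace V] [(volume : Measure V).IsAddHaarMeasure] in
theorem cP_nonneg (K j : ℕ) : 0 ≤ cP V K j := mul_nonneg (by positivity) (cR_nonneg _)

theorem P_zero (g : V → F) : P 0 t g = fun _ => 0 := by
  ext x; simp [P, Rn_zero]

theorem P_succ (K : ℕ) (g : V → F) : P (K + 1) t g = fun x => P K t g x + S t (Rn K t g) x := by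
  ext x
  simp only [P, Rn_succ, R]
  abel

/-- Main smoothing estimate: `|D^{i+j} P g| ≤ C t^{-j} sup |D^i g|`. -/
theorem norm_iteratedFDeriv_P_le (ht : 0 < t) (K i j : ℕ) {g : V → F} (hg : ContDiff ℝ i g)
    {x : V} {M : ℝ} (hM : ∀ z ∈ closedBall x (K * t), ‖iteratedFDeriv ℝ i g z‖ ≤ M) :
    ‖iteratedFDeriv ℝ (i + j) (P K t g) x‖ ≤ cP V K j * (t⁻¹) ^ j * M := by
  have hM0 : 0 ≤ M := (norm_nonneg _).trans (hM x (mem_closedBall_self (by positivity)))
  -- stronger: sum_{k<K} 2^k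
  have key : ∀ K : ℕ, (∀ z ∈ closedBall x (K * t), ‖iteratedFDeriv ℝ i g z‖ ≤ M) →
      ContDiff ℝ ∞ (P K t g) ∧
      ‖iteratedFDeriv ℝ (i + j) (P K t g) x‖ ≤ (2 ^ K - 1) * (cR V j * (t⁻¹) ^ j * M) := by
    intro K
    induction K with
    | zero =>
      intro _
      rw [P_zero]
      refine ⟨contDiff_const, ?_⟩
      have : iteratedFDeriv ℝ (i + j) (fun _ : V => (0 : F)) x = 0 := by
        simp
      rw [this]; simp
    | succ K ih =>
      intro hMK
      have hsub : closedBall x (K * t) ⊆ closedBall x ((K + 1 : ℕ) * t) := by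
        apply closedBall_subset_closedBall; push_cast; nlinarith
      obtain ⟨h1, h2⟩ := ih (fun z hz => hMK z (hsub hz))
      have hR : ContDiff ℝ i (Rn K t g) := contDiff_Rn (by exact_mod_cast le_top) ht.ne' K hg
      have h3 : ContDiff ℝ ∞ (S t (Rn K t g)) := contDiff_S ht.ne' hR.continuous
      have h4 : ‖iteratedFDeriv ℝ (i + j) (S t (Rn K t g)) x‖ ≤
          cR V j * (t⁻¹) ^ j * (2 ^ K * M) := by
        apply norm_iteratedFDeriv_S_le' ht i j hR
        intro z hz
        exact norm_iteratedFDeriv_Rn_le_crude ht i K hg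
          (fun w hw => hMK w (closedBall_step hz hw))
      rw [P_succ]
      refine ⟨h1.add h3, ?_⟩
      have h5 : iteratedFDeriv ℝ (i + j) (fun x => P K t g x + S t (Rn K t g) x) x =
          iteratedFDeriv ℝ (i + j) (P K t g) x + iteratedFDeriv ℝ (i + j) (S t (Rn K t g)) x := by
        have := iteratedFDeriv_add_apply (𝕜 := ℝ) (i := i + j) (x := x)
          (h1.of_le (by exact_mod_cast le_top)).contDiffAt
          (h3.of_le (by exact_mod_cast le_top)).contDiffAt
        exact this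
      rw [h5]
      calc ‖iteratedFDeriv ℝ (i + j) (P K t g) x + iteratedFDeriv ℝ (i + j) (S t (Rn K t g)) x‖
          ≤ _ := norm_add_le _ _
        _ ≤ (2 ^ K - 1) * (cR V j * (t⁻¹) ^ j * M) + cR V j * (t⁻¹) ^ j * (2 ^ K * M) :=
          add_le_add h2 h4
        _ = (2 ^ (K + 1) - 1) * (cR V j * (t⁻¹) ^ j * M) := by rw [pow_succ]; ring
  refine (key K hM).2.trans ?_
  have h0 : 0 ≤ cR V j * (t⁻¹) ^ j * M := by
    have := cR_nonneg (V := V) j
    positivity
  unfold cP
  calc (2 ^ K - 1) * (cR V j * (t⁻¹) ^ j * M) ≤ 2 ^ K * (cR V j * (t⁻¹) ^ j * M) := by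
        apply mul_le_mul_of_nonneg_right _ h0; linarith
    _ = _ := by ring

/-- `P K t g` is smooth as soon as `g` is continuous. -/
theorem contDiff_P_top (ht : 0 < t) (K : ℕ) {g : V → F} (hg : Continuous g) :
    ContDiff ℝ ∞ (P K t g) := by
  induction K with
  | zero => rw [P_zero]; exact contDiff_const
  | succ K ih =>
    rw [P_succ]
    have hR : Continuous (Rn K t g) :=
      contDiff_zero.1 (contDiff_Rn (by simp) ht.ne' K (contDiff_zero.2 hg))
    exact ih.add (contDiff_S ht.ne' hR)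





end R

end Crest.Agent.R216.Smooth
end

-- ▼ part R216/Conv

/-!
# Row 216, Theorem E, STAGE: conversions between `iteratedFDeriv` bounds and the classes `B(w)`.
* `B_of_iterated` : bounds of `iteratedFDeriv` give `B(w)`;
* `ev` : evaluation of a function on `Q` along `t = x₁/ε + t₀`, derivative bounds;
* `B_P` : smoothed data are in `B(1)`.
-/

set_option linter.unusedSectionVars false

open Set Topology MeasureTheory Metric
open scoped ContDiff

namespace Crest.Agent.R216.TE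

section basic
variable {E : Type*} [NormedAddCommGroup E] [NormedSpace ℝ E]
variable {V : Type*} [NormedAddCommGroup V] [NormedSpace ℝ V]

lemma norm_iter_fderiv_apply {f : E → V} {x : E} (hf : ContDiffAt ℝ ∞ f x) (n : ℕ) (v : E) :
    ‖iteratedFDeriv ℝ n (fun y => fderiv ℝ f y v) x‖ ≤ ‖v‖ * ‖iteratedFDeriv ℝ (n+1) f x‖ := by
  have h1 : ContDiffAt ℝ ∞ (fderiv ℝ f) x := hf.fderiv_right (by simp)
  have h2 := (ContinuousLinearMap.apply ℝ V v).norm_iteratedFDeriv_comp_left h1
    (n := n) (by exact_mod_cast le_top)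
  rw [norm_iteratedFDeriv_fderiv] at h2
  refine (le_of_eq ?_).trans (h2.trans ?_)
  · rfl
  · gcongr
    refine ContinuousLinearMap.opNorm_le_bound _ (norm_nonneg _) (fun L => ?_)
    simpa [mul_comm] using L.le_opNorm v

end basic

lemma norm_bas (j : Fin 3) : ‖bas j‖ ≤ 1 := by
  fin_cases j <;> simp [bas, Prod.norm_def]

namespace Fam
variable {𝓕 : Fam} {V : Type*} [NormedAddCommGroup V] [NormedSpace ℝ V]

lemma Bk_of_iterated (k : ℕ) : ∀ {w : 𝓕.I → X2 → ℝ} {u : 𝓕.I → Q → V}, 𝓕.Sm u →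
    (∀ j ≤ k, ∃ C, 0 < C ∧ ∀ i, ∀ z ∈ 𝓕.dom i,
      ‖iteratedFDeriv ℝ j (u i) z‖ ≤ C * (𝓕.Lam i ^ j * w i z.1)) → 𝓕.Bk k w u := by
  induction k with
  | zero =>
    intro w u hs h
    obtain ⟨C, hC, h⟩ := h 0 le_rfl
    exact ⟨C, hC, fun i z hz => by simpa using h i z hz⟩
  | succ k ih =>
    intro w u hs h
    refine ⟨?_, fun j => ih (hs.pd j) (fun n hn => ?_)⟩
    · obtain ⟨C, hC, h⟩ := h 0 (by omega)
      exact ⟨C, hC, fun i z hz => by simpa using h i z hz⟩
    · obtain ⟨C, hC, h⟩ := h (n+1) (by omega)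
      refine ⟨C, hC, fun i z hz => ?_⟩
      have h1 : ContDiffAt ℝ ∞ (u i) z := (hs i).contDiffAt ((𝓕.isOpen_dom i).mem_nhds hz)
      have h2 := norm_iter_fderiv_apply h1 n (bas j)
      have h3 := h i z hz
      have h4 : ‖bas j‖ * ‖iteratedFDeriv ℝ (n+1) (u i) z‖ ≤ ‖iteratedFDeriv ℝ (n+1) (u i) z‖ :=
        mul_le_of_le_one_left (norm_nonneg _) (norm_bas j)
      calc _ ≤ _ := h2
        _ ≤ _ := h4
        _ ≤ _ := h3
        _ = _ := by ring

/-- (C1) -/
lemma B_of_iterated {w : 𝓕.I → X2 → ℝ} {u : 𝓕.I → Q → V} (hs : 𝓕.Sm u)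
    (h : ∀ j : ℕ, ∃ C, 0 < C ∧ ∀ i, ∀ z ∈ 𝓕.dom i,
      ‖iteratedFDeriv ℝ j (u i) z‖ ≤ C * (𝓕.Lam i ^ j * w i z.1)) : 𝓕.B w u :=
  ⟨hs, fun k => Bk_of_iterated k hs (fun j _ => h j)⟩

lemma norm_iter_lift {v : X2 → V} {z : Q} (hv : ContDiff ℝ ∞ v) (j : ℕ) :
    ‖iteratedFDeriv ℝ j (lift v) z‖ ≤ ‖iteratedFDeriv ℝ j v z.1‖ := by
  have h := (ContinuousLinearMap.fst ℝ X2 ℝ).iteratedFDeriv_comp_right (f := v) hv z
    (i := j) (by exact_mod_cast le_top)
  have e : lift v = v ∘ (ContinuousLinearMap.fst ℝ X2 ℝ) := rfl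
  rw [e, h]
  refine (ContinuousMultilinearMap.norm_compContinuousLinearMap_le _ _).trans ?_
  have : ∏ _i : Fin j, ‖ContinuousLinearMap.fst ℝ X2 ℝ‖ ≤ 1 := by
    apply Finset.prod_le_one
    · intro i _; exact norm_nonneg _
    · intro i _; exact ContinuousLinearMap.norm_fst_le ℝ X2 ℝ
  exact mul_le_of_le_one_right (norm_nonneg _) this

/-- (C1) for functions of `x` -/
lemma B_lift_of_iterated {w : 𝓕.I → X2 → ℝ} {v : 𝓕.I → X2 → V} (hs : ∀ i, ContDiff ℝ ∞ (v i))
    (h : ∀ j : ℕ, ∃ C, 0 < C ∧ ∀ i, ∀ x ∈ 𝓕.D i,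
      ‖iteratedFDeriv ℝ j (v i) x‖ ≤ C * (𝓕.Lam i ^ j * w i x)) :
    𝓕.B w (fun i => lift (v i)) := by
  refine B_of_iterated (fun i => ?_) (fun j => ?_)
  · exact ((hs i).comp contDiff_fst).contDiffOn
  · obtain ⟨C, hC, h⟩ := h j
    exact ⟨C, hC, fun i z hz => (norm_iter_lift (hs i) j).trans (h i z.1 hz)⟩

end Fam

/-! ### evaluation at `t = x₁/ε + t₀` -/

/-- the curve `x ↦ (x, x₁ μ + t₀)` -/
def evm (μ t0 : ℝ) (x : X2) : Q := (x, x.1 * μ + t0)

/-- evaluation -/
def ev {V : Type*} (μ t0 : ℝ) (U : Q → V) : X2 → V := fun x => U (evm μ t0 x)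

lemma contDiff_evm (μ t0 : ℝ) : ContDiff ℝ ∞ (evm μ t0) := by
  unfold evm; fun_prop

section ev
variable {V : Type*} [NormedAddCommGroup V] [NormedSpace ℝ V]

lemma hasFDerivAt_evm (μ t0 : ℝ) (x : X2) : HasFDerivAt (evm μ t0)
    ((ContinuousLinearMap.id ℝ X2).prod (μ • ContinuousLinearMap.fst ℝ ℝ ℝ)) x := by
  have h1 : HasFDerivAt (fun x : X2 => x.1 * μ + t0) (μ • ContinuousLinearMap.fst ℝ ℝ ℝ) x := by
    have := ((hasFDerivAt_fst (𝕜 := ℝ) (E := ℝ) (F := ℝ) (p := x)).mul_const μ).add_const t0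
    exact this
  exact (hasFDerivAt_id x).prodMk h1

lemma d1_ev {U : Q → V} {μ t0 : ℝ} {x : X2} (hU : DifferentiableAt ℝ U (evm μ t0 x)) :
    d1 (ev μ t0 U) x = pd 0 U (evm μ t0 x) + μ • pd 2 U (evm μ t0 x) := by
  have h := (hU.hasFDerivAt.comp x (hasFDerivAt_evm μ t0 x)).fderiv
  have e : ev μ t0 U = U ∘ evm μ t0 := rfl
  unfold d1 pd
  rw [e, h]
  simp only [ContinuousLinearMap.comp_apply, ContinuousLinearMap.prod_apply,
    ContinuousLinearMap.id_apply, _root_.smul_apply, ContinuousLinearMap.coe_fst',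
    smul_eq_mul, mul_one]
  have : (((1, 0), μ) : Q) = bas 0 + μ • bas 2 := by simp [bas]
  rw [this, map_add, map_smul]

lemma d2_ev {U : Q → V} {μ t0 : ℝ} {x : X2} (hU : DifferentiableAt ℝ U (evm μ t0 x)) :
    d2 (ev μ t0 U) x = pd 1 U (evm μ t0 x) := by
  have h := (hU.hasFDerivAt.comp x (hasFDerivAt_evm μ t0 x)).fderiv
  have e : ev μ t0 U = U ∘ evm μ t0 := rfl
  unfold d2 pd
  rw [e, h]
  simp only [ContinuousLinearMap.comp_apply, ContinuousLinearMap.prod_apply,
    ContinuousLinearMap.id_apply, _root_.smul_apply, ContinuousLinearMap.coe_fst',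
    smul_eq_mul, mul_zero]
  have : (((0, 1), (0:ℝ)) : Q) = bas 1 := by simp [bas]
  rw [this]

/-- `fderiv` from the two partial derivatives -/
lemma fderiv_eq_d (g : X2 → V) (x : X2) : fderiv ℝ g x =
    (ContinuousLinearMap.smulRightL ℝ X2 V (ContinuousLinearMap.fst ℝ ℝ ℝ)) (d1 g x) +
    (ContinuousLinearMap.smulRightL ℝ X2 V (ContinuousLinearMap.snd ℝ ℝ ℝ)) (d2 g x) := by
  ext v
  · simp [d1]
  · simp [d2]

lemma norm_iter_succ_le {g : X2 → V} {s : Set X2} (hs : IsOpen s) (hg : ContDiffOn ℝ ∞ g s)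
    {x : X2} (hx : x ∈ s) (n : ℕ) :
    ‖iteratedFDeriv ℝ (n+1) g x‖ ≤
      ‖iteratedFDeriv ℝ n (d1 g) x‖ + ‖iteratedFDeriv ℝ n (d2 g) x‖ := by
  have hgx : ContDiffAt ℝ ∞ g x := hg.contDiffAt (hs.mem_nhds hx)
  have h1 : ContDiffAt ℝ ∞ (fderiv ℝ g) x := hgx.fderiv_right (by simp)
  have hd1 : ContDiffAt ℝ ∞ (d1 g) x := h1.clm_apply contDiffAt_const
  have hd2 : ContDiffAt ℝ ∞ (d2 g) x := h1.clm_apply contDiffAt_const
  rw [← norm_iteratedFDeriv_fderiv]
  have e : fderiv ℝ g = (⇑(ContinuousLinearMap.smulRightL ℝ X2 V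
      (ContinuousLinearMap.fst ℝ ℝ ℝ)) ∘ (d1 g)) +
      (⇑(ContinuousLinearMap.smulRightL ℝ X2 V (ContinuousLinearMap.snd ℝ ℝ ℝ)) ∘
        (d2 g)) := by
    funext y; exact fderiv_eq_d g y
  rw [e, iteratedFDeriv_add_apply
    (((ContinuousLinearMap.contDiff _).contDiffAt.comp x hd1).of_le (by exact_mod_cast le_top))
    (((ContinuousLinearMap.contDiff _).contDiffAt.comp x hd2).of_le (by exact_mod_cast le_top))]
  refine (norm_add_le _ _).trans (add_le_add ?_ ?_)
  · have := (ContinuousLinearMap.smulRightL ℝ X2 V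
      (ContinuousLinearMap.fst ℝ ℝ ℝ)).norm_iteratedFDeriv_comp_left hd1
      (n := n) (by exact_mod_cast le_top)
    refine this.trans (mul_le_of_le_one_left (norm_nonneg _) ?_)
    refine ContinuousLinearMap.opNorm_le_bound _ zero_le_one (fun v => ?_)
    have h : ‖ContinuousLinearMap.smulRightL ℝ X2 V (ContinuousLinearMap.fst ℝ ℝ ℝ) v‖ =
      ‖ContinuousLinearMap.fst ℝ ℝ ℝ‖ * ‖v‖ := ContinuousLinearMap.norm_smulRight_apply _ _
    rw [h, one_mul]
    exact mul_le_of_le_one_left (norm_nonneg _) (ContinuousLinearMap.norm_fst_le ℝ ℝ ℝ)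
  · have := (ContinuousLinearMap.smulRightL ℝ X2 V
      (ContinuousLinearMap.snd ℝ ℝ ℝ)).norm_iteratedFDeriv_comp_left hd2
      (n := n) (by exact_mod_cast le_top)
    refine this.trans (mul_le_of_le_one_left (norm_nonneg _) ?_)
    refine ContinuousLinearMap.opNorm_le_bound _ zero_le_one (fun v => ?_)
    have h : ‖ContinuousLinearMap.smulRightL ℝ X2 V (ContinuousLinearMap.snd ℝ ℝ ℝ) v‖ =
      ‖ContinuousLinearMap.snd ℝ ℝ ℝ‖ * ‖v‖ := ContinuousLinearMap.norm_smulRight_apply _ _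
    rw [h, one_mul]
    exact mul_le_of_le_one_left (norm_nonneg _) (ContinuousLinearMap.norm_snd_le ℝ ℝ ℝ)

end ev

namespace Fam
variable {𝓕 : Fam} {V : Type*} [NormedAddCommGroup V] [NormedSpace ℝ V]

/-- (C2) -/
lemma ev_iterated (μ : 𝓕.I → ℝ) (t0 : 𝓕.I → ℝ) (hμ : ∀ i, 1 ≤ μ i) (j : ℕ) :
    ∀ {w : 𝓕.I → X2 → ℝ} {U : 𝓕.I → Q → V}, 𝓕.B w U → (∀ i, ∀ x ∈ 𝓕.D i, 0 ≤ w i x) →
    ∃ C, 0 < C ∧ ∀ i, ∀ x ∈ 𝓕.D i,
      ‖iteratedFDeriv ℝ j (ev (μ i) (t0 i) (U i)) x‖ ≤ C * ((𝓕.Lam i * μ i) ^ j * w i x) := by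
  induction j with
  | zero =>
    intro w U hU hw
    obtain ⟨C, hC, h⟩ := hU.sz
    exact ⟨C, hC, fun i x hx => by
      rw [norm_iteratedFDeriv_zero, pow_zero, one_mul]
      exact h i (evm (μ i) (t0 i) x) hx⟩
  | succ j ih =>
    intro w U hU hw
    have hw' : ∀ i, ∀ x ∈ 𝓕.D i, 0 ≤ 𝓕.Lam i * μ i * w i x := fun i x hx =>
      mul_nonneg (mul_nonneg (Lam_pos i).le (zero_le_one.trans (hμ i))) (hw i x hx)
    have hA : 𝓕.B (fun i x => 𝓕.Lam i * μ i * w i x)
        (fun i z => Crest.Agent.R216.TE.pd 0 (U i) z + μ i • Crest.Agent.R216.TE.pd 2 (U i) z) := by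
      have h0 := (hU.pd 0).le (w' := fun i x => 𝓕.Lam i * μ i * w i x) (fun i x hx => by
        have := mul_nonneg (Lam_pos i).le (hw i x hx)
        nlinarith [hμ i])
      have h2 : 𝓕.B (fun i x => |μ i| * (𝓕.Lam i * w i x))
          (fun i z => μ i • Crest.Agent.R216.TE.pd 2 (U i) z) :=
        (hU.pd 2).smul_const μ (fun i x hx => mul_nonneg (Lam_pos i).le (hw i x hx))
      refine h0.add (h2.weight_congr (fun i x hx => ?_))
      rw [abs_of_nonneg (zero_le_one.trans (hμ i))]; ring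
    have hB : 𝓕.B (fun i x => 𝓕.Lam i * μ i * w i x) (fun i => Crest.Agent.R216.TE.pd 1 (U i)) :=
      (hU.pd 1).le (fun i x hx => by
        have := mul_nonneg (Lam_pos i).le (hw i x hx)
        nlinarith [hμ i])
    obtain ⟨C1, hC1, h1⟩ := ih hA hw'
    obtain ⟨C2, hC2, h2⟩ := ih hB hw'
    refine ⟨C1 + C2, by positivity, fun i x hx => ?_⟩
    have hsm : ContDiffOn ℝ ∞ (ev (μ i) (t0 i) (U i)) (𝓕.D i) :=
      (hU.smooth i).comp (contDiff_evm _ _).contDiffOn (fun y hy => hy)
    have hdiff : ∀ y ∈ 𝓕.D i, DifferentiableAt ℝ (U i) (evm (μ i) (t0 i) y) := fun y hy =>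
      diffAt (𝓕.isOpen_dom i) (hU.smooth i) hy
    have e1 : d1 (ev (μ i) (t0 i) (U i)) =ᶠ[𝓝 x] ev (μ i) (t0 i)
        (fun z => Crest.Agent.R216.TE.pd 0 (U i) z + μ i • Crest.Agent.R216.TE.pd 2 (U i) z) := by
      filter_upwards [(𝓕.isOpen i).mem_nhds hx] with y hy
      exact d1_ev (hdiff y hy)
    have e2 : d2 (ev (μ i) (t0 i) (U i)) =ᶠ[𝓝 x] ev (μ i) (t0 i)
        (Crest.Agent.R216.TE.pd 1 (U i)) := by
      filter_upwards [(𝓕.isOpen i).mem_nhds hx] with y hy
      exact d2_ev (hdiff y hy)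
    refine (norm_iter_succ_le (𝓕.isOpen i) hsm hx j).trans ?_
    rw [(e1.iteratedFDeriv (𝕜 := ℝ) j).eq_of_nhds, (e2.iteratedFDeriv (𝕜 := ℝ) j).eq_of_nhds]
    have h1' := h1 i x hx
    have h2' := h2 i x hx
    calc _ ≤ _ := add_le_add h1' h2'
      _ = _ := by ring

end Fam

/-! ### smoothed data -/
namespace Fam
variable {𝓕 : Fam} {V : Type} [NormedAddCommGroup V] [NormedSpace ℝ V] [CompleteSpace V]

open Smooth in
/-- (C3) -/
lemma B_P (K : ℕ) (g : 𝓕.I → X2 → V) (hg : ∀ i, Continuous (g i)) (w : 𝓕.I → ℝ)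
    (h : ∃ C, 0 < C ∧ ∀ i, ∀ x ∈ 𝓕.D i, ∀ z ∈ closedBall x (K * (𝓕.Lam i)⁻¹),
      ‖g i z‖ ≤ C * w i) :
    𝓕.B (fun i _ => w i) (fun i => lift (P K (𝓕.Lam i)⁻¹ (g i))) := by
  obtain ⟨C, hC, h⟩ := h
  refine B_lift_of_iterated (fun i => contDiff_P_top (inv_pos.2 (Lam_pos i)) K (hg i))
    (fun j => ?_)
  refine ⟨(cP X2 K j + 1) * C, by have := cP_nonneg (V := X2) K j; positivity,
    fun i x hx => ?_⟩
  have hL := Lam_pos (𝓕 := 𝓕) i
  have h0 := norm_iteratedFDeriv_P_le (inv_pos.2 hL) K 0 j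
    (g := g i) (contDiff_zero.2 (hg i)) (x := x) (M := C * w i) (fun z hz => by
      simpa using h i x hx z hz)
  have h1 : 0 ≤ C * w i := (norm_nonneg _).trans (h i x hx x (mem_closedBall_self (by positivity)))
  have hcp := cP_nonneg (V := X2) K j
  rw [zero_add] at h0
  refine h0.trans ?_
  rw [inv_inv]
  have h2 : 0 ≤ 𝓕.Lam i ^ j := by positivity
  calc cP X2 K j * 𝓕.Lam i ^ j * (C * w i) ≤ (cP X2 K j + 1) * 𝓕.Lam i ^ j * (C * w i) := by
        gcongr; linarith
    _ = _ := by ring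

end Fam

end Crest.Agent.R216.TE
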