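import Crest.Agent.R216.D1Defs
import Crest.Agent.R216.D4MatA

-- ▼ part R216/D1Null
section

/-! Row 216 (D), module D1: Lemma N (bad parameters have small Hausdorff dimension)
(owner: helper359). -/

set_option autoImplicit false
open scoped ContDiff Topology ENNReal
open Set Metric Function Module

namespace Crest.Agent.R216.D

section LemmaN

variable {X V Y : Type*} [NormedAddCommGroup X] [NormedSpace ℝ X] [FiniteDimensional ℝ X]
  [NormedAddCommGroup V] [NormedSpace ℝ V] [FiniteDimensional ℝ V]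
  [NormedAddCommGroup Y] [NormedSpace ℝ Y] [FiniteDimensional ℝ Y]

/-- local form of Lemma N -/
theorem dimH_bad_local {O : Set X} (hO : IsOpen O) {T : X → V →L[ℝ] Y}
    (hT : ContDiffOn ℝ 1 T O) {p0 : X} (hp0 : p0 ∈ O) (hs : Surjective (T p0))
    (hdim : finrank ℝ X < finrank ℝ Y) :
    ∃ U ∈ 𝓝 p0, dimH {A : V | ∃ p ∈ U, T p A = 0} ≤ ((finrank ℝ V - 1 : ℕ) : ℝ≥0∞) := by
  classical
  obtain ⟨r, hr⟩ := (T p0).exists_rightInverse_of_surjective (LinearMap.range_eq_top.2 hs)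
  have : CompleteSpace Y := FiniteDimensional.complete ℝ Y
  -- `R p = T p ∘ r : Y → Y`, a unit at `p0`
  set R : X → Y →L[ℝ] Y := fun p => (T p).comp r with hR
  have hRc : ContDiffOn ℝ 1 R O := hT.clm_comp contDiffOn_const
  have hR0 : R p0 = 1 := hr
  have hopen : IsOpen (O ∩ R ⁻¹' {x | IsUnit x}) :=
    hRc.continuousOn.isOpen_inter_preimage hO Units.isOpen
  have hmem : p0 ∈ O ∩ R ⁻¹' {x | IsUnit x} := ⟨hp0, by
    show IsUnit (R p0); rw [hR0]; exact isUnit_one⟩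
  obtain ⟨ε, hε, hball⟩ := Metric.isOpen_iff.1 hopen p0 hmem
  set K0 : Submodule ℝ V := (T p0).ker with hK0
  set Φ : X × K0 → V := fun q =>
    (q.2 : V) - r (Ring.inverse (R q.1) (T q.1 (q.2 : V))) with hΦ
  have hinv : ContDiffOn ℝ 1 (fun p => Ring.inverse (R p)) (ball p0 ε) := by
    intro p hp
    obtain ⟨hpO, hu⟩ := hball hp
    obtain ⟨u, hu⟩ := hu
    have h1 : ContDiffAt ℝ 1 Ring.inverse (R p) := by
      rw [← hu]; exact contDiffAt_ringInverse ℝ u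
    exact h1.comp_contDiffWithinAt p
      ((hRc.contDiffAt (hO.mem_nhds hpO)).contDiffWithinAt)
  have hΦc : ContDiffOn ℝ 1 Φ (ball p0 ε ×ˢ univ) := by
    have h2 : ContDiffOn ℝ 1 (fun q : X × K0 => (q.2 : V)) (ball p0 ε ×ˢ univ) :=
      (K0.subtypeL.contDiff.comp contDiff_snd).contDiffOn
    have hTb : ContDiffOn ℝ 1 T (ball p0 ε) := hT.mono fun p hp => (hball hp).1
    have h3 : ContDiffOn ℝ 1 (fun q : X × K0 => T q.1) (ball p0 ε ×ˢ univ) :=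
      hTb.comp contDiff_fst.contDiffOn (fun q hq => hq.1)
    have h4 : ContDiffOn ℝ 1 (fun q : X × K0 => Ring.inverse (R q.1)) (ball p0 ε ×ˢ univ) :=
      hinv.comp contDiff_fst.contDiffOn (fun q hq => hq.1)
    exact h2.sub (r.contDiff.comp_contDiffOn (h4.clm_apply (h3.clm_apply h2)))
  refine ⟨ball p0 ε, ball_mem_nhds p0 hε, ?_⟩
  have hsub : {A : V | ∃ p ∈ ball p0 ε, T p A = 0} ⊆ Φ '' (ball p0 ε ×ˢ univ) := by
    rintro A ⟨p, hp, hA⟩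
    obtain ⟨hpO, u, hu⟩ := hball hp
    set a : V := A - r (T p0 A) with ha
    have haK : a ∈ K0 := by
      show T p0 a = 0
      rw [ha, map_sub]
      have : T p0 (r (T p0 A)) = T p0 A := by
        have := DFunLike.congr_fun hr (T p0 A)
        exact this
      rw [this, sub_self]
    refine ⟨(p, ⟨a, haK⟩), ⟨hp, mem_univ _⟩, ?_⟩
    show a - r (Ring.inverse (R p) (T p a)) = A
    have h1 : T p a = - R p (T p0 A) := by
      rw [ha, map_sub, hA, zero_sub]; rfl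
    have h2 : Ring.inverse (R p) (R p (T p0 A)) = T p0 A := by
      have h3 : Ring.inverse (R p) * R p = 1 := by
        rw [← hu, Ring.inverse_unit]
        exact u.inv_mul
      exact DFunLike.congr_fun h3 (T p0 A)
    rw [h1, map_neg, h2, map_neg, sub_neg_eq_add, ha, sub_add_cancel]
  have hconv : Convex ℝ (ball p0 ε ×ˢ (univ : Set K0)) := (convex_ball p0 ε).prod convex_univ
  calc dimH {A : V | ∃ p ∈ ball p0 ε, T p A = 0}
      ≤ dimH (Φ '' (ball p0 ε ×ˢ univ)) := dimH_mono hsub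
    _ ≤ dimH (ball p0 ε ×ˢ (univ : Set K0)) := hΦc.dimH_image_le hconv Subset.rfl
    _ ≤ dimH (univ : Set (X × K0)) := dimH_mono (subset_univ _)
    _ = (finrank ℝ (X × K0) : ℝ≥0∞) := Real.dimH_univ_eq_finrank _
    _ ≤ ((finrank ℝ V - 1 : ℕ) : ℝ≥0∞) := by
        have h5 : finrank ℝ (LinearMap.range (T p0 : V →ₗ[ℝ] Y)) + finrank ℝ K0 = finrank ℝ V :=
          LinearMap.finrank_range_add_finrank_ker (T p0 : V →ₗ[ℝ] Y)
        have h6 : finrank ℝ (LinearMap.range (T p0 : V →ₗ[ℝ] Y)) = finrank ℝ Y := by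
          rw [LinearMap.range_eq_top.2 hs, finrank_top]
        rw [Module.finrank_prod]
        norm_cast
        omega

/-- **Lemma N.** If `T p : V → Y` is surjective for all `p` in the open set `O ⊆ X` and
`dim X < dim Y`, then the set of `A` with `T p A = 0` for some `p ∈ O` has Hausdorff dimension
at most `dim V - 1`. -/
theorem dimH_bad {O : Set X} (hO : IsOpen O) {T : X → V →L[ℝ] Y}
    (hT : ContDiffOn ℝ 1 T O) (hs : ∀ p ∈ O, Surjective (T p))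
    (hdim : finrank ℝ X < finrank ℝ Y) :
    dimH {A : V | ∃ p ∈ O, T p A = 0} ≤ ((finrank ℝ V - 1 : ℕ) : ℝ≥0∞) := by
  classical
  have h : ∀ p : O, ∃ U ∈ 𝓝 (p : X),
      dimH {A : V | ∃ p ∈ U, T p A = 0} ≤ ((finrank ℝ V - 1 : ℕ) : ℝ≥0∞) :=
    fun p => dimH_bad_local hO hT p.2 (hs p p.2) hdim
  choose U hU hUd using h
  obtain ⟨S, hS, hcov⟩ := TopologicalSpace.countable_cover_nhds
    (f := fun p : O => (Subtype.val ⁻¹' U p : Set O)) (fun p => by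
      exact preimage_coe_mem_nhds_subtype.2 (mem_nhdsWithin_of_mem_nhds (hU p)))
  have hsub : {A : V | ∃ p ∈ O, T p A = 0} ⊆ ⋃ q ∈ S, {A : V | ∃ p ∈ U q, T p A = 0} := by
    rintro A ⟨p, hp, hA⟩
    have : (⟨p, hp⟩ : O) ∈ ⋃ q ∈ S, (Subtype.val ⁻¹' U q : Set O) := by rw [hcov]; trivial
    simp only [mem_iUnion] at this ⊢
    obtain ⟨q, hq, hpq⟩ := this
    exact ⟨q, hq, p, hpq, hA⟩
  refine (dimH_mono hsub).trans ?_
  rw [dimH_bUnion hS]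
  exact iSup₂_le fun q _ => hUd q

end LemmaN


end Crest.Agent.R216.D
end

-- ▼ part R216/D1Cap
section

/-! Row 216 (D), module D1: degenerate cross-caps are not generic (helper30). -/

set_option autoImplicit false
set_option maxSynthPendingDepth 3
set_option linter.unusedSectionVars false
open scoped Manifold ContDiff Topology
open Set Metric Function

namespace Crest.Agent.R216.D

namespace Cap

/-- rotation by a right angle -/
noncomputable def J : E2 →L[ℝ] E2 := LinearMap.toContinuousLinearMap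
  { toFun := fun e => !₂[-e 1, e 0]
    map_add' := by
      intro x y; ext i; fin_cases i
      · simp [add_comm]
      · simp
    map_smul' := by
      intro c x; ext i; fin_cases i
      · simp
      · simp }

@[simp] theorem J_zero (e : E2) : J e 0 = -e 1 := rfl
@[simp] theorem J_one (e : E2) : J e 1 = e 0 := rfl

theorem normsq_ne {e : E2} (he : e ≠ 0) : e 0 ^ 2 + e 1 ^ 2 ≠ 0 := by
  intro h0
  apply he
  have h1 : e 0 = 0 := by nlinarith [sq_nonneg (e 0), sq_nonneg (e 1)]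
  have h2 : e 1 = 0 := by nlinarith [sq_nonneg (e 0), sq_nonneg (e 1)]
  ext i
  fin_cases i
  · simpa using h1
  · simpa using h2

/-- decomposition in the frame `e, J e` -/
theorem exists_decomp {e : E2} (he : e ≠ 0) (w : E2) : ∃ a o : ℝ, w = a • e + o • J e := by
  have hN := normsq_ne he
  refine ⟨(w 0 * e 0 + w 1 * e 1) / (e 0 ^ 2 + e 1 ^ 2),
    (-w 0 * e 1 + w 1 * e 0) / (e 0 ^ 2 + e 1 ^ 2), ?_⟩
  ext i
  fin_cases i
  · simp
    field_simp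
    ring
  · simp
    field_simp
    ring

/-- a linear functional with prescribed coefficients -/
noncomputable def fn (a b : ℝ) : E2 →L[ℝ] ℝ :=
  a • EuclideanSpace.proj 0 + b • EuclideanSpace.proj 1

@[simp] theorem fn_apply (a b : ℝ) (v : E2) : fn a b v = a * v 0 + b * v 1 := by
  simp [fn]

theorem exists_fn_ne {δ e : E2} (hδ : δ ≠ 0) (he : e ≠ 0) :
    ∃ n : E2 →L[ℝ] ℝ, n δ ≠ 0 ∧ n e ≠ 0 := by
  by_cases h : δ 0 * e 0 + δ 1 * e 1 = 0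
  · refine ⟨fn (δ 0 + e 0) (δ 1 + e 1), ?_, ?_⟩
    · have := normsq_ne hδ
      rw [fn_apply]
      intro h0; apply this; linear_combination h0 - h
    · have := normsq_ne he
      rw [fn_apply]
      intro h0; apply this; linear_combination h0 - h
  · refine ⟨fn (δ 0) (δ 1), ?_, ?_⟩
    · have := normsq_ne hδ
      rw [fn_apply]
      intro h0; apply this; linear_combination h0
    · rw [fn_apply]; exact h

theorem exists_fn_frame {e : E2} (he : e ≠ 0) :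
    ∃ n₁ n₂ : E2 →L[ℝ] ℝ, n₁ e = 1 ∧ n₁ (J e) = 0 ∧ n₂ e = 0 ∧ n₂ (J e) = 1 := by
  have hN := normsq_ne he
  refine ⟨fn (e 0 / (e 0 ^ 2 + e 1 ^ 2)) (e 1 / (e 0 ^ 2 + e 1 ^ 2)),
    fn (-e 1 / (e 0 ^ 2 + e 1 ^ 2)) (e 0 / (e 0 ^ 2 + e 1 ^ 2)), ?_, ?_, ?_, ?_⟩
  · rw [fn_apply]; field_simp
  · rw [fn_apply]; simp; field_simp; ring
  · rw [fn_apply]; field_simp; ring
  · rw [fn_apply]; simp; field_simp; ring

section

variable {W V : Type*} [NormedAddCommGroup W] [NormedSpace ℝ W] [FiniteDimensional ℝ W]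
  [NormedAddCommGroup V] [NormedSpace ℝ V] [FiniteDimensional ℝ V]

/-- the family pulled back to the plane -/
def Qg (𝒬 : CubFam W V) (γ : E2 → W) (u : E2) : V →L[ℝ] E3 := 𝒬.q (γ u)

theorem Qg_contDiffOn (𝒬 : CubFam W V) {γ : E2 → W} {Ω : Set E2} (hγ : Piece γ Ω) :
    ContDiffOn ℝ ∞ (Qg 𝒬 γ) Ω := 𝒬.smooth.comp_contDiffOn hγ.smooth

theorem dQg_contDiffOn (𝒬 : CubFam W V) {γ : E2 → W} {Ω : Set E2} (hγ : Piece γ Ω) :
    ContDiffOn ℝ ∞ (fderiv ℝ (Qg 𝒬 γ)) Ω :=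
  (Qg_contDiffOn 𝒬 hγ).fderiv_of_isOpen hγ.isOpen (by simp)

theorem ddQg_contDiffOn (𝒬 : CubFam W V) {γ : E2 → W} {Ω : Set E2} (hγ : Piece γ Ω) :
    ContDiffOn ℝ ∞ (fderiv ℝ (fderiv ℝ (Qg 𝒬 γ))) Ω :=
  (dQg_contDiffOn 𝒬 hγ).fderiv_of_isOpen hγ.isOpen (by simp)

/-- first derivative for a fixed parameter -/
theorem fderiv_q (𝒬 : CubFam W V) {γ : E2 → W} {Ω : Set E2} (hγ : Piece γ Ω) (C : V) {u : E2}
    (hu : u ∈ Ω) : fderiv ℝ (fun u => 𝒬.q (γ u) C) u =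
      (ContinuousLinearMap.apply ℝ E3 C).comp (fderiv ℝ (Qg 𝒬 γ) u) := by
  have h1 : HasFDerivAt (Qg 𝒬 γ) (fderiv ℝ (Qg 𝒬 γ) u) u :=
    (((Qg_contDiffOn 𝒬 hγ).contDiffAt (hγ.isOpen.mem_nhds hu)).differentiableAt
      (by simp)).hasFDerivAt
  exact ((ContinuousLinearMap.apply ℝ E3 C).hasFDerivAt.comp u h1).fderiv

/-- second derivative for a fixed parameter -/
theorem fderiv_fderiv_q (𝒬 : CubFam W V) {γ : E2 → W} {Ω : Set E2} (hγ : Piece γ Ω) (C : V)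
    {u : E2} (hu : u ∈ Ω) (δ a : E2) : fderiv ℝ (fderiv ℝ (fun u => 𝒬.q (γ u) C)) u δ a =
      fderiv ℝ (fderiv ℝ (Qg 𝒬 γ)) u δ a C := by
  have h0 : fderiv ℝ (fun u => 𝒬.q (γ u) C) =ᶠ[𝓝 u] fun u =>
      (ContinuousLinearMap.compL ℝ E2 (V →L[ℝ] E3) E3 (ContinuousLinearMap.apply ℝ E3 C))
        (fderiv ℝ (Qg 𝒬 γ) u) := by
    filter_upwards [hγ.isOpen.mem_nhds hu] with v hv
    rw [fderiv_q 𝒬 hγ C hv]; rfl
  have h1 : HasFDerivAt (fderiv ℝ (Qg 𝒬 γ)) (fderiv ℝ (fderiv ℝ (Qg 𝒬 γ)) u) u :=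
    (((dQg_contDiffOn 𝒬 hγ).contDiffAt (hγ.isOpen.mem_nhds hu)).differentiableAt
      (by simp)).hasFDerivAt
  have h2 := ((ContinuousLinearMap.compL ℝ E2 (V →L[ℝ] E3) E3
    (ContinuousLinearMap.apply ℝ E3 C)).hasFDerivAt.comp u h1)
  rw [h0.fderiv_eq]
  have h3 := h2.fderiv
  have h4 : fderiv ℝ (fun u => (ContinuousLinearMap.compL ℝ E2 (V →L[ℝ] E3) E3
      (ContinuousLinearMap.apply ℝ E3 C)) (fderiv ℝ (Qg 𝒬 γ) u)) u = _ := h3
  rw [h4]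
  rfl

/-- a linear functional on `W` inducing a given covector -/
theorem exists_functional {γ : E2 → W} {u : E2} (hinj : Injective (fderiv ℝ γ u))
    (n : E2 →L[ℝ] ℝ) : ∃ l : W →L[ℝ] ℝ, ∀ a, l (fderiv ℝ γ u a) = n a := by
  obtain ⟨g, hg⟩ := LinearMap.exists_leftInverse_of_injective (fderiv ℝ γ u : E2 →ₗ[ℝ] W)
    (LinearMap.ker_eq_bot.2 hinj)
  refine ⟨n.comp (LinearMap.toContinuousLinearMap g), fun a => ?_⟩
  have := LinearMap.congr_fun hg a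
  simp only [ContinuousLinearMap.comp_apply, LinearMap.coe_toContinuousLinearMap']
  congr 1

/-- affine functions: first derivative -/
theorem exists_lin (𝒬 : CubFam W V) {γ : E2 → W} {Ω : Set E2} (hγ : Piece γ Ω) {u : E2}
    (hu : u ∈ Ω) (n : E2 →L[ℝ] ℝ) (r : E3) :
    ∃ C : V, ∀ a, fderiv ℝ (Qg 𝒬 γ) u a C = n a • r := by
  obtain ⟨l, hl⟩ := exists_functional (hγ.inj u hu) n
  obtain ⟨C, hC⟩ := 𝒬.prod3 l 0 0 (-l (γ u)) 1 1 r
  refine ⟨C, fun a => ?_⟩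
  have h1 := DFunLike.congr_fun (fderiv_q 𝒬 hγ C hu) a
  have h2 : (fun v => 𝒬.q (γ v) C) = fun v => (l (γ v) + -l (γ u)) • r := by
    funext v; rw [hC]; simp
  have hγd : HasFDerivAt γ (fderiv ℝ γ u) u :=
    ((hγ.smooth.contDiffAt (hγ.isOpen.mem_nhds hu)).differentiableAt (by simp)).hasFDerivAt
  have h3 : HasFDerivAt (fun v => (l (γ v) + -l (γ u)) • r)
      ((l.comp (fderiv ℝ γ u)).smulRight r) u :=
    ((l.hasFDerivAt.comp u hγd).add_const _).smul_const r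
  rw [h2, h3.fderiv] at h1
  rw [← hl a]
  exact h1.symm

/-- squares: first and second derivative -/
theorem exists_sq (𝒬 : CubFam W V) {γ : E2 → W} {Ω : Set E2} (hγ : Piece γ Ω) {u : E2}
    (hu : u ∈ Ω) (n : E2 →L[ℝ] ℝ) (r : E3) :
    ∃ C : V, (∀ a, fderiv ℝ (Qg 𝒬 γ) u a C = 0) ∧
      ∀ δ a, fderiv ℝ (fderiv ℝ (Qg 𝒬 γ)) u δ a C = (2 * n δ * n a) • r := by
  obtain ⟨l, hl⟩ := exists_functional (hγ.inj u hu) n
  obtain ⟨C, hC⟩ := 𝒬.prod3 l l 0 (-l (γ u)) (-l (γ u)) 1 r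
  set φ : E2 → ℝ := fun v => l (γ v) + -l (γ u) with hφ
  have hφs : ContDiffOn ℝ ∞ φ Ω := (l.contDiff.comp_contDiffOn hγ.smooth).add contDiffOn_const
  have hφu : φ u = 0 := by simp [hφ]
  have hγd : HasFDerivAt γ (fderiv ℝ γ u) u :=
    ((hγ.smooth.contDiffAt (hγ.isOpen.mem_nhds hu)).differentiableAt (by simp)).hasFDerivAt
  have hφd : HasFDerivAt φ (l.comp (fderiv ℝ γ u)) u :=
    (l.hasFDerivAt.comp u hγd).add_const _
  have hφ' : fderiv ℝ φ u = n := by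
    ext1 a
    rw [hφd.fderiv]
    exact hl a
  have h2 : (fun v => 𝒬.q (γ v) C) = fun v => (φ v * φ v) • r := by
    funext v; rw [hC]; simp [hφ]
  have h3 : ∀ v ∈ Ω, fderiv ℝ (fun v => (φ v * φ v) • r) v =
      (2 * φ v) • (ContinuousLinearMap.smulRightL ℝ E2 E3 (fderiv ℝ φ v)) r := by
    intro v hv
    have h4 : HasFDerivAt φ (fderiv ℝ φ v) v :=
      ((hφs.contDiffAt (hγ.isOpen.mem_nhds hv)).differentiableAt (by simp)).hasFDerivAt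
    have h5 := (h4.mul h4).smul_const r
    have h6 : fderiv ℝ (fun v => (φ v * φ v) • r) v = _ := h5.fderiv
    rw [h6]
    ext1 a
    simp [smul_smul, ← add_smul]
    congr 1
    ring
  refine ⟨C, fun a => ?_, fun δ a => ?_⟩
  · have h1 := DFunLike.congr_fun (fderiv_q 𝒬 hγ C hu) a
    rw [h2, h3 u hu, hφu] at h1
    simp only [mul_zero, zero_smul] at h1
    exact h1.symm
  · have h1 := fderiv_fderiv_q 𝒬 hγ C hu δ a
    rw [h2] at h1
    have h4 : fderiv ℝ (fun v => (φ v * φ v) • r) =ᶠ[𝓝 u] fun v =>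
        (2 * φ v) • (ContinuousLinearMap.smulRightL ℝ E2 E3 (fderiv ℝ φ v)) r := by
      filter_upwards [hγ.isOpen.mem_nhds hu] with v hv using h3 v hv
    have hdφ : DifferentiableAt ℝ (fderiv ℝ φ) u :=
      ((hφs.fderiv_of_isOpen hγ.isOpen (m := ∞) (by simp)).contDiffAt
        (hγ.isOpen.mem_nhds hu)).differentiableAt (by simp)
    have h5 : HasFDerivAt (fun v => (ContinuousLinearMap.smulRightL ℝ E2 E3 (fderiv ℝ φ v)) r) _ u :=
      (((ContinuousLinearMap.smulRightL ℝ E2 E3).flip r).hasFDerivAt.comp u hdφ.hasFDerivAt)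
    have h6 : HasFDerivAt (fun v => 2 * φ v) ((2 : ℝ) • (l.comp (fderiv ℝ γ u))) u :=
      hφd.const_mul 2
    have h7 := h6.smul h5
    rw [h4.fderiv_eq] at h1
    have h8 := h7.fderiv
    have h9 : fderiv ℝ (fun v => (2 * φ v) •
        (ContinuousLinearMap.smulRightL ℝ E2 E3 (fderiv ℝ φ v)) r) u = _ := h8
    rw [h9, hφu] at h1
    rw [← h1, hφ']
    have h10 : l (fderiv ℝ γ u δ) = n δ := hl δ
    simp [smul_smul, h10]

/-- the joint condition map -/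
noncomputable def TT (𝒬 : CubFam W V) (γ : E2 → W) (u e δ : E2) (o : ℝ) : V →L[ℝ] (E3 × E3) :=
  (ContinuousLinearMap.inl ℝ E3 E3).comp (fderiv ℝ (Qg 𝒬 γ) u e) +
  (ContinuousLinearMap.inr ℝ E3 E3).comp
    (fderiv ℝ (fderiv ℝ (Qg 𝒬 γ)) u δ e + o • fderiv ℝ (Qg 𝒬 γ) u (J e))

theorem TT_apply (𝒬 : CubFam W V) (γ : E2 → W) (u e δ : E2) (o : ℝ) (C : V) :
    TT 𝒬 γ u e δ o C = (fderiv ℝ (Qg 𝒬 γ) u e C,
      fderiv ℝ (fderiv ℝ (Qg 𝒬 γ)) u δ e C + o • fderiv ℝ (Qg 𝒬 γ) u (J e) C) := by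
  simp [TT]

theorem TT_surjective (𝒬 : CubFam W V) {γ : E2 → W} {Ω : Set E2} (hγ : Piece γ Ω) {u : E2}
    (hu : u ∈ Ω) {e δ : E2} {o : ℝ} (he : e ≠ 0) (hδo : δ ≠ 0 ∨ o ≠ 0) :
    Surjective (TT 𝒬 γ u e δ o) := by
  rintro ⟨r₁, r₂⟩
  by_cases hδ : δ = 0
  · have ho : o ≠ 0 := by
      rcases hδo with h | h
      · exact absurd hδ h
      · exact h
    obtain ⟨n₁, n₂, h1, h2, h3, h4⟩ := exists_fn_frame he
    obtain ⟨C₁, hC₁⟩ := exists_lin 𝒬 hγ hu n₁ r₁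
    obtain ⟨C₂, hC₂⟩ := exists_lin 𝒬 hγ hu n₂ (o⁻¹ • r₂)
    refine ⟨C₁ + C₂, ?_⟩
    rw [TT_apply, hδ]
    simp only [map_add, hC₁, hC₂, h1, h2, h3, h4, map_zero, zero_apply,
      zero_smul, one_smul, add_zero, zero_add, smul_smul, zero_mul, one_mul, mul_inv_cancel₀ ho]
  · obtain ⟨n, hnδ, hne⟩ := exists_fn_ne hδ he
    obtain ⟨C₁, hC₁⟩ := exists_lin 𝒬 hγ hu n ((n e)⁻¹ • r₁)
    set x : E3 := fderiv ℝ (fderiv ℝ (Qg 𝒬 γ)) u δ e C₁ + o • fderiv ℝ (Qg 𝒬 γ) u (J e) C₁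
      with hx
    obtain ⟨C₂, hC₂, hC₂'⟩ := exists_sq 𝒬 hγ hu n ((2 * n δ * n e)⁻¹ • (r₂ - x))
    refine ⟨C₁ + C₂, ?_⟩
    have hne' : 2 * n δ * n e ≠ 0 := by positivity
    rw [TT_apply]
    ext1
    · simp only [map_add, hC₁, hC₂, smul_smul, mul_inv_cancel₀ hne, one_smul, add_zero]
    · simp only [map_add, hC₂, hC₂', smul_smul, mul_inv_cancel₀ hne', one_smul, add_zero]
      have : fderiv ℝ (fderiv ℝ (Qg 𝒬 γ)) u δ e C₁ + (r₂ - x) +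
          o • fderiv ℝ (Qg 𝒬 γ) u (J e) C₁ = x + (r₂ - x) := by rw [hx]; abel
      rw [this]; abel

/-- affine charts for the direction `e` -/
noncomputable def eM (i : Fin 2) (s : ℝ) : E2 := if i = 0 then !₂[1, s] else !₂[s, 1]

/-- affine charts for `(δ, o)` -/
noncomputable def dM (j : Fin 3) (p : ℝ × ℝ) : E2 × ℝ :=
  if j = 0 then (!₂[1, p.1], p.2) else if j = 1 then (!₂[p.1, 1], p.2) else (!₂[p.1, p.2], 1)

theorem eM_ne (i : Fin 2) (s : ℝ) : eM i s ≠ 0 := by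
  intro h
  fin_cases i
  · have := congrArg (fun v : E2 => v 0) h; simp [eM] at this
  · have := congrArg (fun v : E2 => v 1) h; simp [eM] at this

theorem dM_ne (j : Fin 3) (p : ℝ × ℝ) : (dM j p).1 ≠ 0 ∨ (dM j p).2 ≠ 0 := by
  fin_cases j
  · left; intro h
    have := congrArg (fun v : E2 => v 0) h; simp [dM] at this
  · left; intro h
    have := congrArg (fun v : E2 => v 1) h; simp [dM] at this
  · right; simp [dM]

theorem contDiff_vec2 {X : Type*} [NormedAddCommGroup X] [NormedSpace ℝ X] {f g : X → ℝ}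
    (hf : ContDiff ℝ ∞ f) (hg : ContDiff ℝ ∞ g) : ContDiff ℝ ∞ (fun x => (!₂[f x, g x] : E2)) := by
  rw [contDiff_euclidean]
  intro i
  fin_cases i
  · simpa using hf
  · simpa using hg

theorem eM_contDiff (i : Fin 2) : ContDiff ℝ ∞ (eM i) := by
  fin_cases i
  · exact contDiff_vec2 contDiff_const contDiff_id
  · exact contDiff_vec2 contDiff_id contDiff_const

theorem dM_contDiff (j : Fin 3) : ContDiff ℝ ∞ (dM j) := by
  fin_cases j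
  · exact (contDiff_vec2 contDiff_const contDiff_fst).prodMk contDiff_snd
  · exact (contDiff_vec2 contDiff_fst contDiff_const).prodMk contDiff_snd
  · exact (contDiff_vec2 contDiff_fst contDiff_snd).prodMk contDiff_const

theorem exists_eM {e : E2} (he : e ≠ 0) : ∃ (i : Fin 2) (s c : ℝ), c ≠ 0 ∧ eM i s = c • e := by
  by_cases h : e 0 = 0
  · have h1 : e 1 ≠ 0 := by
      intro h1; apply he; ext i; fin_cases i
      · simpa using h
      · simpa using h1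
    refine ⟨1, e 0 / e 1, (e 1)⁻¹, inv_ne_zero h1, ?_⟩
    ext i; fin_cases i
    · simp [eM]; field_simp
    · simp [eM]; field_simp
  · refine ⟨0, e 1 / e 0, (e 0)⁻¹, inv_ne_zero h, ?_⟩
    ext i; fin_cases i
    · simp [eM]; field_simp
    · simp [eM]; field_simp

theorem exists_dM {δ : E2} {o : ℝ} (h : δ ≠ 0 ∨ o ≠ 0) :
    ∃ (j : Fin 3) (p : ℝ × ℝ) (c : ℝ), c ≠ 0 ∧ dM j p = (c • δ, c * o) := by
  by_cases ho : o = 0
  · have hδ : δ ≠ 0 := by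
      rcases h with h | h
      · exact h
      · exact absurd ho h
    by_cases h0 : δ 0 = 0
    · have h1 : δ 1 ≠ 0 := by
        intro h1; apply hδ; ext i; fin_cases i
        · simpa using h0
        · simpa using h1
      refine ⟨1, (δ 0 / δ 1, 0), (δ 1)⁻¹, inv_ne_zero h1, ?_⟩
      ext1
      · ext i; fin_cases i
        · simp [dM]; field_simp
        · simp [dM]; field_simp
      · simp [dM, ho]
    · refine ⟨0, (δ 1 / δ 0, 0), (δ 0)⁻¹, inv_ne_zero h0, ?_⟩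
      ext1
      · ext i; fin_cases i
        · simp [dM]; field_simp
        · simp [dM]; field_simp
      · simp [dM, ho]
  · refine ⟨2, (δ 0 / o, δ 1 / o), o⁻¹, inv_ne_zero ho, ?_⟩
    ext1
    · ext i; fin_cases i
      · simp [dM]; field_simp
      · simp [dM]; field_simp
    · simp [dM]; field_simp

/-- the family in affine charts -/
noncomputable def TTc (𝒬 : CubFam W V) (γ : E2 → W) (i : Fin 2) (j : Fin 3)
    (y : E2 × ℝ × (ℝ × ℝ)) : V →L[ℝ] (E3 × E3) :=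
  TT 𝒬 γ y.1 (eM i y.2.1) (dM j y.2.2).1 (dM j y.2.2).2

theorem TTc_contDiffOn (𝒬 : CubFam W V) {γ : E2 → W} {Ω : Set E2} (hγ : Piece γ Ω)
    (i : Fin 2) (j : Fin 3) : ContDiffOn ℝ 1 (TTc 𝒬 γ i j) (Ω ×ˢ univ) := by
  have hD : ContDiffOn ℝ ∞ (fun y : E2 × ℝ × (ℝ × ℝ) => fderiv ℝ (Qg 𝒬 γ) y.1) (Ω ×ˢ univ) :=
    (dQg_contDiffOn 𝒬 hγ).comp contDiff_fst.contDiffOn (fun y hy => hy.1)
  have hDD : ContDiffOn ℝ ∞ (fun y : E2 × ℝ × (ℝ × ℝ) => fderiv ℝ (fderiv ℝ (Qg 𝒬 γ)) y.1)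
      (Ω ×ˢ univ) :=
    (ddQg_contDiffOn 𝒬 hγ).comp contDiff_fst.contDiffOn (fun y hy => hy.1)
  have he : ContDiffOn ℝ ∞ (fun y : E2 × ℝ × (ℝ × ℝ) => eM i y.2.1) (Ω ×ˢ univ) :=
    ((eM_contDiff i).comp (contDiff_fst.comp contDiff_snd)).contDiffOn
  have hd : ContDiffOn ℝ ∞ (fun y : E2 × ℝ × (ℝ × ℝ) => dM j y.2.2) (Ω ×ˢ univ) :=
    ((dM_contDiff j).comp (contDiff_snd.comp contDiff_snd)).contDiffOn
  have hd1 : ContDiffOn ℝ ∞ (fun y : E2 × ℝ × (ℝ × ℝ) => (dM j y.2.2).1) (Ω ×ˢ univ) :=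
    contDiff_fst.comp_contDiffOn hd
  have hd2 : ContDiffOn ℝ ∞ (fun y : E2 × ℝ × (ℝ × ℝ) => (dM j y.2.2).2) (Ω ×ˢ univ) :=
    contDiff_snd.comp_contDiffOn hd
  have hJ : ContDiffOn ℝ ∞ (fun y : E2 × ℝ × (ℝ × ℝ) => J (eM i y.2.1)) (Ω ×ˢ univ) :=
    J.contDiff.comp_contDiffOn he
  have h1 := hD.clm_apply he
  have h2 := (hDD.clm_apply hd1).clm_apply he
  have h3 := hd2.smul (hD.clm_apply hJ)
  have h4 : ContDiffOn ℝ ∞ (TTc 𝒬 γ i j) (Ω ×ˢ univ) :=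
    (contDiffOn_const.clm_comp h1).add (contDiffOn_const.clm_comp (h2.add h3))
  exact h4.of_le ENat.LEInfty.out

end

end Cap

theorem dimH_badCap_le {W V : Type*} [NormedAddCommGroup W] [NormedSpace ℝ W]
    [FiniteDimensional ℝ W] [NormedAddCommGroup V] [NormedSpace ℝ V] [FiniteDimensional ℝ V]
    (𝒬 : CubFam W V) {γ : E2 → W} {Ω : Set E2} (hγ : Piece γ Ω) :
    dimH (badCap 𝒬 γ Ω) ≤ (Module.finrank ℝ V - 1 : ℕ) := by
  have hsub : badCap 𝒬 γ Ω ⊆ ⋃ k : Fin 2 × Fin 3,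
      {C : V | ∃ y ∈ Ω ×ˢ (univ : Set (ℝ × (ℝ × ℝ))), Cap.TTc 𝒬 γ k.1 k.2 y C = 0} := by
    rintro C ⟨u, hu, hnd⟩
    simp only [Nondeg] at hnd
    push Not at hnd
    obtain ⟨e, he, h0, δ, w, hw, hne⟩ := hnd
    obtain ⟨a, o, hdec⟩ := Cap.exists_decomp he w
    rw [Cap.fderiv_q 𝒬 hγ C hu] at h0
    rw [Cap.fderiv_fderiv_q 𝒬 hγ C hu, Cap.fderiv_q 𝒬 hγ C hu] at hw
    simp only [ContinuousLinearMap.comp_apply, ContinuousLinearMap.apply_apply] at h0 hw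
    have hδo : δ ≠ 0 ∨ o ≠ 0 := by
      by_contra hcon
      push Not at hcon
      obtain ⟨h1, h2⟩ := hcon
      exact hne h1 a (by rw [hdec, h2]; simp)
    obtain ⟨i, s, c, hc, hes⟩ := Cap.exists_eM he
    obtain ⟨j, p, c', hc', hdp⟩ := Cap.exists_dM hδo
    simp only [mem_iUnion]
    refine ⟨(i, j), (u, s, p), ⟨hu, mem_univ _⟩, ?_⟩
    simp only [Cap.TTc]
    rw [Cap.TT_apply, hes, hdp]
    rw [hdec] at hw
    have hw' : fderiv ℝ (fderiv ℝ (Cap.Qg 𝒬 γ)) u δ e C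
        + o • fderiv ℝ (Cap.Qg 𝒬 γ) u (Cap.J e) C = 0 := by
      have : fderiv ℝ (Cap.Qg 𝒬 γ) u (a • e + o • Cap.J e) C
          = o • fderiv ℝ (Cap.Qg 𝒬 γ) u (Cap.J e) C := by
        simp [h0]
      rw [this] at hw
      exact hw
    ext1
    · simp [h0]
    · simp only [map_smul, smul_apply, Prod.snd_zero, smul_smul]
      have : (c' * c) • (fderiv ℝ (fderiv ℝ (Cap.Qg 𝒬 γ)) u δ e C
        + o • fderiv ℝ (Cap.Qg 𝒬 γ) u (Cap.J e) C) = 0 := by rw [hw', smul_zero]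
      rw [← this, smul_add, smul_smul]
      congr 2 <;> ring
  refine (dimH_mono hsub).trans ?_
  rw [dimH_iUnion]
  refine iSup_le fun k => ?_
  refine dimH_bad (hγ.isOpen.prod isOpen_univ) (Cap.TTc_contDiffOn 𝒬 hγ k.1 k.2) ?_ ?_
  · rintro y ⟨hy, -⟩
    exact Cap.TT_surjective 𝒬 hγ hy (Cap.eM_ne _ _) (Cap.dM_ne _ _)
  · simp

end Crest.Agent.R216.D
end

-- ▼ part R216/D1Dbl

/-! Row 216 (D), module D1: nontransversal double points are not generic (helper359). -/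

set_option autoImplicit false
open scoped Manifold ContDiff Topology
open Set Metric Function

namespace Crest.Agent.R216.D

namespace Dbl

set_option linter.unusedSectionVars false

theorem exists_polar (x y : ℝ) : ∃ r t : ℝ, 0 ≤ r ∧ r ^ 2 = x ^ 2 + y ^ 2 ∧
    x = r * Real.cos t ∧ y = r * Real.sin t := by
  refine ⟨‖(⟨x, y⟩ : ℂ)‖, Complex.arg ⟨x, y⟩, norm_nonneg _, ?_, ?_, ?_⟩
  · rw [Complex.sq_norm, Complex.normSq_mk]; ring
  · have := Complex.norm_mul_cos_arg (⟨x, y⟩ : ℂ)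
    exact this.symm
  · have := Complex.norm_mul_sin_arg (⟨x, y⟩ : ℂ)
    exact this.symm

/-- spherical coordinates on `S²` -/
noncomputable def lam (a b : ℝ) : E3 :=
  !₂[Real.cos a * Real.cos b, Real.cos a * Real.sin b, Real.sin a]

theorem contDiff_lam : ContDiff ℝ ∞ (fun p : ℝ × ℝ => lam p.1 p.2) := by
  rw [contDiff_euclidean]
  intro i
  fin_cases i
  · exact (Real.contDiff_cos.comp contDiff_fst).mul (Real.contDiff_cos.comp contDiff_snd)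
  · exact (Real.contDiff_cos.comp contDiff_fst).mul (Real.contDiff_sin.comp contDiff_snd)
  · exact Real.contDiff_sin.comp contDiff_fst

theorem inner_lam (a b : ℝ) : inner ℝ (lam a b) (lam a b) = 1 := by
  have h1 := Real.sin_sq_add_cos_sq a
  have h2 := Real.sin_sq_add_cos_sq b
  have : inner ℝ (lam a b) (lam a b) = (Real.cos a * Real.cos b) ^ 2
      + (Real.cos a * Real.sin b) ^ 2 + (Real.sin a) ^ 2 := by
    have e : ∀ x y : E3, inner ℝ x y = x 0 * y 0 + x 1 * y 1 + x 2 * y 2 := by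
      intro x y
      simp [PiLp.inner_apply, Fin.sum_univ_three]
      ring
    rw [e]
    simp [lam]
    ring
  rw [this]
  linear_combination (Real.cos a) ^ 2 * h2 + h1

theorem exists_lam {l : E3} (hl : l ≠ 0) : ∃ r a b : ℝ, 0 < r ∧ l = r • lam a b := by
  obtain ⟨ρ, b, hρ, hρ2, h0, h1⟩ := exists_polar (l 0) (l 1)
  obtain ⟨r, a, hr, hr2, ha, h2⟩ := exists_polar ρ (l 2)
  have heq : l = r • lam a b := by
    ext i
    fin_cases i
    · simp only [lam]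
      show l 0 = r * (Real.cos a * Real.cos b)
      rw [h0, ha]; ring
    · simp only [lam]
      show l 1 = r * (Real.cos a * Real.sin b)
      rw [h1, ha]; ring
    · simp only [lam]
      show l 2 = r * Real.sin a
      exact h2
  refine ⟨r, a, b, lt_of_le_of_ne hr ?_, heq⟩
  rintro rfl
  exact hl (by rw [heq, zero_smul])

variable {W V : Type*} [NormedAddCommGroup W] [InnerProductSpace ℝ W]
    [FiniteDimensional ℝ W] [NormedAddCommGroup V] [NormedSpace ℝ V] [FiniteDimensional ℝ V]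
    (𝒬 : CubFam W V)

theorem contDiffOn_Q {γ : E2 → W} {Ω : Set E2} (h : Piece γ Ω) :
    ContDiffOn ℝ ∞ (fun u => 𝒬.q (γ u)) Ω :=
  𝒬.smooth.comp_contDiffOn h.smooth

theorem differentiableAt_Q {γ : E2 → W} {Ω : Set E2} (h : Piece γ Ω) {u : E2} (hu : u ∈ Ω) :
    DifferentiableAt ℝ (fun u => 𝒬.q (γ u)) u :=
  ((contDiffOn_Q 𝒬 h).contDiffAt (h.isOpen.mem_nhds hu)).differentiableAt (by simp)

theorem differentiableAt_γ {γ : E2 → W} {Ω : Set E2} (h : Piece γ Ω) {u : E2} (hu : u ∈ Ω) :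
    DifferentiableAt ℝ γ u :=
  (h.smooth.contDiffAt (h.isOpen.mem_nhds hu)).differentiableAt (by simp)

theorem fderiv_Q_apply {γ : E2 → W} {Ω : Set E2} (h : Piece γ Ω) {u : E2} (hu : u ∈ Ω)
    (C : V) (w : E2) :
    fderiv ℝ (fun u => 𝒬.q (γ u) C) u w = fderiv ℝ (fun u => 𝒬.q (γ u)) u w C := by
  have h1 := (differentiableAt_Q 𝒬 h hu).hasFDerivAt.clm_apply (hasFDerivAt_const C u)
  rw [h1.fderiv]
  simp

/-- first derivative of a product of three affine functions -/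
theorem fderiv_prod3 {γ : E2 → W} {Ω : Set E2} (h : Piece γ Ω) {u : E2} (hu : u ∈ Ω)
    {l₁ l₂ l₃ : W →L[ℝ] ℝ} {t₁ t₂ t₃ : ℝ} {r : E3} {C : V}
    (hC : ∀ z : W, 𝒬.q z C = ((l₁ z + t₁) * (l₂ z + t₂) * (l₃ z + t₃)) • r) (w : E2) :
    fderiv ℝ (fun u => 𝒬.q (γ u)) u w C =
      (l₁ (fderiv ℝ γ u w) * (l₂ (γ u) + t₂) * (l₃ (γ u) + t₃)
        + (l₁ (γ u) + t₁) * l₂ (fderiv ℝ γ u w) * (l₃ (γ u) + t₃)
        + (l₁ (γ u) + t₁) * (l₂ (γ u) + t₂) * l₃ (fderiv ℝ γ u w)) • r := by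
  rw [← fderiv_Q_apply 𝒬 h hu]
  have hγ := (differentiableAt_γ h hu).hasFDerivAt
  have e : (fun u => 𝒬.q (γ u) C)
      = fun u => ((l₁ (γ u) + t₁) * (l₂ (γ u) + t₂) * (l₃ (γ u) + t₃)) • r := by
    funext x; exact hC _
  have a1 : HasFDerivAt (fun x => l₁ (γ x) + t₁) (l₁.comp (fderiv ℝ γ u)) u :=
    (l₁.hasFDerivAt.comp u hγ).add_const t₁
  have a2 : HasFDerivAt (fun x => l₂ (γ x) + t₂) (l₂.comp (fderiv ℝ γ u)) u :=
    (l₂.hasFDerivAt.comp u hγ).add_const t₂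
  have a3 : HasFDerivAt (fun x => l₃ (γ x) + t₃) (l₃.comp (fderiv ℝ γ u)) u :=
    (l₃.hasFDerivAt.comp u hγ).add_const t₃
  have a4 : HasFDerivAt
      (fun u => ((l₁ (γ u) + t₁) * (l₂ (γ u) + t₂) * (l₃ (γ u) + t₃)) • r) _ u :=
    ((a1.mul a2).mul a3).smul_const r
  rw [e, a4.fderiv]
  simp only [ContinuousLinearMap.smulRight_apply, add_apply, smul_apply,
    ContinuousLinearMap.comp_apply, smul_eq_mul, Pi.mul_apply]
  congr 1
  ring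

/-- functional with prescribed values -/
theorem exists_functional {γ : E2 → W} {Ω : Set E2} (h : Piece γ Ω) {u : E2} (hu : u ∈ Ω)
    (β₁ β₂ : ℝ) : ∃ M : W →L[ℝ] ℝ, M (fderiv ℝ γ u u1) = β₁ ∧ M (fderiv ℝ γ u u2) = β₂ := by
  obtain ⟨G, hG⟩ := LinearMap.exists_leftInverse_of_injective (fderiv ℝ γ u : E2 →ₗ[ℝ] W)
    (LinearMap.ker_eq_bot.2 (h.inj u hu))
  set φ : E2 →ₗ[ℝ] ℝ := β₁ • (EuclideanSpace.proj (0 : Fin 2) : E2 →L[ℝ] ℝ).toLinearMap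
    + β₂ • (EuclideanSpace.proj (1 : Fin 2) : E2 →L[ℝ] ℝ).toLinearMap with hφ
  refine ⟨LinearMap.toContinuousLinearMap (φ.comp G), ?_, ?_⟩
  · have h1 : G (fderiv ℝ γ u u1) = u1 := DFunLike.congr_fun hG u1
    show φ (G (fderiv ℝ γ u u1)) = β₁
    rw [h1]
    simp [hφ, u1]
  · have h1 : G (fderiv ℝ γ u u2) = u2 := DFunLike.congr_fun hG u2
    show φ (G (fderiv ℝ γ u u2)) = β₂
    rw [h1]
    simp [hφ, u2]

/-- the seven linear conditions -/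
noncomputable def TT (γ₁ γ₂ : E2 → W) (p : (E2 × E2) × (ℝ × ℝ)) :
    V →L[ℝ] E3 × ((ℝ × ℝ) × (ℝ × ℝ)) :=
  (𝒬.q (γ₁ p.1.1) - 𝒬.q (γ₂ p.1.2)).prod
    ((((innerSL ℝ (lam p.2.1 p.2.2)).comp (fderiv ℝ (fun u => 𝒬.q (γ₁ u)) p.1.1 u1)).prod
      ((innerSL ℝ (lam p.2.1 p.2.2)).comp (fderiv ℝ (fun u => 𝒬.q (γ₁ u)) p.1.1 u2))).prod
    (((innerSL ℝ (lam p.2.1 p.2.2)).comp (fderiv ℝ (fun u => 𝒬.q (γ₂ u)) p.1.2 u1)).prod
      ((innerSL ℝ (lam p.2.1 p.2.2)).comp (fderiv ℝ (fun u => 𝒬.q (γ₂ u)) p.1.2 u2))))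

theorem TT_apply (γ₁ γ₂ : E2 → W) (p : (E2 × E2) × (ℝ × ℝ)) (C : V) :
    TT 𝒬 γ₁ γ₂ p C = (𝒬.q (γ₁ p.1.1) C - 𝒬.q (γ₂ p.1.2) C,
      ((inner ℝ (lam p.2.1 p.2.2) (fderiv ℝ (fun u => 𝒬.q (γ₁ u)) p.1.1 u1 C),
        inner ℝ (lam p.2.1 p.2.2) (fderiv ℝ (fun u => 𝒬.q (γ₁ u)) p.1.1 u2 C)),
       (inner ℝ (lam p.2.1 p.2.2) (fderiv ℝ (fun u => 𝒬.q (γ₂ u)) p.1.2 u1 C),
        inner ℝ (lam p.2.1 p.2.2) (fderiv ℝ (fun u => 𝒬.q (γ₂ u)) p.1.2 u2 C)))) := by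
  simp [TT]

/-- the domain -/
def dom (γ₁ γ₂ : E2 → W) (Ω₁ Ω₂ : Set E2) : Set ((E2 × E2) × (ℝ × ℝ)) :=
  {p | p.1.1 ∈ Ω₁ ∧ p.1.2 ∈ Ω₂ ∧ γ₁ p.1.1 ≠ γ₂ p.1.2}

theorem isOpen_dom {γ₁ γ₂ : E2 → W} {Ω₁ Ω₂ : Set E2} (h₁ : Piece γ₁ Ω₁) (h₂ : Piece γ₂ Ω₂) :
    IsOpen (dom γ₁ γ₂ Ω₁ Ω₂) := by
  set S : Set ((E2 × E2) × (ℝ × ℝ)) := {p | p.1.1 ∈ Ω₁ ∧ p.1.2 ∈ Ω₂} with hS
  have hSo : IsOpen S :=
    (h₁.isOpen.preimage (continuous_fst.comp continuous_fst)).inter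
      (h₂.isOpen.preimage (continuous_snd.comp continuous_fst))
  have hc1 : ContinuousOn (fun p : (E2 × E2) × (ℝ × ℝ) => γ₁ p.1.1) S :=
    h₁.smooth.continuousOn.comp (continuous_fst.comp continuous_fst).continuousOn
      (fun p hp => hp.1)
  have hc2 : ContinuousOn (fun p : (E2 × E2) × (ℝ × ℝ) => γ₂ p.1.2) S :=
    h₂.smooth.continuousOn.comp (continuous_snd.comp continuous_fst).continuousOn
      (fun p hp => hp.2)
  have h := (hc1.sub hc2).isOpen_inter_preimage hSo (isOpen_compl_singleton (x := (0 : W)))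
  convert h using 1
  ext p
  constructor
  · rintro ⟨h1, h2, h3⟩
    exact ⟨⟨h1, h2⟩, sub_ne_zero.2 h3⟩
  · rintro ⟨⟨h1, h2⟩, h3⟩
    exact ⟨h1, h2, sub_ne_zero.1 h3⟩

theorem contDiffOn_TT {γ₁ γ₂ : E2 → W} {Ω₁ Ω₂ : Set E2} (h₁ : Piece γ₁ Ω₁) (h₂ : Piece γ₂ Ω₂) :
    ContDiffOn ℝ 1 (TT 𝒬 γ₁ γ₂) (dom γ₁ γ₂ Ω₁ Ω₂) := by
  rw [contDiffOn_clm_apply]
  intro C
  simp only [TT_apply]
  have f1 : ContDiffOn ℝ 1 (fun p : (E2 × E2) × (ℝ × ℝ) => p.1.1) (dom γ₁ γ₂ Ω₁ Ω₂) :=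
    (contDiff_fst.comp contDiff_fst).contDiffOn
  have f2 : ContDiffOn ℝ 1 (fun p : (E2 × E2) × (ℝ × ℝ) => p.1.2) (dom γ₁ γ₂ Ω₁ Ω₂) :=
    (contDiff_snd.comp contDiff_fst).contDiffOn
  have f3 : ContDiffOn ℝ 1 (fun p : (E2 × E2) × (ℝ × ℝ) => lam p.2.1 p.2.2)
      (dom γ₁ γ₂ Ω₁ Ω₂) :=
    ((contDiff_lam.of_le (by norm_cast)).comp contDiff_snd).contDiffOn
  have q1 : ContDiffOn ℝ 1 (fun u => 𝒬.q (γ₁ u)) Ω₁ := (contDiffOn_Q 𝒬 h₁).of_le (by norm_cast)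
  have q2 : ContDiffOn ℝ 1 (fun u => 𝒬.q (γ₂ u)) Ω₂ := (contDiffOn_Q 𝒬 h₂).of_le (by norm_cast)
  have d1 : ContDiffOn ℝ 1 (fderiv ℝ (fun u => 𝒬.q (γ₁ u))) Ω₁ :=
    (contDiffOn_Q 𝒬 h₁).fderiv_of_isOpen h₁.isOpen (by norm_cast)
  have d2 : ContDiffOn ℝ 1 (fderiv ℝ (fun u => 𝒬.q (γ₂ u))) Ω₂ :=
    (contDiffOn_Q 𝒬 h₂).fderiv_of_isOpen h₂.isOpen (by norm_cast)
  have g1 : ContDiffOn ℝ 1 (fun p : (E2 × E2) × (ℝ × ℝ) => 𝒬.q (γ₁ p.1.1) C)
      (dom γ₁ γ₂ Ω₁ Ω₂) :=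
    (q1.comp f1 (fun p hp => hp.1)).clm_apply contDiffOn_const
  have g2 : ContDiffOn ℝ 1 (fun p : (E2 × E2) × (ℝ × ℝ) => 𝒬.q (γ₂ p.1.2) C)
      (dom γ₁ γ₂ Ω₁ Ω₂) :=
    (q2.comp f2 (fun p hp => hp.2.1)).clm_apply contDiffOn_const
  have k1 : ∀ w : E2, ContDiffOn ℝ 1 (fun p : (E2 × E2) × (ℝ × ℝ) =>
      inner ℝ (lam p.2.1 p.2.2) (fderiv ℝ (fun u => 𝒬.q (γ₁ u)) p.1.1 w C))
      (dom γ₁ γ₂ Ω₁ Ω₂) := fun w =>
    f3.inner ℝ (((d1.comp f1 (fun p hp => hp.1)).clm_apply contDiffOn_const).clm_apply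
      contDiffOn_const)
  have k2 : ∀ w : E2, ContDiffOn ℝ 1 (fun p : (E2 × E2) × (ℝ × ℝ) =>
      inner ℝ (lam p.2.1 p.2.2) (fderiv ℝ (fun u => 𝒬.q (γ₂ u)) p.1.2 w C))
      (dom γ₁ γ₂ Ω₁ Ω₂) := fun w =>
    f3.inner ℝ (((d2.comp f2 (fun p hp => hp.2.1)).clm_apply contDiffOn_const).clm_apply
      contDiffOn_const)
  exact (g1.sub g2).prodMk (((k1 u1).prodMk (k1 u2)).prodMk ((k2 u1).prodMk (k2 u2)))

theorem surjective_TT {γ₁ γ₂ : E2 → W} {Ω₁ Ω₂ : Set E2} (h₁ : Piece γ₁ Ω₁) (h₂ : Piece γ₂ Ω₂)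
    {p : (E2 × E2) × (ℝ × ℝ)} (hp : p ∈ dom γ₁ γ₂ Ω₁ Ω₂) : Surjective (TT 𝒬 γ₁ γ₂ p) := by
  obtain ⟨⟨u, v⟩, a, b⟩ := p
  obtain ⟨hu, hv, hne⟩ := hp
  dsimp only at hu hv hne
  rintro ⟨r, ⟨β₁, β₂⟩, δ₁, δ₂⟩
  set x := γ₁ u with hx
  set y := γ₂ v with hy
  set d := x - y with hd
  have hn : inner ℝ d d ≠ 0 := by
    rw [real_inner_self_eq_norm_sq]
    exact pow_ne_zero 2 (norm_ne_zero_iff.2 (sub_ne_zero.2 hne))
  set l : W →L[ℝ] ℝ := (inner ℝ d d)⁻¹ • innerSL ℝ d with hl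
  set t : ℝ := - l y with ht
  have hlx : l x + t = 1 := by
    have : l x - l y = 1 := by
      rw [← map_sub, ← hd, hl]
      simp only [smul_apply, innerSL_apply_apply, smul_eq_mul]
      exact inv_mul_cancel₀ hn
    rw [ht]; linarith
  have hly : l y + t = 0 := by rw [ht]; ring
  obtain ⟨M₁, hM₁, hM₁'⟩ := exists_functional h₁ hu β₁ β₂
  obtain ⟨M₂, hM₂, hM₂'⟩ := exists_functional h₂ hv δ₁ δ₂
  obtain ⟨C1, hC1⟩ := 𝒬.prod3 l l (-(2 : ℝ) • l) t t (3 - 2 * t) r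
  obtain ⟨C2, hC2⟩ := 𝒬.prod3 M₁ l l (-(M₁ x)) t t (lam a b)
  obtain ⟨C3, hC3⟩ := 𝒬.prod3 M₂ (-l) (-l) (-(M₂ y)) (1 - t) (1 - t) (lam a b)
  have hs2 : (-(2 : ℝ) • l) x + (3 - 2 * t) = 1 := by
    simp only [smul_apply, smul_eq_mul]
    linear_combination (-2) * hlx
  have hs2' : (-(2 : ℝ) • l) y + (3 - 2 * t) = 3 := by
    simp only [smul_apply, smul_eq_mul]
    linear_combination (-2) * hly
  have hs3 : (-l) x + (1 - t) = 0 := by
    show -(l x) + (1 - t) = 0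
    linear_combination (-1) * hlx
  have hs3' : (-l) y + (1 - t) = 1 := by
    show -(l y) + (1 - t) = 1
    linear_combination (-1) * hly
  have hM1x : M₁ x + -(M₁ x) = 0 := by ring
  have hM2y : M₂ y + -(M₂ y) = 0 := by ring
  refine ⟨C1 + C2 + C3, ?_⟩
  rw [TT_apply]
  have hlam := inner_lam a b
  -- values
  have v1 : 𝒬.q x (C1 + C2 + C3) = r := by
    rw [map_add, map_add, hC1, hC2, hC3, hlx, hs2, hM1x, hs3]
    simp
  have v2 : 𝒬.q y (C1 + C2 + C3) = 0 := by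
    rw [map_add, map_add, hC1, hC2, hC3, hly, hM2y]
    simp
  -- derivatives
  have w1 : ∀ w : E2, inner ℝ (lam a b) (fderiv ℝ (fun u => 𝒬.q (γ₁ u)) u w (C1 + C2 + C3))
      = M₁ (fderiv ℝ γ₁ u w) := by
    intro w
    rw [map_add, map_add, fderiv_prod3 𝒬 h₁ hu hC1 w, fderiv_prod3 𝒬 h₁ hu hC2 w,
      fderiv_prod3 𝒬 h₁ hu hC3 w, ← hx, hlx, hs2, hM1x, hs3, inner_add_right, inner_add_right,
      inner_smul_right, inner_smul_right, inner_smul_right, hlam]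
    simp only [smul_apply, smul_eq_mul]
    ring
  have w2 : ∀ w : E2, inner ℝ (lam a b) (fderiv ℝ (fun u => 𝒬.q (γ₂ u)) v w (C1 + C2 + C3))
      = M₂ (fderiv ℝ γ₂ v w) := by
    intro w
    rw [map_add, map_add, fderiv_prod3 𝒬 h₂ hv hC1 w, fderiv_prod3 𝒬 h₂ hv hC2 w,
      fderiv_prod3 𝒬 h₂ hv hC3 w, ← hy, hly, hs2', hM2y, hs3', inner_add_right, inner_add_right,
      inner_smul_right, inner_smul_right, inner_smul_right, hlam]
    ring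
  simp only [← hx, ← hy, v1, v2, w1, w2, hM₁, hM₁', hM₂, hM₂', sub_zero]

end Dbl

open Dbl in
theorem dimH_badDbl_le {W V : Type*} [NormedAddCommGroup W] [InnerProductSpace ℝ W]
    [FiniteDimensional ℝ W] [NormedAddCommGroup V] [NormedSpace ℝ V] [FiniteDimensional ℝ V]
    (𝒬 : CubFam W V) {γ₁ γ₂ : E2 → W} {Ω₁ Ω₂ : Set E2} (h₁ : Piece γ₁ Ω₁) (h₂ : Piece γ₂ Ω₂) :
    dimH (badDbl 𝒬 γ₁ γ₂ Ω₁ Ω₂) ≤ (Module.finrank ℝ V - 1 : ℕ) := by
  have hmain := dimH_bad (isOpen_dom h₁ h₂) (contDiffOn_TT 𝒬 h₁ h₂)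
    (fun p hp => surjective_TT 𝒬 h₁ h₂ hp) (by simp)
  refine (dimH_mono ?_).trans hmain
  rintro C ⟨u, hu, v, hv, hne, heq, l, hl, hl1, hl2⟩
  obtain ⟨r, a, b, hr, rfl⟩ := exists_lam hl
  refine ⟨((u, v), (a, b)), ⟨hu, hv, hne⟩, ?_⟩
  have key : ∀ z : E3, inner ℝ (r • lam a b) z = 0 → inner ℝ (lam a b) z = 0 := by
    intro z hz
    rw [inner_smul_left] at hz
    exact (mul_eq_zero.1 hz).resolve_left (by simpa using hr.ne')
  have k1 : ∀ w, inner ℝ (lam a b) (fderiv ℝ (fun u => 𝒬.q (γ₁ u)) u w C) = 0 := by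
    intro w
    rw [← fderiv_Q_apply 𝒬 h₁ hu]
    exact key _ (hl1 w)
  have k2 : ∀ w, inner ℝ (lam a b) (fderiv ℝ (fun u => 𝒬.q (γ₂ u)) v w C) = 0 := by
    intro w
    rw [← fderiv_Q_apply 𝒬 h₂ hv]
    exact key _ (hl2 w)
  rw [TT_apply]
  simp only [k1, k2, heq, sub_self]
  rfl

end Crest.Agent.R216.D
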