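import Crest.Agent.R216.D1Defs
import Crest.Agent.R216.D0
import Crest.Agent.R216.D1Dbl_Mg
import Mathlib

-- ▼ part R216/D1Fam
section

/-! Row 216 (D), module D1: the cubic family exists (owner: helper86). -/

set_option autoImplicit false
open scoped Manifold ContDiff Topology
open Set Metric Function

namespace Crest.Agent.R216.D

/-- index set of the homogeneous coordinates of `(1, z)` -/
abbrev CubIdx (N : ℕ) := Option (Fin N) × Option (Fin N) × Option (Fin N)

/-- the parameter space -/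
abbrev CubV (N : ℕ) := CubIdx N → E3

/-- homogeneous coordinates -/
noncomputable def hco {N : ℕ} (z : EuclideanSpace ℝ (Fin N)) : Option (Fin N) → ℝ
  | none => 1
  | some i => z i

lemma contDiff_hco {N : ℕ} (i : Option (Fin N)) :
    ContDiff ℝ ∞ (fun z : EuclideanSpace ℝ (Fin N) => hco z i) := by
  cases i with
  | none => exact contDiff_const
  | some i =>
    show ContDiff ℝ ∞ (fun z : EuclideanSpace ℝ (Fin N) => z i)
    fun_prop

lemma hco_affine {N : ℕ} (l : EuclideanSpace ℝ (Fin N) →L[ℝ] ℝ) (t : ℝ) :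
    ∃ α : Option (Fin N) → ℝ, ∀ z, l z + t = ∑ i, α i * hco z i := by
  refine ⟨fun i => match i with | none => t | some i => l (EuclideanSpace.single i 1), fun z => ?_⟩
  rw [Fintype.sum_option]
  simp only [hco, mul_one]
  rw [add_comm]
  congr 1
  have hz : z = ∑ i, z i • EuclideanSpace.single i (1 : ℝ) := by
    ext j
    simp [Finset.sum_apply, Pi.single_apply]
  conv_lhs => rw [hz]
  rw [map_sum]
  refine Finset.sum_congr rfl fun i _ => ?_
  rw [map_smul, smul_eq_mul, mul_comm]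

/-- the evaluation functional -/
noncomputable def cubq (N : ℕ) (z : EuclideanSpace ℝ (Fin N)) : CubV N →L[ℝ] E3 :=
  ∑ k : CubIdx N, (hco z k.1 * hco z k.2.1 * hco z k.2.2) •
    (ContinuousLinearMap.proj k : CubV N →L[ℝ] E3)

lemma cubq_prod {N : ℕ} (α β γ : Option (Fin N) → ℝ) (w : E3) (z : EuclideanSpace ℝ (Fin N)) :
    cubq N z (fun k : CubIdx N => (α k.1 * β k.2.1 * γ k.2.2) • w)
      = ((∑ i, α i * hco z i) * (∑ i, β i * hco z i) * (∑ i, γ i * hco z i)) • w := by
  have h1 : cubq N z (fun k : CubIdx N => (α k.1 * β k.2.1 * γ k.2.2) • w)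
      = ∑ k : CubIdx N, ((α k.1 * hco z k.1) * (β k.2.1 * hco z k.2.1) * (γ k.2.2 * hco z k.2.2)) • w := by
    simp only [cubq, sum_apply, smul_apply, ContinuousLinearMap.proj_apply, smul_smul]
    refine Finset.sum_congr rfl fun k _ => ?_
    congr 1
    ring
  rw [h1, ← Finset.sum_smul]
  congr 1
  rw [Fintype.sum_prod_type, Finset.sum_mul_sum, Finset.sum_mul]
  refine Finset.sum_congr rfl fun i _ => ?_
  rw [Fintype.sum_prod_type, Finset.sum_mul]
  refine Finset.sum_congr rfl fun j _ => ?_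
  rw [Finset.mul_sum]

theorem exists_cubFam (N : ℕ) : Nonempty (CubFam (EuclideanSpace ℝ (Fin N)) (CubV N)) := by
  refine ⟨⟨cubq N, ?_, ?_⟩⟩
  · unfold cubq
    exact ContDiff.sum fun k _ =>
      (((contDiff_hco _).mul (contDiff_hco _)).mul (contDiff_hco _)).smul contDiff_const
  · intro l₁ l₂ l₃ t₁ t₂ t₃ r
    obtain ⟨α, hα⟩ := hco_affine l₁ t₁
    obtain ⟨β, hβ⟩ := hco_affine l₂ t₂
    obtain ⟨γ, hγ⟩ := hco_affine l₃ t₃
    refine ⟨fun k => (α k.1 * β k.2.1 * γ k.2.2) • r, fun z => ?_⟩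
    rw [cubq_prod, hα, hβ, hγ]

theorem finrank_CubV_pos (N : ℕ) : 0 < Module.finrank ℝ (CubV N) := by
  have : Nontrivial (CubV N) := inferInstance
  exact Module.finrank_pos

end Crest.Agent.R216.D
private theorem rz_c4e19453c6 : type_of% @_root_.Crest.Agent.R216.D.hco.eq_1 := @_root_.Crest.Agent.R216.D.hco.eq_1 -- L18
end

-- ▼ part R216/D1
section

/-! Row 216 (D), module D1: existence of a generic map `G = P ∘ ι : M → ℝ³`
(assembly: helper86).  `P` = polynomial of degree `≤ 3` on `ℝ^N`, `ι` = Mathlib's embedding. -/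

set_option autoImplicit false
open scoped Manifold ContDiff Topology
open Set Metric Function

namespace Crest.Agent.R216.D

variable {M : Type*} [TopologicalSpace M] [T2Space M] [CompactSpace M] [ChartedSpace E2 M]
  [IsManifold (𝓡 2) ∞ M]

omit [T2Space M] [CompactSpace M] in
lemma injective_dchart {V : Type*} [NormedAddCommGroup V] [NormedSpace ℝ V] {ι : M → V}
    (hι : ContMDiff (𝓡 2) 𝓘(ℝ, V) ∞ ι) (himm : ∀ x, Injective (mfderiv (𝓡 2) 𝓘(ℝ, V) ι x))
    {c : OpenPartialHomeomorph M E2} (hc : c ∈ IsManifold.maximalAtlas (𝓡 2) ∞ M) {u : E2}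
    (hu : u ∈ c.target) : Injective (fderiv ℝ (ι ∘ c.symm) u) := by
  intro v w hvw
  rw [← mfderiv_chart hι hc hu, ← mfderiv_chart hι hc hu] at hvw
  exact (bijective_mfderiv_chart_symm hc hu).1 (himm _ hvw)

/-- a proper subspace of `E3` is annihilated by a nonzero vector -/
lemma exists_normal_of_not_surj (L L' : E2 →L[ℝ] E3) (h : ¬ ∀ y : E3, ∃ a b : E2, L a - L' b = y) :
    ∃ l : E3, l ≠ 0 ∧ (∀ a, inner ℝ l (L a) = 0) ∧ ∀ b, inner ℝ l (L' b) = 0 := by
  set S : Submodule ℝ E3 := LinearMap.range (L : E2 →ₗ[ℝ] E3) ⊔ LinearMap.range (L' : E2 →ₗ[ℝ] E3) with hS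
  have hne : S ≠ ⊤ := by
    intro htop
    apply h
    intro y
    have hy : y ∈ S := by rw [htop]; trivial
    obtain ⟨p, ⟨a, ha⟩, q, ⟨b, hb⟩, hpq⟩ := Submodule.mem_sup.1 hy
    refine ⟨a, -b, ?_⟩
    rw [map_neg, sub_neg_eq_add, ← hpq, ← ha, ← hb]
    rfl
  have hne' : Sᗮ ≠ ⊥ := by
    intro hbot
    exact hne ((Submodule.orthogonal_eq_bot_iff).1 hbot)
  obtain ⟨l, hl, hl0⟩ := Submodule.exists_mem_ne_zero_of_ne_bot hne'
  refine ⟨l, hl0, fun a => ?_, fun b => ?_⟩
  · have := hl (L a) (Submodule.mem_sup_left ⟨a, rfl⟩)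
    rw [real_inner_comm]; exact this
  · have := hl (L' b) (Submodule.mem_sup_right ⟨b, rfl⟩)
    rw [real_inner_comm]; exact this

theorem exists_generic (𝒜 : BallAtlas M) :
    ∃ (F : Formal M) (G : M → E3), ContMDiff (𝓡 2) 𝓘(ℝ, E3) ∞ G ∧
      (∀ i, ∀ u ∈ (𝒜.c i).target, fderiv ℝ (G ∘ (𝒜.c i).symm) u = F.mat (𝒜.c i) u) ∧
      Transverse 𝒜 G ∧
      (∀ i, ∀ u ∈ (𝒜.c i).target, Nondeg (fderiv ℝ (G ∘ (𝒜.c i).symm)) u) := by
  obtain ⟨N, ι, hι, hemb, himm⟩ := exists_embedding_euclidean_of_compact (I := 𝓡 2) (M := M)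
  obtain ⟨𝒬⟩ := exists_cubFam N
  set γ : Fin 𝒜.n → E2 → EuclideanSpace ℝ (Fin N) := fun i => ι ∘ (𝒜.c i).symm with hγ
  have hγs : ∀ i, ContDiffOn ℝ ∞ (γ i) (𝒜.c i).target := fun i => contDiffOn_chart hι (𝒜.mem i)
  have hpiece : ∀ i, Piece (γ i) (𝒜.c i).target := fun i =>
    ⟨(𝒜.c i).open_target, hγs i, fun u hu => injective_dchart hι himm (𝒜.mem i) hu⟩
  set bad : Set (CubV N) := (⋃ i, badCap 𝒬 (γ i) (𝒜.c i).target) ∪
    ⋃ i, ⋃ j, badDbl 𝒬 (γ i) (γ j) (𝒜.c i).target (𝒜.c j).target with hbad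
  have hdim : dimH bad ≤ ((Module.finrank ℝ (CubV N) - 1 : ℕ) : ENNReal) := by
    rw [hbad, dimH_union, dimH_iUnion, dimH_iUnion]
    refine max_le (iSup_le fun i => dimH_badCap_le 𝒬 (hpiece i)) (iSup_le fun i => ?_)
    rw [dimH_iUnion]
    exact iSup_le fun j => dimH_badDbl_le 𝒬 (hpiece i) (hpiece j)
  have hlt : dimH bad < (Module.finrank ℝ (CubV N) : ENNReal) := by
    refine hdim.trans_lt ?_
    have := finrank_CubV_pos N
    exact_mod_cast Nat.sub_lt this one_pos
  obtain ⟨C, hC⟩ := (dense_compl_of_dimH_lt_finrank hlt).nonempty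
  have hP : ContDiff ℝ ∞ (fun z => 𝒬.q z C) := 𝒬.smooth.clm_apply contDiff_const
  have hPd : ContDiff ℝ ∞ (fderiv ℝ (fun z => 𝒬.q z C)) := hP.fderiv_right (by simp)
  have hG : ContMDiff (𝓡 2) 𝓘(ℝ, E3) ∞ (fun x => 𝒬.q (ι x) C) := hP.contMDiff.comp hι
  let F : Formal M := ⟨N, ι, hι, himm, fun x => fderiv ℝ (fun z => 𝒬.q z C) (ι x),
    hPd.contMDiff.comp hι⟩
  have hcap : ∀ i, ∀ u ∈ (𝒜.c i).target,
      Nondeg (fderiv ℝ ((fun x => 𝒬.q (ι x) C) ∘ (𝒜.c i).symm)) u := by
    intro i u hu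
    by_contra hcon
    exact hC (Or.inl (mem_iUnion.2 ⟨i, u, hu, hcon⟩))
  refine ⟨F, fun x => 𝒬.q (ι x) C, hG, ?_, ?_, hcap⟩
  · intro i u hu
    have h1 : DifferentiableAt ℝ (γ i) u :=
      ((hγs i).contDiffAt ((𝒜.c i).open_target.mem_nhds hu)).differentiableAt (by simp)
    have h2 : DifferentiableAt ℝ (fun z => 𝒬.q z C) (γ i u) := hP.differentiable (by simp) _
    have h3 := fderiv_comp u h2 h1
    exact h3
  · intro i j u hu v hv hne heq
    by_contra hcon
    obtain ⟨l, hl0, hl1, hl2⟩ := exists_normal_of_not_surj _ _ hcon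
    refine hC (Or.inr (mem_iUnion.2 ⟨i, mem_iUnion.2 ⟨j, u, hu, v, hv, ?_, heq, l, hl0, hl1, hl2⟩⟩))
    intro h
    exact hne (hemb.injective h)

end Crest.Agent.R216.D
end

-- ▼ part R216/EvenFixed
section

/-!
# Row 216, module D2: an involution of a compact 1-manifold has an even number of fixed points

`even_fixed`: `W` compact Hausdorff, every point lies in the range of an open embedding `ℝ → W`,
`s : W → W` a continuous involution with finitely many fixed points: the number of fixed points is even.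

Proof: a finite `s`-invariant vertex set `V` containing all fixed points is chosen such that the components
of `Vᶜ` ("edges") are chart intervals; each edge has exactly two vertices in its closure, each vertex lies
in the closure of exactly two edges, so `#V = #E`; `s` acts freely on the edges.
-/

set_option autoImplicit false

open Set Topology

namespace Crest.Agent.R216

namespace EvenFixed

variable {W : Type*} [TopologicalSpace W]

/-- The edges: connected components of the complement of `V`. -/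
def edges (V : Set W) : Set (Set W) :=
  {C | ∃ w, w ∉ V ∧ C = connectedComponentIn Vᶜ w}

/-- `C` is a chart interval with both end points in `V`. -/
def IsArc (V C : Set W) : Prop :=
  ∃ e : ℝ → W, IsOpenEmbedding e ∧ ∃ a b : ℝ, a < b ∧ e a ∈ V ∧ e b ∈ V ∧
    (∀ s ∈ Ioo a b, e s ∉ V) ∧ C = e '' Ioo a b

theorem closure_image_Ioo [T2Space W] {e : ℝ → W} (he : Continuous e) {a b : ℝ} (hab : a < b) :
    closure (e '' Ioo a b) = e '' Icc a b := by
  apply Subset.antisymm
  · apply closure_minimal (image_mono Ioo_subset_Icc_self)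
    exact (isCompact_Icc.image he).isClosed
  · rw [← closure_Ioo hab.ne]
    exact image_closure_subset_closure_image he

/-- consecutive vertices around a parameter -/
theorem exists_consecutive {V : Set W} (hV : IsClosed V) {e : ℝ → W} (he : Continuous e)
    {p q t : ℝ} (hp : e p ∈ V) (hq : e q ∈ V) (hpt : p < t) (htq : t < q) (ht : e t ∉ V) :
    ∃ a b : ℝ, a < t ∧ t < b ∧ e a ∈ V ∧ e b ∈ V ∧ ∀ s ∈ Ioo a b, e s ∉ V := by
  have hcl : IsClosed (e ⁻¹' V) := hV.preimage he
  have hK1 : IsCompact (e ⁻¹' V ∩ Icc p t) := isCompact_Icc.inter_left hcl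
  have hK2 : IsCompact (e ⁻¹' V ∩ Icc t q) := isCompact_Icc.inter_left hcl
  obtain ⟨a, ⟨haV, hat⟩, ha⟩ := hK1.exists_isGreatest ⟨p, hp, left_mem_Icc.2 hpt.le⟩
  obtain ⟨b, ⟨hbV, hbt⟩, hb⟩ := hK2.exists_isLeast ⟨q, hq, right_mem_Icc.2 htq.le⟩
  have hat' : a < t := by
    rcases hat.2.lt_or_eq with h | h
    · exact h
    · exact absurd (h ▸ haV) ht
  have hbt' : t < b := by
    rcases hbt.1.lt_or_eq with h | h
    · exact h
    · exact absurd (h ▸ hbV) ht
  refine ⟨a, b, hat', hbt', haV, hbV, ?_⟩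
  intro s hs hsV
  rcases le_total s t with h | h
  · have := ha ⟨hsV, ⟨hat.1.trans hs.1.le, h⟩⟩
    exact absurd this (not_le.2 hs.1)
  · have := hb ⟨hsV, ⟨h, hs.2.le.trans hbt.2⟩⟩
    exact absurd this (not_le.2 hs.2)

theorem component_eq_image [T2Space W] {V : Set W} {e : ℝ → W} (he : IsOpenEmbedding e)
    {a b t : ℝ} (hat : a < t) (htb : t < b) (ha : e a ∈ V) (hb : e b ∈ V)
    (hs : ∀ s ∈ Ioo a b, e s ∉ V) :
    connectedComponentIn Vᶜ (e t) = e '' Ioo a b := by
  have hab : a < b := hat.trans htb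
  apply Subset.antisymm
  · have htm : e t ∈ Vᶜ := hs t ⟨hat, htb⟩
    apply isPreconnected_connectedComponentIn.subset_of_closure_inter_subset
      (he.isOpenMap _ isOpen_Ioo)
    · exact ⟨e t, mem_connectedComponentIn htm, t, ⟨hat, htb⟩, rfl⟩
    · rw [closure_image_Ioo he.continuous hab]
      rintro x ⟨⟨s, hs', rfl⟩, hx⟩
      have hx' : e s ∉ V := connectedComponentIn_subset _ _ hx
      refine ⟨s, ⟨lt_of_le_of_ne hs'.1 ?_, lt_of_le_of_ne hs'.2 ?_⟩, rfl⟩
      · rintro rfl; exact hx' ha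
      · rintro rfl; exact hx' hb
  · apply (isPreconnected_Ioo.image e he.continuous.continuousOn).subset_connectedComponentIn
    · exact ⟨t, ⟨hat, htb⟩, rfl⟩
    · rintro x ⟨s, hs', rfl⟩
      exact hs s hs'

theorem isArc_of_mem_edges [T2Space W] {V : Set W} (hV : IsClosed V)
    (hcov : ∀ w : W, ∃ e : ℝ → W, IsOpenEmbedding e ∧ e (-1) ∈ V ∧ e 1 ∈ V ∧ w ∈ e '' Ioo (-1) 1)
    {C : Set W} (hC : C ∈ edges V) : IsArc V C := by
  obtain ⟨w, hw, rfl⟩ := hC
  obtain ⟨e, he, h1, h2, t, ht, rfl⟩ := hcov w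
  obtain ⟨a, b, hat, htb, ha, hb, hab⟩ :=
    exists_consecutive hV he.continuous h1 h2 ht.1 ht.2 hw
  exact ⟨e, he, a, b, hat.trans htb, ha, hb, hab, component_eq_image he hat htb ha hb hab⟩

/-- every edge is incident to exactly two vertices -/
theorem ncard_vertices [T2Space W] {V C : Set W} (hC : IsArc V C) :
    {v | v ∈ V ∧ v ∈ closure C}.ncard = 2 := by
  obtain ⟨e, he, a, b, hab, ha, hb, hs, rfl⟩ := hC
  have : {v | v ∈ V ∧ v ∈ closure (e '' Ioo a b)} = {e a, e b} := by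
    rw [closure_image_Ioo he.continuous hab]
    ext v
    constructor
    · rintro ⟨hv, s, hs', rfl⟩
      rcases eq_or_lt_of_le hs'.1 with h | h
      · left; rw [h]
      · rcases eq_or_lt_of_le hs'.2 with h' | h'
        · right; rw [h']; rfl
        · exact absurd hv (hs s ⟨h, h'⟩)
    · rintro (rfl | rfl)
      · exact ⟨ha, a, left_mem_Icc.2 hab.le, rfl⟩
      · exact ⟨hb, b, right_mem_Icc.2 hab.le, rfl⟩
  rw [this, ncard_pair]
  intro h
  exact hab.ne (he.injective h)

/-- every vertex is incident to exactly two edges -/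
theorem ncard_edges [T2Space W] {V : Set W} (hVf : V.Finite)
    (hcov : ∀ w : W, ∃ e : ℝ → W, IsOpenEmbedding e ∧ e (-1) ∈ V ∧ e 1 ∈ V ∧ w ∈ e '' Ioo (-1) 1)
    {v : W} (hv : v ∈ V) :
    {C | C ∈ edges V ∧ v ∈ closure C}.ncard = 2 := by
  have hV : IsClosed V := hVf.isClosed
  obtain ⟨e, he, -, -, t, -, rfl⟩ := hcov v
  -- a small interval around `t`
  have hop : IsOpen (e ⁻¹' (V \ {e t})ᶜ) :=
    ((hVf.subset sdiff_subset).isClosed.isOpen_compl).preimage he.continuous
  obtain ⟨δ, hδ, hball⟩ := Metric.isOpen_iff.1 hop t (by simp)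
  have hnot : ∀ s, s ∈ Ioo (t - δ) (t + δ) → s ≠ t → e s ∉ V := by
    intro s hs hst hsV
    have : s ∈ Metric.ball t δ := by
      rw [Real.ball_eq_Ioo]; exact hs
    have := hball this
    simp only [mem_preimage, mem_compl_iff, mem_sdiff, mem_singleton_iff, not_and, not_not] at this
    exact hst (he.injective (this hsV))
  set Cp := connectedComponentIn Vᶜ (e (t + δ / 2)) with hCp
  set Cm := connectedComponentIn Vᶜ (e (t - δ / 2)) with hCm
  have hp : e (t + δ / 2) ∉ V := hnot _ ⟨by linarith, by linarith⟩ (by linarith)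
  have hm : e (t - δ / 2) ∉ V := hnot _ ⟨by linarith, by linarith⟩ (by linarith)
  have hsubp : e '' Ioo t (t + δ) ⊆ Cp := by
    apply (isPreconnected_Ioo.image e he.continuous.continuousOn).subset_connectedComponentIn
    · exact ⟨t + δ / 2, ⟨by linarith, by linarith⟩, rfl⟩
    · rintro x ⟨s, hs', rfl⟩
      exact hnot s ⟨by linarith [hs'.1], hs'.2⟩ hs'.1.ne'
  have hsubm : e '' Ioo (t - δ) t ⊆ Cm := by
    apply (isPreconnected_Ioo.image e he.continuous.continuousOn).subset_connectedComponentIn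
    · exact ⟨t - δ / 2, ⟨by linarith, by linarith⟩, rfl⟩
    · rintro x ⟨s, hs', rfl⟩
      exact hnot s ⟨hs'.1, by linarith [hs'.2]⟩ hs'.2.ne
  have hclp : e t ∈ closure Cp := by
    apply closure_mono hsubp
    rw [closure_image_Ioo he.continuous (by linarith)]
    exact ⟨t, ⟨le_rfl, by linarith⟩, rfl⟩
  have hclm : e t ∈ closure Cm := by
    apply closure_mono hsubm
    rw [closure_image_Ioo he.continuous (by linarith)]
    exact ⟨t, ⟨by linarith, le_rfl⟩, rfl⟩
  have hEp : Cp ∈ edges V := ⟨_, hp, rfl⟩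
  have hEm : Cm ∈ edges V := ⟨_, hm, rfl⟩
  have hne : Cp ≠ Cm := by
    intro heq
    obtain ⟨g, hg, a, b, hab, ha, hb, hs, hC⟩ := isArc_of_mem_edges hV hcov hEp
    have hU : IsOpen (g ⁻¹' (e '' Ioo (t - δ) (t + δ))) :=
      (he.isOpenMap _ isOpen_Ioo).preimage hg.continuous
    have hsub : g ⁻¹' (e '' Ioo (t - δ) (t + δ)) ⊆ Icc a b := by
      rintro s ⟨r, hr, hrs⟩
      rcases eq_or_ne r t with h | h
      · have h1 : e t ∈ closure Cp := hclp
        rw [hC, closure_image_Ioo hg.continuous hab] at h1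
        obtain ⟨r', hr', hr''⟩ := h1
        have : g r' = g s := by rw [hr'', ← hrs, h]
        rw [← hg.injective this]; exact hr'
      · have h1 : e r ∈ Cp := by
          rcases lt_or_gt_of_ne h with h' | h'
          · rw [heq]; exact hsubm ⟨r, ⟨hr.1, h'⟩, rfl⟩
          · exact hsubp ⟨r, ⟨h', hr.2⟩, rfl⟩
        rw [hC] at h1
        obtain ⟨r', hr', hr''⟩ := h1
        have : g r' = g s := by rw [hr'', ← hrs]
        rw [← hg.injective this]; exact Ioo_subset_Icc_self hr'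
    have hsub' : g ⁻¹' (e '' Ioo (t - δ) (t + δ)) ⊆ Ioo a b := by
      have h3 := interior_maximal hsub hU
      rwa [interior_Icc] at h3
    have h1 : e t ∈ closure Cp := hclp
    rw [hC, closure_image_Ioo hg.continuous hab] at h1
    obtain ⟨r, hr, hr'⟩ := h1
    have hr2 : r ∈ Ioo a b := hsub' (by
      show g r ∈ e '' Ioo (t - δ) (t + δ)
      rw [hr']; exact ⟨t, ⟨by linarith, by linarith⟩, rfl⟩)
    exact hs r hr2 (hr' ▸ hv)
  have : {C | C ∈ edges V ∧ e t ∈ closure C} = {Cp, Cm} := by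
    ext C
    constructor
    · rintro ⟨⟨w, hw, rfl⟩, hC⟩
      have hU : IsOpen (e '' Ioo (t - δ) (t + δ)) := he.isOpenMap _ isOpen_Ioo
      obtain ⟨x, ⟨s, hs, rfl⟩, hx⟩ := mem_closure_iff.1 hC _ hU ⟨t, ⟨by linarith, by linarith⟩, rfl⟩
      have hst : s ≠ t := by
        rintro rfl
        exact connectedComponentIn_subset _ _ hx hv
      rcases lt_or_gt_of_ne hst with h' | h'
      · right
        have h2 : e s ∈ Cm := hsubm ⟨s, ⟨hs.1, h'⟩, rfl⟩
        show connectedComponentIn Vᶜ w = Cm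
        rw [connectedComponentIn_eq hx, hCm, connectedComponentIn_eq h2]
      · left
        have h2 : e s ∈ Cp := hsubp ⟨s, ⟨h', hs.2⟩, rfl⟩
        show connectedComponentIn Vᶜ w = Cp
        rw [connectedComponentIn_eq hx, hCp, connectedComponentIn_eq h2]
    · rintro (rfl | rfl)
      · exact ⟨hEp, hclp⟩
      · exact ⟨hEm, hclm⟩
  rw [this, ncard_pair hne]

/-- a continuous involution of a chart interval has a fixed point -/
theorem exists_fixed_of_arc {V C : Set W} (hC : IsArc V C) {s : W → W} (hs : Continuous s)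
    (hinv : ∀ w, s (s w) = w) (hsC : s '' C = C) : ∃ w ∈ C, s w = w := by
  obtain ⟨e, he, a, b, hab, -, -, -, rfl⟩ := hC
  have hmaps : ∀ t ∈ Ioo a b, ∃ t' ∈ Ioo a b, e t' = s (e t) := by
    intro t ht
    have : s (e t) ∈ e '' Ioo a b := by
      rw [← hsC]; exact ⟨e t, ⟨t, ht, rfl⟩, rfl⟩
    obtain ⟨t', ht', h⟩ := this
    exact ⟨t', ht', h⟩
  choose! φ hφm hφ using hmaps
  have hcont : ContinuousOn φ (Ioo a b) := by
    rw [he.isInducing.continuousOn_iff]
    apply (hs.comp he.continuous).continuousOn.congr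
    intro t ht
    exact hφ t ht
  have hφφ : ∀ t ∈ Ioo a b, φ (φ t) = t := by
    intro t ht
    apply he.injective
    rw [hφ _ (hφm t ht), hφ t ht, hinv]
  -- fixed point of `φ`
  have key : ∃ t ∈ Ioo a b, φ t = t := by
    have hmid : (a + b) / 2 ∈ Ioo a b := ⟨by linarith, by linarith⟩
    set t0 := (a + b) / 2
    have hc2 : ContinuousOn (fun t => φ t - t) (Ioo a b) := hcont.sub continuousOn_id
    have hpre : IsPreconnected (Ioo a b) := isPreconnected_Ioo
    obtain ⟨t, ht, h0⟩ : ∃ t ∈ Ioo a b, φ t - t = 0 := by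
      rcases le_total (φ t0) t0 with h | h
      · have h1 : φ t0 - t0 ≤ 0 := by linarith
        have h2 : 0 ≤ φ (φ t0) - φ t0 := by rw [hφφ t0 hmid]; linarith
        have := hpre.intermediate_value hmid (hφm t0 hmid) hc2 ⟨h1, h2⟩
        obtain ⟨t, ht, h⟩ := this
        exact ⟨t, ht, h⟩
      · have h1 : 0 ≤ φ t0 - t0 := by linarith
        have h2 : φ (φ t0) - φ t0 ≤ 0 := by rw [hφφ t0 hmid]; linarith
        have := hpre.intermediate_value (hφm t0 hmid) hmid hc2 ⟨h2, h1⟩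
        obtain ⟨t, ht, h⟩ := this
        exact ⟨t, ht, h⟩
    exact ⟨t, ht, by linarith⟩
  obtain ⟨t, ht, h⟩ := key
  exact ⟨e t, ⟨t, ht, rfl⟩, by rw [← hφ t ht, h]⟩

/-- parity of a finite set with an involution: fixed points and total number have the same parity -/
theorem card_involution_parity {α : Type*} [DecidableEq α] (S : Finset α) (s : α → α)
    (hm : ∀ x ∈ S, s x ∈ S) (hinv : ∀ x ∈ S, s (s x) = x) :
    (S.card : ZMod 2) = ((S.filter (fun x => s x = x)).card : ZMod 2) := by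
  rw [← Finset.card_filter_add_card_filter_not (s := S) (fun x => s x = x)]
  have h0 : ∑ x ∈ S.filter (fun x => ¬ s x = x), (1 : ZMod 2) = 0 := by
    apply Finset.sum_involution (fun x _ => s x)
    · intro x _; exact CharTwo.add_self_eq_zero (1 : ZMod 2)
    · intro x hx _
      exact (Finset.mem_filter.1 hx).2
    · intro x hx
      obtain ⟨h1, h2⟩ := Finset.mem_filter.1 hx
      refine Finset.mem_filter.2 ⟨hm x h1, ?_⟩
      rw [hinv x h1]
      exact fun h => h2 h.symm
    · intro x hx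
      exact hinv x (Finset.mem_filter.1 hx).1
  rw [Finset.sum_const, nsmul_eq_mul, mul_one] at h0
  push_cast
  rw [h0, add_zero]

end EvenFixed

open EvenFixed in
/-- **Module D2.** A continuous involution with finitely many fixed points of a compact Hausdorff space
which is locally homeomorphic to `ℝ` has an even number of fixed points. -/
theorem even_fixed {W : Type*} [TopologicalSpace W] [CompactSpace W] [T2Space W]
    (hloc : ∀ w : W, ∃ e : ℝ → W, IsOpenEmbedding e ∧ w ∈ range e)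
    (s : W → W) (hs : Continuous s) (hinv : ∀ w, s (s w) = w)
    (hfin : {w : W | s w = w}.Finite) :
    Even {w : W | s w = w}.ncard := by
  classical
  -- normalised charts
  have hloc' : ∀ w : W, ∃ e : ℝ → W, IsOpenEmbedding e ∧ e 0 = w := by
    intro w
    obtain ⟨e, he, t, rfl⟩ := hloc w
    refine ⟨e ∘ (Homeomorph.addRight t), he.comp (Homeomorph.addRight t).isOpenEmbedding, ?_⟩
    simp
  choose c hc hc0 using hloc'
  have hnhd : ∀ w : W, c w '' Ioo (-1) 1 ∈ 𝓝 w := by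
    intro w
    apply ((hc w).isOpenMap _ isOpen_Ioo).mem_nhds
    exact ⟨0, ⟨by norm_num, by norm_num⟩, hc0 w⟩
  obtain ⟨T, -, hT⟩ := isCompact_univ.elim_nhds_subcover (fun w => c w '' Ioo (-1) 1)
    (fun w _ => hnhd w)
  set A : Set W := (fun w => c w (-1)) '' (T : Set W) ∪ (fun w => c w 1) '' (T : Set W) with hA
  have hAfin : A.Finite := (T.finite_toSet.image _).union (T.finite_toSet.image _)
  set V : Set W := {w : W | s w = w} ∪ (A ∪ s '' A) with hVdef
  have hVf : V.Finite := hfin.union (hAfin.union (hAfin.image _))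
  have hVcl : IsClosed V := hVf.isClosed
  have hcov : ∀ w : W, ∃ e : ℝ → W, IsOpenEmbedding e ∧ e (-1) ∈ V ∧ e 1 ∈ V ∧
      w ∈ e '' Ioo (-1) 1 := by
    intro w
    have := hT (mem_univ w)
    simp only [mem_iUnion] at this
    obtain ⟨x, hx, hw⟩ := this
    refine ⟨c x, hc x, ?_, ?_, hw⟩
    · exact Or.inr (Or.inl (Or.inl ⟨x, hx, rfl⟩))
    · exact Or.inr (Or.inl (Or.inr ⟨x, hx, rfl⟩))
  have hsV : ∀ w ∈ V, s w ∈ V := by
    rintro w (hw | hw | ⟨x, hx, rfl⟩)
    · left; show s (s w) = s w; rw [show s w = w from hw]; exact hw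
    · exact Or.inr (Or.inr ⟨w, hw, rfl⟩)
    · rw [hinv]; exact Or.inr (Or.inl hx)
  let σ : W ≃ₜ W :=
    { toFun := s, invFun := s, left_inv := hinv, right_inv := hinv,
      continuous_toFun := hs, continuous_invFun := hs }
  have hσ : ∀ w, σ w = s w := fun _ => rfl
  have hsVc : s '' Vᶜ = Vᶜ := by
    ext w
    constructor
    · rintro ⟨x, hx, rfl⟩ h
      exact hx (by have := hsV _ h; rwa [hinv] at this)
    · intro hw
      exact ⟨s w, fun h => hw (by have := hsV _ h; rwa [hinv] at this), hinv w⟩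
  have hsE : ∀ C ∈ edges V, s '' C ∈ edges V := by
    rintro C ⟨w, hw, rfl⟩
    refine ⟨s w, fun h => hw (by have := hsV _ h; rwa [hinv] at this), ?_⟩
    have := σ.image_connectedComponentIn (s := Vᶜ) (x := w) hw
    rw [show (σ : W → W) = s from rfl, hsVc] at this
    exact this
  -- finiteness of the edges
  have hEf : (edges V).Finite := by
    have hsub : edges V ⊆ ⋃ v ∈ V, {C | C ∈ edges V ∧ v ∈ closure C} := by
      intro C hC
      have h2 := ncard_vertices (isArc_of_mem_edges hVcl hcov hC)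
      have hne : {v | v ∈ V ∧ v ∈ closure C}.Nonempty := by
        apply nonempty_of_ncard_ne_zero
        rw [h2]; norm_num
      obtain ⟨v, hv, hvC⟩ := hne
      simp only [mem_iUnion]
      exact ⟨v, hv, hC, hvC⟩
    refine (hVf.biUnion ?_).subset hsub
    intro v hv
    apply finite_of_ncard_ne_zero
    rw [ncard_edges hVf hcov hv]; norm_num
  -- double counting
  set VF := hVf.toFinset
  set EF := hEf.toFinset
  have hcard : VF.card = EF.card := by
    have := Finset.card_mul_eq_card_mul (s := VF) (t := EF) (fun v C => v ∈ closure C)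
      (m := 2) (n := 2) ?_ ?_
    · omega
    · intro v hv
      have hv' : v ∈ V := by simpa [VF] using hv
      rw [← ncard_edges hVf hcov hv', ← ncard_coe_finset]
      congr 1
      ext C
      simp [Finset.bipartiteAbove, EF]
    · intro C hC
      have hC' : C ∈ edges V := by simpa [EF] using hC
      rw [← ncard_vertices (isArc_of_mem_edges hVcl hcov hC'), ← ncard_coe_finset]
      congr 1
      ext v
      simp [Finset.bipartiteBelow, VF]
  -- parity
  have hV2 := card_involution_parity VF s (fun x hx => by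
      simp only [VF, Finite.mem_toFinset] at hx ⊢; exact hsV x hx) (fun x _ => hinv x)
  have hE2 := card_involution_parity EF (fun C => s '' C) (fun x hx => by
      simp only [EF, Finite.mem_toFinset] at hx ⊢; exact hsE x hx) (fun C _ => by
      show s '' (s '' C) = C
      rw [image_image]; simp [hinv])
  have hE0 : EF.filter (fun C => s '' C = C) = ∅ := by
    rw [Finset.filter_eq_empty_iff]
    intro C hC heq
    have hC' : C ∈ edges V := by simpa [EF] using hC
    obtain ⟨w, hwC, hw⟩ := exists_fixed_of_arc (isArc_of_mem_edges hVcl hcov hC') hs hinv heq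
    obtain ⟨x, hx, rfl⟩ := hC'
    exact connectedComponentIn_subset _ _ hwC (Or.inl hw)
  have hVfix : VF.filter (fun x => s x = x) = hfin.toFinset := by
    ext x
    simp only [VF, Finset.mem_filter, Finite.mem_toFinset, mem_ofPred_eq]
    constructor
    · exact fun h => h.2
    · exact fun h => ⟨Or.inl h, h⟩
  rw [hE0, Finset.card_empty, Nat.cast_zero] at hE2
  rw [hVfix, hcard, hE2] at hV2
  rw [ncard_eq_toFinset_card _ hfin, ← ZMod.natCast_eq_zero_iff_even]
  exact hV2.symm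

end Crest.Agent.R216
end

-- ▼ part R216/D2
section

/-! Row 216 (D), module D2: parity lemma for compact 1-manifolds (owner: helper359). -/

set_option autoImplicit false
open Set

namespace Crest.Agent.R216.D

/-- A continuous involution of a compact 1-manifold with finitely many fixed points
has an even number of them. -/
theorem even_fixed {W : Type*} [TopologicalSpace W] [CompactSpace W] [T2Space W]
    (hloc : ∀ w : W, ∃ c : ℝ → W, Topology.IsOpenEmbedding c ∧ w ∈ Set.range c)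
    (σ : W → W) (hσ : Continuous σ) (hinv : Function.Involutive σ)
    (hfin : {w | σ w = w}.Finite) : Even {w | σ w = w}.ncard :=
  Crest.Agent.R216.even_fixed hloc σ hσ hinv hfin

end Crest.Agent.R216.D
end

-- ▼ part R216/D3Curve
section

/-!
Row 216, part (D), D3 (helper30): germs of topological curves inside a set.
-/

namespace Crest.Agent.R216.D3

open Set Filter Topology Metric

/-- `S` is, near `p`, a topological curve through `p`: there are a continuous parametrisation `e`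
with `e 0 = p` and a continuous left inverse `τ` defined near `p`. -/
def LC {X : Type*} [TopologicalSpace X] (S : Set X) (p : X) : Prop :=
  ∃ (e : ℝ → X) (τ : X → ℝ), e 0 = p ∧ (∀ᶠ t in 𝓝 (0 : ℝ), ContinuousAt e t) ∧
    (∀ᶠ q in 𝓝 p, ContinuousAt τ q) ∧ (∀ᶠ t in 𝓝 (0 : ℝ), e t ∈ S ∧ τ (e t) = t) ∧
    (∀ᶠ q in 𝓝 p, q ∈ S → e (τ q) = q)

theorem LC.mem {X : Type*} [TopologicalSpace X] {S : Set X} {p : X} (h : LC S p) : p ∈ S := by
  obtain ⟨e, τ, h0, _, _, h3, _⟩ := h
  have := h3.self_of_nhds.1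
  rwa [h0] at this

theorem LC.congr {X : Type*} [TopologicalSpace X] {S T : Set X} {p : X} (h : LC S p)
    (hST : ∀ᶠ q in 𝓝 p, q ∈ S ↔ q ∈ T) : LC T p := by
  obtain ⟨e, τ, h0, h1, h2, h3, h4⟩ := h
  have he : Tendsto e (𝓝 0) (𝓝 p) := by
    have := h1.self_of_nhds
    rw [ContinuousAt, h0] at this
    exact this
  refine ⟨e, τ, h0, h1, h2, ?_, ?_⟩
  · filter_upwards [h3, he.eventually hST] with t ht1 ht2
    exact ⟨ht2.1 ht1.1, ht1.2⟩
  · filter_upwards [h4, hST] with q hq1 hq2 hq3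
    exact hq1 (hq2.2 hq3)

/-- Transport by an open partial homeomorphism. -/
theorem LC.of_chart {X Y : Type*} [TopologicalSpace X] [TopologicalSpace Y]
    (φ : OpenPartialHomeomorph X Y) {S : Set X} {T : Set Y} {p : X} (hp : p ∈ φ.source)
    (hST : ∀ᶠ q in 𝓝 p, q ∈ S ↔ φ q ∈ T) (h : LC T (φ p)) : LC S p := by
  obtain ⟨e, τ, h0, h1, h2, h3, h4⟩ := h
  have he : Tendsto e (𝓝 0) (𝓝 (φ p)) := by
    have := h1.self_of_nhds
    rw [ContinuousAt, h0] at this
    exact this
  have hφ : Tendsto φ (𝓝 p) (𝓝 (φ p)) := φ.continuousAt hp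
  have hφs : Tendsto φ.symm (𝓝 (φ p)) (𝓝 p) := φ.tendsto_symm hp
  have htgt : ∀ᶠ y in 𝓝 (φ p), y ∈ φ.target := φ.open_target.mem_nhds (φ.map_source hp)
  refine ⟨fun t => φ.symm (e t), fun q => τ (φ q), ?_, ?_, ?_, ?_, ?_⟩
  · simp only [h0]; exact φ.left_inv hp
  · filter_upwards [h1, he.eventually htgt] with t ht1 ht2
    exact (φ.continuousAt_symm ht2).comp ht1
  · filter_upwards [hφ.eventually h2, φ.open_source.mem_nhds hp] with q hq1 hq2
    exact ContinuousAt.comp (g := τ) hq1 (φ.continuousAt hq2)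
  · filter_upwards [h3, he.eventually htgt, (hφs.comp he).eventually hST] with t ht1 ht2 ht3
    simp only [Function.comp] at ht3
    rw [φ.right_inv ht2] at ht3
    refine ⟨ht3.2 ht1.1, ?_⟩
    rw [φ.right_inv ht2]; exact ht1.2
  · filter_upwards [hφ.eventually h4, φ.open_source.mem_nhds hp, hST] with q hq1 hq2 hq3 hq4
    rw [hq1 (hq3.1 hq4)]
    exact φ.left_inv hq2

/-- A set which is near `p` a topological curve contains the image of an open embedding of `ℝ`. -/
theorem LC.exists_isOpenEmbedding {X : Type*} [TopologicalSpace X] {S : Set X} {p : X}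
    (h : LC S p) : ∃ e : ℝ → S, IsOpenEmbedding e ∧ (⟨p, h.mem⟩ : S) ∈ range e := by
  have hpS := h.mem
  obtain ⟨e, τ, h0, h1, h2, h3, h4⟩ := h
  have he : Tendsto e (𝓝 0) (𝓝 p) := by
    have := h1.self_of_nhds
    rw [ContinuousAt, h0] at this
    exact this
  -- a good open neighbourhood of `p`
  obtain ⟨N, hN, hNo, hpN⟩ := eventually_nhds_iff.1 (h2.and h4)
  obtain ⟨δ, hδ, hball⟩ := Metric.eventually_nhds_iff_ball.1
    ((h1.and h3).and (he.eventually (hNo.mem_nhds hpN)))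
  have hb1 : ∀ t ∈ ball (0 : ℝ) δ, ContinuousAt e t := fun t ht => (hball t ht).1.1
  have hb2 : ∀ t ∈ ball (0 : ℝ) δ, e t ∈ S := fun t ht => (hball t ht).1.2.1
  have hb3 : ∀ t ∈ ball (0 : ℝ) δ, τ (e t) = t := fun t ht => (hball t ht).1.2.2
  have hb4 : ∀ t ∈ ball (0 : ℝ) δ, e t ∈ N := fun t ht => (hball t ht).2
  classical
  let O : Set X := {q | q ∈ N ∧ τ q ∈ ball (0 : ℝ) δ}
  have hO : IsOpen O := by
    have hc : ContinuousOn τ N := fun q hq => (hN q hq).1.continuousWithinAt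
    exact hc.isOpen_inter_preimage hNo isOpen_ball
  let φ : OpenPartialHomeomorph ℝ S :=
    { toFun := fun t => if ht : t ∈ ball (0 : ℝ) δ then ⟨e t, hb2 t ht⟩ else ⟨p, hpS⟩
      invFun := fun q => τ q
      source := ball 0 δ
      target := {q : S | (q : X) ∈ O}
      map_source' := by
        intro t ht
        simp only [mem_ofPred_eq, dif_pos ht]
        refine ⟨hb4 t ht, ?_⟩
        rw [hb3 t ht]; exact ht
      map_target' := by
        intro q hq
        exact hq.2
      left_inv' := by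
        intro t ht
        simp only [dif_pos ht]
        exact hb3 t ht
      right_inv' := by
        intro q hq
        have hq2 : τ q ∈ ball (0 : ℝ) δ := hq.2
        rw [dif_pos hq2]
        exact Subtype.ext ((hN q hq.1).2 q.2)
      open_source := isOpen_ball
      open_target := hO.preimage continuous_subtype_val
      continuousOn_toFun := by
        rw [Topology.IsInducing.subtypeVal.continuousOn_iff]
        have : ContinuousOn e (ball (0 : ℝ) δ) := fun t ht => (hb1 t ht).continuousWithinAt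
        refine this.congr ?_
        intro t ht
        simp only [Function.comp, dif_pos ht]
      continuousOn_invFun := by
        intro q hq
        have : ContinuousAt τ q := (hN q hq.1).1
        exact (ContinuousAt.comp (g := τ) (f := fun q : S => (q : X)) this
          continuous_subtype_val.continuousAt).continuousWithinAt }
  let ψ : OpenPartialHomeomorph ℝ S := (OpenPartialHomeomorph.univBall (0 : ℝ) δ).trans φ
  have hsrc : ψ.source = univ := by
    ext t
    simp only [ψ, OpenPartialHomeomorph.trans_source, OpenPartialHomeomorph.univBall_source,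
      univ_inter, mem_preimage, mem_univ, iff_true]
    have : OpenPartialHomeomorph.univBall (0 : ℝ) δ t ∈
        (OpenPartialHomeomorph.univBall (0 : ℝ) δ).target :=
      (OpenPartialHomeomorph.univBall (0 : ℝ) δ).map_source (by simp)
    rw [OpenPartialHomeomorph.univBall_target _ hδ] at this
    exact this
  refine ⟨ψ, ψ.isOpenEmbedding hsrc, 0, ?_⟩
  simp only [ψ, OpenPartialHomeomorph.coe_trans, Function.comp,
    OpenPartialHomeomorph.univBall_apply_zero]
  have h00 : (0 : ℝ) ∈ ball (0 : ℝ) δ := mem_ball_self hδ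
  change (if ht : (0 : ℝ) ∈ ball (0 : ℝ) δ then (⟨e 0, hb2 0 ht⟩ : S) else ⟨p, hpS⟩) = _
  rw [dif_pos h00]
  exact Subtype.ext h0

end Crest.Agent.R216.D3
end

-- ▼ part R216/D3Local
section

/-!
Row 216, part (D), D3 (helper30): local structure of the double point curve in `E × E`,
near a transversal double pair and near a nondegenerate cross-cap.
-/

namespace Crest.Agent.R216.D3

open Set Filter Topology Metric

/-! ### Submersions -/

section submersion

variable {E F : Type*} [NormedAddCommGroup E] [NormedSpace ℝ E] [FiniteDimensional ℝ E]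
  [NormedAddCommGroup F] [NormedSpace ℝ F] [FiniteDimensional ℝ F]

/-- the level set of a submersion with one-dimensional kernel is a curve -/
theorem LC_of_submersion {f : E → F} {f' : E →L[ℝ] F} {p : E} (hf : HasStrictFDerivAt f f' p)
    (hsurj : f'.range = ⊤) (hdim : Module.finrank ℝ f'.ker = 1) : LC {q | f q = f p} p := by
  have : CompleteSpace E := FiniteDimensional.complete ℝ E
  have : CompleteSpace F := FiniteDimensional.complete ℝ F
  let φ := hf.implicitToOpenPartialHomeomorph f f' hsurj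
  have hp : p ∈ φ.source := hf.mem_implicitToOpenPartialHomeomorph_source hsurj
  have hself : φ p = (f p, 0) := hf.implicitToOpenPartialHomeomorph_self hsurj
  have hfst : ∀ x, (φ x).1 = f x := hf.implicitToOpenPartialHomeomorph_fst hsurj
  let κ : f'.ker ≃L[ℝ] ℝ := ContinuousLinearEquiv.ofFinrankEq (by rw [hdim]; simp)
  refine LC.of_chart φ hp (T := {z | z.1 = f p}) ?_ ?_
  · refine Eventually.of_forall fun q => ?_
    simp only [mem_ofPred_eq, hfst]
  · rw [hself]
    refine ⟨fun t => (f p, κ.symm t), fun z => κ z.2, by simp, ?_, ?_, ?_, ?_⟩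
    · exact Eventually.of_forall fun t => by fun_prop
    · exact Eventually.of_forall fun t => by fun_prop
    · exact Eventually.of_forall fun t => by simp
    · refine Eventually.of_forall fun z hz => ?_
      simp only [mem_ofPred_eq] at hz
      ext <;> simp [hz]

end submersion

/-! ### Averages over a segment -/

section avg

variable {X F : Type*} [NormedAddCommGroup X] [NormedSpace ℝ X]
  [NormedAddCommGroup F] [NormedSpace ℝ F] [CompleteSpace F]

/-- symmetric average -/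
noncomputable def avg (Φ : ℝ × X → F) (q : ℝ × X) : F :=
  (1 / 2 : ℝ) • ∫ s in (-1 : ℝ)..1, Φ (s * q.1, q.2)

theorem avg_hasStrictFDerivAt {Φ : ℝ × X → F} {Φ' : ℝ × X →L[ℝ] F} {x0 : X}
    (h : HasStrictFDerivAt Φ Φ' ((0 : ℝ), x0)) :
    HasStrictFDerivAt (avg Φ)
      (Φ'.comp ((ContinuousLinearMap.inr ℝ ℝ X).comp (ContinuousLinearMap.snd ℝ ℝ X))) (0, x0) := by
  rw [hasStrictFDerivAt_iff_isLittleO, Asymptotics.isLittleO_iff]
  intro c hc
  have hcnn : (0 : ℝ) < c := hc
  obtain ⟨s, hs, hap⟩ := h.approximates_deriv_on_nhds (c := c.toNNReal)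
    (Or.inr (by simpa using hcnn))
  obtain ⟨δ, hδ, hball⟩ := Metric.mem_nhds_iff.1 hs
  have hcont : ContinuousOn Φ (ball ((0 : ℝ), x0) δ) := (hap.mono_set hball).continuousOn
  -- scaling maps the ball into itself
  have hscale : ∀ q ∈ ball ((0 : ℝ), x0) δ, ∀ t ∈ Icc (-1 : ℝ) 1,
      (t * q.1, q.2) ∈ ball ((0 : ℝ), x0) δ := by
    intro q hq t ht
    rw [mem_ball, Prod.dist_eq, max_lt_iff] at hq ⊢
    refine ⟨?_, hq.2⟩
    rw [Real.dist_eq, sub_zero] at hq ⊢
    simp only [abs_mul] at hq ⊢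
    have h1 : |t| ≤ 1 := abs_le.2 ht
    calc |t| * |q.1| ≤ 1 * |q.1| := by gcongr
      _ < δ := by rw [one_mul]; exact hq.1
  have hint : ∀ q ∈ ball ((0 : ℝ), x0) δ,
      IntervalIntegrable (fun s => Φ (s * q.1, q.2)) MeasureTheory.volume (-1) 1 := by
    intro q hq
    apply ContinuousOn.intervalIntegrable
    rw [uIcc_of_le (by norm_num)]
    exact hcont.comp (by fun_prop) (fun t ht => hscale q hq t ht)
  have hnhds : ball ((0 : ℝ), x0) δ ×ˢ ball ((0 : ℝ), x0) δ ∈ 𝓝 (((0 : ℝ), x0), ((0 : ℝ), x0)) := by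
    rw [nhds_prod_eq]
    exact prod_mem_prod (ball_mem_nhds _ hδ) (ball_mem_nhds _ hδ)
  filter_upwards [hnhds] with p hp
  obtain ⟨hp1, hp2⟩ := hp
  set d : ℝ × X := p.1 - p.2 with hd
  have hlin : ∫ s in (-1 : ℝ)..1, Φ' (s * d.1, d.2) = (2 : ℝ) • Φ' (0, d.2) := by
    have h1 : ∀ s : ℝ, Φ' (s * d.1, d.2) = s • Φ' (d.1, 0) + Φ' (0, d.2) := by
      intro s
      rw [← map_smul, ← map_add]
      simp
    simp_rw [h1]
    rw [intervalIntegral.integral_add (by apply Continuous.intervalIntegrable; fun_prop)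
      (by apply Continuous.intervalIntegrable; fun_prop),
      intervalIntegral.integral_smul_const]
    simp
    norm_num
  have hkey : avg Φ p.1 - avg Φ p.2 - (Φ'.comp ((ContinuousLinearMap.inr ℝ ℝ X).comp
      (ContinuousLinearMap.snd ℝ ℝ X))) (p.1 - p.2)
      = (1 / 2 : ℝ) • ∫ s in (-1 : ℝ)..1,
        (Φ (s * p.1.1, p.1.2) - Φ (s * p.2.1, p.2.2) - Φ' (s * d.1, d.2)) := by
    rw [intervalIntegral.integral_sub ((hint _ hp1).sub (hint _ hp2))
      (by apply Continuous.intervalIntegrable; fun_prop),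
      intervalIntegral.integral_sub (hint _ hp1) (hint _ hp2), hlin]
    simp only [avg, ContinuousLinearMap.comp_apply, ContinuousLinearMap.inr_apply,
      ContinuousLinearMap.coe_snd', smul_sub, smul_smul]
    norm_num [hd]
  rw [hkey, norm_smul]
  have hbound : ‖∫ s in (-1 : ℝ)..1,
        (Φ (s * p.1.1, p.1.2) - Φ (s * p.2.1, p.2.2) - Φ' (s * d.1, d.2))‖
      ≤ (c * ‖d‖) * |(1 : ℝ) - (-1)| := by
    apply intervalIntegral.norm_integral_le_of_norm_le_const
    intro s hs
    rw [uIoc_of_le (by norm_num)] at hs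
    have hs' : s ∈ Icc (-1 : ℝ) 1 := ⟨hs.1.le, hs.2⟩
    have h1 := hap.mono_set hball _ (hscale _ hp1 s hs') _ (hscale _ hp2 s hs')
    have h2 : ((s * p.1.1, p.1.2) : ℝ × X) - (s * p.2.1, p.2.2) = (s * d.1, d.2) := by
      simp [hd, mul_sub]
    rw [h2] at h1
    refine h1.trans ?_
    rw [Real.coe_toNNReal c hc.le]
    gcongr
    rw [Prod.norm_def, Prod.norm_def]
    apply max_le_max _ le_rfl
    rw [norm_mul, Real.norm_eq_abs]
    have h1 : |s| ≤ 1 := abs_le.2 hs'
    calc |s| * ‖d.1‖ ≤ 1 * ‖d.1‖ := by gcongr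
      _ = ‖d.1‖ := one_mul _
  calc ‖(1 / 2 : ℝ)‖ * _ ≤ ‖(1 / 2 : ℝ)‖ * ((c * ‖d‖) * |(1 : ℝ) - (-1)|) := by gcongr
    _ = c * ‖d‖ := by norm_num; ring

end avg

/-! ### Cross-caps -/

section crosscap

variable {E F : Type*} [NormedAddCommGroup E] [NormedSpace ℝ E] [FiniteDimensional ℝ E]
  [NormedAddCommGroup F] [NormedSpace ℝ F] [FiniteDimensional ℝ F]

/-- the double point set of `g` completed by the singular points on the diagonal -/
def dbl (g : E → F) : Set (E × E) :=
  {q | (q.1 ≠ q.2 ∧ g q.1 = g q.2) ∨ (q.1 = q.2 ∧ ¬ Function.Injective (fderiv ℝ g q.1))}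

variable {g : E → F} {z v u : E}

/-- the integrand of the blown-up difference quotient -/
noncomputable def blowI (g : E → F) (v u : E) (q : ℝ × (E × ℝ)) : F :=
  fderiv ℝ g (q.2.1 + q.1 • (v + q.2.2 • u)) (v + q.2.2 • u)

omit [FiniteDimensional ℝ E] [FiniteDimensional ℝ F] in
theorem blowI_hasStrictFDerivAt (hg : ContDiffAt ℝ 2 g z) :
    ∃ Φ' : ℝ × (E × ℝ) →L[ℝ] F, HasStrictFDerivAt (blowI g v u) Φ' ((0 : ℝ), (z, (0 : ℝ))) ∧
      ∀ m η, Φ' (0, (m, η)) = fderiv ℝ (fderiv ℝ g) z m v + η • fderiv ℝ g z u := by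
  have h1 : HasStrictFDerivAt (fderiv ℝ g) (fderiv ℝ (fderiv ℝ g) z) z :=
    (hg.fderiv_right (m := 1) (by norm_num)).hasStrictFDerivAt (by norm_num)
  -- the inner maps
  have hw : HasStrictFDerivAt (fun q : ℝ × (E × ℝ) => v + q.2.2 • u)
      (((ContinuousLinearMap.snd ℝ E ℝ).comp (ContinuousLinearMap.snd ℝ ℝ (E × ℝ))).smulRight u)
      ((0 : ℝ), (z, (0 : ℝ))) := by
    have h2 : HasStrictFDerivAt (fun q : ℝ × (E × ℝ) => q.2.2)
      ((ContinuousLinearMap.snd ℝ E ℝ).comp (ContinuousLinearMap.snd ℝ ℝ (E × ℝ)))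
      ((0 : ℝ), (z, (0 : ℝ))) :=
      ((ContinuousLinearMap.snd ℝ E ℝ).comp
        (ContinuousLinearMap.snd ℝ ℝ (E × ℝ))).hasStrictFDerivAt
    exact (h2.smul_const u).const_add v
  have hm : HasStrictFDerivAt (fun q : ℝ × (E × ℝ) => q.2.1)
      ((ContinuousLinearMap.fst ℝ E ℝ).comp (ContinuousLinearMap.snd ℝ ℝ (E × ℝ)))
      ((0 : ℝ), (z, (0 : ℝ))) :=
      ((ContinuousLinearMap.fst ℝ E ℝ).comp
        (ContinuousLinearMap.snd ℝ ℝ (E × ℝ))).hasStrictFDerivAt
  have hr : HasStrictFDerivAt (fun q : ℝ × (E × ℝ) => q.1)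
      (ContinuousLinearMap.fst ℝ ℝ (E × ℝ)) ((0 : ℝ), (z, (0 : ℝ))) :=
      (ContinuousLinearMap.fst ℝ ℝ (E × ℝ)).hasStrictFDerivAt
  have hx := hm.add (hr.smul hw)
  have h1' : HasStrictFDerivAt (fderiv ℝ g) (fderiv ℝ (fderiv ℝ g) z)
      (((fun q : ℝ × (E × ℝ) => q.2.1) + ((fun q : ℝ × (E × ℝ) => q.1) • fun q : ℝ × (E × ℝ) =>
        v + q.2.2 • u)) ((0 : ℝ), (z, (0 : ℝ)))) := by
    simpa using h1
  have hc := h1'.comp ((0 : ℝ), (z, (0 : ℝ))) hx
  have hfin := hc.clm_apply hw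
  refine ⟨_, hfin, ?_⟩
  intro m η
  simp
  exact add_comm _ _

omit [FiniteDimensional ℝ E] in
/-- the blown-up difference quotient, multiplied by `2ρ` -/
theorem two_mul_avg_blowI {q : ℝ × (E × ℝ)}
    (hd : ∀ s ∈ Icc (-1 : ℝ) 1, DifferentiableAt ℝ g (q.2.1 + (s * q.1) • (v + q.2.2 • u)))
    (hcont : ContinuousOn (fun s : ℝ => blowI g v u (s * q.1, q.2)) (Icc (-1 : ℝ) 1)) :
    (2 * q.1) • avg (blowI g v u) q
      = g (q.2.1 + q.1 • (v + q.2.2 • u)) - g (q.2.1 - q.1 • (v + q.2.2 • u)) := by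
  have hcs : CompleteSpace F := FiniteDimensional.complete ℝ F
  have h1 : ∫ s in (-1 : ℝ)..1, q.1 • blowI g v u (s * q.1, q.2)
      = g (q.2.1 + ((1 : ℝ) * q.1) • (v + q.2.2 • u))
        - g (q.2.1 + ((-1 : ℝ) * q.1) • (v + q.2.2 • u)) := by
    apply intervalIntegral.integral_eq_sub_of_hasDerivAt
      (f := fun s : ℝ => g (q.2.1 + (s * q.1) • (v + q.2.2 • u)))
    · intro s hs
      rw [uIcc_of_le (by norm_num)] at hs
      have h2 : HasDerivAt (fun s : ℝ => q.2.1 + (s * q.1) • (v + q.2.2 • u))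
          (q.1 • (v + q.2.2 • u)) s := by
        have h3 : HasDerivAt (fun s : ℝ => s * q.1) q.1 s := by
          simpa using (hasDerivAt_id s).mul_const q.1
        exact (h3.smul_const _).const_add _
      have h4 := (hd s hs).hasFDerivAt.comp_hasDerivAt s h2
      have h5 : q.1 • blowI g v u (s * q.1, q.2)
          = fderiv ℝ g (q.2.1 + (s * q.1) • (v + q.2.2 • u)) (q.1 • (v + q.2.2 • u)) := by
        rw [map_smul]; rfl
      rw [h5]
      exact h4
    · apply ContinuousOn.intervalIntegrable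
      rw [uIcc_of_le (by norm_num)]
      exact continuousOn_const.smul hcont
  rw [intervalIntegral.integral_smul] at h1
  rw [avg, smul_smul, show 2 * q.1 * (1 / 2) = q.1 by ring, h1]
  rw [one_mul, neg_one_mul, neg_smul, ← sub_eq_add_neg]

/-- **Local structure near a nondegenerate cross-cap.** -/
theorem LC_crosscap_aux (hg : ContDiffAt ℝ 2 g z) (a b : E →L[ℝ] ℝ) (hav : a v = 1) (hau : a u = 0)
    (hdec : ∀ x, x = a x • v + b x • u)
    (hker : fderiv ℝ g z v = 0)
    (hL : Function.Bijective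
      (fun p : E × ℝ => fderiv ℝ (fderiv ℝ g) z p.1 v + p.2 • fderiv ℝ g z u)) :
    ∃ (e : ℝ → E × E) (τ : E × E → ℝ), e 0 = (z, z) ∧ (∀ᶠ t in 𝓝 (0 : ℝ), ContinuousAt e t) ∧
      (∀ᶠ q in 𝓝 (z, z), ContinuousAt τ q) ∧ (∀ᶠ t in 𝓝 (0 : ℝ), e t ∈ dbl g ∧ τ (e t) = t) ∧
      (∀ᶠ q in 𝓝 (z, z), q ∈ dbl g → e (τ q) = q) ∧ ∀ q, q.1 = q.2 → τ q = 0 := by
  have hcs : CompleteSpace F := FiniteDimensional.complete ℝ F
  have hcE : CompleteSpace E := FiniteDimensional.complete ℝ E
  obtain ⟨Φ', hΦ', hΦ'v⟩ := blowI_hasStrictFDerivAt (v := v) (u := u) hg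
  -- basic facts on the frame
  have hv0 : v ≠ 0 := by
    rintro rfl
    simp at hav
  have hu0 : fderiv ℝ g z u ≠ 0 := by
    intro h0
    have := hL.1 (a₁ := ((0 : E), (1 : ℝ))) (a₂ := ((0 : E), (0 : ℝ))) (by simp [h0])
    simp at this
  -- the function `H` and its implicit function
  set H : ℝ × (E × ℝ) → F := avg (blowI g v u) with hH
  have hHd := avg_hasStrictFDerivAt hΦ'
  rw [← hH] at hHd
  have hinv : ((Φ'.comp ((ContinuousLinearMap.inr ℝ ℝ (E × ℝ)).comp
      (ContinuousLinearMap.snd ℝ ℝ (E × ℝ)))).comp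
        (ContinuousLinearMap.inr ℝ ℝ (E × ℝ))).IsInvertible := by
    set L := (Φ'.comp ((ContinuousLinearMap.inr ℝ ℝ (E × ℝ)).comp
      (ContinuousLinearMap.snd ℝ ℝ (E × ℝ)))).comp (ContinuousLinearMap.inr ℝ ℝ (E × ℝ)) with hLdef
    have hLeq : ∀ p : E × ℝ, L p = fderiv ℝ (fderiv ℝ g) z p.1 v + p.2 • fderiv ℝ g z u := by
      intro p
      rw [← hΦ'v p.1 p.2]
      simp [hLdef]
    have hbij : Function.Bijective L := by
      have : (L : E × ℝ → F) =
          (fun p : E × ℝ => fderiv ℝ (fderiv ℝ g) z p.1 v + p.2 • fderiv ℝ g z u) := funext hLeq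
      rw [this]; exact hL
    refine ⟨(LinearEquiv.ofBijective (L : E × ℝ →ₗ[ℝ] F) hbij).toContinuousLinearEquiv, ?_⟩
    ext p <;> rfl
  have hH0' : ∀ q : ℝ × (E × ℝ), q.1 = 0 → H q = fderiv ℝ g q.2.1 (v + q.2.2 • u) := by
    intro q hq
    rw [hH, avg]
    simp only [hq, mul_zero, blowI, zero_smul, add_zero, intervalIntegral.integral_const, smul_smul]
    norm_num
  set ψ := hHd.implicitFunctionOfProdDomain hinv with hψ
  have hψ1 := hHd.eventually_apply_eq_iff_implicitFunctionOfProdDomain hinv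
  rw [← hψ] at hψ1
  have hH0 : H ((0 : ℝ), (z, (0 : ℝ))) = 0 := by
    rw [hH0' _ rfl]; simp [hker]
  rw [hH0] at hψ1
  have hψ0 : ψ 0 = (z, 0) := by
    have := hψ1.self_of_nhds.1 hH0
    exact this
  have hψc : ∀ᶠ t in 𝓝 (0 : ℝ), ContinuousAt ψ t := by
    obtain ⟨K, s, hs, hlip⟩ :=
      (hHd.hasStrictFDerivAt_implicitFunctionOfProdDomain hinv).exists_lipschitzOnWith
    filter_upwards [eventually_eventually_nhds.2 hs] with t ht
    exact hlip.continuousOn.continuousAt ht
  have hψt : Tendsto ψ (𝓝 0) (𝓝 (z, 0)) := by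
    have := hψc.self_of_nhds
    rwa [ContinuousAt, hψ0] at this
  -- the regular neighbourhood
  have hreg : ∀ᶠ q in 𝓝 ((0 : ℝ), (z, (0 : ℝ))), (2 * q.1) • H q
      = g (q.2.1 + q.1 • (v + q.2.2 • u)) - g (q.2.1 - q.1 • (v + q.2.2 • u)) := by
    have hgood : ∀ᶠ x in 𝓝 z, DifferentiableAt ℝ g x ∧ ContinuousAt (fderiv ℝ g) x := by
      filter_upwards [hg.eventually (by simp)] with x hx
      exact ⟨hx.differentiableAt (by norm_num),
        (hx.fderiv_right (m := 1) (by norm_num)).continuousAt⟩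
    have hP : Tendsto (fun q : ℝ × (E × ℝ) => q.2.1 + q.1 • (v + q.2.2 • u))
        (𝓝 ((0 : ℝ), (z, (0 : ℝ)))) (𝓝 z) := by
      have : ContinuousAt (fun q : ℝ × (E × ℝ) => q.2.1 + q.1 • (v + q.2.2 • u))
        ((0 : ℝ), (z, (0 : ℝ))) := by fun_prop
      simpa [ContinuousAt] using this
    obtain ⟨δ, hδ, hball⟩ := Metric.eventually_nhds_iff_ball.1 (hP.eventually hgood)
    filter_upwards [ball_mem_nhds _ hδ] with q hq
    have hscale : ∀ t ∈ Icc (-1 : ℝ) 1, (t * q.1, q.2) ∈ ball ((0 : ℝ), (z, (0 : ℝ))) δ := by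
      intro t ht
      rw [mem_ball, Prod.dist_eq, max_lt_iff] at hq ⊢
      refine ⟨?_, hq.2⟩
      rw [Real.dist_eq, sub_zero] at hq ⊢
      simp only [abs_mul] at hq ⊢
      have h1 : |t| ≤ 1 := abs_le.2 ht
      calc |t| * |q.1| ≤ 1 * |q.1| := by gcongr
        _ < δ := by rw [one_mul]; exact hq.1
    apply two_mul_avg_blowI
    · intro s hs
      exact (hball _ (hscale s hs)).1
    · intro s hs
      have h1 := (hball _ (hscale s hs)).2
      have h2 : ContinuousAt (fun s : ℝ => q.2.1 + (s * q.1) • (v + q.2.2 • u)) s := by fun_prop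
      have h3 : ContinuousAt (fun s : ℝ => fderiv ℝ g (q.2.1 + (s * q.1) • (v + q.2.2 • u))) s :=
        ContinuousAt.comp (g := fderiv ℝ g) h1 h2
      exact (h3.clm_apply continuousAt_const).continuousWithinAt
  -- smallness of the slope
  have hslope : ∀ ε > 0, ∃ c > 0, ∀ w : E, w ≠ 0 → ‖fderiv ℝ g z w‖ ≤ c * ‖w‖ →
      a w ≠ 0 ∧ |b w| ≤ ε * |a w| := by
    intro ε hε
    set κ := ‖fderiv ℝ g z u‖ with hκ
    have hκ0 : 0 < κ := norm_pos_iff.2 hu0
    refine ⟨min (κ / (2 * (‖u‖ + 1))) (ε * κ / (2 * (‖v‖ + 1))), by positivity, ?_⟩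
    intro w hw hle
    set c := min (κ / (2 * (‖u‖ + 1))) (ε * κ / (2 * (‖v‖ + 1))) with hc
    have hc0 : 0 < c := by rw [hc]; positivity
    have hc1 : c * ‖u‖ ≤ κ / 2 := by
      have h1 : c ≤ κ / (2 * (‖u‖ + 1)) := min_le_left _ _
      calc c * ‖u‖ ≤ κ / (2 * (‖u‖ + 1)) * (‖u‖ + 1) := by gcongr; linarith
        _ = κ / 2 := by field_simp
    have hc2 : c * ‖v‖ ≤ ε * κ / 2 := by
      have h1 : c ≤ ε * κ / (2 * (‖v‖ + 1)) := min_le_right _ _
      calc c * ‖v‖ ≤ ε * κ / (2 * (‖v‖ + 1)) * (‖v‖ + 1) := by gcongr; linarith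
        _ = ε * κ / 2 := by field_simp
    have h1 : fderiv ℝ g z w = b w • fderiv ℝ g z u := by
      conv_lhs => rw [hdec w]
      rw [map_add, map_smul, map_smul, hker, smul_zero, zero_add]
    have h2 : ‖w‖ ≤ |a w| * ‖v‖ + |b w| * ‖u‖ := by
      calc ‖w‖ = ‖a w • v + b w • u‖ := by rw [← hdec w]
        _ ≤ ‖a w • v‖ + ‖b w • u‖ := norm_add_le _ _
        _ = _ := by rw [norm_smul, norm_smul, Real.norm_eq_abs, Real.norm_eq_abs]
    rw [h1, norm_smul, Real.norm_eq_abs, ← hκ] at hle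
    have h3 : |b w| * κ ≤ |a w| * (ε * κ / 2) + |b w| * (κ / 2) := by
      calc |b w| * κ ≤ c * ‖w‖ := hle
        _ ≤ c * (|a w| * ‖v‖ + |b w| * ‖u‖) := by gcongr
        _ = |a w| * (c * ‖v‖) + |b w| * (c * ‖u‖) := by ring
        _ ≤ _ := by gcongr
    have h4 : |b w| * κ ≤ ε * |a w| * κ := by nlinarith
    have h5 : |b w| ≤ ε * |a w| := le_of_mul_le_mul_right h4 hκ0
    refine ⟨?_, h5⟩
    intro ha
    rw [ha, abs_zero, mul_zero] at h5
    have hb0 : b w = 0 := abs_nonpos_iff.1 h5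
    apply hw
    rw [hdec w, ha, hb0]; simp
  have hτe : ∀ t : ℝ, ∀ m : E, ∀ η : ℝ,
      a ((m + t • (v + η • u)) - (m - t • (v + η • u))) / 2 = t := by
    intro t m η
    have : (m + t • (v + η • u)) - (m - t • (v + η • u)) = (2 * t) • (v + η • u) := by
      rw [mul_smul, two_smul]; abel
    rw [this, map_smul, map_add, map_smul, hav, hau]
    simp
  refine ⟨fun t => ((ψ t).1 + t • (v + (ψ t).2 • u), (ψ t).1 - t • (v + (ψ t).2 • u)),
    fun q => a (q.1 - q.2) / 2, ?_, ?_, ?_, ?_, ?_, fun q hq => by simp [hq]⟩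
  · simp [hψ0]
  · filter_upwards [hψc] with t ht
    have h1 : ContinuousAt (fun t => (ψ t).1) t := continuous_fst.continuousAt.comp ht
    have h2 : ContinuousAt (fun t => (ψ t).2) t := continuous_snd.continuousAt.comp ht
    exact (h1.add (continuousAt_id.smul (continuousAt_const.add (h2.smul continuousAt_const)))).prodMk
      (h1.sub (continuousAt_id.smul (continuousAt_const.add (h2.smul continuousAt_const))))
  · exact Eventually.of_forall fun q => by fun_prop
  · have htend : Tendsto (fun t : ℝ => (t, ψ t)) (𝓝 0) (𝓝 ((0 : ℝ), (z, (0 : ℝ)))) := by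
      rw [nhds_prod_eq]
      exact tendsto_id.prodMk hψt
    filter_upwards [htend.eventually (hψ1.and hreg)] with t ht
    refine ⟨?_, hτe t _ _⟩
    obtain ⟨ht1, ht2⟩ := ht
    by_cases ht0 : t = 0
    · right
      rw [ht0, hψ0]
      refine ⟨by simp, ?_⟩
      intro hinj
      apply hv0
      apply hinj
      simp only [zero_smul, add_zero, map_zero]
      exact hker
    · left
      have hHt : H (t, ψ t) = 0 := ht1.2 rfl
      rw [hHt, smul_zero] at ht2
      refine ⟨?_, ?_⟩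
      · intro heq
        have := hτe t (ψ t).1 (ψ t).2
        simp only at heq
        rw [← heq, sub_self, map_zero, zero_div] at this
        exact ht0 this.symm
      · exact sub_eq_zero.1 ht2.symm
  · obtain ⟨δ, hδ, hball⟩ := Metric.eventually_nhds_iff_ball.1 (hψ1.and hreg)
    obtain ⟨c, hc, hsl⟩ := hslope (δ / 2) (by positivity)
    -- strict differentiability of `g`
    have hgs : HasStrictFDerivAt g (fderiv ℝ g z) z := hg.hasStrictFDerivAt (by norm_num)
    have hE1 : ∀ᶠ q : E × E in 𝓝 (z, z), ‖g q.1 - g q.2 - fderiv ℝ g z (q.1 - q.2)‖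
        ≤ c * ‖q.1 - q.2‖ := by
      have := hgs.isLittleO
      exact Asymptotics.isLittleO_iff.1 this hc
    have hE2 : ∀ᶠ x in 𝓝 z, ‖fderiv ℝ g x - fderiv ℝ g z‖ ≤ c := by
      have h1 : ContinuousAt (fderiv ℝ g) z :=
        (hg.fderiv_right (m := 1) (by norm_num)).continuousAt
      filter_upwards [Metric.continuousAt_iff'.1 h1 c hc] with x hx
      rw [dist_eq_norm] at hx
      exact hx.le
    have hE2' : ∀ᶠ q : E × E in 𝓝 (z, z), ‖fderiv ℝ g q.1 - fderiv ℝ g z‖ ≤ c :=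
      (continuous_fst.tendsto' (z, z) z rfl).eventually hE2
    have hE3 : ∀ᶠ q : E × E in 𝓝 (z, z), |a (q.1 - q.2) / 2| < δ := by
      have h1 : Tendsto (fun q : E × E => |a (q.1 - q.2) / 2|) (𝓝 (z, z)) (𝓝 0) := by
        have : Continuous (fun q : E × E => |a (q.1 - q.2) / 2|) := by fun_prop
        exact this.tendsto' _ _ (by simp)
      exact h1.eventually_lt_const hδ
    have hE4 : ∀ᶠ q : E × E in 𝓝 (z, z), dist ((1 / 2 : ℝ) • (q.1 + q.2)) z < δ := by
      have h1 : Tendsto (fun q : E × E => dist ((1 / 2 : ℝ) • (q.1 + q.2)) z) (𝓝 (z, z)) (𝓝 0) := by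
        have : Continuous (fun q : E × E => dist ((1 / 2 : ℝ) • (q.1 + q.2)) z) := by fun_prop
        refine this.tendsto' _ _ ?_
        simp only
        rw [← two_smul ℝ z, smul_smul]
        norm_num
      exact h1.eventually_lt_const hδ
    filter_upwards [hE1, hE2', hE3, hE4] with q h1 h2 h3 h4 hq
    obtain ⟨x, y⟩ := q
    simp only at h1 h2 h3 h4
    rcases hq with ⟨hne, heq⟩ | ⟨heq, hninj⟩
    · simp only at hne heq
      set w := x - y with hw
      have hw0 : w ≠ 0 := sub_ne_zero.2 hne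
      rw [heq, sub_self, zero_sub, norm_neg] at h1
      obtain ⟨haw, hbw⟩ := hsl w hw0 h1
      have hη : |b w / a w| < δ := by
        rw [abs_div, div_lt_iff₀ (abs_pos.2 haw)]
        have : 0 < |a w| := abs_pos.2 haw
        nlinarith
      have hmem : ((a w / 2, ((1 / 2 : ℝ) • (x + y), b w / a w)) : ℝ × (E × ℝ))
          ∈ ball ((0 : ℝ), (z, (0 : ℝ))) δ := by
        rw [mem_ball, Prod.dist_eq, Prod.dist_eq]
        simp only [Real.dist_eq, sub_zero, max_lt_iff]
        exact ⟨h3, h4, hη⟩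
      obtain ⟨hA, hB⟩ := hball _ hmem
      simp only at hA hB
      have hww : (a w / 2) • (v + (b w / a w) • u) = (1 / 2 : ℝ) • w := by
        conv_rhs => rw [hdec w]
        rw [smul_add, smul_add, smul_smul, smul_smul, smul_smul]
        congr 2
        · ring
        · field_simp
      have hx : (1 / 2 : ℝ) • (x + y) + (1 / 2 : ℝ) • w = x := by
        rw [hw, ← smul_add]
        have : x + y + (x - y) = (2 : ℝ) • x := by rw [two_smul]; abel
        rw [this, smul_smul]; norm_num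
      have hy : (1 / 2 : ℝ) • (x + y) - (1 / 2 : ℝ) • w = y := by
        rw [hw, ← smul_sub]
        have : x + y - (x - y) = (2 : ℝ) • y := by rw [two_smul]; abel
        rw [this, smul_smul]; norm_num
      rw [hww, hx, hy, heq, sub_self] at hB
      have hH00 : H (a w / 2, ((1 / 2 : ℝ) • (x + y), b w / a w)) = 0 := by
        rcases smul_eq_zero.1 hB with h0 | h0
        · exfalso
          apply haw
          linarith
        · exact h0
      have hψw := hA.1 hH00
      simp only [hψw, hww, hx, hy]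
    · simp only at heq hninj
      subst heq
      obtain ⟨w, hw1, hw0⟩ : ∃ w, fderiv ℝ g x w = 0 ∧ w ≠ 0 := by
        by_contra hcon
        push Not at hcon
        exact hninj ((injective_iff_map_eq_zero (fderiv ℝ g x)).2 hcon)
      have hle : ‖fderiv ℝ g z w‖ ≤ c * ‖w‖ := by
        have : fderiv ℝ g z w = -((fderiv ℝ g x - fderiv ℝ g z) w) := by
          simp [hw1]
        rw [this, norm_neg]
        exact (ContinuousLinearMap.le_opNorm _ _).trans (by gcongr)
      obtain ⟨haw, hbw⟩ := hsl w hw0 hle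
      have hη : |b w / a w| < δ := by
        rw [abs_div, div_lt_iff₀ (abs_pos.2 haw)]
        have : 0 < |a w| := abs_pos.2 haw
        nlinarith
      have h4' : dist x z < δ := by
        rw [← two_smul ℝ x, smul_smul] at h4
        norm_num at h4
        exact h4
      have hmem : (((0 : ℝ), (x, b w / a w)) : ℝ × (E × ℝ))
          ∈ ball ((0 : ℝ), (z, (0 : ℝ))) δ := by
        rw [mem_ball, Prod.dist_eq, Prod.dist_eq]
        simp only [Real.dist_eq, sub_zero, max_lt_iff, abs_zero]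
        exact ⟨hδ, h4', hη⟩
      obtain ⟨hA, _⟩ := hball _ hmem
      simp only at hA
      have hww : v + (b w / a w) • u = (a w)⁻¹ • w := by
        have h5 : (a w)⁻¹ • w = (a w)⁻¹ • (a w • v + b w • u) := congrArg _ (hdec w)
        rw [h5, smul_add, smul_smul, smul_smul, inv_mul_cancel₀ haw, one_smul]
        congr 2
        field_simp
      have hH00 : H ((0 : ℝ), (x, b w / a w)) = 0 := by
        rw [hH0' _ rfl]
        simp only
        rw [hww, map_smul, hw1, smul_zero]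
      have hψw := hA.1 hH00
      rw [hψ0] at hψw
      have hxz : z = x := congrArg Prod.fst hψw
      simp only [sub_self, map_zero, zero_div, zero_smul, add_zero, sub_zero, hψ0]
      rw [← hxz]

theorem LC_crosscap (hg : ContDiffAt ℝ 2 g z) (a b : E →L[ℝ] ℝ) (hav : a v = 1) (hau : a u = 0)
    (hdec : ∀ x, x = a x • v + b x • u)
    (hker : fderiv ℝ g z v = 0)
    (hL : Function.Bijective
      (fun p : E × ℝ => fderiv ℝ (fderiv ℝ g) z p.1 v + p.2 • fderiv ℝ g z u)) :
    LC (dbl g) (z, z) ∧ ∀ᶠ x in 𝓝 z, ¬ Function.Injective (fderiv ℝ g x) → x = z := by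
  obtain ⟨e, τ, h0, h1, h2, h3, h4, h5⟩ := LC_crosscap_aux hg a b hav hau hdec hker hL
  refine ⟨⟨e, τ, h0, h1, h2, h3, h4⟩, ?_⟩
  have ht : Tendsto (fun x : E => (x, x)) (𝓝 z) (𝓝 (z, z)) :=
    (Continuous.prodMk continuous_id continuous_id).tendsto' z (z, z) rfl
  filter_upwards [ht.eventually h4] with x hx hninj
  have h6 := hx (Or.inr ⟨rfl, hninj⟩)
  rw [h5 (x, x) rfl, h0] at h6
  exact (congrArg Prod.fst h6).symm

/-- near an immersion point there are no double points -/
theorem eventually_notMem_dbl (hg : ContDiffAt ℝ 1 g z)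
    (hinj : Function.Injective (fderiv ℝ g z)) : ∀ᶠ q in 𝓝 (z, z), q ∉ dbl g := by
  obtain ⟨K, hK, hKa⟩ := (fderiv ℝ g z : E →ₗ[ℝ] F).exists_antilipschitzWith
    (LinearMap.ker_eq_bot.2 hinj)
  have hKpos : (0 : ℝ) < K := by exact_mod_cast hK
  have hlow : ∀ w : E, ‖w‖ ≤ K * ‖fderiv ℝ g z w‖ := fun w => by
    have := hKa.le_mul_dist w 0
    simpa using this
  have hc : 0 < 1 / (2 * (K : ℝ)) := by positivity
  have hgs : HasStrictFDerivAt g (fderiv ℝ g z) z := hg.hasStrictFDerivAt (by norm_num)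
  have hE1 : ∀ᶠ q : E × E in 𝓝 (z, z), ‖g q.1 - g q.2 - fderiv ℝ g z (q.1 - q.2)‖
      ≤ 1 / (2 * (K : ℝ)) * ‖q.1 - q.2‖ :=
    Asymptotics.isLittleO_iff.1 hgs.isLittleO hc
  have hE2 : ∀ᶠ x in 𝓝 z, ‖fderiv ℝ g x - fderiv ℝ g z‖ ≤ 1 / (2 * (K : ℝ)) := by
    have h1 : ContinuousAt (fderiv ℝ g) z :=
      (hg.fderiv_right (m := 0) (by norm_num)).continuousAt
    filter_upwards [Metric.continuousAt_iff'.1 h1 _ hc] with x hx
    rw [dist_eq_norm] at hx
    exact hx.le
  have hE2' : ∀ᶠ q : E × E in 𝓝 (z, z), ‖fderiv ℝ g q.1 - fderiv ℝ g z‖ ≤ 1 / (2 * (K : ℝ)) :=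
    (continuous_fst.tendsto' (z, z) z rfl).eventually hE2
  have hkey : ∀ w : E, ‖fderiv ℝ g z w‖ ≤ 1 / (2 * (K : ℝ)) * ‖w‖ → w = 0 := by
    intro w hw
    have h1 := hlow w
    have h2 : (K : ℝ) * ‖fderiv ℝ g z w‖ ≤ (1 / 2) * ‖w‖ := by
      calc (K : ℝ) * ‖fderiv ℝ g z w‖ ≤ K * (1 / (2 * (K : ℝ)) * ‖w‖) := by gcongr
        _ = (1 / 2) * ‖w‖ := by field_simp
    have h3 : ‖w‖ ≤ 0 := by linarith
    exact norm_le_zero_iff.1 h3
  filter_upwards [hE1, hE2'] with q h1 h2 hq
  obtain ⟨x, y⟩ := q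
  simp only at h1 h2
  rcases hq with ⟨hne, heq⟩ | ⟨_, hninj⟩
  · simp only at hne heq
    rw [heq, sub_self, zero_sub, norm_neg] at h1
    exact hne (sub_eq_zero.1 (hkey _ h1))
  · simp only at hninj
    apply hninj
    refine (injective_iff_map_eq_zero (fderiv ℝ g x)).2 fun w hw => hkey w ?_
    have : fderiv ℝ g z w = -((fderiv ℝ g x - fderiv ℝ g z) w) := by
      simp [hw]
    rw [this, norm_neg]
    exact (ContinuousLinearMap.le_opNorm _ _).trans (by gcongr)

end crosscap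

end Crest.Agent.R216.D3
end

-- ▼ part R216/D3

/-! Row 216 (D), module D3: the number of cross-caps in each component is even (owner: helper30). -/

set_option autoImplicit false
open scoped Manifold ContDiff Topology
open Set Metric Function

namespace Crest.Agent.R216.D

namespace D3aux

open Filter Crest.Agent.R216.D3

/-! ### Linear algebra -/

theorem exists_frame {v : E2} (hv : v ≠ 0) : ∃ (u : E2) (a b : E2 →L[ℝ] ℝ),
    a v = 1 ∧ a u = 0 ∧ b u = 1 ∧ ∀ x, x = a x • v + b x • u := by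
  set N : ℝ := v 0 ^ 2 + v 1 ^ 2 with hN
  have hN0 : N ≠ 0 := by
    intro h0
    apply hv
    have h1 : v 0 = 0 := by nlinarith [sq_nonneg (v 0), sq_nonneg (v 1)]
    have h2 : v 1 = 0 := by nlinarith [sq_nonneg (v 0), sq_nonneg (v 1)]
    ext i
    fin_cases i
    · simpa using h1
    · simpa using h2
  refine ⟨!₂[-v 1, v 0], (1 / N) • (v 0 • EuclideanSpace.proj 0 + v 1 • EuclideanSpace.proj 1),
    (1 / N) • (-v 1 • EuclideanSpace.proj 0 + v 0 • EuclideanSpace.proj 1), ?_, ?_, ?_, ?_⟩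
  · simp
    field_simp
    rw [hN]
  · simp
    ring
  · simp
    field_simp
    rw [hN]; ring
  · intro x
    ext i
    fin_cases i
    · simp
      field_simp
      rw [hN]; ring
    · simp
      field_simp
      rw [hN]; ring

/-- nondegeneracy gives the hypothesis of `LC_crosscap` -/
theorem bijective_of_nondeg {g : E2 → E3} {z v u : E2} {a b : E2 →L[ℝ] ℝ} (hav : a v = 1)
    (hau : a u = 0) (hbu : b u = 1) (hnd : Nondeg (fderiv ℝ g) z) (hker : fderiv ℝ g z v = 0) :
    Bijective (fun p : E2 × ℝ => fderiv ℝ (fderiv ℝ g) z p.1 v + p.2 • fderiv ℝ g z u) := by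
  have hv : v ≠ 0 := by rintro rfl; simp at hav
  let f : E2 × ℝ →ₗ[ℝ] E3 := LinearMap.coprod
    (((fderiv ℝ (fderiv ℝ g) z).flip v : E2 →L[ℝ] E3) : E2 →ₗ[ℝ] E3)
    (LinearMap.toSpanSingleton ℝ E3 (fderiv ℝ g z u))
  have hf : ∀ p, f p = fderiv ℝ (fderiv ℝ g) z p.1 v + p.2 • fderiv ℝ g z u := by
    intro p
    simp [f, LinearMap.coprod_apply]
  have hinj : Injective f := by
    refine (injective_iff_map_eq_zero f).2 fun p hp => ?_
    rw [hf] at hp
    obtain ⟨h1, τ, h2⟩ := hnd v hv hker p.1 (p.2 • u) (by rw [map_smul]; exact hp)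
    have h3 := congrArg a h2
    rw [map_smul, map_smul, hav, hau] at h3
    have hτ : τ = 0 := by simpa using h3.symm
    rw [hτ, zero_smul] at h2
    have h4 := congrArg b h2
    rw [map_smul, hbu, map_zero] at h4
    ext1
    · exact h1
    · simpa using h4
  have hdim : Module.finrank ℝ (E2 × ℝ) = Module.finrank ℝ E3 := by
    rw [Module.finrank_prod]; simp
  have hsurj := (LinearMap.injective_iff_surjective_of_finrank_eq_finrank hdim).1 hinj
  have : (fun p : E2 × ℝ => fderiv ℝ (fderiv ℝ g) z p.1 v + p.2 • fderiv ℝ g z u) = f :=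
    funext fun p => (hf p).symm
  rw [this]
  exact ⟨hinj, hsurj⟩

/-- planar version of the local structure near a singular point -/
theorem LC_dbl {g : E2 → E3} {z : E2} (hg : ContDiffAt ℝ 2 g z) (hnd : Nondeg (fderiv ℝ g) z)
    (hsing : ¬ Injective (fderiv ℝ g z)) :
    LC (dbl g) (z, z) ∧ ∀ᶠ x in 𝓝 z, ¬ Injective (fderiv ℝ g x) → x = z := by
  obtain ⟨v, hv1, hv0⟩ : ∃ v, fderiv ℝ g z v = 0 ∧ v ≠ 0 := by
    by_contra hcon
    push Not at hcon
    exact hsing ((injective_iff_map_eq_zero (fderiv ℝ g z)).2 hcon)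
  obtain ⟨u, a, b, hav, hau, hbu, hdec⟩ := exists_frame hv0
  exact LC_crosscap hg a b hav hau hdec hv1 (bijective_of_nondeg hav hau hbu hnd hv1)

/-! ### The completed double point set -/

section Wbar

variable {M : Type*} [TopologicalSpace M] [ChartedSpace E2 M]

/-- the completed double point set -/
def Wb (G : M → E3) : Set (M × M) :=
  {q | (q.1 ≠ q.2 ∧ G q.1 = G q.2) ∨ (q.1 = q.2 ∧ q.1 ∈ sing G)}

variable [IsManifold (𝓡 2) ∞ M]

theorem mem_sing_iff' {G : M → E3} (hG : ContMDiff (𝓡 2) 𝓘(ℝ, E3) ∞ G)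
    {c : OpenPartialHomeomorph M E2} (hc : c ∈ IsManifold.maximalAtlas (𝓡 2) ∞ M)
    {x : M} (hx : x ∈ c.source) : x ∈ sing G ↔ ¬ Injective (fderiv ℝ (G ∘ c.symm) (c x)) := by
  have h := mem_sing_iff hG hc (c.map_source hx)
  rw [c.left_inv hx] at h
  rw [h, injective_iff_map_eq_zero]
  push Not
  constructor
  · rintro ⟨e, he, h0⟩; exact ⟨e, h0, he⟩
  · rintro ⟨e, he, h0⟩; exact ⟨e, h0, he⟩

theorem contDiffAt_chart {G : M → E3} (hG : ContMDiff (𝓡 2) 𝓘(ℝ, E3) ∞ G)
    {c : OpenPartialHomeomorph M E2} (hc : c ∈ IsManifold.maximalAtlas (𝓡 2) ∞ M)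
    {u : E2} (hu : u ∈ c.target) : ContDiffAt ℝ ∞ (G ∘ c.symm) u :=
  (contDiffOn_chart hG hc).contDiffAt (c.open_target.mem_nhds hu)

/-- membership near the diagonal, in a chart -/
theorem mem_Wb_iff_dbl {G : M → E3} (hG : ContMDiff (𝓡 2) 𝓘(ℝ, E3) ∞ G)
    {c : OpenPartialHomeomorph M E2} (hc : c ∈ IsManifold.maximalAtlas (𝓡 2) ∞ M)
    {q : M × M} (h1 : q.1 ∈ c.source) (h2 : q.2 ∈ c.source) :
    q ∈ Wb G ↔ (c.prod c) q ∈ dbl (G ∘ c.symm) := by
  have hinj : c q.1 = c q.2 ↔ q.1 = q.2 := c.injOn.eq_iff h1 h2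
  simp only [Wb, dbl, mem_ofPred_eq, OpenPartialHomeomorph.prod_apply, Function.comp,
    c.left_inv h1, c.left_inv h2, ne_eq, hinj]
  rw [mem_sing_iff' hG hc h1]

omit [ChartedSpace E2 M] [IsManifold (𝓡 2) ∞ M] in
theorem eventually_mem_source {c c' : OpenPartialHomeomorph M E2} {q : M × M}
    (h1 : q.1 ∈ c.source) (h2 : q.2 ∈ c'.source) :
    ∀ᶠ p in 𝓝 q, p.1 ∈ c.source ∧ p.2 ∈ c'.source :=
  (continuous_fst.continuousAt.eventually (c.open_source.mem_nhds h1)).and
    (continuous_snd.continuousAt.eventually (c'.open_source.mem_nhds h2))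

/-- local structure at a cross-cap -/
theorem LC_Wb_diag {G : M → E3} (hG : ContMDiff (𝓡 2) 𝓘(ℝ, E3) ∞ G)
    {c : OpenPartialHomeomorph M E2} (hc : c ∈ IsManifold.maximalAtlas (𝓡 2) ∞ M)
    {x : M} (hx : x ∈ c.source) (hnd : Nondeg (fderiv ℝ (G ∘ c.symm)) (c x))
    (hsing : x ∈ sing G) : LC (Wb G) (x, x) := by
  have hg := contDiffAt_chart hG hc (c.map_source hx)
  have h1 := (LC_dbl (hg.of_le ENat.LEInfty.out) hnd ((mem_sing_iff' hG hc hx).1 hsing)).1
  refine LC.of_chart (c.prod c) (T := dbl (G ∘ c.symm)) ?_ ?_ ?_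
  · rw [OpenPartialHomeomorph.prod_source]; exact ⟨hx, hx⟩
  · filter_upwards [eventually_mem_source (q := (x, x)) hx hx] with q hq
    exact mem_Wb_iff_dbl hG hc hq.1 hq.2
  · exact h1

/-- cross-caps are isolated -/
theorem eventually_sing_eq {G : M → E3} (hG : ContMDiff (𝓡 2) 𝓘(ℝ, E3) ∞ G)
    {c : OpenPartialHomeomorph M E2} (hc : c ∈ IsManifold.maximalAtlas (𝓡 2) ∞ M)
    {x : M} (hx : x ∈ c.source) (hnd : Nondeg (fderiv ℝ (G ∘ c.symm)) (c x))
    (hsing : x ∈ sing G) : ∀ᶠ y in 𝓝 x, y ∈ sing G → y = x := by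
  have hg := contDiffAt_chart hG hc (c.map_source hx)
  have h1 := (LC_dbl (hg.of_le ENat.LEInfty.out) hnd ((mem_sing_iff' hG hc hx).1 hsing)).2
  have h2 : Tendsto c (𝓝 x) (𝓝 (c x)) := c.continuousAt hx
  filter_upwards [h2.eventually h1, c.open_source.mem_nhds hx] with y hy1 hy2 hy3
  exact c.injOn hy2 hx (hy1 ((mem_sing_iff' hG hc hy2).1 hy3))

/-- near a nonsingular diagonal point there are no double points -/
theorem eventually_notMem_Wb {G : M → E3} (hG : ContMDiff (𝓡 2) 𝓘(ℝ, E3) ∞ G)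
    {c : OpenPartialHomeomorph M E2} (hc : c ∈ IsManifold.maximalAtlas (𝓡 2) ∞ M)
    {x : M} (hx : x ∈ c.source) (hsing : x ∉ sing G) : ∀ᶠ q in 𝓝 (x, x), q ∉ Wb G := by
  have hg := contDiffAt_chart hG hc (c.map_source hx)
  have hinj : Injective (fderiv ℝ (G ∘ c.symm) (c x)) := by
    by_contra h
    exact hsing ((mem_sing_iff' hG hc hx).2 h)
  have h1 := eventually_notMem_dbl (hg.of_le ENat.LEInfty.out) hinj
  have h2 : Tendsto (c.prod c) (𝓝 (x, x)) (𝓝 (c x, c x)) := by
    have := (c.prod c).continuousAt (x := (x, x))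
      (by rw [OpenPartialHomeomorph.prod_source]; exact ⟨hx, hx⟩)
    exact this
  filter_upwards [h2.eventually h1, eventually_mem_source (q := (x, x)) hx hx] with q hq1 hq2 hq3
  exact hq1 ((mem_Wb_iff_dbl hG hc hq2.1 hq2.2).1 hq3)

/-- local structure at a transversal double pair -/
theorem LC_Wb_offdiag [T2Space M] {G : M → E3} (hG : ContMDiff (𝓡 2) 𝓘(ℝ, E3) ∞ G)
    {c c' : OpenPartialHomeomorph M E2} (hc : c ∈ IsManifold.maximalAtlas (𝓡 2) ∞ M)
    (hc' : c' ∈ IsManifold.maximalAtlas (𝓡 2) ∞ M) {x y : M} (hx : x ∈ c.source)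
    (hy : y ∈ c'.source) (hne : x ≠ y) (heq : G x = G y)
    (hT : ∀ w : E3, ∃ a b : E2,
      fderiv ℝ (G ∘ c.symm) (c x) a - fderiv ℝ (G ∘ c'.symm) (c' y) b = w) :
    LC (Wb G) (x, y) := by
  have hg := contDiffAt_chart hG hc (c.map_source hx)
  have hg' := contDiffAt_chart hG hc' (c'.map_source hy)
  let f : E2 × E2 → E3 := fun p => (G ∘ c.symm) p.1 - (G ∘ c'.symm) p.2
  let f' : E2 × E2 →L[ℝ] E3 := (fderiv ℝ (G ∘ c.symm) (c x)).comp (ContinuousLinearMap.fst ℝ E2 E2)
    - (fderiv ℝ (G ∘ c'.symm) (c' y)).comp (ContinuousLinearMap.snd ℝ E2 E2)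
  have hf : HasStrictFDerivAt f f' (c x, c' y) := by
    have h1 : HasStrictFDerivAt (G ∘ c.symm) (fderiv ℝ (G ∘ c.symm) (c x)) (c x) :=
      hg.hasStrictFDerivAt (by simp)
    have h2 : HasStrictFDerivAt (G ∘ c'.symm) (fderiv ℝ (G ∘ c'.symm) (c' y)) (c' y) :=
      hg'.hasStrictFDerivAt (by simp)
    have h3 : HasStrictFDerivAt (fun p : E2 × E2 => (G ∘ c.symm) p.1)
        ((fderiv ℝ (G ∘ c.symm) (c x)).comp (ContinuousLinearMap.fst ℝ E2 E2)) (c x, c' y) :=
      HasStrictFDerivAt.comp (c x, c' y) (g := G ∘ c.symm) h1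
        (ContinuousLinearMap.fst ℝ E2 E2).hasStrictFDerivAt
    have h4 : HasStrictFDerivAt (fun p : E2 × E2 => (G ∘ c'.symm) p.2)
        ((fderiv ℝ (G ∘ c'.symm) (c' y)).comp (ContinuousLinearMap.snd ℝ E2 E2)) (c x, c' y) :=
      HasStrictFDerivAt.comp (c x, c' y) (g := G ∘ c'.symm) h2
        (ContinuousLinearMap.snd ℝ E2 E2).hasStrictFDerivAt
    exact h3.sub h4
  have hsurj : f'.range = ⊤ := by
    refine LinearMap.range_eq_top.2 fun w => ?_
    obtain ⟨a, b, hab⟩ := hT w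
    exact ⟨(a, b), hab⟩
  have hdim : Module.finrank ℝ f'.ker = 1 := by
    have h1 := LinearMap.finrank_range_add_finrank_ker (f' : E2 × E2 →ₗ[ℝ] E3)
    have h2 : LinearMap.range (f' : E2 × E2 →ₗ[ℝ] E3) = ⊤ := hsurj
    rw [h2, finrank_top, Module.finrank_prod] at h1
    simp only [finrank_euclideanSpace, Fintype.card_fin] at h1
    have h3 : Module.finrank ℝ (LinearMap.ker (f' : E2 × E2 →ₗ[ℝ] E3)) = 1 := by omega
    exact h3
  have hLC := LC_of_submersion hf hsurj hdim
  have hf0 : f (c x, c' y) = 0 := by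
    simp only [f, Function.comp, c.left_inv hx, c'.left_inv hy, heq, sub_self]
  rw [hf0] at hLC
  refine LC.of_chart (c.prod c') (T := {q | f q = 0}) ?_ ?_ ?_
  · rw [OpenPartialHomeomorph.prod_source]; exact ⟨hx, hy⟩
  · have hne' : ∀ᶠ q : M × M in 𝓝 (x, y), q.1 ≠ q.2 :=
      (isOpen_ne_fun continuous_fst continuous_snd).mem_nhds hne
    filter_upwards [eventually_mem_source (q := (x, y)) hx hy, hne'] with q hq1 hq2
    simp only [Wb, mem_ofPred_eq, f, OpenPartialHomeomorph.prod_apply, Function.comp,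
      c.left_inv hq1.1, c'.left_inv hq1.2, sub_eq_zero]
    constructor
    · rintro (h | h)
      · exact h.2
      · exact absurd h.1 hq2
    · intro h; exact Or.inl ⟨hq2, h⟩
  · exact hLC

end Wbar

end D3aux

variable {M : Type*} [TopologicalSpace M] [T2Space M] [CompactSpace M] [ChartedSpace E2 M]
  [IsManifold (𝓡 2) ∞ M]

theorem finite_sing (𝒜 : BallAtlas M) {G : M → E3} (hG : ContMDiff (𝓡 2) 𝓘(ℝ, E3) ∞ G)
    (hN : ∀ i, ∀ u ∈ (𝒜.c i).target, Nondeg (fderiv ℝ (G ∘ (𝒜.c i).symm)) u) :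
    (sing G).Finite := by
  have hclosed : IsClosed (sing G) := by
    rw [← isOpen_compl_iff, isOpen_iff_mem_nhds]
    intro x hx
    obtain ⟨i, hxi, -⟩ := 𝒜.cover x
    have h1 := D3aux.eventually_notMem_Wb hG (𝒜.mem i) hxi hx
    have ht : Filter.Tendsto (fun y : M => (y, y)) (𝓝 x) (𝓝 (x, x)) :=
      (Continuous.prodMk continuous_id continuous_id).tendsto' x (x, x) rfl
    filter_upwards [ht.eventually h1] with y hy hy'
    exact hy (Or.inr ⟨rfl, hy'⟩)
  have hcpt : IsCompact (sing G) := hclosed.isCompact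
  refine hcpt.finite ?_
  rw [isDiscrete_iff_forall_mem_exists_isOpen]
  intro x hx
  obtain ⟨i, hxi, -⟩ := 𝒜.cover x
  have h1 := D3aux.eventually_sing_eq hG (𝒜.mem i) hxi
    (hN i _ ((𝒜.c i).map_source hxi)) hx
  obtain ⟨U, hU, hUo, hxU⟩ := eventually_nhds_iff.1 h1
  refine ⟨U, hUo, ?_⟩
  ext y
  simp only [mem_inter_iff, mem_singleton_iff]
  constructor
  · rintro ⟨h2, h3⟩; exact hU y h2 h3
  · rintro rfl; exact ⟨hxU, hx⟩

/-- the completed double point set is closed -/
theorem D3aux.isClosed_Wb (𝒜 : BallAtlas M) {G : M → E3} (hG : ContMDiff (𝓡 2) 𝓘(ℝ, E3) ∞ G) :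
    IsClosed (D3aux.Wb G) := by
  rw [← isOpen_compl_iff, isOpen_iff_mem_nhds]
  rintro ⟨x, y⟩ hq
  by_cases hxy : x = y
  · subst hxy
    obtain ⟨i, hxi, -⟩ := 𝒜.cover x
    have hs : x ∉ sing G := fun h => hq (Or.inr ⟨rfl, h⟩)
    exact D3aux.eventually_notMem_Wb hG (𝒜.mem i) hxi hs
  · have hne' : ∀ᶠ q : M × M in 𝓝 (x, y), q.1 ≠ q.2 :=
      (isOpen_ne_fun continuous_fst continuous_snd).mem_nhds hxy
    have hGxy : G x ≠ G y := fun h => hq (Or.inl ⟨hxy, h⟩)
    have hne2 : ∀ᶠ q : M × M in 𝓝 (x, y), G q.1 ≠ G q.2 :=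
      (isOpen_ne_fun (hG.continuous.comp continuous_fst)
        (hG.continuous.comp continuous_snd)).mem_nhds hGxy
    filter_upwards [hne', hne2] with q h1 h2 h3
    rcases h3 with h3 | h3
    · exact h2 h3.2
    · exact h1 h3.1

theorem even_sing (𝒜 : BallAtlas M) {G : M → E3} (hG : ContMDiff (𝓡 2) 𝓘(ℝ, E3) ∞ G)
    (hT : Transverse 𝒜 G)
    (hN : ∀ i, ∀ u ∈ (𝒜.c i).target, Nondeg (fderiv ℝ (G ∘ (𝒜.c i).symm)) u) (x : M) :
    Even (sing G ∩ connectedComponent x).ncard := by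
  have hfin := finite_sing 𝒜 hG hN
  have hlc : LocallyConnectedSpace M := ChartedSpace.locallyConnectedSpace E2 M
  set C : Set M := connectedComponent x with hC
  have hCo : IsOpen C := isOpen_connectedComponent
  have hCc : IsClosed C := isClosed_connectedComponent
  let S : Set (M × M) := D3aux.Wb G ∩ (C ×ˢ C)
  have hSc : IsClosed S := (D3aux.isClosed_Wb 𝒜 hG).inter (hCc.prod hCc)
  have hScomp : CompactSpace S := isCompact_iff_compactSpace.1 hSc.isCompact
  have hLC : ∀ q ∈ S, Crest.Agent.R216.D3.LC S q := by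
    rintro ⟨y, z⟩ ⟨hq, hq1, hq2⟩
    simp only at hq1 hq2
    have h1 : Crest.Agent.R216.D3.LC (D3aux.Wb G) (y, z) := by
      obtain ⟨i, hyi, -⟩ := 𝒜.cover y
      rcases hq with ⟨hne, heq⟩ | ⟨heq, hs⟩
      · simp only at hne heq
        obtain ⟨j, hzj, -⟩ := 𝒜.cover z
        refine D3aux.LC_Wb_offdiag hG (𝒜.mem i) (𝒜.mem j) hyi hzj hne heq ?_
        refine hT i j _ ((𝒜.c i).map_source hyi) _ ((𝒜.c j).map_source hzj) ?_ ?_
        · rwa [(𝒜.c i).left_inv hyi, (𝒜.c j).left_inv hzj]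
        · rwa [(𝒜.c i).left_inv hyi, (𝒜.c j).left_inv hzj]
      · simp only at heq hs
        subst heq
        exact D3aux.LC_Wb_diag hG (𝒜.mem i) hyi (hN i _ ((𝒜.c i).map_source hyi)) hs
    refine h1.congr ?_
    have h2 : ∀ᶠ q : M × M in 𝓝 (y, z), q ∈ C ×ˢ C := (hCo.prod hCo).mem_nhds ⟨hq1, hq2⟩
    filter_upwards [h2] with q hq
    simp only [S, mem_inter_iff, hq, and_true]
  have hswap : ∀ q ∈ S, Prod.swap q ∈ S := by
    rintro ⟨y, z⟩ ⟨hq, hq1, hq2⟩
    refine ⟨?_, hq2, hq1⟩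
    rcases hq with ⟨hne, heq⟩ | ⟨heq, hs⟩
    · exact Or.inl ⟨fun h => hne h.symm, heq.symm⟩
    · simp only at heq hs
      subst heq
      exact Or.inr ⟨rfl, hs⟩
  let σ : S → S := fun q => ⟨Prod.swap q.1, hswap q.1 q.2⟩
  have hσc : Continuous σ :=
    (continuous_swap.comp continuous_subtype_val).subtype_mk _
  have hσi : Function.Involutive σ := fun q => Subtype.ext (Prod.swap_swap _)
  have hfix : ∀ q : S, σ q = q ↔ q.1.1 = q.1.2 := by
    intro q
    constructor
    · intro h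
      have := congrArg (fun p : S => p.1.2) h
      exact this
    · intro h
      apply Subtype.ext
      exact Prod.ext h.symm h
  have himg : sing G ∩ C = (fun q : S => q.1.1) '' {q | σ q = q} := by
    ext y
    constructor
    · rintro ⟨hy1, hy2⟩
      exact ⟨⟨(y, y), Or.inr ⟨rfl, hy1⟩, hy2, hy2⟩, (hfix _).2 rfl, rfl⟩
    · rintro ⟨q, hq, rfl⟩
      have h1 : q.1.1 = q.1.2 := (hfix q).1 hq
      obtain ⟨hq1, hq2, hq3⟩ := q.2
      refine ⟨?_, hq2⟩
      rcases hq1 with h2 | h2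
      · exact absurd h1 h2.1
      · exact h2.2
  have hinj : Set.InjOn (fun q : S => q.1.1) {q | σ q = q} := by
    intro p hp q hq hpq
    have h1 : p.1.1 = p.1.2 := (hfix p).1 hp
    have h2 : q.1.1 = q.1.2 := (hfix q).1 hq
    simp only at hpq
    apply Subtype.ext
    exact Prod.ext hpq (by rw [← h1, ← h2, hpq])
  have hfinσ : {q : S | σ q = q}.Finite := by
    refine Set.Finite.of_finite_image ?_ hinj
    rw [← himg]
    exact hfin.subset inter_subset_left
  have hev := even_fixed (W := S) (fun w => (hLC w.1 w.2).exists_isOpenEmbedding) σ hσc hσi hfinσ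
  rw [himg, hinj.ncard_image]
  exact hev

end Crest.Agent.R216.D
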