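import Crest.Agent.R216.D4Defs
import Crest.Agent.R216.D4Planar

-- ▼ part R216/D4Frame
section

/-! Row 216 (D), module D4: trivialisation of `a^⊥` over a disc (owner: helper505). -/

set_option autoImplicit false
open scoped Manifold ContDiff Topology
open Set Metric Function

namespace Crest.Agent.R216.D

lemma inner3 (a b : E3) : inner ℝ a b = a 0 * b 0 + a 1 * b 1 + a 2 * b 2 := by
  simp [PiLp.inner_apply, Fin.sum_univ_three]
  ring

lemma normsq3 (a : E3) : ‖a‖ ^ 2 = a 0 ^ 2 + a 1 ^ 2 + a 2 ^ 2 := by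
  rw [← real_inner_self_eq_norm_sq, inner3]; ring

@[simp] lemma cr_0 (a b : E3) : cr a b 0 = a 1 * b 2 - a 2 * b 1 := rfl
@[simp] lemma cr_1 (a b : E3) : cr a b 1 = a 2 * b 0 - a 0 * b 2 := rfl
@[simp] lemma cr_2 (a b : E3) : cr a b 2 = a 0 * b 1 - a 1 * b 0 := rfl

lemma inner_cr_left (a b : E3) : inner ℝ a (cr a b) = 0 := by
  rw [inner3]; simp only [cr_0, cr_1, cr_2]; ring

lemma inner_cr_right (a b : E3) : inner ℝ b (cr a b) = 0 := by
  rw [inner3]; simp only [cr_0, cr_1, cr_2]; ring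

lemma normsq_cr (a b : E3) : ‖cr a b‖ ^ 2 = ‖a‖ ^ 2 * ‖b‖ ^ 2 - inner ℝ a b ^ 2 := by
  rw [normsq3, normsq3, normsq3, inner3]; simp only [cr_0, cr_1, cr_2]; ring

lemma ext3 {a b : E3} (h0 : a 0 = b 0) (h1 : a 1 = b 1) (h2 : a 2 = b 2) : a = b := by
  ext i
  fin_cases i
  · exact h0
  · exact h1
  · exact h2

/-- decomposition in the frame `a, n, a × n` -/
lemma decomp (a n b : E3) (hab : inner ℝ a b = 0) (han : inner ℝ a n = 0) (ha : a ≠ 0)
    (hn : n ≠ 0) :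
    act a ⟨inner ℝ b n / ‖n‖ ^ 2, inner ℝ b (cr a n) / (‖a‖ * ‖n‖ ^ 2)⟩ n = b := by
  have ha' : ‖a‖ ≠ 0 := norm_ne_zero_iff.mpr ha
  have hn' : ‖n‖ ≠ 0 := norm_ne_zero_iff.mpr hn
  have key : (‖a‖ ^ 2 * ‖n‖ ^ 2) • b
      = (‖a‖ ^ 2 * inner ℝ b n) • n + (inner ℝ b (cr a n)) • cr a n := by
    rw [inner3] at hab han
    have e1 := hab
    have e2 := han
    have key : ∀ i : Fin 3, (‖a‖ ^ 2 * ‖n‖ ^ 2) * b i
        = (‖a‖ ^ 2 * inner ℝ b n) * n i + (inner ℝ b (cr a n)) * cr a n i := by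
      intro i
      simp only [normsq3, inner3, cr_0, cr_1, cr_2]
      fin_cases i
      · simp only [Fin.zero_eta, Fin.isValue, cr_0]
        linear_combination ((n 0 ^ 2 + n 1 ^ 2 + n 2 ^ 2) * a 0
          - (a 0 * n 0 + a 1 * n 1 + a 2 * n 2) * n 0) * e1
          + ((a 0 * n 0 + a 1 * n 1 + a 2 * n 2) * b 0
            - (b 0 * n 0 + b 1 * n 1 + b 2 * n 2) * a 0) * e2
      · simp only [Fin.mk_one, Fin.isValue, cr_1]
        linear_combination ((n 0 ^ 2 + n 1 ^ 2 + n 2 ^ 2) * a 1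
          - (a 0 * n 0 + a 1 * n 1 + a 2 * n 2) * n 1) * e1
          + ((a 0 * n 0 + a 1 * n 1 + a 2 * n 2) * b 1
            - (b 0 * n 0 + b 1 * n 1 + b 2 * n 2) * a 1) * e2
      · simp only [Fin.reduceFinMk, Fin.isValue, cr_2]
        linear_combination ((n 0 ^ 2 + n 1 ^ 2 + n 2 ^ 2) * a 2
          - (a 0 * n 0 + a 1 * n 1 + a 2 * n 2) * n 2) * e1
          + ((a 0 * n 0 + a 1 * n 1 + a 2 * n 2) * b 2
            - (b 0 * n 0 + b 1 * n 1 + b 2 * n 2) * a 2) * e2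
    exact ext3 (key 0) (key 1) (key 2)
  have : b = (‖a‖ ^ 2 * ‖n‖ ^ 2)⁻¹ • ((‖a‖ ^ 2 * inner ℝ b n) • n
      + (inner ℝ b (cr a n)) • cr a n) := by
    rw [← key, smul_smul, inv_mul_cancel₀ (by positivity), one_smul]
  conv_rhs => rw [this]
  simp only [act, smul_add, smul_smul]
  congr 2
  · field_simp
  · field_simp

lemma inner_act (a n : E3) (q : ℂ) (han : inner ℝ a n = 0) : inner ℝ a (act a q n) = 0 := by
  simp only [act, inner_add_right, inner_smul_right, han, inner_cr_left, mul_zero, add_zero]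

lemma act_zero (a n : E3) : act a 0 n = 0 := by simp [act]

lemma normsq_act (a n : E3) (q : ℂ) (han : inner ℝ a n = 0) (ha : a ≠ 0) :
    ‖act a q n‖ ^ 2 = ‖q‖ ^ 2 * ‖n‖ ^ 2 := by
  have ha' : ‖a‖ ≠ 0 := norm_ne_zero_iff.mpr ha
  have h1 : ‖act a q n‖ ^ 2 = q.re ^ 2 * ‖n‖ ^ 2 + (q.im / ‖a‖) ^ 2 * ‖cr a n‖ ^ 2 := by
    rw [← real_inner_self_eq_norm_sq]
    simp only [act, inner_add_left, inner_add_right, inner_smul_left, inner_smul_right,
      real_inner_self_eq_norm_sq]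
    rw [inner_cr_right, real_inner_comm, inner_cr_right]
    simp
    ring
  rw [h1, normsq_cr, han, ← Complex.normSq_eq_norm_sq, Complex.normSq_apply]
  field_simp
  ring

lemma act_eq_zero_iff {a n : E3} {q : ℂ} (han : inner ℝ a n = 0) (ha : a ≠ 0) (hn : n ≠ 0) :
    act a q n = 0 ↔ q = 0 := by
  constructor
  · intro h
    have := normsq_act a n q han ha
    rw [h] at this
    have hn' : ‖n‖ ≠ 0 := norm_ne_zero_iff.mpr hn
    have h2 : ‖q‖ ^ 2 * ‖n‖ ^ 2 = 0 := by rw [← this]; simp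
    rcases mul_eq_zero.mp h2 with h3 | h3
    · simpa using h3
    · exact absurd h3 (pow_ne_zero 2 hn')
  · rintro rfl; exact act_zero a n

/-- orientation identity -/
lemma inner_cr_act (a n : E3) (p q : ℂ) (han : inner ℝ a n = 0) (ha : a ≠ 0) :
    inner ℝ a (cr (act a p n) (act a q n))
      = (p.re * q.im - p.im * q.re) * (‖a‖ * ‖n‖ ^ 2) := by
  have ha' : ‖a‖ ≠ 0 := norm_ne_zero_iff.mpr ha
  have h1 : inner ℝ a (cr (act a p n) (act a q n))
      = (p.re * q.im - p.im * q.re) / ‖a‖ * inner ℝ a (cr n (cr a n)) := by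
    simp only [inner3, cr_0, cr_1, cr_2, act, PiLp.add_apply, PiLp.smul_apply, smul_eq_mul]
    field_simp
    ring
  have h2 : inner ℝ a (cr n (cr a n)) = ‖a‖ ^ 2 * ‖n‖ ^ 2 := by
    have h3 : inner ℝ a (cr n (cr a n)) = ‖cr a n‖ ^ 2 := by
      rw [normsq3, inner3]; simp only [cr_0, cr_1, cr_2]; ring
    rw [h3, normsq_cr, han]; ring
  rw [h1, h2]
  field_simp

/-- projection onto `a^⊥` -/
noncomputable def pr (a v : E3) : E3 := v - (inner ℝ a v / ‖a‖ ^ 2) • a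

lemma inner_pr {a v : E3} (ha : a ≠ 0) : inner ℝ a (pr a v) = 0 := by
  have ha' : ‖a‖ ≠ 0 := norm_ne_zero_iff.mpr ha
  simp only [pr, inner_sub_right, inner_smul_right, real_inner_self_eq_norm_sq]
  field_simp
  ring

lemma pr_ne_zero {a a' v : E3} (ha' : a' ≠ 0) (hv : v ≠ 0) (hav : inner ℝ a v = 0)
    (hclose : ‖‖a'‖⁻¹ • a' - ‖a‖⁻¹ • a‖ < 1) : pr a' v ≠ 0 := by
  intro h
  have hv' : 0 < ‖v‖ := norm_pos_iff.mpr hv
  have h1 : v = (inner ℝ a' v / ‖a'‖ ^ 2) • a' := sub_eq_zero.mp h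
  have hn : 0 < ‖a'‖ := norm_pos_iff.mpr ha'
  have h2 : ‖v‖ = |inner ℝ (‖a'‖⁻¹ • a') v| := by
    conv_lhs => rw [h1]
    rw [norm_smul, inner_smul_left, Real.norm_eq_abs, abs_div, abs_mul]
    simp only [conj_trivial, abs_inv, abs_norm, abs_pow]
    field_simp
  have h3 : inner ℝ (‖a'‖⁻¹ • a') v = inner ℝ (‖a'‖⁻¹ • a' - ‖a‖⁻¹ • a) v := by
    rw [inner_sub_left, inner_smul_left a v, hav]; simp
  have h4 : ‖v‖ ≤ ‖‖a'‖⁻¹ • a' - ‖a‖⁻¹ • a‖ * ‖v‖ := by
    conv_lhs => rw [h2, h3]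
    exact abs_real_inner_le_norm _ _
  nlinarith

/-- **Smooth frame of `a^⊥` over a disc.** -/
theorem exists_perp {a : E2 → E3} (ha : ContDiffOn ℝ ∞ a (ball 0 10))
    (ha0 : ∀ u ∈ ball (0 : E2) 10, a u ≠ 0) :
    ∃ n : E2 → E3, ContDiffOn ℝ ∞ n (ball 0 10) ∧
      (∀ u ∈ ball (0 : E2) 10, inner ℝ (a u) (n u) = 0) ∧
      ∀ u ∈ ball (0 : E2) 9, n u ≠ 0 := by
  -- uniform continuity of the direction
  set N : E2 → E3 := fun u => ‖a u‖⁻¹ • a u with hN
  have hsub : closedBall (0 : E2) 9 ⊆ ball 0 10 := closedBall_subset_ball (by norm_num)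
  have hNc : ContinuousOn N (closedBall 0 9) := by
    have hc := (ha.continuousOn).mono hsub
    refine ContinuousOn.smul (hc.norm.inv₀ fun u hu => ?_) hc
    exact norm_ne_zero_iff.mpr (ha0 u (hsub hu))
  have huc := (isCompact_closedBall (0 : E2) 9).uniformContinuousOn_of_continuous hNc
  obtain ⟨δ, hδ, hδ'⟩ := Metric.uniformContinuousOn_iff.mp huc 1 one_pos
  obtain ⟨m, hm⟩ := exists_nat_gt (9 / δ)
  have hm0 : (0 : ℝ) < m := lt_trans (by positivity) hm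
  -- starting vector
  have h0mem : (0 : E2) ∈ ball (0 : E2) 10 := mem_ball_self (by norm_num)
  obtain ⟨v0, hv0, hv0a⟩ : ∃ v : E3, v ≠ 0 ∧ inner ℝ (a 0) v = 0 := by
    by_cases h : a 0 1 = 0 ∧ a 0 2 = 0
    · refine ⟨!₂[0, 1, 0], ?_, ?_⟩
      · intro hh; have := congrFun (congrArg (fun x : E3 => (x : Fin 3 → ℝ)) hh) 1
        simp at this
      · rw [inner3]; simp [h.1]
    · refine ⟨!₂[0, a 0 2, - a 0 1], ?_, ?_⟩
      · intro hh
        apply h
        have h1 := congrFun (congrArg (fun x : E3 => (x : Fin 3 → ℝ)) hh) 1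
        have h2 := congrFun (congrArg (fun x : E3 => (x : Fin 3 → ℝ)) hh) 2
        simp at h1 h2
        exact ⟨h2, h1⟩
      · rw [inner3]; simp; ring
  have step : ∀ k : ℕ, k ≤ m → ∃ n : E2 → E3, ContDiffOn ℝ ∞ n (ball 0 10) ∧
      (∀ u ∈ ball (0 : E2) 10, inner ℝ (a (((k : ℝ) / m) • u)) (n u) = 0) ∧
      ∀ u ∈ closedBall (0 : E2) 9, n u ≠ 0 := by
    intro k
    induction k with
    | zero =>
      intro _
      exact ⟨fun _ => v0, contDiffOn_const, fun u _ => by simpa using hv0a, fun _ _ => hv0⟩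
    | succ k ih =>
      intro hk
      obtain ⟨n, hn1, hn2, hn3⟩ := ih (by omega)
      have hs1 : ∀ j : ℕ, j ≤ m → ∀ u : E2, ∀ r : ℝ, ‖u‖ ≤ r → ‖((j : ℝ) / m) • u‖ ≤ r := by
        intro j hj u r hu
        rw [norm_smul, Real.norm_of_nonneg (by positivity)]
        have : (j : ℝ) / m ≤ 1 := by
          rw [div_le_one hm0]; exact_mod_cast hj
        calc (j : ℝ) / m * ‖u‖ ≤ 1 * ‖u‖ := by gcongr
          _ ≤ r := by linarith
      have hs2 : ∀ j : ℕ, j ≤ m → ∀ u ∈ ball (0 : E2) 10, ((j : ℝ) / m) • u ∈ ball (0 : E2) 10 := by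
        intro j hj u hu
        rw [mem_ball_zero_iff] at hu ⊢
        exact lt_of_le_of_lt (hs1 j hj u ‖u‖ le_rfl) hu
      have hak : ContDiffOn ℝ ∞ (fun u : E2 => a ((((k + 1 : ℕ) : ℝ) / m) • u)) (ball 0 10) := by
        refine ha.comp ?_ (fun u hu => hs2 (k + 1) hk u hu)
        exact (contDiff_const_smul _).contDiffOn
      refine ⟨fun u => pr (a ((((k + 1 : ℕ) : ℝ) / m) • u)) (n u), ?_, ?_, ?_⟩
      · have hq : ContDiffOn ℝ ∞ (fun u : E2 => inner ℝ (a ((((k + 1 : ℕ) : ℝ) / m) • u)) (n u)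
            / ‖a ((((k + 1 : ℕ) : ℝ) / m) • u)‖ ^ 2) (ball 0 10) := by
          refine ContDiffOn.div (hak.inner ℝ hn1) (hak.norm_sq ℝ) fun u hu => ?_
          exact pow_ne_zero 2 (norm_ne_zero_iff.mpr (ha0 _ (hs2 (k + 1) hk u hu)))
        exact hn1.sub (hq.smul hak)
      · intro u hu
        exact inner_pr (ha0 _ (hs2 (k + 1) hk u hu))
      · intro u hu
        have hub : u ∈ ball (0 : E2) 10 := hsub hu
        refine pr_ne_zero (ha0 _ (hs2 (k + 1) hk u hub))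
          (hn3 u hu) (hn2 u hub) ?_
        have hu9 : ‖u‖ ≤ 9 := by simpa using hu
        have hd := hδ' ((((k + 1 : ℕ) : ℝ) / m) • u) (by
            rw [mem_closedBall_zero_iff]; exact hs1 (k + 1) hk u 9 hu9) (((k : ℝ) / m) • u) (by
            rw [mem_closedBall_zero_iff]; exact hs1 k (by omega) u 9 hu9) (by
            rw [dist_eq_norm, ← sub_smul, norm_smul]
            have : ((k + 1 : ℕ) : ℝ) / m - (k : ℝ) / m = 1 / m := by push_cast; ring
            rw [this, Real.norm_of_nonneg (by positivity)]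
            rw [div_lt_iff₀ hδ] at hm
            rw [div_mul_eq_mul_div, div_lt_iff₀ hm0]
            linarith)
        rw [dist_eq_norm] at hd
        exact hd
  obtain ⟨n, hn1, hn2, hn3⟩ := step m le_rfl
  refine ⟨n, hn1, fun u hu => ?_, fun u hu => hn3 u (ball_subset_closedBall hu)⟩
  have := hn2 u hu
  rwa [div_self hm0.ne', one_smul] at this

end Crest.Agent.R216.D
end

-- ▼ part R216/D4Coord

/-! Row 216 (D), module D4: sections of `a^⊥` as complex valued functions (owner: helper505). -/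

set_option autoImplicit false
open scoped Manifold ContDiff Topology
open Set Metric Function

namespace Crest.Agent.R216.D

lemma toC_u1 : toC u1 = 1 := by
  simp [toC, u1, Complex.coe_orthonormalBasisOneI]

lemma toC_u2 : toC u2 = Complex.I := by
  simp [toC, u2, Complex.coe_orthonormalBasisOneI]

lemma det_eq' (L : ℂ →L[ℝ] ℂ) :
    L.det = (L 1).re * (L Complex.I).im - (L 1).im * (L Complex.I).re := by
  have h0 : L.det = LinearMap.det (L : ℂ →ₗ[ℝ] ℂ) := rfl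
  rw [h0, ← LinearMap.det_toMatrix Complex.basisOneI, Matrix.det_fin_two]
  simp only [LinearMap.toMatrix_apply, Complex.coe_basisOneI, Complex.coe_basisOneI_repr,
    Matrix.cons_val_zero, Matrix.cons_val_one, ContinuousLinearMap.coe_coe]
  ring

lemma injective_iff_det (L : ℂ →L[ℝ] ℂ) : Injective L ↔ L.det ≠ 0 := by
  have h0 : L.det = LinearMap.det (L : ℂ →ₗ[ℝ] ℂ) := rfl
  rw [h0, ← isUnit_iff_ne_zero, ← LinearMap.isUnit_iff_isUnit_det, LinearMap.isUnit_iff_ker_eq_bot,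
    LinearMap.ker_eq_bot]
  rfl

/-- the complex coordinate of the section `b` in the frame `n, a × n / |a|` -/
noncomputable def coord (a b n : E2 → E3) (w : ℂ) : ℂ :=
  ⟨inner ℝ (b (toC.symm w)) (n (toC.symm w)) / ‖n (toC.symm w)‖ ^ 2,
    inner ℝ (b (toC.symm w)) (cr (a (toC.symm w)) (n (toC.symm w)))
      / (‖a (toC.symm w)‖ * ‖n (toC.symm w)‖ ^ 2)⟩

lemma contDiffOn_cr {s : Set E2} {a b : E2 → E3} (ha : ContDiffOn ℝ ∞ a s)
    (hb : ContDiffOn ℝ ∞ b s) : ContDiffOn ℝ ∞ (fun u => cr (a u) (b u)) s := by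
  rw [contDiffOn_euclidean] at ha hb ⊢
  intro i
  fin_cases i
  · exact ((ha 1).mul (hb 2)).sub ((ha 2).mul (hb 1))
  · exact ((ha 2).mul (hb 0)).sub ((ha 0).mul (hb 2))
  · exact ((ha 0).mul (hb 1)).sub ((ha 1).mul (hb 0))

lemma contDiffOn_act {s : Set E2} {a n : E2 → E3} {q : E2 → ℂ} (ha : ContDiffOn ℝ ∞ a s)
    (ha0 : ∀ u ∈ s, a u ≠ 0)
    (hq : ContDiffOn ℝ ∞ q s) (hn : ContDiffOn ℝ ∞ n s) :
    ContDiffOn ℝ ∞ (fun u => act (a u) (q u) (n u)) s := by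
  have hre : ContDiffOn ℝ ∞ (fun u => (q u).re) s := Complex.reCLM.contDiff.comp_contDiffOn hq
  have him : ContDiffOn ℝ ∞ (fun u => (q u).im) s := Complex.imCLM.contDiff.comp_contDiffOn hq
  have hna : ContDiffOn ℝ ∞ (fun u => ‖a u‖) s := ha.norm ℝ ha0
  have h2 : ContDiffOn ℝ ∞ (fun u => (q u).im / ‖a u‖) s :=
    him.div hna fun u hu => norm_ne_zero_iff.mpr (ha0 u hu)
  exact (hre.smul hn).add (h2.smul (contDiffOn_cr ha hn))

lemma contDiffOn_coord {a b n : E2 → E3} (ha : ContDiffOn ℝ ∞ a (ball 0 9))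
    (hb : ContDiffOn ℝ ∞ b (ball 0 9)) (hn : ContDiffOn ℝ ∞ n (ball 0 9))
    (ha0 : ∀ u ∈ ball (0 : E2) 9, a u ≠ 0) (hn0 : ∀ u ∈ ball (0 : E2) 9, n u ≠ 0) :
    ContDiffOn ℝ ∞ (coord a b n) (ball 0 9) := by
  have hna : ContDiffOn ℝ ∞ (fun u => ‖a u‖) (ball 0 9) := ha.norm ℝ ha0
  have h1 : ContDiffOn ℝ ∞ (fun u => inner ℝ (b u) (n u) / ‖n u‖ ^ 2) (ball 0 9) :=
    (hb.inner ℝ hn).div (hn.norm_sq ℝ) fun u hu => pow_ne_zero 2 (norm_ne_zero_iff.mpr (hn0 u hu))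
  have h2 : ContDiffOn ℝ ∞ (fun u => inner ℝ (b u) (cr (a u) (n u)) / (‖a u‖ * ‖n u‖ ^ 2))
      (ball 0 9) :=
    (hb.inner ℝ (contDiffOn_cr ha hn)).div (hna.mul (hn.norm_sq ℝ)) fun u hu =>
      mul_ne_zero (norm_ne_zero_iff.mpr (ha0 u hu))
        (pow_ne_zero 2 (norm_ne_zero_iff.mpr (hn0 u hu)))
  have h3 : ContDiffOn ℝ ∞ (fun u => (inner ℝ (b u) (n u) / ‖n u‖ ^ 2) • (1 : ℂ)
      + (inner ℝ (b u) (cr (a u) (n u)) / (‖a u‖ * ‖n u‖ ^ 2)) • Complex.I) (ball 0 9) :=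
    (h1.smul contDiffOn_const).add (h2.smul contDiffOn_const)
  have h4 : ContDiffOn ℝ ∞ (fun w : ℂ => toC.symm w) (ball 0 9) :=
    toC.symm.toContinuousLinearEquiv.contDiff.contDiffOn
  have h5 : MapsTo (fun w : ℂ => toC.symm w) (ball 0 9) (ball 0 9) := by
    intro w hw
    rw [mem_ball_zero_iff] at hw ⊢
    rwa [LinearIsometryEquiv.norm_map]
  refine (h3.comp h4 h5).congr fun w _ => ?_
  simp only [coord, Function.comp]
  apply Complex.ext
  · simp only [Complex.add_re, Complex.smul_re, Complex.one_re, Complex.I_re, smul_eq_mul,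
      mul_one, mul_zero, add_zero]
  · simp only [Complex.add_im, Complex.smul_im, Complex.one_im, Complex.I_im, smul_eq_mul,
      mul_one, mul_zero, zero_add]

lemma act_coord {a b n : E2 → E3} {w : ℂ} (hab : inner ℝ (a (toC.symm w)) (b (toC.symm w)) = 0)
    (han : inner ℝ (a (toC.symm w)) (n (toC.symm w)) = 0) (ha : a (toC.symm w) ≠ 0)
    (hn : n (toC.symm w) ≠ 0) :
    act (a (toC.symm w)) (coord a b n w) (n (toC.symm w)) = b (toC.symm w) :=
  decomp _ _ _ hab han ha hn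

/-- the derivative of a section at a zero -/
lemma fderiv_act {a b n : E2 → E3} {H : ℂ → ℂ} {u : E2} (ha : DifferentiableAt ℝ a u)
    (ha0 : a u ≠ 0) (hn : DifferentiableAt ℝ n u)
    (hH : DifferentiableAt ℝ H (toC u)) (hz : H (toC u) = 0)
    (hb : b =ᶠ[𝓝 u] fun v => act (a v) (H (toC v)) (n v)) (δ : E2) :
    fderiv ℝ b u δ = act (a u) (fderiv ℝ H (toC u) (toC δ)) (n u) := by
  rw [hb.fderiv_eq]
  have hq : HasFDerivAt (fun v => H (toC v))
      ((fderiv ℝ H (toC u)).comp (toC.toContinuousLinearEquiv : E2 →L[ℝ] ℂ)) u :=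
    hH.hasFDerivAt.comp u (toC.toContinuousLinearEquiv : E2 →L[ℝ] ℂ).hasFDerivAt
  set Q : E2 →L[ℝ] ℂ :=
    (fderiv ℝ H (toC u)).comp (toC.toContinuousLinearEquiv : E2 →L[ℝ] ℂ) with hQ
  have hre : HasFDerivAt (fun v => (H (toC v)).re) (Complex.reCLM.comp Q) u :=
    Complex.reCLM.hasFDerivAt.comp u hq
  have him : HasFDerivAt (fun v => (H (toC v)).im) (Complex.imCLM.comp Q) u :=
    Complex.imCLM.hasFDerivAt.comp u hq
  have hna : DifferentiableAt ℝ (fun v => ‖a v‖⁻¹) u :=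
    (ha.norm ℝ ha0).inv (norm_ne_zero_iff.mpr ha0)
  have hcr : DifferentiableAt ℝ (fun v => cr (a v) (n v)) u := by
    rw [differentiableAt_euclidean] at ha hn ⊢
    intro i
    fin_cases i
    · exact ((ha 1).mul (hn 2)).sub ((ha 2).mul (hn 1))
    · exact ((ha 2).mul (hn 0)).sub ((ha 0).mul (hn 2))
    · exact ((ha 0).mul (hn 1)).sub ((ha 1).mul (hn 0))
  have hc : DifferentiableAt ℝ (fun v => ‖a v‖⁻¹ • cr (a v) (n v)) u := hna.smul hcr
  have h1 : HasFDerivAt (fun v => (H (toC v)).re • n v)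
      ((H (toC u)).re • fderiv ℝ n u + (Complex.reCLM.comp Q).smulRight (n u)) u :=
    hre.smul hn.hasFDerivAt
  have h2 : HasFDerivAt (fun v => (H (toC v)).im • (‖a v‖⁻¹ • cr (a v) (n v)))
      ((H (toC u)).im • fderiv ℝ (fun v => ‖a v‖⁻¹ • cr (a v) (n v)) u
        + (Complex.imCLM.comp Q).smulRight (‖a u‖⁻¹ • cr (a u) (n u))) u :=
    him.smul hc.hasFDerivAt
  have h3 := h1.add h2
  have h4 : (fun v => act (a v) (H (toC v)) (n v)) = ((fun v => (H (toC v)).re • n v)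
      + fun v => (H (toC v)).im • (‖a v‖⁻¹ • cr (a v) (n v))) := by
    funext v
    simp only [act, smul_smul, div_eq_mul_inv, Pi.add_apply]
  rw [h4, h3.fderiv]
  simp [hz, act, smul_smul, div_eq_mul_inv, hQ]

end Crest.Agent.R216.D
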