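import Crest.Agent.R216.D4Coord
import Crest.Agent.R216.D4Planar
import Crest.Agent.R216.D4MatA
import Crest.Agent.R216.D0
import Crest.Agent.R216.D4Lift
import Crest.Agent.R216.DDefs

-- ▼ part R216/D4Glue
section

/-! Row 216 (D), module D4: gluing a modified coordinate function (owner: helper505). -/

set_option autoImplicit false
open scoped Manifold ContDiff Topology
open Set Metric Function

namespace Crest.Agent.R216.D

lemma toC_mem {u : E2} {r : ℝ} (hu : u ∈ ball (0 : E2) r) : toC u ∈ ball (0 : ℂ) r := by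
  rw [mem_ball_zero_iff] at hu ⊢
  rwa [LinearIsometryEquiv.norm_map]

lemma det_comp (a b n : E2 → E3) {H : ℂ → ℂ} {u : E2} (ha : DifferentiableAt ℝ a u)
    (ha0 : a u ≠ 0) (hn : DifferentiableAt ℝ n u) (han : inner ℝ (a u) (n u) = 0)
    (hH : DifferentiableAt ℝ H (toC u)) (hz : H (toC u) = 0)
    (hb : b =ᶠ[𝓝 u] fun v => act (a v) (H (toC v)) (n v)) :
    sgnAt a b u = (fderiv ℝ H (toC u)).det * (‖a u‖ * ‖n u‖ ^ 2) := by
  unfold sgnAt
  rw [fderiv_act ha ha0 hn hH hz hb, fderiv_act ha ha0 hn hH hz hb, inner_cr_act _ _ _ _ han ha0,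
    det_eq', toC_u1, toC_u2]

lemma inj_comp (a b n : E2 → E3) {H : ℂ → ℂ} {u : E2} (ha : DifferentiableAt ℝ a u)
    (ha0 : a u ≠ 0) (hn : DifferentiableAt ℝ n u) (han : inner ℝ (a u) (n u) = 0)
    (hn0 : n u ≠ 0)
    (hH : DifferentiableAt ℝ H (toC u)) (hz : H (toC u) = 0)
    (hb : b =ᶠ[𝓝 u] fun v => act (a v) (H (toC v)) (n v)) :
    Injective (fderiv ℝ b u) ↔ (fderiv ℝ H (toC u)).det ≠ 0 := by
  rw [← injective_iff_det]
  constructor
  · intro hi
    refine (injective_iff_map_eq_zero _).2 fun w hw => ?_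
    have h1 : fderiv ℝ b u (toC.symm w) = 0 := by
      rw [fderiv_act ha ha0 hn hH hz hb, LinearIsometryEquiv.apply_symm_apply, hw, act_zero]
    have h2 := (injective_iff_map_eq_zero _).1 hi _ h1
    rwa [LinearIsometryEquiv.map_eq_zero_iff] at h2
  · intro hi
    refine (injective_iff_map_eq_zero _).2 fun δ hδ => ?_
    rw [fderiv_act ha ha0 hn hH hz hb, act_eq_zero_iff han ha0 hn0] at hδ
    have h2 := (injective_iff_map_eq_zero _).1 hi _ hδ
    rwa [LinearIsometryEquiv.map_eq_zero_iff] at h2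

section
variable {T : Set E2} {a b n : E2 → E3}

lemma coord_near (hball : closedBall (0 : E2) 10 ⊆ T) (h : Sec T a b)
    (han : ∀ u ∈ ball (0 : E2) 10, inner ℝ (a u) (n u) = 0)
    (hn0 : ∀ u ∈ ball (0 : E2) 9, n u ≠ 0) {u : E2} (hu : u ∈ ball (0 : E2) 9) :
    act (a u) (coord a b n (toC u)) (n u) = b u := by
  have hu10 : u ∈ ball (0 : E2) 10 := ball_subset_ball (by norm_num) hu
  have huT : u ∈ T := hball (ball_subset_closedBall hu10)
  have := act_coord (a := a) (b := b) (n := n) (w := toC u)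
  rw [LinearIsometryEquiv.symm_apply_apply] at this
  exact this (h.hab u huT) (han u hu10) (h.ha0 u huT) (hn0 u hu)

lemma coord_smooth (hball : closedBall (0 : E2) 10 ⊆ T) (h : Sec T a b)
    (hn : ContDiffOn ℝ ∞ n (ball 0 10)) (hn0 : ∀ u ∈ ball (0 : E2) 9, n u ≠ 0) :
    ContDiffOn ℝ ∞ (coord a b n) (ball 0 9) := by
  have hs : ball (0 : E2) 9 ⊆ ball 0 10 := ball_subset_ball (by norm_num)
  have hsT : ball (0 : E2) 9 ⊆ T := fun u hu => hball (ball_subset_closedBall (hs hu))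
  exact contDiffOn_coord (h.ha.mono hsT) (h.hb.mono hsT) (hn.mono hs)
    (fun u hu => h.ha0 u (hsT hu)) hn0

lemma coord_zero_iff (hball : closedBall (0 : E2) 10 ⊆ T) (h : Sec T a b)
    (han : ∀ u ∈ ball (0 : E2) 10, inner ℝ (a u) (n u) = 0)
    (hn0 : ∀ u ∈ ball (0 : E2) 9, n u ≠ 0) {u : E2} (hu : u ∈ ball (0 : E2) 9) :
    coord a b n (toC u) = 0 ↔ b u = 0 := by
  have hu10 : u ∈ ball (0 : E2) 10 := ball_subset_ball (by norm_num) hu
  have huT : u ∈ T := hball (ball_subset_closedBall hu10)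
  rw [← coord_near hball h han hn0 hu, act_eq_zero_iff (han u hu10) (h.ha0 u huT) (hn0 u hu)]

/-- data at a point of the disc -/
lemma coord_data (hT : IsOpen T) (hball : closedBall (0 : E2) 10 ⊆ T) (h : Sec T a b)
    (hn : ContDiffOn ℝ ∞ n (ball 0 10))
    (han : ∀ u ∈ ball (0 : E2) 10, inner ℝ (a u) (n u) = 0)
    (hn0 : ∀ u ∈ ball (0 : E2) 9, n u ≠ 0) {u : E2} (hu : u ∈ ball (0 : E2) 9) (hbu : b u = 0) :
    sgnAt a b u = (fderiv ℝ (coord a b n) (toC u)).det * (‖a u‖ * ‖n u‖ ^ 2) ∧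
      (fderiv ℝ (coord a b n) (toC u)).det ≠ 0 := by
  have hu10 : u ∈ ball (0 : E2) 10 := ball_subset_ball (by norm_num) hu
  have huT : u ∈ T := hball (ball_subset_closedBall hu10)
  have hda : DifferentiableAt ℝ a u :=
    ((h.ha u huT).contDiffAt (hT.mem_nhds huT)).differentiableAt (by simp)
  have hdn : DifferentiableAt ℝ n u :=
    ((hn u hu10).contDiffAt (isOpen_ball.mem_nhds hu10)).differentiableAt (by simp)
  have hdc : DifferentiableAt ℝ (coord a b n) (toC u) :=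
    ((coord_smooth hball h hn hn0 _ (toC_mem hu)).contDiffAt
      (isOpen_ball.mem_nhds (toC_mem hu))).differentiableAt (by simp)
  have hz : coord a b n (toC u) = 0 := (coord_zero_iff hball h han hn0 hu).2 hbu
  have hev : b =ᶠ[𝓝 u] fun v => act (a v) (coord a b n (toC v)) (n v) := by
    filter_upwards [isOpen_ball.mem_nhds hu] with v hv
    exact (coord_near hball h han hn0 hv).symm
  exact ⟨det_comp a b n hda (h.ha0 u huT) hdn (han u hu10) hdc hz hev,
    (inj_comp a b n hda (h.ha0 u huT) hdn (han u hu10) (hn0 u hu) hdc hz hev).1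
      (h.simple u huT hbu)⟩

/-- replace the coordinate function inside the disc -/
theorem sec_glue (hT : IsOpen T) (hball : closedBall (0 : E2) 10 ⊆ T) (h : Sec T a b)
    (hn : ContDiffOn ℝ ∞ n (ball 0 10))
    (han : ∀ u ∈ ball (0 : E2) 10, inner ℝ (a u) (n u) = 0)
    (hn0 : ∀ u ∈ ball (0 : E2) 9, n u ≠ 0) {H' : ℂ → ℂ} (hH' : ContDiffOn ℝ ∞ H' (ball 0 9))
    (hfar : ∀ w, 3 * 9 / 4 ≤ ‖w‖ → H' w = coord a b n w)
    (hdet : ∀ w ∈ ball (0 : ℂ) 9, H' w = 0 → (fderiv ℝ H' w).det ≠ 0) :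
    ∃ b' : E2 → E3, Sec T a b' ∧ (∀ u, 9 ≤ ‖u‖ → b' u = b u) ∧
      ∀ u ∈ ball (0 : E2) 9, b' u = 0 ↔ H' (toC u) = 0 := by
  classical
  set b' : E2 → E3 := fun u => if ‖u‖ < 9 then act (a u) (H' (toC u)) (n u) else b u with hb'
  have hs : ball (0 : E2) 9 ⊆ ball 0 10 := ball_subset_ball (by norm_num)
  have hsT : ball (0 : E2) 9 ⊆ T := fun u hu => hball (ball_subset_closedBall (hs hu))
  have near : ∀ u ∈ ball (0 : E2) 9, b' =ᶠ[𝓝 u] fun v => act (a v) (H' (toC v)) (n v) := by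
    intro u hu
    filter_upwards [isOpen_ball.mem_nhds hu] with v hv
    simp only [hb']
    rw [if_pos (by simpa using hv)]
  have far' : ∀ u : E2, 3 * 9 / 4 < ‖u‖ → b' u = b u := by
    intro u hu
    simp only [hb']
    split_ifs with h9
    · rw [hfar _ (by rw [LinearIsometryEquiv.norm_map]; exact hu.le)]
      exact coord_near hball h han hn0 (by simpa using h9)
    · rfl
  have far : ∀ u : E2, 3 * 9 / 4 < ‖u‖ → b' =ᶠ[𝓝 u] b := by
    intro u hu
    have : {v : E2 | 3 * 9 / 4 < ‖v‖} ∈ 𝓝 u :=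
      (isOpen_lt continuous_const continuous_norm).mem_nhds hu
    filter_upwards [this] with v hv
    exact far' v hv
  have hb'9 : ∀ u ∈ ball (0 : E2) 9, b' u = act (a u) (H' (toC u)) (n u) := by
    intro u hu
    exact (near u hu).self_of_nhds
  have hact : ContDiffOn ℝ ∞ (fun v => act (a v) (H' (toC v)) (n v)) (ball 0 9) := by
    refine contDiffOn_act (h.ha.mono hsT) (fun u hu => h.ha0 u (hsT hu)) ?_ (hn.mono hs)
    exact hH'.comp toC.toContinuousLinearEquiv.contDiff.contDiffOn fun u hu => toC_mem hu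
  refine ⟨b', ⟨h.ha, h.ha0, ?_, ?_, ?_⟩, ?_, ?_⟩
  · intro u hu
    apply ContDiffAt.contDiffWithinAt
    rcases lt_or_ge ‖u‖ 9 with h9 | h9
    · have hu9 : u ∈ ball (0 : E2) 9 := by simpa using h9
      exact ((hact u hu9).contDiffAt (isOpen_ball.mem_nhds hu9)).congr_of_eventuallyEq (near u hu9)
    · exact ((h.hb u hu).contDiffAt (hT.mem_nhds hu)).congr_of_eventuallyEq
        (far u (by linarith))
  · intro u hu
    rcases lt_or_ge ‖u‖ 9 with h9 | h9
    · have hu9 : u ∈ ball (0 : E2) 9 := by simpa using h9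
      rw [hb'9 u hu9]
      exact inner_act _ _ _ (han u (hs hu9))
    · rw [far' u (by linarith)]; exact h.hab u hu
  · intro u hu h0
    rcases lt_or_ge ‖u‖ 9 with h9 | h9
    · have hu9 : u ∈ ball (0 : E2) 9 := by simpa using h9
      have hz : H' (toC u) = 0 := by
        rw [hb'9 u hu9] at h0
        exact (act_eq_zero_iff (han u (hs hu9)) (h.ha0 u hu) (hn0 u hu9)).1 h0
      have hda : DifferentiableAt ℝ a u :=
        ((h.ha u hu).contDiffAt (hT.mem_nhds hu)).differentiableAt (by simp)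
      have hdn : DifferentiableAt ℝ n u :=
        ((hn u (hs hu9)).contDiffAt (isOpen_ball.mem_nhds (hs hu9))).differentiableAt (by simp)
      have hdc : DifferentiableAt ℝ H' (toC u) :=
        ((hH' _ (toC_mem hu9)).contDiffAt
          (isOpen_ball.mem_nhds (toC_mem hu9))).differentiableAt (by simp)
      exact (inj_comp a b' n hda (h.ha0 u hu) hdn (han u (hs hu9)) (hn0 u hu9) hdc hz
        (near u hu9)).2 (hdet _ (toC_mem hu9) hz)
    · rw [(far u (by linarith)).fderiv_eq]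
      exact h.simple u hu (by rw [← far' u (by linarith)]; exact h0)
  · intro u hu
    exact far' u (by linarith)
  · intro u hu
    rw [hb'9 u hu, act_eq_zero_iff (han u (hs hu)) (h.ha0 u (hsT hu)) (hn0 u hu)]

end

end Crest.Agent.R216.D
end

-- ▼ part R216/D4Move
section

/-!
# Row 216, part (D), planar moving of zeros (owner: helper505)
-/

set_option autoImplicit false

open Metric Set
open scoped ContDiff ComplexConjugate Topology

namespace Crest.Agent.R216.D4

lemma det_id_mul (q : ℂ) (L' : ℂ →L[ℝ] ℂ) (h : ∀ w, L' w = q * w) :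
    L'.det = ‖q‖ ^ 2 := by
  have := det_mul q (ContinuousLinearMap.id ℝ ℂ) L' (by simpa using h)
  rw [this]
  have h0 : (ContinuousLinearMap.id ℝ ℂ).det = LinearMap.det (LinearMap.id : ℂ →ₗ[ℝ] ℂ) := rfl
  rw [h0, LinearMap.det_id, mul_one]

theorem move_zero_pos {h : ℂ → ℂ} {R : ℝ} (hR : 0 < R) (hh : ContDiffOn ℝ ∞ h (ball 0 R))
    {z1 z2 : ℂ} (hz1 : ‖z1‖ < R / 8) (hz2 : ‖z2‖ < R / 8) (h1 : h z1 = 0)
    (hd1 : 0 < (fderiv ℝ h z1).det) (h2 : h z2 ≠ 0) :
    ∃ h' : ℂ → ℂ, ContDiffOn ℝ ∞ h' (ball 0 R) ∧ (∀ z, 3 * R / 4 ≤ ‖z‖ → h' z = h z) ∧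
      (∀ z ∈ ball (0 : ℂ) R, h' z = 0 ↔ (h z = 0 ∧ z ≠ z1) ∨ z = z2) ∧
      (∀ z ∈ ball (0 : ℂ) R, h' z = 0 → z ≠ z2 → ∃ c > 0,
        (fderiv ℝ h' z).det = c * (fderiv ℝ h z).det) ∧ (fderiv ℝ h' z2).det ≠ 0 := by
  have hne : z1 ≠ z2 := by rintro rfl; exact h2 h1
  have hd : 0 < dist z1 z2 := dist_pos.mpr hne
  set ε : ℝ := min (R / 2) (dist z1 z2) with hε
  have hεpos : 0 < ε := by positivity
  have hsub1 : ball z1 ε ⊆ ball 0 R := by
    intro z hz
    rw [mem_ball, dist_zero_right]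
    have h3 : dist z z1 < R / 2 := lt_of_lt_of_le hz (min_le_left _ _)
    have h4 : ‖z‖ ≤ ‖z - z1‖ + ‖z1‖ := by
      calc ‖z‖ = ‖(z - z1) + z1‖ := by ring_nf
        _ ≤ _ := norm_add_le _ _
    rw [dist_eq_norm] at h3; linarith
  obtain ⟨g, c1, δ1, hc1, hδ1, hδ1ε, hg, hgeq, hgne, δ1', hδ1', hgn⟩ :=
    normalise hεpos (hh.mono hsub1) h1 hd1.ne'
  classical
  set f1 : ℂ → ℂ := fun z => if dist z z1 < ε then g z else h z with hf1
  have hf1eq : ∀ z, δ1 ≤ dist z z1 → f1 z = h z := by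
    intro z hz
    simp only [hf1]
    split_ifs with hzz
    · exact hgeq z hz
    · rfl
  have hf1near : ∀ z, dist z z1 < ε → f1 =ᶠ[𝓝 z] g := by
    intro z hz
    have : ball z1 ε ∈ 𝓝 z := isOpen_ball.mem_nhds hz
    filter_upwards [this] with y hy
    simp only [hf1]; rw [if_pos (mem_ball.1 hy)]
  have hf1far : ∀ z, δ1 < dist z z1 → f1 =ᶠ[𝓝 z] h := by
    intro z hz
    have : {y : ℂ | δ1 < dist y z1} ∈ 𝓝 z :=
      (isOpen_lt continuous_const (continuous_id.dist continuous_const)).mem_nhds hz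
    filter_upwards [this] with y hy
    exact hf1eq y hy.le
  have hhAt : ∀ z ∈ ball (0 : ℂ) R, ContDiffAt ℝ ∞ h z := fun z hz =>
    (hh z hz).contDiffAt (isOpen_ball.mem_nhds hz)
  have hf1At : ∀ z ∈ ball (0 : ℂ) R, ContDiffAt ℝ ∞ f1 z := by
    intro z hz
    rcases lt_or_ge (dist z z1) ε with hlt | hge
    · exact ((hg z hlt).contDiffAt (isOpen_ball.mem_nhds hlt)).congr_of_eventuallyEq
        (hf1near z hlt)
    · exact (hhAt z hz).congr_of_eventuallyEq (hf1far z (lt_of_lt_of_le hδ1ε hge))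
  have hf1zero : ∀ z, f1 z = 0 ↔ h z = 0 := by
    intro z
    rcases lt_or_ge δ1 (dist z z1) with hlt | hge
    · rw [hf1eq z hlt.le]
    · by_cases hzz : z = z1
      · subst hzz
        constructor
        · intro _; exact h1
        · intro _
          simp only [hf1]; rw [if_pos (by simpa using hεpos)]
          rw [hgn _ (by simpa using hδ1')]
          simp [hd1]
      · have := hgne z hge hzz
        constructor
        · intro h00
          simp only [hf1] at h00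
          rw [if_pos (lt_of_le_of_lt hge hδ1ε)] at h00
          exact absurd h00 this.1
        · intro h00; exact absurd h00 this.2
  have hn1 : ∀ᶠ z in 𝓝 z1, f1 z = c1 * (z - z1) := by
    have e2 := hf1near z1 (by simpa using hεpos)
    have e3 : ball z1 δ1' ∈ 𝓝 z1 := ball_mem_nhds _ hδ1'
    filter_upwards [e2, e3] with z b c
    rw [b, hgn z c, if_pos hd1]
  obtain ⟨χ, hχs, hχ01, hχ1, hχ0⟩ := exists_cutoff 0 (r := R / 2) (r' := 3 * R / 4)
    (by positivity) (by linarith)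
  have hχc : ContDiff ℝ ∞ fun z => ((χ z : ℝ) : ℂ) := Complex.ofRealCLM.contDiff.comp hχs
  set σ : ℂ → ℂ := fun z => z - z1 with hσ
  set τ : ℂ → ℂ := fun z => (z - z1) + (χ z : ℂ) * (z1 - z2) with hτ
  have hσs : ContDiff ℝ ∞ σ := contDiff_sub_const z1
  have hτs : ContDiff ℝ ∞ τ := (contDiff_sub_const z1).add (hχc.mul contDiff_const)
  have hR2 : ∀ z : ℂ, ‖z‖ < R / 8 → dist z 0 ≤ R / 2 := by
    intro z hz; rw [dist_zero_right]; linarith
  have hτ1 : ∀ z, dist z 0 ≤ R / 2 → τ z = z - z2 := by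
    intro z hz
    simp only [hτ, hχ1 z hz]; push_cast; ring
  have hτzero : ∀ z, τ z = 0 ↔ z = z2 := by
    intro z
    rcases le_or_gt (dist z 0) (R / 2) with hle | hgt
    · rw [hτ1 z hle, sub_eq_zero]
    · rw [dist_zero_right] at hgt
      constructor
      · intro h00
        exfalso
        have e1 : z - z1 = -((χ z : ℂ) * (z1 - z2)) := by
          simp only [hτ] at h00
          linear_combination h00
        have e2 : ‖z - z1‖ ≤ ‖z1 - z2‖ := by
          rw [e1, norm_neg, norm_mul, Complex.norm_real, Real.norm_of_nonneg (hχ01 z).1]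
          calc χ z * ‖z1 - z2‖ ≤ 1 * ‖z1 - z2‖ := by gcongr; exact (hχ01 z).2
            _ = _ := one_mul _
        have e3 : ‖z‖ - ‖z1‖ ≤ ‖z - z1‖ := norm_sub_norm_le _ _
        have e4 : ‖z1 - z2‖ ≤ ‖z1‖ + ‖z2‖ := norm_sub_le _ _
        linarith
      · rintro rfl
        linarith
  have hσne : ∀ z, z ≠ z1 → σ z ≠ 0 := fun z h3 => sub_ne_zero.mpr h3
  set F : ℂ → ℂ := fun z => if z = z1 then c1 * τ z else f1 z * τ z / σ z with hF
  have hF1 : ∀ᶠ z in 𝓝 z1, F z = c1 * τ z := by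
    filter_upwards [hn1] with z a
    simp only [hF]
    by_cases hz : z = z1
    · rw [if_pos hz]
    · rw [if_neg hz, a]
      have hz' : z - z1 ≠ 0 := sub_ne_zero.mpr hz
      simp only [hσ]
      field_simp
  have hF3 : ∀ z, z ≠ z1 → ∀ᶠ y in 𝓝 z, F y = f1 y * τ y / σ y := by
    intro z h3
    filter_upwards [isOpen_ne.mem_nhds h3] with y a
    simp only [hF]; rw [if_neg a]
  refine ⟨F, ?_, ?_, ?_, ?_, ?_⟩
  · intro z hz
    apply ContDiffAt.contDiffWithinAt
    by_cases e1 : z = z1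
    · subst e1
      exact ContDiffAt.congr_of_eventuallyEq (contDiffAt_const.mul hτs.contDiffAt) hF1
    · refine ContDiffAt.congr_of_eventuallyEq ?_ (hF3 z e1)
      exact contDiffAt_div_real ((hf1At z hz).mul hτs.contDiffAt) hσs.contDiffAt (hσne z e1)
  · intro z hz
    have hz1' : z ≠ z1 := by rintro rfl; linarith
    have hχz : χ z = 0 := hχ0 z (by rw [dist_zero_right]; exact hz)
    have hτz : τ z = σ z := by simp only [hτ, hσ, hχz]; push_cast; ring
    simp only [hF]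
    rw [if_neg hz1', hτz, mul_div_assoc, div_self (hσne z hz1'), mul_one]
    have hd1' : δ1 ≤ dist z z1 := by
      have a1 : dist z z1 ≥ ‖z‖ - ‖z1‖ := by
        rw [dist_eq_norm]; exact norm_sub_norm_le _ _
      have a2 : ε ≤ R / 2 := min_le_left _ _
      linarith
    rw [hf1eq z hd1']
  · intro z hz
    by_cases e1 : z = z1
    · subst e1
      have hv : F z ≠ 0 := by
        rw [hF1.self_of_nhds]
        exact mul_ne_zero hc1 fun h0 => hne ((hτzero _).1 h0)
      simp [hv, hne]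
    · have hv : F z = f1 z * τ z / σ z := (hF3 z e1).self_of_nhds
      rw [hv, div_eq_zero_iff, mul_eq_zero, hf1zero, hτzero]
      constructor
      · rintro ((h00 | h00) | h00)
        · exact Or.inl ⟨h00, e1⟩
        · exact Or.inr h00
        · exact absurd h00 (hσne z e1)
      · rintro (⟨h00, _⟩ | h00)
        · exact Or.inl (Or.inl h00)
        · exact Or.inl (Or.inr h00)
  · intro z hz hFz e2
    have e1 : z ≠ z1 := by
      rintro rfl
      rw [hF1.self_of_nhds] at hFz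
      exact absurd hFz (mul_ne_zero hc1 fun h0 => hne ((hτzero _).1 h0))
    have hv : F z = f1 z * τ z / σ z := (hF3 z e1).self_of_nhds
    have hf1z : f1 z = 0 := by
      rw [hv, div_eq_zero_iff, mul_eq_zero] at hFz
      rcases hFz with (h00 | h00) | h00
      · exact h00
      · exact absurd ((hτzero z).1 h00) e2
      · exact absurd h00 (hσne z e1)
    have hhz : h z = 0 := (hf1zero z).1 hf1z
    have far1 : δ1 < dist z z1 := by
      by_contra hcon; push Not at hcon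
      exact (hgne z hcon e1).2 hhz
    have hev : F =ᶠ[𝓝 z] fun y => (τ y / σ y) * h y := by
      filter_upwards [hF3 z e1, hf1far z far1] with y a c
      rw [a, c]; ring
    have hq : ContDiffAt ℝ ∞ (fun y => τ y / σ y) z :=
      contDiffAt_div_real hτs.contDiffAt hσs.contDiffAt (hσne z e1)
    have hqd : HasFDerivAt (fun y => τ y / σ y) (fderiv ℝ (fun y => τ y / σ y) z) z :=
      (hq.differentiableAt (by simp)).hasFDerivAt
    have hhd : HasFDerivAt h (fderiv ℝ h z) z :=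
      ((hhAt z hz).differentiableAt (by simp)).hasFDerivAt
    have hprod : HasFDerivAt (fun y => τ y / σ y * h y)
        ((τ z / σ z) • (fderiv ℝ h z) + h z • (fderiv ℝ (fun y => τ y / σ y) z)) z := by
      have := hqd.mul hhd
      exact this
    refine ⟨‖τ z / σ z‖ ^ 2, ?_, ?_⟩
    · have : τ z / σ z ≠ 0 := div_ne_zero (fun h0 => e2 ((hτzero z).1 h0)) (hσne z e1)
      positivity
    · apply det_mul
      intro w
      rw [hev.fderiv_eq, hprod.fderiv]
      simp [hhz]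
  · -- the new zero
    have hz2R : z2 ∈ ball (0 : ℂ) R := by
      rw [mem_ball_zero_iff]; linarith
    have hev : F =ᶠ[𝓝 z2] fun y => (f1 y / σ y) * (y - z2) := by
      have : {y : ℂ | dist y 0 < R / 2} ∈ 𝓝 z2 :=
        (isOpen_lt (continuous_id.dist continuous_const) continuous_const).mem_nhds (by
          simp only [mem_ofPred_eq, id, dist_zero_right]; linarith)
      filter_upwards [hF3 z2 hne.symm, this] with y a b
      rw [a, hτ1 y (le_of_lt b)]; ring
    have hq : ContDiffAt ℝ ∞ (fun y => f1 y / σ y) z2 :=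
      contDiffAt_div_real (hf1At z2 hz2R) hσs.contDiffAt (hσne z2 hne.symm)
    have hqd : HasFDerivAt (fun y => f1 y / σ y) (fderiv ℝ (fun y => f1 y / σ y) z2) z2 :=
      (hq.differentiableAt (by simp)).hasFDerivAt
    have hid : HasFDerivAt (fun y : ℂ => y - z2) (ContinuousLinearMap.id ℝ ℂ) z2 :=
      (hasFDerivAt_id z2).sub_const z2
    have hprod : HasFDerivAt (fun y => f1 y / σ y * (y - z2))
        ((f1 z2 / σ z2) • (ContinuousLinearMap.id ℝ ℂ)
          + (z2 - z2) • (fderiv ℝ (fun y => f1 y / σ y) z2)) z2 := by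
      have := hqd.mul hid
      exact this
    have hq0 : f1 z2 / σ z2 ≠ 0 :=
      div_ne_zero (fun h0 => h2 ((hf1zero z2).1 h0)) (hσne z2 hne.symm)
    rw [det_id_mul (f1 z2 / σ z2) _ (by
      intro w
      rw [hev.fderiv_eq, hprod.fderiv]
      simp)]
    positivity

lemma det_conj (L : ℂ →L[ℝ] ℂ) :
    ((Complex.conjCLE : ℂ →L[ℝ] ℂ).comp L).det = - L.det := by
  rw [det_eq, det_eq]
  have c2 : conj (2 : ℂ) = 2 := map_ofNat _ 2
  have e : ∀ w, ((Complex.conjCLE : ℂ →L[ℝ] ℂ).comp L) w = conj (L w) := fun w => rfl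
  have h1 : cl ((Complex.conjCLE : ℂ →L[ℝ] ℂ).comp L) = conj (ca L) := by
    simp only [cl, ca, e, map_div₀, map_add, map_mul, Complex.conj_I, c2]
    ring
  have h2 : ca ((Complex.conjCLE : ℂ →L[ℝ] ℂ).comp L) = conj (cl L) := by
    simp only [cl, ca, e, map_div₀, map_sub, map_mul, Complex.conj_I, c2]
    ring
  rw [h1, h2, RCLike.norm_conj, RCLike.norm_conj]; ring

theorem move_zero {h : ℂ → ℂ} {R : ℝ} (hR : 0 < R) (hh : ContDiffOn ℝ ∞ h (ball 0 R))
    {z1 z2 : ℂ} (hz1 : ‖z1‖ < R / 8) (hz2 : ‖z2‖ < R / 8) (h1 : h z1 = 0)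
    (hd1 : (fderiv ℝ h z1).det ≠ 0) (h2 : h z2 ≠ 0) :
    ∃ h' : ℂ → ℂ, ContDiffOn ℝ ∞ h' (ball 0 R) ∧ (∀ z, 3 * R / 4 ≤ ‖z‖ → h' z = h z) ∧
      (∀ z ∈ ball (0 : ℂ) R, h' z = 0 ↔ (h z = 0 ∧ z ≠ z1) ∨ z = z2) ∧
      (∀ z ∈ ball (0 : ℂ) R, h' z = 0 → z ≠ z2 → ∃ c > 0,
        (fderiv ℝ h' z).det = c * (fderiv ℝ h z).det) ∧ (fderiv ℝ h' z2).det ≠ 0 := by
  rcases lt_or_gt_of_ne hd1 with hneg | hpos
  · have hconj : ContDiff ℝ ∞ (Complex.conjCLE : ℂ → ℂ) := Complex.conjCLE.contDiff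
    have hz1R : z1 ∈ ball (0 : ℂ) R := by rw [mem_ball_zero_iff]; linarith
    have hz2R : z2 ∈ ball (0 : ℂ) R := by rw [mem_ball_zero_iff]; linarith
    have fd : ∀ (k : ℂ → ℂ) (z : ℂ), fderiv ℝ (fun y => Complex.conjCLE (k y)) z
        = (Complex.conjCLE : ℂ →L[ℝ] ℂ).comp (fderiv ℝ k z) := fun k z =>
      Complex.conjCLE.comp_fderiv
    obtain ⟨k, hk1, hk2, hk3, hk4, hk5⟩ := move_zero_pos (h := fun y => Complex.conjCLE (h y)) hR
      (hconj.comp_contDiffOn hh) hz1 hz2 (by simp [h1]) (by rw [fd, det_conj]; linarith)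
      (by simpa using h2)
    refine ⟨fun y => Complex.conjCLE (k y), hconj.comp_contDiffOn hk1, ?_, ?_, ?_, ?_⟩
    · intro z hz
      simp only [hk2 z hz]
      simp
    · intro z hz
      have := hk3 z hz
      simpa using this
    · intro z hz h0 hne
      have h0' : k z = 0 := by simpa using h0
      obtain ⟨c, hc, hcd⟩ := hk4 z hz h0' hne
      refine ⟨c, hc, ?_⟩
      rw [fd, det_conj, hcd, fd, det_conj]; ring
    · rw [fd, det_conj]
      exact neg_ne_zero.mpr hk5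
  · exact move_zero_pos hR hh hz1 hz2 h1 hpos h2

end Crest.Agent.R216.D4
end

-- ▼ part R216/D4Sec
section

/-! Row 216 (D), module D4Sec: moving and cancelling zeros of sections of `a^⊥`
over a disc (owner: helper505).  FROZEN statements `sec_jump`, `sec_cancel`.

Proof: trivialise `a^⊥` over the disc (`D4Frame.exists_perp`), pass to the coordinate function
(`D4Coord`), apply the planar lemmas (`D4Planar.cancel_pair`, `D4Move.move_zero`), glue back
(`D4Glue.sec_glue`). -/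

set_option autoImplicit false
set_option linter.unusedVariables false
open scoped Manifold ContDiff Topology
open Set Metric Function

namespace Crest.Agent.R216.D

theorem sec_cancel {T : Set E2} (hT : IsOpen T) (hball : closedBall (0 : E2) 10 ⊆ T)
    {a b : E2 → E3} (h : Sec T a b) (hfin : {u ∈ T | b u = 0}.Finite) {z z' : E2}
    (hz : z ∈ ball (0 : E2) 1) (hz' : z' ∈ ball (0 : E2) 1) (hbz : b z = 0) (hbz' : b z' = 0)
    (hs : 0 < sgnAt a b z) (hs' : sgnAt a b z' < 0) :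
    ∃ b' : E2 → E3, Sec T a b' ∧ (∀ u, 9 ≤ ‖u‖ → b' u = b u) ∧
      ∀ u ∈ T, b' u = 0 ↔ b u = 0 ∧ u ≠ z ∧ u ≠ z' := by
  have hs10 : ball (0 : E2) 10 ⊆ T := fun u hu => hball (ball_subset_closedBall hu)
  obtain ⟨n, hn, han, hn0⟩ := exists_perp (h.ha.mono hs10) fun u hu => h.ha0 u (hs10 hu)
  have hz9 : z ∈ ball (0 : E2) 9 := ball_subset_ball (by norm_num) hz
  have hz'9 : z' ∈ ball (0 : E2) 9 := ball_subset_ball (by norm_num) hz'
  have hs9 : ball (0 : E2) 9 ⊆ T := fun u hu => hs10 (ball_subset_ball (by norm_num) hu)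
  have hpos : ∀ u ∈ ball (0 : E2) 9, 0 < ‖a u‖ * ‖n u‖ ^ 2 := by
    intro u hu
    have h1 := norm_pos_iff.mpr (h.ha0 u (hs9 hu))
    have h2 := norm_pos_iff.mpr (hn0 u hu)
    positivity
  have d1 := coord_data hT hball h hn han hn0 hz9 hbz
  have d2 := coord_data hT hball h hn han hn0 hz'9 hbz'
  have hp1 : 0 < (fderiv ℝ (coord a b n) (toC z)).det := by
    rw [d1.1] at hs
    exact (mul_pos_iff_of_pos_right (hpos z hz9)).1 hs
  have hp2 : (fderiv ℝ (coord a b n) (toC z')).det < 0 := by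
    rw [d2.1] at hs'
    by_contra hcon
    push Not at hcon
    exact absurd (mul_nonneg hcon (hpos z' hz'9).le) (not_le.mpr hs')
  have hn1 : ‖toC z‖ < 9 / 8 := by
    rw [LinearIsometryEquiv.norm_map]
    have : ‖z‖ < 1 := by simpa using hz
    linarith
  have hn2 : ‖toC z'‖ < 9 / 8 := by
    rw [LinearIsometryEquiv.norm_map]
    have : ‖z'‖ < 1 := by simpa using hz'
    linarith
  obtain ⟨H', hH', hfar, hzero, hdet⟩ := D4.cancel_pair (by norm_num : (0 : ℝ) < 9)
    (coord_smooth hball h hn hn0) hn1 hn2 ((coord_zero_iff hball h han hn0 hz9).2 hbz)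
    ((coord_zero_iff hball h han hn0 hz'9).2 hbz') hp1 hp2
  have hmemC : ∀ w ∈ ball (0 : ℂ) 9, toC.symm w ∈ ball (0 : E2) 9 := by
    intro w hw
    rw [mem_ball_zero_iff] at hw ⊢
    rwa [LinearIsometryEquiv.norm_map]
  obtain ⟨b', hb', hb'9, hb'z⟩ := sec_glue hT hball h hn han hn0 hH' hfar (by
    intro w hw h0
    obtain ⟨c, hc, hcd⟩ := hdet w hw h0
    rw [hcd]
    refine mul_ne_zero hc.ne' ?_
    have h1 := ((hzero w hw).1 h0).1
    have h2 : coord a b n (toC (toC.symm w)) = 0 := by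
      rw [LinearIsometryEquiv.apply_symm_apply]; exact h1
    have h3 := (coord_zero_iff hball h han hn0 (hmemC w hw)).1 h2
    have h4 := (coord_data hT hball h hn han hn0 (hmemC w hw) h3).2
    rwa [LinearIsometryEquiv.apply_symm_apply] at h4)
  refine ⟨b', hb', hb'9, fun u hu => ?_⟩
  rcases lt_or_ge ‖u‖ 9 with h9 | h9
  · have hu9 : u ∈ ball (0 : E2) 9 := by simpa using h9
    rw [hb'z u hu9, hzero _ (toC_mem hu9), coord_zero_iff hball h han hn0 hu9,
      toC.injective.ne_iff, toC.injective.ne_iff]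
  · rw [hb'9 u h9]
    have e1 : u ≠ z := by
      rintro rfl
      have : ‖u‖ < 9 := by simpa using hz9
      linarith
    have e2 : u ≠ z' := by
      rintro rfl
      have : ‖u‖ < 9 := by simpa using hz'9
      linarith
    simp [e1, e2]

theorem sec_jump {T : Set E2} (hT : IsOpen T) (hball : closedBall (0 : E2) 10 ⊆ T)
    {a b : E2 → E3} (h : Sec T a b) (hfin : {u ∈ T | b u = 0}.Finite) {z z'' : E2}
    (hz : z ∈ ball (0 : E2) 1) (hz'' : z'' ∈ ball (0 : E2) 1) (hbz : b z = 0) (hbz'' : b z'' ≠ 0) :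
    ∃ b' : E2 → E3, Sec T a b' ∧ (∀ u, 9 ≤ ‖u‖ → b' u = b u) ∧
      ∀ u ∈ T, b' u = 0 ↔ (b u = 0 ∧ u ≠ z) ∨ u = z'' := by
  have hs10 : ball (0 : E2) 10 ⊆ T := fun u hu => hball (ball_subset_closedBall hu)
  obtain ⟨n, hn, han, hn0⟩ := exists_perp (h.ha.mono hs10) fun u hu => h.ha0 u (hs10 hu)
  have hz9 : z ∈ ball (0 : E2) 9 := ball_subset_ball (by norm_num) hz
  have hz''9 : z'' ∈ ball (0 : E2) 9 := ball_subset_ball (by norm_num) hz''
  have d1 := coord_data hT hball h hn han hn0 hz9 hbz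
  have hn1 : ‖toC z‖ < 9 / 8 := by
    rw [LinearIsometryEquiv.norm_map]
    have : ‖z‖ < 1 := by simpa using hz
    linarith
  have hn2 : ‖toC z''‖ < 9 / 8 := by
    rw [LinearIsometryEquiv.norm_map]
    have : ‖z''‖ < 1 := by simpa using hz''
    linarith
  obtain ⟨H', hH', hfar, hzero, hdet, hdet2⟩ := D4.move_zero (by norm_num : (0 : ℝ) < 9)
    (coord_smooth hball h hn hn0) hn1 hn2 ((coord_zero_iff hball h han hn0 hz9).2 hbz) d1.2
    (fun h0 => hbz'' ((coord_zero_iff hball h han hn0 hz''9).1 h0))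
  have hmemC : ∀ w ∈ ball (0 : ℂ) 9, toC.symm w ∈ ball (0 : E2) 9 := by
    intro w hw
    rw [mem_ball_zero_iff] at hw ⊢
    rwa [LinearIsometryEquiv.norm_map]
  obtain ⟨b', hb', hb'9, hb'z⟩ := sec_glue hT hball h hn han hn0 hH' hfar (by
    intro w hw h0
    by_cases hwz : w = toC z''
    · rw [hwz]; exact hdet2
    obtain ⟨c, hc, hcd⟩ := hdet w hw h0 hwz
    rw [hcd]
    refine mul_ne_zero hc.ne' ?_
    have h1 : coord a b n w = 0 := by
      rcases (hzero w hw).1 h0 with h1 | h1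
      · exact h1.1
      · exact absurd h1 hwz
    have h2 : coord a b n (toC (toC.symm w)) = 0 := by
      rw [LinearIsometryEquiv.apply_symm_apply]; exact h1
    have h3 := (coord_zero_iff hball h han hn0 (hmemC w hw)).1 h2
    have h4 := (coord_data hT hball h hn han hn0 (hmemC w hw) h3).2
    rwa [LinearIsometryEquiv.apply_symm_apply] at h4)
  refine ⟨b', hb', hb'9, fun u hu => ?_⟩
  rcases lt_or_ge ‖u‖ 9 with h9 | h9
  · have hu9 : u ∈ ball (0 : E2) 9 := by simpa using h9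
    rw [hb'z u hu9, hzero _ (toC_mem hu9), coord_zero_iff hball h han hn0 hu9,
      toC.injective.ne_iff, toC.injective.eq_iff]
  · rw [hb'9 u h9]
    have e1 : u ≠ z := by
      rintro rfl
      have : ‖u‖ < 9 := by simpa using hz9
      linarith
    have e2 : u ≠ z'' := by
      rintro rfl
      have : ‖u‖ < 9 := by simpa using hz''9
      linarith
    simp [e1, e2]

end Crest.Agent.R216.D
end

-- ▼ part R216/D4Mat
section

/-! Row 216 (D), module D4Mat: moving and cancelling zeros of matrix fields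
`A : T → Hom(ℝ²,ℝ³)` (owner: helper359).  FROZEN statements `mat_jump`, `mat_cancel`.

Proof sketch.  Nondegenerate zeros have rank one (`A z ≠ 0`), so there is a constant unit vector `e1`
outside the finitely many kernels; `e2 ⊥ e1` unit.  General frame: `e1 u = cos η e1 + sin η e2`,
`e2 u = -sin η e1 + cos η e2`, `η` smooth with values in `π ℤ` near the zeros.
`a u = A u (e1 u) ≠ 0` on `T`, `κ = ⟪A e2, a⟫/|a|²`, `b = A e2 - κ a ⊥ a`.
For any other section `b'` of `a^⊥`: `A' u v = A u v + ⟪e2 u, v⟫ (b' u - b u)`.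
Kernel of `A'` at `u` nonzero iff `b' u = 0`; with `E u = e2 u - κ u e1 u`: `A' u (E u) = b' u`,
differentiate: `Nondeg A' u ↔ (b' u = 0 → Injective (fderiv b' u))` (use `⟪Db' δ, a⟫ = 0` at a zero).
Signs for `mat_cancel`: with constant frame, if `sgnAt a b z * sgnAt a b z' < 0` apply `sec_cancel`
(maybe with `z,z'` exchanged); if `> 0` take `η = π·bump` near `z'` (`0` near the other zeros): near `z'`
`a, b` become `-a, -b`, so `sgnAt` changes sign at `z'` only. (`sgnAt ≠ 0` at simple zeros.) -/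

set_option autoImplicit false
open scoped Manifold ContDiff Topology
open Set Metric Function

namespace Crest.Agent.R216.D

theorem fr1_ne_zero (t : ℝ) : fr1 t ≠ 0 := by
  intro h
  have := inner_fr1_fr1 t
  rw [h, inner_zero_left] at this
  exact zero_ne_one this

theorem colA_ne_zero_of_not_sing {A : E2 → E2 →L[ℝ] E3} {θ : E2 → ℝ} {u : E2}
    (h : ¬ Sing (A u)) : colA A θ u ≠ 0 :=
  fun h0 => h ⟨fr1 (θ u), fr1_ne_zero _, h0⟩

/-- common end of `mat_jump` and `mat_cancel` -/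
theorem mat_of_sec {T : Set E2} (hT : IsOpen T)
    {A : E2 → E2 →L[ℝ] E3} (hA : ContDiffOn ℝ ∞ A T) {θ : E2 → ℝ} (hθ : ContDiff ℝ ∞ θ)
    (h0 : ∀ u ∈ T, colA A θ u ≠ 0) {b' : E2 → E3} (hb' : Sec T (colA A θ) b')
    (h9 : ∀ u, 9 ≤ ‖u‖ → b' u = colB A θ u) :
    ∃ A' : E2 → E2 →L[ℝ] E3, ContDiffOn ℝ ∞ A' T ∧ (∀ u ∈ T, Nondeg A' u) ∧
      (∀ u, 9 ≤ ‖u‖ → A' u = A u) ∧ ∀ u ∈ T, Sing (A' u) ↔ b' u = 0 := by
  refine ⟨matOf A θ b', contDiffOn_matOf hA hθ h0 hb'.hb, nondeg_matOf hT hA hθ h0 hb', ?_, ?_⟩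
  · intro u hu
    ext1 v
    rw [matOf_apply, h9 u hu, sub_self, smul_zero, add_zero]
  · intro u hu
    exact sing_matOf_iff (h0 u hu) (hb'.hab u hu)

theorem mat_jump {T : Set E2} (hT : IsOpen T) (hball : closedBall (0 : E2) 10 ⊆ T)
    {A : E2 → E2 →L[ℝ] E3} (hA : ContDiffOn ℝ ∞ A T) (hN : ∀ u ∈ T, Nondeg A u)
    (hfin : {u ∈ T | Sing (A u)}.Finite) {z z'' : E2}
    (hz : z ∈ ball (0 : E2) 1) (hz'' : z'' ∈ ball (0 : E2) 1) (hAz : Sing (A z))
    (hAz'' : ¬ Sing (A z'')) :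
    ∃ A' : E2 → E2 →L[ℝ] E3, ContDiffOn ℝ ∞ A' T ∧ (∀ u ∈ T, Nondeg A' u) ∧
      (∀ u, 9 ≤ ‖u‖ → A' u = A u) ∧
      ∀ u ∈ T, Sing (A' u) ↔ (Sing (A u) ∧ u ≠ z) ∨ u = z'' := by
  have hzT : z ∈ T := hball (ball_subset_closedBall (ball_subset_ball (by norm_num) hz))
  have hz''T : z'' ∈ T := hball (ball_subset_closedBall (ball_subset_ball (by norm_num) hz''))
  obtain ⟨t, ht⟩ := exists_angle (A := A) hfin (fun u hu => (hN u hu.1).ne_zero)
  set θ : E2 → ℝ := fun _ => t with hθdef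
  have hθ : ContDiff ℝ ∞ θ := contDiff_const
  have h0 : ∀ u ∈ T, colA A θ u ≠ 0 := by
    intro u hu
    by_cases hs : Sing (A u)
    · exact ht u ⟨hu, hs⟩
    · exact colA_ne_zero_of_not_sing hs
  have hsec := sec_of_frame hT hA hN hθ h0
  have hiff : ∀ u ∈ T, Sing (A u) ↔ colB A θ u = 0 := fun u hu => sing_iff_colB (h0 u hu)
  have hfin' : {u ∈ T | colB A θ u = 0}.Finite := by
    apply hfin.subset
    rintro u ⟨hu, h⟩
    exact ⟨hu, (hiff u hu).2 h⟩
  obtain ⟨b', hb', h9, hzero⟩ := sec_jump hT hball hsec hfin' hz hz''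
    ((hiff z hzT).1 hAz) (fun h => hAz'' ((hiff z'' hz''T).2 h))
  obtain ⟨A', h1, h2, h3, h4⟩ := mat_of_sec hT hA hθ h0 hb' h9
  refine ⟨A', h1, h2, h3, fun u hu => ?_⟩
  rw [h4 u hu, hzero u hu, hiff u hu]

/-- Gram identity for a triple of vectors -/
theorem inner_cr_sq (a p q : E3) (hp : inner ℝ a p = 0) (hq : inner ℝ a q = 0) :
    (inner ℝ a (cr p q)) ^ 2
      = inner ℝ a a * (inner ℝ p p * inner ℝ q q - (inner ℝ p q) ^ 2) := by
  have e1 : inner ℝ a (cr p q) = a 0 * (p 1 * q 2 - p 2 * q 1) + a 1 * (p 2 * q 0 - p 0 * q 2)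
      + a 2 * (p 0 * q 1 - p 1 * q 0) := by
    simp [cr, PiLp.inner_apply, Fin.sum_univ_three]
    ring
  have e : ∀ x y : E3, inner ℝ x y = x 0 * y 0 + x 1 * y 1 + x 2 * y 2 := by
    intro x y
    simp [PiLp.inner_apply, Fin.sum_univ_three]
    ring
  rw [e] at hp hq
  rw [e1, e, e, e, e]
  linear_combination
    (-(a 0 * p 0 + a 1 * p 1 + a 2 * p 2) * (q 0 ^ 2 + q 1 ^ 2 + q 2 ^ 2)
      + 2 * (p 0 * q 0 + p 1 * q 1 + p 2 * q 2) * (a 0 * q 0 + a 1 * q 1 + a 2 * q 2)) * hp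
    - (a 0 * q 0 + a 1 * q 1 + a 2 * q 2) * (p 0 ^ 2 + p 1 ^ 2 + p 2 ^ 2) * hq

theorem sgnAt_ne_zero {T : Set E2} (hT : IsOpen T) {a b : E2 → E3} (h : Sec T a b) {u : E2}
    (hu : u ∈ T) (hb : b u = 0) : sgnAt a b u ≠ 0 := by
  have hn : T ∈ 𝓝 u := hT.mem_nhds hu
  have had : DifferentiableAt ℝ a u := (h.ha.contDiffAt hn).differentiableAt (by simp)
  have hbd : DifferentiableAt ℝ b u := (h.hb.contDiffAt hn).differentiableAt (by simp)
  have horth : ∀ δ, inner ℝ (a u) (fderiv ℝ b u δ) = (0 : ℝ) := by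
    intro δ
    have h5 : (fun x => inner ℝ (a x) (b x)) =ᶠ[𝓝 u] fun _ => (0 : ℝ) := by
      filter_upwards [hn] with x hx
      exact h.hab x hx
    have h6 := (had.hasFDerivAt.inner ℝ hbd.hasFDerivAt)
    have h7 := h6.unique ((h5.hasFDerivAt_iff).2 (hasFDerivAt_const (0 : ℝ) u))
    have h8 := DFunLike.congr_fun h7 δ
    simpa [hb] using h8
  set p := fderiv ℝ b u u1 with hp
  set q := fderiv ℝ b u u2 with hq
  have hinj := h.simple u hu hb
  have hu1 : (u1 : E2) ≠ 0 := by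
    intro h1
    have := inner_u1_u1
    rw [h1] at this; simp at this
  have hp0 : p ≠ 0 := by
    intro h1
    exact hu1 ((injective_iff_map_eq_zero _).1 hinj _ h1)
  have hpp : 0 < inner ℝ p p := by
    rw [real_inner_self_eq_norm_sq]
    have := norm_pos_iff.2 hp0
    positivity
  have hv : inner ℝ p p • q - inner ℝ p q • p ≠ 0 := by
    intro h1
    have h2 : fderiv ℝ b u (inner ℝ p p • u2 - inner ℝ p q • u1) = 0 := by
      rw [map_sub, map_smul, map_smul]; exact h1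
    have h3 := (injective_iff_map_eq_zero _).1 hinj _ h2
    have h4 : inner ℝ u2 (inner ℝ p p • u2 - inner ℝ p q • u1) = inner ℝ p p := by
      rw [inner_sub_right, inner_smul_right, inner_smul_right, inner_u2_u2, inner_u2_u1]
      ring
    rw [h3, inner_zero_right] at h4
    exact hpp.ne h4
  have hvv : 0 < inner ℝ (inner ℝ p p • q - inner ℝ p q • p) (inner ℝ p p • q - inner ℝ p q • p) := by
    rw [real_inner_self_eq_norm_sq]
    have := norm_pos_iff.2 hv
    positivity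
  have hvv' : inner ℝ (inner ℝ p p • q - inner ℝ p q • p) (inner ℝ p p • q - inner ℝ p q • p)
      = inner ℝ p p * (inner ℝ p p * inner ℝ q q - (inner ℝ p q) ^ 2) := by
    simp only [inner_sub_left, inner_sub_right, inner_smul_left, inner_smul_right, conj_trivial]
    rw [real_inner_comm p q]
    ring
  rw [hvv'] at hvv
  have hG : 0 < inner ℝ p p * inner ℝ q q - (inner ℝ p q) ^ 2 := by
    by_contra hcon
    push Not at hcon
    nlinarith
  have haa : 0 < inner ℝ (a u) (a u) := by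
    rw [real_inner_self_eq_norm_sq]
    have := norm_pos_iff.2 (h.ha0 u hu)
    positivity
  intro h0
  have := inner_cr_sq (a u) p q (horth _) (horth _)
  rw [sgnAt] at h0
  rw [h0] at this
  have h2 : 0 < inner ℝ (a u) (a u) * (inner ℝ p p * inner ℝ q q - (inner ℝ p q) ^ 2) :=
    mul_pos haa hG
  rw [← this] at h2
  norm_num at h2

theorem fr1_add_pi (t : ℝ) : fr1 (t + Real.pi) = - fr1 t := by
  simp only [fr1, Real.cos_add_pi, Real.sin_add_pi]
  module

theorem fr2_add_pi (t : ℝ) : fr2 (t + Real.pi) = - fr2 t := by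
  simp only [fr2, Real.cos_add_pi, Real.sin_add_pi]
  module

theorem colA_congr {A : E2 → E2 →L[ℝ] E3} {θ θ' : E2 → ℝ} {u : E2} (h : θ u = θ' u) :
    colA A θ u = colA A θ' u := by
  simp only [colA, h]

theorem colB_congr {A : E2 → E2 →L[ℝ] E3} {θ θ' : E2 → ℝ} {u : E2} (h : θ u = θ' u) :
    colB A θ u = colB A θ' u := by
  simp only [colB, kap, colA, h]

theorem colA_pi {A : E2 → E2 →L[ℝ] E3} {θ θ' : E2 → ℝ} {u : E2} (h : θ u = θ' u + Real.pi) :
    colA A θ u = - colA A θ' u := by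
  simp only [colA, h, fr1_add_pi, map_neg]

theorem colB_pi {A : E2 → E2 →L[ℝ] E3} {θ θ' : E2 → ℝ} {u : E2} (h : θ u = θ' u + Real.pi) :
    colB A θ u = - colB A θ' u := by
  simp only [colB, kap, colA, h, fr1_add_pi, fr2_add_pi, map_neg, inner_neg_neg, norm_neg,
    smul_neg]
  abel

theorem sgnAt_neg {a b : E2 → E3} {a' b' : E2 → E3} {u : E2} (ha : a' u = - a u)
    (hb : b' =ᶠ[𝓝 u] fun x => - b x) : sgnAt a' b' u = - sgnAt a b u := by
  have h1 : fderiv ℝ b' u = - fderiv ℝ b u := by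
    rw [hb.fderiv_eq]
    exact fderiv_fun_neg
  have e : ∀ p q : E3, cr (-p) (-q) = cr p q := by
    intro p q
    simp [cr]
  rw [sgnAt, sgnAt, h1, ha]
  simp only [neg_apply, e, inner_neg_left]

theorem sgnAt_congr {a b : E2 → E3} {a' b' : E2 → E3} {u : E2} (ha : a' u = a u)
    (hb : b' =ᶠ[𝓝 u] b) : sgnAt a' b' u = sgnAt a b u := by
  rw [sgnAt, sgnAt, ha, hb.fderiv_eq]

/-- cancelling when the signs are opposite in some frame -/
theorem mat_cancel_aux {T : Set E2} (hT : IsOpen T) (hball : closedBall (0 : E2) 10 ⊆ T)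
    {A : E2 → E2 →L[ℝ] E3} (hA : ContDiffOn ℝ ∞ A T) (hN : ∀ u ∈ T, Nondeg A u)
    (hfin : {u ∈ T | Sing (A u)}.Finite) {z z' : E2}
    (hz : z ∈ ball (0 : E2) 1) (hz' : z' ∈ ball (0 : E2) 1) (hAz : Sing (A z))
    (hAz' : Sing (A z')) {θ : E2 → ℝ} (hθ : ContDiff ℝ ∞ θ)
    (h0 : ∀ u ∈ T, colA A θ u ≠ 0)
    (hs : sgnAt (colA A θ) (colB A θ) z * sgnAt (colA A θ) (colB A θ) z' < 0) :
    ∃ A' : E2 → E2 →L[ℝ] E3, ContDiffOn ℝ ∞ A' T ∧ (∀ u ∈ T, Nondeg A' u) ∧
      (∀ u, 9 ≤ ‖u‖ → A' u = A u) ∧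
      ∀ u ∈ T, Sing (A' u) ↔ Sing (A u) ∧ u ≠ z ∧ u ≠ z' := by
  have hzT : z ∈ T := hball (ball_subset_closedBall (ball_subset_ball (by norm_num) hz))
  have hz'T : z' ∈ T := hball (ball_subset_closedBall (ball_subset_ball (by norm_num) hz'))
  have hsec := sec_of_frame hT hA hN hθ h0
  have hiff : ∀ u ∈ T, Sing (A u) ↔ colB A θ u = 0 := fun u hu => sing_iff_colB (h0 u hu)
  have hfin' : {u ∈ T | colB A θ u = 0}.Finite := by
    apply hfin.subset
    rintro u ⟨hu, h⟩
    exact ⟨hu, (hiff u hu).2 h⟩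
  rcases mul_neg_iff.1 hs with ⟨hp, hm⟩ | ⟨hm, hp⟩
  · obtain ⟨b', hb', h9, hzero⟩ := sec_cancel hT hball hsec hfin' hz hz'
      ((hiff z hzT).1 hAz) ((hiff z' hz'T).1 hAz') hp hm
    obtain ⟨A', h1, h2, h3, h4⟩ := mat_of_sec hT hA hθ h0 hb' h9
    refine ⟨A', h1, h2, h3, fun u hu => ?_⟩
    rw [h4 u hu, hzero u hu, hiff u hu]
  · obtain ⟨b', hb', h9, hzero⟩ := sec_cancel hT hball hsec hfin' hz' hz
      ((hiff z' hz'T).1 hAz') ((hiff z hzT).1 hAz) hp hm
    obtain ⟨A', h1, h2, h3, h4⟩ := mat_of_sec hT hA hθ h0 hb' h9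
    refine ⟨A', h1, h2, h3, fun u hu => ?_⟩
    rw [h4 u hu, hzero u hu, hiff u hu]
    tauto

theorem mat_cancel {T : Set E2} (hT : IsOpen T) (hball : closedBall (0 : E2) 10 ⊆ T)
    {A : E2 → E2 →L[ℝ] E3} (hA : ContDiffOn ℝ ∞ A T) (hN : ∀ u ∈ T, Nondeg A u)
    (hfin : {u ∈ T | Sing (A u)}.Finite) {z z' : E2} (hne : z ≠ z')
    (hz : z ∈ ball (0 : E2) 1) (hz' : z' ∈ ball (0 : E2) 1) (hAz : Sing (A z))
    (hAz' : Sing (A z')) :
    ∃ A' : E2 → E2 →L[ℝ] E3, ContDiffOn ℝ ∞ A' T ∧ (∀ u ∈ T, Nondeg A' u) ∧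
      (∀ u, 9 ≤ ‖u‖ → A' u = A u) ∧
      ∀ u ∈ T, Sing (A' u) ↔ Sing (A u) ∧ u ≠ z ∧ u ≠ z' := by
  have hzT : z ∈ T := hball (ball_subset_closedBall (ball_subset_ball (by norm_num) hz))
  have hz'T : z' ∈ T := hball (ball_subset_closedBall (ball_subset_ball (by norm_num) hz'))
  obtain ⟨t, ht⟩ := exists_angle (A := A) hfin (fun u hu => (hN u hu.1).ne_zero)
  set θ : E2 → ℝ := fun _ => t with hθdef
  have hθ : ContDiff ℝ ∞ θ := contDiff_const
  have h0 : ∀ u ∈ T, colA A θ u ≠ 0 := by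
    intro u hu
    by_cases hs : Sing (A u)
    · exact ht u ⟨hu, hs⟩
    · exact colA_ne_zero_of_not_sing hs
  have hsec := sec_of_frame hT hA hN hθ h0
  have hiff : ∀ u ∈ T, Sing (A u) ↔ colB A θ u = 0 := fun u hu => sing_iff_colB (h0 u hu)
  have hs1 : sgnAt (colA A θ) (colB A θ) z ≠ 0 := sgnAt_ne_zero hT hsec hzT ((hiff z hzT).1 hAz)
  have hs2 : sgnAt (colA A θ) (colB A θ) z' ≠ 0 :=
    sgnAt_ne_zero hT hsec hz'T ((hiff z' hz'T).1 hAz')
  rcases lt_or_gt_of_ne (mul_ne_zero hs1 hs2) with hlt | hgt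
  · exact mat_cancel_aux hT hball hA hN hfin hz hz' hAz hAz' hθ h0 hlt
  · -- rotate the frame by `π` near `z'`
    have hcl : IsClosed ({u ∈ T | Sing (A u)} \ {z'}) :=
      (hfin.subset sdiff_subset).isClosed
    have hmem : z' ∈ ({u ∈ T | Sing (A u)} \ {z'})ᶜ := by simp
    obtain ⟨ε, hε, hball'⟩ := Metric.isOpen_iff.1 hcl.isOpen_compl z' hmem
    let f : ContDiffBump z' := ⟨ε / 3, ε / 2, by positivity, by linarith⟩
    set η : E2 → ℝ := fun u => t + f u * Real.pi with hηdef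
    have hη : ContDiff ℝ ∞ η := contDiff_const.add (f.contDiff.mul contDiff_const)
    have hη1 : ∀ u, dist u z' ≤ ε / 3 → η u = θ u + Real.pi := by
      intro u hu
      have : f u = 1 := f.one_of_mem_closedBall (by simpa using hu)
      simp [hηdef, hθdef, this]
    have hη0 : ∀ u, ε / 2 ≤ dist u z' → η u = θ u := by
      intro u hu
      have : f u = 0 := f.zero_of_le_dist hu
      simp [hηdef, hθdef, this]
    have hfar : ∀ u ∈ T, Sing (A u) → u ≠ z' → ε ≤ dist u z' := by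
      intro u hu hs hne'
      by_contra hcon
      push Not at hcon
      exact hball' hcon ⟨⟨hu, hs⟩, hne'⟩
    have h0' : ∀ u ∈ T, colA A η u ≠ 0 := by
      intro u hu
      by_cases hs : Sing (A u)
      · rcases eq_or_ne u z' with rfl | hne'
        · rw [colA_pi (hη1 u (by rw [dist_self]; positivity)), neg_ne_zero]
          exact h0 u hu
        · rw [colA_congr (hη0 u (by linarith [hfar u hu hs hne']))]
          exact h0 u hu
      · exact colA_ne_zero_of_not_sing hs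
    have hz0 : ε ≤ dist z z' := hfar z hzT hAz hne
    have e1 : sgnAt (colA A η) (colB A η) z = sgnAt (colA A θ) (colB A θ) z := by
      apply sgnAt_congr
      · exact colA_congr (hη0 z (by linarith))
      · have hop : {u : E2 | ε / 2 < dist u z'} ∈ 𝓝 z :=
          (isOpen_lt continuous_const (continuous_id.dist continuous_const)).mem_nhds
            (by show ε / 2 < dist z z'; linarith)
        filter_upwards [hop] with u hu
        exact colB_congr (hη0 u hu.le)
    have e2 : sgnAt (colA A η) (colB A η) z' = - sgnAt (colA A θ) (colB A θ) z' := by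
      apply sgnAt_neg
      · exact colA_pi (hη1 z' (by rw [dist_self]; positivity))
      · filter_upwards [ball_mem_nhds z' (show (0 : ℝ) < ε / 3 by positivity)] with u hu
        exact colB_pi (hη1 u (mem_ball.1 hu).le)
    refine mat_cancel_aux hT hball hA hN hfin hz hz' hAz hAz' hη h0' ?_
    rw [e1, e2]
    linarith

end Crest.Agent.R216.D
end

-- ▼ part R216/D4
section

/-! Row 216 (D), module D4: moving and cancelling formal zeros (owner: helper86). -/

set_option autoImplicit false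
open scoped Manifold ContDiff Topology
open Set Metric Function

namespace Crest.Agent.R216.D

section chart
variable {M : Type*} [TopologicalSpace M] [ChartedSpace E2 M] [IsManifold (𝓡 2) ∞ M]

lemma Formal.finite_planar (F : Formal M) (hfin : F.sing.Finite)
    {c : OpenPartialHomeomorph M E2} (hc : c ∈ IsManifold.maximalAtlas (𝓡 2) ∞ M) :
    {u ∈ c.target | Sing (F.mat c u)}.Finite := by
  refine Set.Finite.of_finite_image (f := c.symm) (hfin.subset ?_) ?_
  · rintro _ ⟨u, ⟨hu, hs⟩, rfl⟩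
    exact (F.mem_sing_iff hc hu).2 hs
  · intro u hu v hv h
    exact c.symm.injOn hu.1 hv.1 h

lemma Formal.mem_sing_iff' (F : Formal M)
    {c : OpenPartialHomeomorph M E2} (hc : c ∈ IsManifold.maximalAtlas (𝓡 2) ∞ M)
    {x : M} (hx : x ∈ c.source) : x ∈ F.sing ↔ Sing (F.mat c (c x)) := by
  have h := F.mem_sing_iff hc (c.map_source hx)
  rw [c.left_inv hx] at h
  exact h

variable [T2Space M]

/-- moving a zero inside a chart ball -/
theorem Formal.jump {𝒜 : BallAtlas M} {F : Formal M} (hF : F.Good 𝒜) (i : Fin 𝒜.n) {p q : M}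
    (hp : p ∈ (𝒜.c i).source) (hp1 : 𝒜.c i p ∈ ball (0 : E2) 1)
    (hq : q ∈ (𝒜.c i).source) (hq1 : 𝒜.c i q ∈ ball (0 : E2) 1)
    (hps : p ∈ F.sing) (hqs : q ∉ F.sing) :
    ∃ F' : Formal M, F'.Good 𝒜 ∧ ∀ x, x ∈ F'.sing ↔ (x ∈ F.sing ∧ x ≠ p) ∨ x = q := by
  have hc := 𝒜.mem i
  obtain ⟨A', hA', hN', hEq, hsing⟩ := mat_jump (𝒜.c i).open_target (𝒜.big i)
    (F.contDiffOn_mat hc) (hF.1 i) (F.finite_planar hF.2 hc) hp1 hq1
    ((F.mem_sing_iff' hc hp).1 hps) (fun h => hqs ((F.mem_sing_iff' hc hq).2 h))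
  obtain ⟨F', h1, h2, h3⟩ := F.exists_lift_good 𝒜 hF.1 i hA' hN' hEq
  have key : ∀ x, x ∈ F'.sing ↔ (x ∈ F.sing ∧ x ≠ p) ∨ x = q := by
    intro x
    by_cases hx : x ∈ (𝒜.c i).source
    · have hu := (𝒜.c i).map_source hx
      rw [F'.mem_sing_iff' hc hx, F.mem_sing_iff' hc hx, h2 _ hu, hsing _ hu]
      have e1 : (𝒜.c i) x = (𝒜.c i) p ↔ x = p := (𝒜.c i).injOn.eq_iff hx hp
      have e2 : (𝒜.c i) x = (𝒜.c i) q ↔ x = q := (𝒜.c i).injOn.eq_iff hx hq
      rw [ne_eq, ne_eq, e1, e2]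
    · have e1 : x ≠ p := fun h => hx (h ▸ hp)
      have e2 : x ≠ q := fun h => hx (h ▸ hq)
      rw [h3 x hx]
      simp [e1, e2]
  refine ⟨F', ⟨h1, ?_⟩, key⟩
  refine (hF.2.union (finite_singleton q)).subset ?_
  intro x hx
  rcases (key x).1 hx with h | h
  · exact Or.inl h.1
  · exact Or.inr h

/-- cancelling two zeros inside a chart ball -/
theorem Formal.cancel {𝒜 : BallAtlas M} {F : Formal M} (hF : F.Good 𝒜) (i : Fin 𝒜.n) {p q : M}
    (hp : p ∈ (𝒜.c i).source) (hp1 : 𝒜.c i p ∈ ball (0 : E2) 1)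
    (hq : q ∈ (𝒜.c i).source) (hq1 : 𝒜.c i q ∈ ball (0 : E2) 1)
    (hps : p ∈ F.sing) (hqs : q ∈ F.sing) (hpq : p ≠ q) :
    ∃ F' : Formal M, F'.Good 𝒜 ∧ ∀ x, x ∈ F'.sing ↔ x ∈ F.sing ∧ x ≠ p ∧ x ≠ q := by
  have hc := 𝒜.mem i
  have hne : 𝒜.c i p ≠ 𝒜.c i q := fun h => hpq ((𝒜.c i).injOn hp hq h)
  obtain ⟨A', hA', hN', hEq, hsing⟩ := mat_cancel (𝒜.c i).open_target (𝒜.big i)
    (F.contDiffOn_mat hc) (hF.1 i) (F.finite_planar hF.2 hc) hne hp1 hq1
    ((F.mem_sing_iff' hc hp).1 hps) ((F.mem_sing_iff' hc hq).1 hqs)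
  obtain ⟨F', h1, h2, h3⟩ := F.exists_lift_good 𝒜 hF.1 i hA' hN' hEq
  have key : ∀ x, x ∈ F'.sing ↔ x ∈ F.sing ∧ x ≠ p ∧ x ≠ q := by
    intro x
    by_cases hx : x ∈ (𝒜.c i).source
    · have hu := (𝒜.c i).map_source hx
      rw [F'.mem_sing_iff' hc hx, F.mem_sing_iff' hc hx, h2 _ hu, hsing _ hu]
      have e1 : (𝒜.c i) x = (𝒜.c i) p ↔ x = p := (𝒜.c i).injOn.eq_iff hx hp
      have e2 : (𝒜.c i) x = (𝒜.c i) q ↔ x = q := (𝒜.c i).injOn.eq_iff hx hq
      rw [ne_eq, ne_eq, e1, e2]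
    · have e1 : x ≠ p := fun h => hx (h ▸ hp)
      have e2 : x ≠ q := fun h => hx (h ▸ hq)
      rw [h3 x hx]
      simp [e1, e2]
  refine ⟨F', ⟨h1, ?_⟩, key⟩
  exact hF.2.subset fun x hx => ((key x).1 hx).1

/-- cancelling two zeros in the same component -/
theorem Formal.cancel_component {𝒜 : BallAtlas M} {y p : M} (hpy : p ∈ connectedComponent y)
    {F : Formal M} (hF : F.Good 𝒜) (hps : p ∈ F.sing) (hys : y ∈ F.sing) (hne : p ≠ y) :
    ∃ F' : Formal M, F'.Good 𝒜 ∧ ∀ x, x ∈ F'.sing ↔ x ∈ F.sing ∧ x ≠ p ∧ x ≠ y := by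
  set B : Fin 𝒜.n → Set M := fun i => (𝒜.c i).source ∩ (𝒜.c i) ⁻¹' ball (0 : E2) 1 with hB
  have hBo : ∀ i, IsOpen (B i) := fun i => (𝒜.c i).isOpen_inter_preimage isOpen_ball
  set S : Set M := {p | p = y ∨ ∀ F : Formal M, F.Good 𝒜 → p ∈ F.sing → y ∈ F.sing → p ≠ y →
    ∃ F' : Formal M, F'.Good 𝒜 ∧ ∀ x, x ∈ F'.sing ↔ x ∈ F.sing ∧ x ≠ p ∧ x ≠ y} with hS
  have hstep : ∀ i, (S ∩ B i).Nonempty → B i ⊆ S := by
    rintro i ⟨q, hqS, hqB⟩ p hpB
    by_cases hpy : p = y
    · exact Or.inl hpy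
    refine Or.inr fun F hF hps hys _ => ?_
    rcases hqS with hqy | hq
    · -- `q = y` : cancel directly
      subst hqy
      exact Formal.cancel hF i hpB.1 hpB.2 hqB.1 hqB.2 hps hys hpy
    · by_cases hqy : q = y
      · subst hqy
        exact Formal.cancel hF i hpB.1 hpB.2 hqB.1 hqB.2 hps hys hpy
      by_cases hqp : q = p
      · subst hqp
        exact hq F hF hps hys hqy
      by_cases hqs : q ∈ F.sing
      · obtain ⟨F₁, hF₁, h₁⟩ := hq F hF hqs hys hqy
        have hp₁ : p ∈ F₁.sing := (h₁ p).2 ⟨hps, fun h => hqp h.symm, hpy⟩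
        have hq₁ : q ∉ F₁.sing := fun h => ((h₁ q).1 h).2.1 rfl
        obtain ⟨F₂, hF₂, h₂⟩ := Formal.jump hF₁ i hpB.1 hpB.2 hqB.1 hqB.2 hp₁ hq₁
        refine ⟨F₂, hF₂, fun x => ?_⟩
        rw [h₂ x, h₁ x]
        constructor
        · rintro (⟨⟨a, b, c⟩, d⟩ | h)
          · exact ⟨a, d, c⟩
          · subst h
            exact ⟨hqs, hqp, hqy⟩
        · rintro ⟨a, b, c⟩
          by_cases hxq : x = q
          · exact Or.inr hxq
          · exact Or.inl ⟨⟨a, hxq, c⟩, b⟩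
      · obtain ⟨F₁, hF₁, h₁⟩ := Formal.jump hF i hpB.1 hpB.2 hqB.1 hqB.2 hps hqs
        have hq₁ : q ∈ F₁.sing := (h₁ q).2 (Or.inr rfl)
        have hy₁ : y ∈ F₁.sing := (h₁ y).2 (Or.inl ⟨hys, fun h => hpy h.symm⟩)
        obtain ⟨F₂, hF₂, h₂⟩ := hq F₁ hF₁ hq₁ hy₁ hqy
        refine ⟨F₂, hF₂, fun x => ?_⟩
        rw [h₂ x, h₁ x]
        constructor
        · rintro ⟨(⟨a, d⟩ | h), b, c⟩
          · exact ⟨a, d, c⟩
          · exact absurd h b
        · rintro ⟨a, b, c⟩
          refine ⟨Or.inl ⟨a, b⟩, ?_, c⟩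
          rintro rfl
          exact hqs a
  have hSo : IsOpen S := by
    rw [isOpen_iff_mem_nhds]
    intro q hq
    obtain ⟨i, hi, hi1⟩ := 𝒜.cover q
    exact Filter.mem_of_superset ((hBo i).mem_nhds ⟨hi, hi1⟩) (hstep i ⟨q, hq, hi, hi1⟩)
  have hSc : IsOpen Sᶜ := by
    rw [isOpen_iff_mem_nhds]
    intro q hq
    obtain ⟨i, hi, hi1⟩ := 𝒜.cover q
    refine Filter.mem_of_superset ((hBo i).mem_nhds ⟨hi, hi1⟩) ?_
    intro p hp hpS
    exact hq (hstep i ⟨p, hpS, hp⟩ ⟨hi, hi1⟩)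
  have hclopen : IsClopen S := ⟨⟨hSc⟩, hSo⟩
  have hyS : y ∈ S := Or.inl rfl
  rcases hclopen.connectedComponent_subset hyS hpy with h | h
  · exact absurd h hne
  · exact h F hF hps hys hne

theorem Formal.cancel_all {𝒜 : BallAtlas M} : ∀ (n : ℕ) (F : Formal M), F.Good 𝒜 → F.sing.ncard = n →
    (∀ x, Even (F.sing ∩ connectedComponent x).ncard) → ∃ F' : Formal M, F'.sing = ∅ := by
  intro n
  induction n using Nat.strong_induction_on with
  | _ n ih =>
    intro F hF hn heven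
    by_cases hemp : F.sing = ∅
    · exact ⟨F, hemp⟩
    obtain ⟨y, hy⟩ := nonempty_iff_ne_empty.2 hemp
    -- a second singular point in the component of `y`
    have hfin := hF.2
    have hycc : y ∈ F.sing ∩ connectedComponent y := ⟨hy, mem_connectedComponent⟩
    have h2 : 1 < (F.sing ∩ connectedComponent y).ncard := by
      have hpos : 0 < (F.sing ∩ connectedComponent y).ncard :=
        (Set.ncard_pos (hfin.subset inter_subset_left)).2 ⟨y, hycc⟩
      obtain ⟨k, hk⟩ := heven y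
      omega
    obtain ⟨p, hp, hpy⟩ := Set.exists_ne_of_one_lt_ncard h2 y
    obtain ⟨F', hF', h'⟩ := Formal.cancel_component hp.2 hF hp.1 hy hpy
    have hsub : F'.sing = F.sing \ {p, y} := by
      ext x
      rw [h' x]
      simp only [mem_diff, mem_insert_iff, mem_singleton_iff, not_or]
    have hlt : F'.sing.ncard < n := by
      rw [← hn]
      apply Set.ncard_lt_ncard _ hfin
      rw [hsub]
      refine ⟨diff_subset, fun h => ?_⟩
      exact (h hy).2 (by simp)
    refine ih _ hlt F' hF' rfl fun x => ?_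
    by_cases hxy : connectedComponent x = connectedComponent y
    · rw [hxy]
      have h3 : F'.sing ∩ connectedComponent y = (F.sing ∩ connectedComponent y) \ {p, y} := by
        rw [hsub]; ext z; simp only [mem_inter_iff, mem_diff]; tauto
      have h4 : ({p, y} : Set M) ⊆ F.sing ∩ connectedComponent y := by
        rintro z (rfl | rfl)
        · exact hp
        · exact hycc
      rw [h3, Set.ncard_diff h4 (by simp), Set.ncard_pair hpy]
      obtain ⟨k, hk⟩ := heven y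
      exact ⟨k - 1, by omega⟩
    · have h3 : F'.sing ∩ connectedComponent x = F.sing ∩ connectedComponent x := by
        rw [hsub]
        ext z
        simp only [mem_inter_iff, mem_diff, mem_insert_iff, mem_singleton_iff]
        constructor
        · rintro ⟨⟨a, b⟩, c⟩
          exact ⟨a, c⟩
        · rintro ⟨a, c⟩
          refine ⟨⟨a, ?_⟩, c⟩
          rintro (rfl | rfl)
          · apply hxy
            rw [connectedComponent_eq c, connectedComponent_eq hp.2]
          · exact hxy (connectedComponent_eq c)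
      rw [h3]
      exact heven x

end chart

variable {M : Type*} [TopologicalSpace M] [T2Space M] [CompactSpace M] [ChartedSpace E2 M]
  [IsManifold (𝓡 2) ∞ M]

theorem exists_formal_immersion (𝒜 : BallAtlas M) (F : Formal M)
    (hN : ∀ i, ∀ u ∈ (𝒜.c i).target, Nondeg (F.mat (𝒜.c i)) u)
    (hfin : F.sing.Finite) (heven : ∀ x, Even (F.sing ∩ connectedComponent x).ncard) :
    ∃ F' : Formal M, F'.sing = ∅ :=
  Formal.cancel_all (𝒜 := 𝒜) _ F ⟨hN, hfin⟩ rfl heven

end Crest.Agent.R216.D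
end

-- ▼ part R216/D5Planar
section

/-! Row 216 (D), module D5, planar part: one primitive corrugation of a formal immersion into `ℝ³`
(owner: helper547). -/

set_option autoImplicit false
open scoped Manifold ContDiff Topology
open Set Metric Function

namespace Crest.Agent.R216.D.P5

noncomputable section

/-- cross product on `E3` -/
def cr (a b : E3) : E3 :=
  !₂[a 1 * b 2 - a 2 * b 1, a 2 * b 0 - a 0 * b 2, a 0 * b 1 - a 1 * b 0]

lemma inner3 (a b : E3) : inner ℝ a b = a 0 * b 0 + a 1 * b 1 + a 2 * b 2 := by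
  simp [PiLp.inner_apply, Fin.sum_univ_three, mul_comm]

lemma norm3_sq (a : E3) : ‖a‖ ^ 2 = a 0 ^ 2 + a 1 ^ 2 + a 2 ^ 2 := by
  rw [← real_inner_self_eq_norm_sq, inner3]; ring

lemma inner_cr_left (a b : E3) : inner ℝ a (cr a b) = 0 := by
  rw [inner3]; simp [cr]; ring

lemma inner_cr_right (a b : E3) : inner ℝ b (cr a b) = 0 := by
  rw [inner3]; simp [cr]; ring

/-- Gram determinant -/
def gd (a b : E3) : ℝ := ‖a‖ ^ 2 * ‖b‖ ^ 2 - (inner ℝ a b) ^ 2

lemma norm_cr_sq (a b : E3) : ‖cr a b‖ ^ 2 = gd a b := by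
  rw [gd, norm3_sq, norm3_sq, norm3_sq, inner3]; simp [cr]; ring

/-- the vector in the span of `a`, `b`, orthogonal to `b`. -/
def pv (a b : E3) : E3 := ‖b‖ ^ 2 • a - (inner ℝ a b : ℝ) • b

lemma inner_left_pv (a b : E3) : inner ℝ a (pv a b) = gd a b := by
  simp only [pv, gd, inner_sub_right, inner_smul_right, real_inner_self_eq_norm_sq]
  ring

lemma inner_right_pv (a b : E3) : inner ℝ b (pv a b) = 0 := by
  simp only [pv, inner_sub_right, inner_smul_right, real_inner_self_eq_norm_sq,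
    real_inner_comm a b]
  ring

lemma inner_cr_pv (a b : E3) : inner ℝ (cr a b) (pv a b) = 0 := by
  have h1 : inner ℝ (cr a b) a = 0 := by rw [real_inner_comm, inner_cr_left]
  have h2 : inner ℝ (cr a b) b = 0 := by rw [real_inner_comm, inner_cr_right]
  rw [pv, inner_sub_right, inner_smul_right, inner_smul_right, h1, h2]
  ring

lemma contDiff_cr {n : WithTop ℕ∞} {V : Type*} [NormedAddCommGroup V] [NormedSpace ℝ V]
    {a b : V → E3} {x : V} (ha : ContDiffAt ℝ n a x) (hb : ContDiffAt ℝ n b x) :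
    ContDiffAt ℝ n (fun u => cr (a u) (b u)) x := by
  rw [contDiffAt_euclidean] at ha hb ⊢
  intro i
  fin_cases i
  · simpa [cr] using ((ha 1).mul (hb 2)).sub ((ha 2).mul (hb 1))
  · simpa [cr] using ((ha 2).mul (hb 0)).sub ((ha 0).mul (hb 2))
  · simpa [cr] using ((ha 0).mul (hb 1)).sub ((ha 1).mul (hb 0))

lemma gd_pos {L : E2 →L[ℝ] E3} (hL : Injective L) {i j : Fin 2} (hij : i ≠ j) :
    0 < gd (L (EuclideanSpace.single i 1)) (L (EuclideanSpace.single j 1)) := by
  set P := L (EuclideanSpace.single i 1) with hP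
  set Q := L (EuclideanSpace.single j 1) with hQ
  have h0 : 0 ≤ gd P Q := by
    rw [← norm_cr_sq]; positivity
  rcases h0.lt_or_eq with h | h
  · exact h
  exfalso
  -- norm of pv
  have hp : ‖pv P Q‖ ^ 2 = ‖Q‖ ^ 2 * gd P Q := by
    rw [← real_inner_self_eq_norm_sq]
    conv_lhs => rw [pv]
    rw [inner_sub_left, inner_smul_left, inner_smul_left]
    have h1 := inner_left_pv P Q
    have h2 := inner_right_pv P Q
    rw [pv] at h1 h2
    rw [h1, h2]; simp
  rw [← h, mul_zero] at hp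
  have hp0 : pv P Q = 0 := by
    have : ‖pv P Q‖ = 0 := by
      exact pow_eq_zero_iff (n := 2) (by norm_num) |>.1 hp
    exact norm_eq_zero.1 this
  have hlin : L (‖Q‖ ^ 2 • EuclideanSpace.single i (1 : ℝ) -
      (inner ℝ P Q : ℝ) • EuclideanSpace.single j (1 : ℝ)) = 0 := by
    rw [map_sub, map_smul, map_smul]
    exact hp0
  have hz := hL (hlin.trans (map_zero L).symm)
  have hi := congrArg (fun w : E2 => w i) hz
  simp [hij] at hi
  have hj : EuclideanSpace.single j (1 : ℝ) = 0 := hL ((hQ ▸ hi : L _ = 0).trans (map_zero L).symm)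
  have := congrArg (fun w : E2 => w j) hj
  simp at this

/-- the key algebraic fact: the loop avoids the line spanned by `Q`. -/
lemma loop_indep {P Q T : E3} (hD : 0 < gd P Q) {ρ K c : ℝ} (hρ0 : 0 ≤ ρ) (hK : 1 ≤ K)
    (hKb : 2 * (|inner ℝ T (pv P Q)| + (inner ℝ T (cr P Q)) ^ 2 / gd P Q) ≤ K * gd P Q)
    {a b : ℝ}
    (h : a • (P - ρ • T + (K * ρ) • ((-(1 / 2) * (2 * c ^ 2 - 1)) • P + c • cr P Q)) + b • Q = 0) :
    a = 0 ∧ b = 0 := by
  set D := gd P Q with hDdef
  have hp := congrArg (fun w => inner ℝ w (pv P Q)) h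
  have hn := congrArg (fun w => inner ℝ w (cr P Q)) h
  simp only [inner_add_left, inner_sub_left, inner_smul_left, inner_zero_left,
    inner_left_pv, inner_right_pv, inner_cr_pv, inner_cr_left, inner_cr_right,
    real_inner_self_eq_norm_sq, norm_cr_sq, ← hDdef, RCLike.conj_to_real] at hp hn
  have hK0 : 0 < K := by linarith
  have ha : a = 0 := by
    by_contra ha
    have hp' : D - ρ * inner ℝ T (pv P Q) + K * ρ * (-(1 / 2) * (2 * c ^ 2 - 1) * D) = 0 := by
      have : a * (D - ρ * inner ℝ T (pv P Q) + K * ρ * (-(1 / 2) * (2 * c ^ 2 - 1) * D)) = 0 := by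
        linarith
      exact (mul_eq_zero.1 this).resolve_left ha
    have hn' : ρ * (K * (c * D) - inner ℝ T (cr P Q)) = 0 := by
      have : a * (ρ * (K * (c * D) - inner ℝ T (cr P Q))) = 0 := by linarith
      exact (mul_eq_zero.1 this).resolve_left ha
    rcases mul_eq_zero.1 hn' with hr | hc
    · subst hr
      simp at hp'
      linarith
    · have hcD : K * (c * D) = inner ℝ T (cr P Q) := by linarith
      -- K c^2 D = <T,n>^2/(K D)
      have h1 : K * (c ^ 2 * D) ≤ (inner ℝ T (cr P Q)) ^ 2 / D := by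
        rw [← hcD, le_div_iff₀ hD]
        have : K * (c ^ 2 * D) * D = K * (c * D) ^ 2 := by ring
        rw [this]
        have h2 : (K * (c * D)) ^ 2 = K ^ 2 * (c * D) ^ 2 := by ring
        rw [h2]
        have : K ≤ K ^ 2 := by nlinarith
        exact mul_le_mul_of_nonneg_right this (sq_nonneg _)
      have h3 := le_abs_self (inner ℝ T (pv P Q))
      have h4 : 0 ≤ ρ * (K * D / 2 - inner ℝ T (pv P Q) - K * (c ^ 2 * D)) := by
        apply mul_nonneg hρ0
        linarith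
      nlinarith
  subst ha
  refine ⟨rfl, ?_⟩
  have hQ : b • Q = 0 := by simpa using h
  rcases smul_eq_zero.1 hQ with h | h
  · exact h
  · exfalso
    rw [h] at hDdef
    simp [gd] at hDdef
    linarith

/-! ### calculus -/

lemma contDiff_smul_of_tsupport {F : Type*} [NormedAddCommGroup F] [NormedSpace ℝ F]
    {U : Set E2} (hU : IsOpen U) {ρ : E2 → ℝ} (hρ : ContDiff ℝ ∞ ρ) (hs : tsupport ρ ⊆ U)
    {f : E2 → F} (hf : ContDiffOn ℝ ∞ f U) : ContDiff ℝ ∞ (fun u => ρ u • f u) := by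
  rw [contDiff_iff_contDiffAt]
  intro x
  by_cases hx : x ∈ U
  · exact hρ.contDiffAt.smul (hf.contDiffAt (hU.mem_nhds hx))
  · have hx' : x ∉ tsupport ρ := fun h => hx (hs h)
    have : (fun u => ρ u • f u) =ᶠ[𝓝 x] fun _ => 0 := by
      filter_upwards [notMem_tsupport_iff_eventuallyEq.1 hx'] with u hu
      simp [hu]
    exact contDiffAt_const.congr_of_eventuallyEq this

/-- the coordinate functional -/
abbrev xi (i : Fin 2) : E2 →L[ℝ] ℝ := EuclideanSpace.proj i

/-- the basis vector -/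
abbrev eb (i : Fin 2) : E2 := EuclideanSpace.single i 1

lemma decomp2 {i j : Fin 2} (hij : i ≠ j) (v : E2) : v = v i • eb i + v j • eb j := by
  ext k
  fin_cases i <;> fin_cases j <;> fin_cases k <;> simp at hij ⊢

lemma hasFDerivAt_osc {i : Fin 2} {φ : ℝ → ℝ} {φ' ε : ℝ} (hε : ε ≠ 0) {a : E2 → E3}
    {a' : E2 →L[ℝ] E3} {u : E2} (hφ : HasDerivAt φ φ' (xi i u / ε)) (ha : HasFDerivAt a a' u) :
    HasFDerivAt (fun u => ε • (φ (xi i u / ε) • a u))
      ((ε * φ (xi i u / ε)) • a' + (xi i).smulRight (φ' • a u)) u := by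
  have h1 : HasFDerivAt (fun u : E2 => xi i u / ε) (ε⁻¹ • xi i) u := by
    have := ((xi i).hasFDerivAt (x := u)).const_mul ε⁻¹
    refine this.congr_of_eventuallyEq (Filter.Eventually.of_forall fun y => ?_)
    simp [div_eq_inv_mul]
  have h2 : HasFDerivAt (fun u : E2 => φ (xi i u / ε)) (φ' • (ε⁻¹ • xi i)) u :=
    hφ.comp_hasFDerivAt u h1
  have h3 := (h2.smul ha).const_smul ε
  refine h3.congr_fderiv ?_
  ext1 v
  simp only [_root_.smul_apply, _root_.add_apply,
    ContinuousLinearMap.smulRight_apply, smul_add, smul_smul]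
  congr 1
  simp only [smul_eq_mul]
  field_simp

/-- One primitive step. -/
theorem primitive_step {U : Set E2} (hU : IsOpen U) {g : E2 → E3} {A : E2 → E2 →L[ℝ] E3}
    (hg : ContDiffOn ℝ ∞ g U) (hA : ContDiffOn ℝ ∞ A U)
    (hinj : ∀ u ∈ U, Injective (fderiv ℝ g u + A u))
    {ρ : E2 → ℝ} (hρ : ContDiff ℝ ∞ ρ) (hρ0 : ∀ u, 0 ≤ ρ u) (hcpt : HasCompactSupport ρ)
    (hs : tsupport ρ ⊆ U) {i j : Fin 2} (hij : i ≠ j) :
    ∃ h : E2 → E3, ContDiff ℝ ∞ h ∧ tsupport h ⊆ tsupport ρ ∧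
      ∀ u ∈ U, Injective (fderiv ℝ g u + fderiv ℝ h u +
        (A u - ρ u • (xi i).smulRight (A u (eb i)))) := by
  set P : E2 → E3 := fun u => (fderiv ℝ g u + A u) (eb i) with hPdef
  set Q : E2 → E3 := fun u => (fderiv ℝ g u + A u) (eb j) with hQdef
  set T : E2 → E3 := fun u => A u (eb i) with hTdef
  set N : E2 → E3 := fun u => cr (P u) (Q u) with hNdef
  have hDg : ContDiffOn ℝ ∞ (fderiv ℝ g) U := hg.fderiv_of_isOpen hU (by simp)
  have hP : ContDiffOn ℝ ∞ P U := (hDg.add hA).clm_apply contDiffOn_const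
  have hQ : ContDiffOn ℝ ∞ Q U := (hDg.add hA).clm_apply contDiffOn_const
  have hT : ContDiffOn ℝ ∞ T U := hA.clm_apply contDiffOn_const
  have hN : ContDiffOn ℝ ∞ N U := fun u hu =>
    (contDiff_cr (hP.contDiffAt (hU.mem_nhds hu)) (hQ.contDiffAt (hU.mem_nhds hu))).contDiffWithinAt
  have hD : ∀ u ∈ U, 0 < gd (P u) (Q u) := fun u hu => gd_pos (hinj u hu) hij
  set a : E2 → E3 := fun u => ρ u • P u with hadef
  set b : E2 → E3 := fun u => ρ u • N u with hbdef
  have ha : ContDiff ℝ ∞ a := contDiff_smul_of_tsupport hU hρ hs hP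
  have hb : ContDiff ℝ ∞ b := contDiff_smul_of_tsupport hU hρ hs hN
  have hPc : ContinuousOn P (tsupport ρ) := hP.continuousOn.mono hs
  have hQc : ContinuousOn Q (tsupport ρ) := hQ.continuousOn.mono hs
  have hTc : ContinuousOn T (tsupport ρ) := hT.continuousOn.mono hs
  have hNc : ContinuousOn N (tsupport ρ) := hN.continuousOn.mono hs
  have hpvc : ContinuousOn (fun u => pv (P u) (Q u)) (tsupport ρ) := by
    have hin : ContinuousOn (fun u => (inner ℝ (P u) (Q u) : ℝ)) (tsupport ρ) := hPc.inner hQc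
    simp only [pv]
    exact ((hQc.norm.pow 2).smul hPc).sub (hin.smul hQc)
  have hgdc : ContinuousOn (fun u => gd (P u) (Q u)) (tsupport ρ) := by
    simp only [gd]
    exact ((hPc.norm.pow 2).mul (hQc.norm.pow 2)).sub ((hPc.inner hQc).pow 2)
  have hFc : ContinuousOn (fun u => 2 * (|inner ℝ (T u) (pv (P u) (Q u))| +
      (inner ℝ (T u) (cr (P u) (Q u))) ^ 2 / gd (P u) (Q u)) / gd (P u) (Q u)) (tsupport ρ) := by
    refine ContinuousOn.div ?_ hgdc fun u hu => (hD u (hs hu)).ne'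
    refine continuousOn_const.mul (ContinuousOn.add (hTc.inner hpvc).abs ?_)
    exact ContinuousOn.div ((hTc.inner hNc).pow 2) hgdc fun u hu => (hD u (hs hu)).ne'
  obtain ⟨C0, hC0⟩ := hcpt.isCompact.exists_bound_of_continuousOn hFc
  set K : ℝ := max 1 C0 with hKdef
  have hK1 : 1 ≤ K := le_max_left _ _
  have hKb : ∀ u ∈ tsupport ρ, 2 * (|inner ℝ (T u) (pv (P u) (Q u))| +
      (inner ℝ (T u) (cr (P u) (Q u))) ^ 2 / gd (P u) (Q u)) ≤ K * gd (P u) (Q u) := by
    intro u hu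
    have h1 := (le_abs_self _).trans ((hC0 u hu).trans (le_max_right 1 C0))
    rwa [div_le_iff₀ (hD u (hs hu))] at h1
  -- the loop
  set γ : E2 → ℝ → E3 := fun u c => P u - ρ u • T u +
    (K * ρ u) • ((-(1 / 2) * (2 * c ^ 2 - 1)) • P u + c • cr (P u) (Q u)) with hγdef
  have hScpt : IsCompact (tsupport ρ ×ˢ (Icc (-1 : ℝ) 1 ×ˢ sphere (0 : E2) 1)) :=
    hcpt.isCompact.prod (isCompact_Icc.prod (isCompact_sphere _ _))
  have hfc : ContinuousOn (fun z : E2 × ℝ × E2 => ‖z.2.2 i • γ z.1 z.2.1 + z.2.2 j • Q z.1‖)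
      (tsupport ρ ×ˢ (Icc (-1 : ℝ) 1 ×ˢ sphere (0 : E2) 1)) := by
    have m1 : MapsTo (fun z : E2 × ℝ × E2 => z.1)
      (tsupport ρ ×ˢ (Icc (-1 : ℝ) 1 ×ˢ sphere (0 : E2) 1)) (tsupport ρ) := fun z hz => hz.1
    have c1 := continuousOn_fst (α := E2) (β := ℝ × E2)
      (s := tsupport ρ ×ˢ (Icc (-1 : ℝ) 1 ×ˢ sphere (0 : E2) 1))
    have cP := hPc.comp c1 m1
    have cQ := hQc.comp c1 m1
    have cT := hTc.comp c1 m1
    have cN := hNc.comp c1 m1
    have cρ : ContinuousOn (fun z : E2 × ℝ × E2 => ρ z.1)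
      (tsupport ρ ×ˢ (Icc (-1 : ℝ) 1 ×ˢ sphere (0 : E2) 1)) :=
      (hρ.continuous.comp continuous_fst).continuousOn
    have cc : ContinuousOn (fun z : E2 × ℝ × E2 => z.2.1)
      (tsupport ρ ×ˢ (Icc (-1 : ℝ) 1 ×ˢ sphere (0 : E2) 1)) :=
      (continuous_fst.comp continuous_snd).continuousOn
    have ci : ∀ k : Fin 2, ContinuousOn (fun z : E2 × ℝ × E2 => z.2.2 k)
      (tsupport ρ ×ˢ (Icc (-1 : ℝ) 1 ×ˢ sphere (0 : E2) 1)) := fun k =>
      ((xi k).continuous.comp (continuous_snd.comp continuous_snd)).continuousOn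
    refine ContinuousOn.norm (((ci i).smul ?_).add ((ci j).smul cQ))
    refine (cP.sub (cρ.smul cT)).add ((continuousOn_const.mul cρ).smul ?_)
    exact ((continuousOn_const.mul ((continuousOn_const.mul (cc.pow 2)).sub
      continuousOn_const)).smul cP).add (cc.smul cN)
  have hfpos : ∀ z ∈ (tsupport ρ ×ˢ (Icc (-1 : ℝ) 1 ×ˢ sphere (0 : E2) 1)),
      (0 : ℝ) < ‖z.2.2 i • γ z.1 z.2.1 + z.2.2 j • Q z.1‖ := by
    rintro ⟨u, c, v⟩ ⟨hu, hc, hv⟩
    rw [norm_pos_iff]
    intro h0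
    have := loop_indep (hD u (hs hu)) (hρ0 u) hK1 (hKb u hu) h0
    have hv0 : v = 0 := by
      rw [decomp2 hij v, this.1, this.2]; simp
    rw [mem_sphere_zero_iff_norm, hv0] at hv
    simp at hv
  obtain ⟨κ, hκ0, hκ⟩ := hScpt.exists_forall_le' hfc hfpos
  -- derivative bounds
  obtain ⟨Ca, hCa⟩ := hcpt.isCompact.exists_bound_of_continuousOn
    (ha.continuous_fderiv (by simp)).continuousOn
  obtain ⟨Cb, hCb⟩ := hcpt.isCompact.exists_bound_of_continuousOn
    (hb.continuous_fderiv (by simp)).continuousOn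
  set B : ℝ := K * (|Ca| + |Cb|) + 1 with hBdef
  have hK0 : 0 < K := by linarith
  have hB0 : 0 < B := by positivity
  set ε : ℝ := κ / (2 * B) with hεdef
  have hε0 : 0 < ε := by positivity
  have hεB : ε * B < κ := by
    rw [hεdef]; field_simp; linarith
  set h : E2 → E3 := fun u => K • (ε • ((-(1 / 4) * Real.sin (2 * (xi i u / ε))) • a u) +
    ε • (Real.sin (xi i u / ε) • b u)) with hhdef
  have hh : ContDiff ℝ ∞ h := by
    have hx : ContDiff ℝ ∞ (fun u : E2 => xi i u / ε) := (xi i).contDiff.div_const ε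
    have hx1 : ContDiff ℝ ∞ (fun u : E2 => -(1 / 4) * Real.sin (2 * (xi i u / ε))) :=
      contDiff_const.mul (Real.contDiff_sin.comp (contDiff_const.mul hx))
    have hx2 : ContDiff ℝ ∞ (fun u : E2 => Real.sin (xi i u / ε)) := Real.contDiff_sin.comp hx
    exact (((hx1.smul ha).const_smul ε).add ((hx2.smul hb).const_smul ε)).const_smul K
  have hts : tsupport h ⊆ tsupport ρ := by
    refine closure_mono fun u hu => ?_
    rw [mem_support] at hu ⊢
    intro h0
    apply hu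
    simp [hhdef, hadef, hbdef, h0]
  refine ⟨h, hh, hts, fun u hu => ?_⟩
  by_cases hut : u ∈ tsupport ρ
  swap
  · have h1 : fderiv ℝ h u = 0 := fderiv_of_notMem_tsupport (𝕜 := ℝ) fun h => hut (hts h)
    have h2 : ρ u = 0 := image_eq_zero_of_notMem_tsupport hut
    rw [h1, h2]
    simpa using hinj u hu
  have hfd : HasFDerivAt h (K • (((ε * (-(1 / 4) * Real.sin (2 * (xi i u / ε)))) • fderiv ℝ a u +
      (xi i).smulRight ((-(1 / 2) * Real.cos (2 * (xi i u / ε))) • a u)) +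
      ((ε * Real.sin (xi i u / ε)) • fderiv ℝ b u +
      (xi i).smulRight (Real.cos (xi i u / ε) • b u)))) u := by
    refine HasFDerivAt.const_smul (HasFDerivAt.add ?_ ?_) K
    · refine hasFDerivAt_osc (φ := fun t => -(1 / 4) * Real.sin (2 * t)) hε0.ne' ?_
        (ha.differentiable (by simp) u).hasFDerivAt
      have h1 : HasDerivAt (fun t : ℝ => 2 * t) 2 (xi i u / ε) := by
        simpa using (hasDerivAt_id (xi i u / ε)).const_mul (2 : ℝ)
      have h2 := (h1.sin).const_mul (-(1 / 4) : ℝ)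
      refine h2.congr_deriv ?_
      ring
    · exact hasFDerivAt_osc (φ := Real.sin) hε0.ne' (Real.hasDerivAt_sin _)
        (hb.differentiable (by simp) u).hasFDerivAt
  rw [hfd.fderiv]
  rw [injective_iff_map_eq_zero]
  intro v hv
  by_contra hv0
  have hvn : 0 < ‖v‖ := norm_pos_iff.2 hv0
  set c : ℝ := Real.cos (xi i u / ε) with hcdef
  set s : ℝ := Real.sin (xi i u / ε) with hsdef
  have hcos2 : Real.cos (2 * (xi i u / ε)) = 2 * c ^ 2 - 1 := Real.cos_two_mul _
  set s2 : ℝ := Real.sin (2 * (xi i u / ε)) with hs2def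
  have hPhi : fderiv ℝ g u v + A u v = v i • P u + v j • Q u := by
    have : (fderiv ℝ g u + A u) v = (fderiv ℝ g u + A u) (v i • eb i + v j • eb j) := by
      rw [← decomp2 hij v]
    rw [map_add, map_smul, map_smul] at this
    exact this
  have hmain : v i • γ u c + v j • Q u =
      -(K • ((ε * (-(1 / 4) * s2)) • fderiv ℝ a u v + (ε * s) • fderiv ℝ b u v)) := by
    rw [eq_neg_iff_add_eq_zero, ← hv]
    simp only [_root_.add_apply, _root_.sub_apply,
      _root_.smul_apply, ContinuousLinearMap.smulRight_apply, hcos2]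
    have hxi : (xi i) v = v i := rfl
    rw [hxi]
    have e1 : fderiv ℝ g u v = v i • P u + v j • Q u - A u v := by rw [← hPhi]; abel
    rw [e1]
    simp only [hγdef, hadef, hbdef, hNdef, hTdef]
    module
  have hb1 : ‖v i • γ u c + v j • Q u‖ ≤ ε * B * ‖v‖ := by
    rw [hmain, norm_neg, norm_smul, Real.norm_of_nonneg hK0.le]
    have q1 : ‖(ε * (-(1 / 4) * s2)) • fderiv ℝ a u v‖ ≤ ε * (|Ca| * ‖v‖) := by
      rw [norm_smul, norm_mul, Real.norm_of_nonneg hε0.le, mul_assoc]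
      refine mul_le_mul_of_nonneg_left ?_ hε0.le
      have : ‖(-(1 / 4) * s2 : ℝ)‖ ≤ 1 := by
        rw [Real.norm_eq_abs, abs_mul, hs2def]
        have := Real.abs_sin_le_one (2 * (xi i u / ε))
        rw [abs_neg, abs_of_pos (by norm_num : (0 : ℝ) < 1 / 4)]
        linarith
      calc _ ≤ 1 * (|Ca| * ‖v‖) := by
            refine mul_le_mul this ?_ (norm_nonneg _) zero_le_one
            exact ((fderiv ℝ a u).le_opNorm v).trans
              (mul_le_mul_of_nonneg_right ((hCa u hut).trans (le_abs_self _)) (norm_nonneg _))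
        _ = _ := one_mul _
    have q2 : ‖(ε * s) • fderiv ℝ b u v‖ ≤ ε * (|Cb| * ‖v‖) := by
      rw [norm_smul, norm_mul, Real.norm_of_nonneg hε0.le, mul_assoc]
      refine mul_le_mul_of_nonneg_left ?_ hε0.le
      have : ‖s‖ ≤ 1 := Real.abs_sin_le_one _
      calc _ ≤ 1 * (|Cb| * ‖v‖) := by
            refine mul_le_mul this ?_ (norm_nonneg _) zero_le_one
            exact ((fderiv ℝ b u).le_opNorm v).trans
              (mul_le_mul_of_nonneg_right ((hCb u hut).trans (le_abs_self _)) (norm_nonneg _))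
        _ = _ := one_mul _
    calc K * ‖(ε * (-(1 / 4) * s2)) • fderiv ℝ a u v + (ε * s) • fderiv ℝ b u v‖
        ≤ K * (ε * (|Ca| * ‖v‖) + ε * (|Cb| * ‖v‖)) := by
          refine mul_le_mul_of_nonneg_left ((norm_add_le _ _).trans (add_le_add q1 q2)) hK0.le
      _ = ε * (K * (|Ca| + |Cb|)) * ‖v‖ := by ring
      _ ≤ ε * B * ‖v‖ := by
          refine mul_le_mul_of_nonneg_right (mul_le_mul_of_nonneg_left ?_ hε0.le) hvn.le
          rw [hBdef]; linarith
  have hb2 : κ * ‖v‖ ≤ ‖v i • γ u c + v j • Q u‖ := by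
    have hw := hκ (u, c, ‖v‖⁻¹ • v) ⟨hut, ⟨Real.neg_one_le_cos _, Real.cos_le_one _⟩, by
      rw [mem_sphere_zero_iff_norm, norm_smul, norm_inv, norm_norm, inv_mul_cancel₀ hvn.ne']⟩
    simp only [PiLp.smul_apply, smul_eq_mul] at hw
    have : (‖v‖⁻¹ * v i) • γ u c + (‖v‖⁻¹ * v j) • Q u =
        ‖v‖⁻¹ • (v i • γ u c + v j • Q u) := by module
    rw [this, norm_smul, norm_inv, norm_norm, inv_mul_eq_div, le_div_iff₀ hvn] at hw
    exact hw
  have : κ * ‖v‖ ≤ ε * B * ‖v‖ := hb2.trans hb1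
  have := le_of_mul_le_mul_right this hvn
  linarith

/-- Two primitive steps: `A` is replaced by `(1-ρ)A`. -/
theorem planar_step {U : Set E2} (hU : IsOpen U) {g : E2 → E3} {A : E2 → E2 →L[ℝ] E3}
    (hg : ContDiffOn ℝ ∞ g U) (hA : ContDiffOn ℝ ∞ A U)
    (hinj : ∀ u ∈ U, Injective (fderiv ℝ g u + A u))
    {ρ : E2 → ℝ} (hρ : ContDiff ℝ ∞ ρ) (hρ0 : ∀ u, 0 ≤ ρ u) (hcpt : HasCompactSupport ρ)
    (hs : tsupport ρ ⊆ U) :
    ∃ h : E2 → E3, ContDiff ℝ ∞ h ∧ tsupport h ⊆ tsupport ρ ∧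
      ∀ u ∈ U, Injective (fderiv ℝ (g + h) u + (1 - ρ u) • A u) := by
  obtain ⟨h1, hh1, hs1, hinj1⟩ := primitive_step hU hg hA hinj hρ hρ0 hcpt hs
    (i := 0) (j := 1) (by decide)
  set A1 : E2 → E2 →L[ℝ] E3 := fun u => A u - ρ u • (xi 0).smulRight (A u (eb 0)) with hA1def
  have hA1 : ContDiffOn ℝ ∞ A1 U := by
    refine hA.sub (hρ.contDiffOn.smul ?_)
    have h0 : ContDiffOn ℝ ∞ (fun u => A u (eb 0)) U := hA.clm_apply contDiffOn_const
    exact ((ContinuousLinearMap.smulRightL ℝ E2 E3 (xi 0)).contDiff.comp_contDiffOn h0)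
  have hdg : ∀ u ∈ U, fderiv ℝ (g + h1) u = fderiv ℝ g u + fderiv ℝ h1 u := fun u hu =>
    fderiv_add ((hg.contDiffAt (hU.mem_nhds hu)).differentiableAt (by simp))
      (hh1.differentiable (by simp) u)
  obtain ⟨h2, hh2, hs2, hinj2⟩ := primitive_step hU (hg.add hh1.contDiffOn) hA1
    (fun u hu => by rw [show (fun x => g x + h1 x) = g + h1 from rfl, hdg u hu]; exact hinj1 u hu)
    hρ hρ0 hcpt hs (i := 1) (j := 0) (by decide)
  refine ⟨h1 + h2, hh1.add hh2, ?_, fun u hu => ?_⟩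
  · exact (tsupport_add h1 h2).trans (union_subset hs1 hs2)
  · have e := hinj2 u hu
    have e1 : fderiv ℝ (g + (h1 + h2)) u = fderiv ℝ (fun x => g x + h1 x) u + fderiv ℝ h2 u := by
      rw [← add_assoc]
      exact fderiv_add (((hg.add hh1.contDiffOn).contDiffAt (hU.mem_nhds hu)).differentiableAt
        (by simp)) (hh2.differentiable (by simp) u)
    rw [e1]
    have e2 : A1 u - ρ u • (xi 1).smulRight (A1 u (eb 1)) = (1 - ρ u) • A u := by
      ext1 v
      have hv : A u v = v 0 • A u (eb 0) + v 1 • A u (eb 1) := by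
        conv_lhs => rw [decomp2 (i := 0) (j := 1) (by decide) v]
        rw [map_add, map_smul, map_smul]
      simp only [hA1def, _root_.sub_apply, _root_.smul_apply,
        ContinuousLinearMap.smulRight_apply]
      have hx0 : (xi 0) v = v 0 := rfl
      have hx1 : (xi 1) v = v 1 := rfl
      have hx2 : (xi 0) (eb 1) = 0 := by simp
      rw [hx0, hx1, hx2, hv]
      module
    rw [← e2]
    exact e

end

end Crest.Agent.R216.D.P5
end

-- ▼ part R216/D5

/-! Row 216 (D), module D5: h-principle for immersions `M → ℝ³` (owner: helper547). -/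

set_option autoImplicit false
open scoped Manifold ContDiff Topology
open Set Metric Function

namespace Crest.Agent.R216.D
open Crest.Agent.R216.D.P5

set_option linter.unusedSectionVars false

variable {M : Type*} [TopologicalSpace M] [T2Space M] [CompactSpace M] [ChartedSpace E2 M]
  [IsManifold (𝓡 2) ∞ M]

/-- `mfderiv` with plain types -/
noncomputable def dM {M : Type*} [TopologicalSpace M] [ChartedSpace E2 M]
    {V : Type*} [NormedAddCommGroup V] [NormedSpace ℝ V] (f : M → V) (x : M) :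
    E2 →L[ℝ] V := mfderiv (𝓡 2) 𝓘(ℝ, V) f x

/-- partially integrated formal immersion: `dg + s·Ψ∘dι` is injective everywhere. -/
structure Part (F : Formal M) (g : M → E3) (s : M → ℝ) : Prop where
  smg : ContMDiff (𝓡 2) 𝓘(ℝ, E3) ∞ g
  sms : ContMDiff (𝓡 2) 𝓘(ℝ, ℝ) ∞ s
  inj : ∀ (x : M) (v : E2), dM g x v + s x • F.Ψ x (dM F.ι x v) = 0 → v = 0

/-- `mfderiv` of an inverse chart, with plain types -/
noncomputable def dS {M : Type*} [TopologicalSpace M] [ChartedSpace E2 M]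
    (c : OpenPartialHomeomorph M E2) (u : E2) : E2 →L[ℝ] E2 := mfderiv (𝓡 2) (𝓡 2) c.symm u

lemma dS_bij {c : OpenPartialHomeomorph M E2}
    (hc : c ∈ IsManifold.maximalAtlas (𝓡 2) ∞ M) {u : E2} (hu : u ∈ c.target) :
    Bijective (dS c u) := bijective_mfderiv_chart_symm hc hu

lemma dM_chart {V : Type*} [NormedAddCommGroup V] [NormedSpace ℝ V] {f : M → V}
    (hf : ContMDiff (𝓡 2) 𝓘(ℝ, V) ∞ f) {c : OpenPartialHomeomorph M E2}
    (hc : c ∈ IsManifold.maximalAtlas (𝓡 2) ∞ M) {u : E2} (hu : u ∈ c.target) (v : E2) :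
    dM f (c.symm u) (dS c u v) = fderiv ℝ (f ∘ c.symm) u v :=
  mfderiv_chart hf hc hu v

lemma extend0_symm {V : Type*} [Zero V] {c : OpenPartialHomeomorph M E2} (h : E2 → V) {u : E2}
    (hu : u ∈ c.target) : extend0 c h (c.symm u) = h u := by
  unfold extend0
  rw [if_pos (c.map_target hu), c.right_inv hu]

lemma extend0_eventually_zero {V : Type*} [Zero V] {c : OpenPartialHomeomorph M E2}
    (h : E2 → V) {K : Set E2} (hK : IsCompact K) (hKt : K ⊆ c.target)
    (hs : tsupport h ⊆ K) {x : M} (hx : x ∉ c.source) : ∀ᶠ y in 𝓝 x, extend0 c h y = 0 := by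
  have hcl : IsClosed (c.symm '' K) :=
    (hK.image_of_continuousOn (c.continuousOn_symm.mono hKt)).isClosed
  have hx' : x ∉ c.symm '' K := by
    rintro ⟨u, hu, rfl⟩
    exact hx (c.map_target (hKt hu))
  filter_upwards [hcl.isOpen_compl.mem_nhds hx'] with y hy
  unfold extend0
  split_ifs with hys
  · apply image_eq_zero_of_notMem_tsupport
    intro hc
    exact hy ⟨c y, hs hc, c.left_inv hys⟩
  · rfl

theorem Part.step {F : Formal M} {g : M → E3} {s : M → ℝ} (hP : Part F g s)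
    {c : OpenPartialHomeomorph M E2} (hc : c ∈ IsManifold.maximalAtlas (𝓡 2) ∞ M)
    (hbig : closedBall (0 : E2) 10 ⊆ c.target) :
    ∃ (g' : M → E3) (s' : M → ℝ), Part F g' s' ∧ (∀ x, s x = 0 → s' x = 0) ∧
      ∀ x ∈ c.source, c x ∈ ball (0 : E2) 1 → s' x = 0 := by
  let f : ContDiffBump (0 : E2) := ⟨1, 2, one_pos, one_lt_two⟩
  have hts : tsupport f ⊆ closedBall (0 : E2) 2 := by
    rw [f.tsupport_eq]
  have h2 : closedBall (0 : E2) 2 ⊆ c.target :=
    (closedBall_subset_closedBall (by norm_num)).trans hbig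
  have hK : IsCompact (closedBall (0 : E2) 2) := isCompact_closedBall _ _
  have hgc := contDiffOn_chart hP.smg hc
  have hsc := contDiffOn_chart hP.sms hc
  have hAc : ContDiffOn ℝ ∞ (fun u => s (c.symm u) • F.mat c u) c.target :=
    hsc.smul (F.contDiffOn_mat hc)
  have hinj : ∀ u ∈ c.target, Injective (fderiv ℝ (g ∘ c.symm) u +
      (fun u => s (c.symm u) • F.mat c u) u) := by
    intro u hu
    rw [injective_iff_map_eq_zero]
    intro e he
    have h1 := dM_chart hP.smg hc hu e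
    have h2 := dM_chart F.hι hc hu e
    have h3 := hP.inj (c.symm u) (dS c u e) (by
      rw [h1, h2]
      exact he)
    exact (dS_bij hc hu).1 (h3.trans (map_zero _).symm)
  obtain ⟨h, hh, hhs, hhi⟩ := planar_step c.open_target hgc hAc hinj
    (ρ := f) f.contDiff (fun u => f.nonneg) f.hasCompactSupport (hts.trans h2)
  refine ⟨fun x => g x + extend0 c h x, fun x => (1 - extend0 c f x) * s x, ⟨?_, ?_, ?_⟩, ?_, ?_⟩
  · exact hP.smg.add (contMDiff_extend0 hc hh hK h2 (hhs.trans hts))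
  · exact (contMDiff_const.sub (contMDiff_extend0 hc f.contDiff hK h2 hts)).mul hP.sms
  · intro x v hv
    by_cases hx : x ∈ c.source
    · obtain ⟨u, hu, rfl⟩ : ∃ u ∈ c.target, c.symm u = x := ⟨c x, c.map_source hx, c.left_inv hx⟩
      obtain ⟨e, rfl⟩ := (dS_bij hc hu).2 v
      have hg' : ContMDiff (𝓡 2) 𝓘(ℝ, E3) ∞ (fun x => g x + extend0 c h x) :=
        hP.smg.add (contMDiff_extend0 hc hh hK h2 (hhs.trans hts))
      rw [dM_chart hg' hc hu, dM_chart F.hι hc hu, extend0_symm _ hu] at hv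
      have heq : ((fun x => g x + extend0 c h x) ∘ c.symm) =ᶠ[𝓝 u] (g ∘ c.symm + h) := by
        filter_upwards [c.open_target.mem_nhds hu] with y hy
        simp [extend0_symm h hy]
      rw [heq.fderiv_eq] at hv
      have he : e = 0 := by
        refine (injective_iff_map_eq_zero _).1 (hhi u hu) e ?_
        rw [_root_.add_apply, _root_.smul_apply, _root_.smul_apply, smul_smul]
        exact hv
      rw [he, map_zero]
    · have h1 : (fun x => g x + extend0 c h x) =ᶠ[𝓝 x] g := by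
        filter_upwards [extend0_eventually_zero h hK h2 (hhs.trans hts) hx] with y hy
        simp [hy]
      have h2 : extend0 c f x = 0 := by
        unfold extend0
        rw [if_neg hx]
      have h3 : dM (fun x => g x + extend0 c h x) x = dM g x := h1.mfderiv_eq
      rw [h3, h2, sub_zero, one_mul] at hv
      exact hP.inj x v hv
  · intro x hx
    simp [hx]
  · intro x hx hx1
    have : extend0 c f x = 1 := by
      unfold extend0
      rw [if_pos hx]
      exact f.one_of_mem_closedBall (ball_subset_closedBall hx1)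
    simp [this]

theorem exists_immersion_of_formal (𝒜 : BallAtlas M) (F : Formal M) (hF : F.sing = ∅) :
    ∃ j : M → E3, ContMDiff (𝓡 2) 𝓘(ℝ, E3) ∞ j ∧ sing j = ∅ := by
  have key : ∀ k : ℕ, ∃ (g : M → E3) (s : M → ℝ), Part F g s ∧
      ∀ i : Fin 𝒜.n, i.1 < k → ∀ x ∈ (𝒜.c i).source, 𝒜.c i x ∈ ball (0 : E2) 1 → s x = 0 := by
    intro k
    induction k with
    | zero =>
      refine ⟨fun _ => 0, fun _ => 1, ⟨contMDiff_const, contMDiff_const, ?_⟩, ?_⟩
      · intro x v hv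
        by_contra hne
        have : x ∈ F.sing := by
          refine ⟨v, hne, ?_⟩
          have h0 : dM (fun _ : M => (0 : E3)) x = 0 := mfderiv_const
          rw [h0, _root_.zero_apply, zero_add, one_smul] at hv
          exact hv
        rw [hF] at this
        exact this
      · intro i hi
        exact absurd hi (Nat.not_lt_zero _)
    | succ k ih =>
      obtain ⟨g, s, hP, hs⟩ := ih
      by_cases hk : k < 𝒜.n
      · obtain ⟨g', s', hP', h1, h2⟩ := hP.step (𝒜.mem ⟨k, hk⟩) (𝒜.big ⟨k, hk⟩)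
        refine ⟨g', s', hP', fun i hi x hx hx1 => ?_⟩
        rcases Nat.lt_succ_iff_lt_or_eq.1 hi with h | h
        · exact h1 x (hs i h x hx hx1)
        · have : i = ⟨k, hk⟩ := Fin.ext h
          subst this
          exact h2 x hx hx1
      · refine ⟨g, s, hP, fun i hi x hx hx1 => hs i (lt_of_lt_of_le i.2 (not_lt.1 hk)) x hx hx1⟩
  obtain ⟨g, s, hP, hs⟩ := key 𝒜.n
  refine ⟨g, hP.smg, ?_⟩
  rw [Set.eq_empty_iff_forall_notMem]
  rintro x ⟨v, hv, h0⟩
  obtain ⟨i, hx, hx1⟩ := 𝒜.cover x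
  apply hv
  refine hP.inj x v ?_
  have h1 : dM g x v = 0 := h0
  rw [hs i i.2 x hx hx1, h1, zero_smul, zero_add]

end Crest.Agent.R216.D
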