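import Crest.Agent.R216.DecA
import Crest.Agent.R216.DecIface
import Crest.Agent.R216.GlobCoef
import Crest.Agent.R216.DC3C

-- ▼ part R216/DecX
section

/-!
Row 216 (S0335), part (6): smoothness and 1-jet bound of the partial sums `Xm` (helper847).
-/

set_option autoImplicit false
set_option linter.unusedSectionVars false
open scoped Manifold ContDiff Topology
open Set Metric

noncomputable section
namespace Crest.Agent.R216.Dec
namespace Setup

variable {M : Type*} [TopologicalSpace M] [ChartedSpace E2 M] [IsManifold (𝓡 2) ∞ M]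
    [T2Space M] [CompactSpace M]
variable {g : Bundle.ContMDiffRiemannianMetric (𝓡 2) ∞ E2 (TangentSpace (𝓡 2) : M → Type)}
    {A : FinAtlas M} {fs : M → E4}

/-- coefficients of the linear operator `mat T ↦ Xm T` -/
def XL (D : Setup M g A fs) (q : Fin D.Q) (m : Fin 3) (z : E2) (i j k l : Fin 2) : ℝ :=
  (∑ q', if q' < q then eta D.P D.rr q' ((D.P q).w.symm z) else 0) * Emat k l i j
  + ∑ m', if m' < m then eta D.P D.rr q ((D.P q).w.symm z) *
      cC (fun l' => cov (D.P q).κ (D.α q l') z) (Emat k l) m' *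
      cov (D.P q).κ (D.α q m') z i * cov (D.P q).κ (D.α q m') z j else 0

lemma Emat_sum (b : Fin 2 → Fin 2 → ℝ) (i j : Fin 2) :
    ∑ k, ∑ l, Emat k l i j * b k l = b i j := by
  fin_cases i <;> fin_cases j <;> simp [Emat, Fin.sum_univ_two]

lemma Xm_eq (D : Setup M g A fs) (T : Tens M) (q : Fin D.Q) (m : Fin 3) (z : E2) (i j : Fin 2) :
    D.Xm T q m z i j = ∑ k, ∑ l, D.XL q m z i j k l * mat T (D.P q).w z k l := by
  unfold Xm XL cf
  simp only [add_mul, Finset.sum_add_distrib]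
  congr 1
  · simp only [mul_assoc, ← Finset.mul_sum, Emat_sum]
  · simp only [Finset.sum_mul]
    have h1 : ∀ k : Fin 2, (∑ l : Fin 2, ∑ m' : Fin 3, (if m' < m then
        eta D.P D.rr q ((D.P q).w.symm z) *
        cC (fun l' => cov (D.P q).κ (D.α q l') z) (Emat k l) m' *
        cov (D.P q).κ (D.α q m') z i * cov (D.P q).κ (D.α q m') z j else 0) *
        mat T (D.P q).w z k l) = ∑ m' : Fin 3, ∑ l : Fin 2, (if m' < m then
        eta D.P D.rr q ((D.P q).w.symm z) *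
        cC (fun l' => cov (D.P q).κ (D.α q l') z) (Emat k l) m' *
        cov (D.P q).κ (D.α q m') z i * cov (D.P q).κ (D.α q m') z j else 0) *
        mat T (D.P q).w z k l := fun k => Finset.sum_comm
    simp only [h1]
    rw [Finset.sum_comm]
    refine Finset.sum_congr rfl fun m' _ => ?_
    split_ifs with h
    · rw [cC_linear]
      simp only [Finset.mul_sum, Finset.sum_mul]
      refine Finset.sum_congr rfl fun k _ => Finset.sum_congr rfl fun l _ => ?_
      ring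
    · simp

lemma wedge_ne (D : Setup M g A fs) (q : Fin D.Q) {z : E2}
    (hz : z ∈ closedBall (0 : E2) (2 * (D.P q).R)) (l : Fin 3) :
    wedge (cov (D.P q).κ (D.α q l) z) (cov (D.P q).κ (D.α q (l + 1)) z) ≠ 0 := by
  have h := (D.good q).pos z hz (D.α q) (D.hα q)
    (fun i j => mat (gT g) (D.P q).w z i j - mat (pull fs) (D.P q).w z i j)
    (fun i j => by simpa using (D.P q).hδ) l
  exact h.1

lemma XL_contDiffOn (H : Parts M) (D : Setup M g A fs) (q : Fin D.Q) (m : Fin 3)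
    (i j k l : Fin 2) :
    ContDiffOn ℝ ∞ (fun z => D.XL q m z i j k l) (ball (0 : E2) (2 * (D.P q).R)) := by
  have hsub : ball (0 : E2) (2 * (D.P q).R) ⊆ (D.P q).w.target :=
    ball_subset_closedBall.trans (D.P q).sub
  have heta : ∀ q', ContDiffOn ℝ ∞ (fun z => eta D.P D.rr q' ((D.P q).w.symm z))
      (ball (0 : E2) (2 * (D.P q).R)) := by
    intro q'
    have h1 : ContMDiffOn (𝓡 2) (𝓡 2) ∞ (D.P q).w.symm (D.P q).w.target :=
      contMDiffOn_symm_of_mem_maximalAtlas (D.P q).hw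
    have h2 : ContMDiffOn (𝓡 2) 𝓘(ℝ, ℝ) ∞ (fun z => eta D.P D.rr q' ((D.P q).w.symm z))
        (D.P q).w.target := (D.eta_contMDiff H q').comp_contMDiffOn h1
    exact (contMDiffOn_iff_contDiffOn.1 h2).mono hsub
  have hcov : ∀ m' i', ContDiffOn ℝ ∞ (fun z => cov (D.P q).κ (D.α q m') z i')
      (ball (0 : E2) (2 * (D.P q).R)) := fun m' i' => (contDiff_cov _ _ _).contDiffOn
  have hcC : ∀ m', ContDiffOn ℝ ∞ (fun z => cC (fun l' => cov (D.P q).κ (D.α q l') z)
      (Emat k l) m') (ball (0 : E2) (2 * (D.P q).R)) := by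
    intro m' z hz
    exact (H.dc1d (D.P q).κ (D.α q) (fun _ => Emat k l) z m'
      (fun l' => D.wedge_ne q (ball_subset_closedBall hz) l')
      (fun _ _ => contDiffAt_const)).contDiffWithinAt
  unfold XL
  refine ContDiffOn.add (ContDiffOn.mul ?_ contDiffOn_const) ?_
  · refine ContDiffOn.sum fun q' _ => ?_
    split_ifs
    · exact heta q'
    · exact contDiffOn_const
  · refine ContDiffOn.sum fun m' _ => ?_
    split_ifs
    · exact (((heta q).mul (hcC m')).mul (hcov m' i)).mul (hcov m' j)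
    · exact contDiffOn_const

/-- (X1) -/
lemma Xm_differentiableAt (H : Parts M) (D : Setup M g A fs) {T : Tens M} (q : Fin D.Q)
    (m : Fin 3) (hT : ∀ i j, ∀ z ∈ (D.P q).w.target,
      DifferentiableAt ℝ (fun z => mat T (D.P q).w z i j) z) :
    ∀ z ∈ ball (0 : E2) (2 * (D.P q).R), ∀ i j,
      DifferentiableAt ℝ (fun z => D.Xm T q m z i j) z := by
  intro z hz i j
  have hsub : ball (0 : E2) (2 * (D.P q).R) ⊆ (D.P q).w.target :=
    ball_subset_closedBall.trans (D.P q).sub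
  simp only [Xm_eq]
  refine DifferentiableAt.fun_sum fun k _ => DifferentiableAt.fun_sum fun l _ => ?_
  refine DifferentiableAt.mul ?_ (hT k l z (hsub hz))
  exact ((D.XL_contDiffOn H q m i j k l).contDiffAt (isOpen_ball.mem_nhds hz)).differentiableAt
    (by simp)

/-- (X2) -/
lemma Xm_bound (H : Parts M) (D : Setup M g A fs) : ∃ C : ℝ, 0 < C ∧
    ∀ (q : Fin D.Q) (m : Fin 3) (T : Tens M), (∀ i j, ∀ z ∈ (D.P q).w.target,
      DifferentiableAt ℝ (fun z => mat T (D.P q).w z i j) z) →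
    ∀ z ∈ closedBall (0 : E2) (D.rr q),
      ‖((D.Xm T q m z, fun i j => fderiv ℝ (fun z => D.Xm T q m z i j) z) : Jet)‖
        ≤ C * ‖jet T (D.P q).w z‖ := by
  have key : ∀ (q : Fin D.Q) (m : Fin 3), ∃ C : ℝ, 0 < C ∧ ∀ (T : Tens M),
      (∀ i j, ∀ z ∈ (D.P q).w.target,
        DifferentiableAt ℝ (fun z => mat T (D.P q).w z i j) z) →
      ∀ z ∈ closedBall (0 : E2) (D.rr q),
        ‖((D.Xm T q m z, fun i j => fderiv ℝ (fun z => D.Xm T q m z i j) z) : Jet)‖
          ≤ C * ‖jet T (D.P q).w z‖ := by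
    intro q m
    have hsub : ball (0 : E2) (2 * (D.P q).R) ⊆ (D.P q).w.target :=
      ball_subset_closedBall.trans (D.P q).sub
    obtain ⟨C, hC, h⟩ := H.dc5a (ball (0 : E2) (2 * (D.P q).R)) (closedBall (0 : E2) (D.rr q))
      (D.XL q m) isOpen_ball (isCompact_closedBall _ _) (closedBall_subset_ball (D.hrr2 q))
      (fun i j k l => D.XL_contDiffOn H q m i j k l)
    refine ⟨C, hC, fun T hT z hz => ?_⟩
    have h2 := h (mat T (D.P q).w) (fun i j z hz => hT i j z (hsub hz)) z hz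
    have e : ∀ i j, (fun z => D.Xm T q m z i j) =
        fun z => ∑ k, ∑ l, D.XL q m z i j k l * mat T (D.P q).w z k l := by
      intro i j
      funext z
      exact D.Xm_eq T q m z i j
    have e2 : D.Xm T q m z =
        fun i j => ∑ k, ∑ l, D.XL q m z i j k l * mat T (D.P q).w z k l := by
      funext i j
      exact D.Xm_eq T q m z i j
    rw [e2]
    simp only [e]
    exact h2
  choose C hC h using key
  refine ⟨1 + ∑ q, ∑ m, C q m, ?_, fun q m T hT z hz => ?_⟩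
  · have : 0 ≤ ∑ q, ∑ m, C q m :=
      Finset.sum_nonneg fun q _ => Finset.sum_nonneg fun m _ => (hC q m).le
    linarith
  · refine (h q m T hT z hz).trans (mul_le_mul_of_nonneg_right ?_ (norm_nonneg _))
    have h1 : C q m ≤ ∑ m, C q m :=
      Finset.single_le_sum (f := fun m => C q m) (fun m _ => (hC q m).le) (Finset.mem_univ m)
    have h2 : ∑ m, C q m ≤ ∑ q, ∑ m, C q m :=
      Finset.single_le_sum (f := fun q => ∑ m, C q m)
        (fun q _ => Finset.sum_nonneg fun m _ => (hC q m).le) (Finset.mem_univ q)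
    linarith

end Setup
end Crest.Agent.R216.Dec
end
end

-- ▼ part R216/DC2
section

/-!
Row 216 (S0335), part (6), module DC2 (helper674): stage construction, `dc2a`, `dc2b`, `dc2d`,
`dc2f` of `DecIface.lean` (at the end of the file), and also `dc2c`, `dc2e`-type formulas.

From a chart `w` of `M` (any affine normalisation is absorbed in `w`, see `affChart`), a curvature
parameter `κ`, an angle `α` and a radius `r` we build the `Stage` `mkStage` with chart
`Th κ ∘ rotE α ∘ w` and support the disc `‖w p‖ < r` (independent of `κ`, `α`).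
-/

set_option autoImplicit false
set_option linter.unusedSectionVars false
open scoped Manifold ContDiff Topology
open Set Metric

noncomputable section
namespace Crest.Agent.R216
namespace DC2

/-! ### planar maps -/

lemma e2_ext {x y : E2} (h0 : x 0 = y 0) (h1 : x 1 = y 1) : x = y := by
  ext i; fin_cases i <;> assumption

lemma norm_sq_E2 (x : E2) : ‖x‖ ^ 2 = x 0 ^ 2 + x 1 ^ 2 := by
  rw [EuclideanSpace.norm_sq_eq]; simp [Fin.sum_univ_two]

lemma inner_E2 (x y : E2) : inner ℝ x y = x 0 * y 0 + x 1 * y 1 := by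
  simp [PiLp.inner_apply, Fin.sum_univ_two]; ring

@[simp] lemma bv00 : (bv 0) 0 = 1 := by simp [bv]
@[simp] lemma bv01 : (bv 0) 1 = 0 := by simp [bv]
@[simp] lemma bv10 : (bv 1) 0 = 0 := by simp [bv]
@[simp] lemma bv11 : (bv 1) 1 = 1 := by simp [bv]

/-- parabolic shear -/
def Th (κ : ℝ) (z : E2) : E2 := !₂[z 0 + κ * z 1 ^ 2 / 2, z 1]
/-- inverse of the parabolic shear -/
def ThI (κ : ℝ) (y : E2) : E2 := !₂[y 0 - κ * y 1 ^ 2 / 2, y 1]

@[simp] lemma Th_zero (κ : ℝ) (z : E2) : Th κ z 0 = z 0 + κ * z 1 ^ 2 / 2 := rfl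
@[simp] lemma Th_one (κ : ℝ) (z : E2) : Th κ z 1 = z 1 := rfl
@[simp] lemma ThI_zero (κ : ℝ) (z : E2) : ThI κ z 0 = z 0 - κ * z 1 ^ 2 / 2 := rfl
@[simp] lemma ThI_one (κ : ℝ) (z : E2) : ThI κ z 1 = z 1 := rfl

@[simp] lemma ThI_Th (κ : ℝ) (z : E2) : ThI κ (Th κ z) = z := by
  apply e2_ext <;> simp
@[simp] lemma Th_ThI (κ : ℝ) (z : E2) : Th κ (ThI κ z) = z := by
  apply e2_ext <;> simp

/-- unit vector of angle `a` -/
def uu (a : ℝ) : E2 := !₂[Real.cos a, Real.sin a]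
/-- unit vector of angle `a + π/2` -/
def uu' (a : ℝ) : E2 := !₂[-Real.sin a, Real.cos a]

@[simp] lemma uu_zero (a : ℝ) : uu a 0 = Real.cos a := rfl
@[simp] lemma uu_one (a : ℝ) : uu a 1 = Real.sin a := rfl
@[simp] lemma uu'_zero (a : ℝ) : uu' a 0 = -Real.sin a := rfl
@[simp] lemma uu'_one (a : ℝ) : uu' a 1 = Real.cos a := rfl

/-- `z ↦ (⟨u,z⟩, ⟨u',z⟩)` as a linear isometry equivalence -/
def rotE (a : ℝ) : E2 ≃ₗᵢ[ℝ] E2 where
  toFun z := !₂[Real.cos a * z 0 + Real.sin a * z 1, -Real.sin a * z 0 + Real.cos a * z 1]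
  invFun y := !₂[Real.cos a * y 0 - Real.sin a * y 1, Real.sin a * y 0 + Real.cos a * y 1]
  map_add' x y := by apply e2_ext <;> simp <;> ring
  map_smul' c x := by apply e2_ext <;> simp <;> ring
  left_inv z := by
    have h := Real.sin_sq_add_cos_sq a
    apply e2_ext
    · simp; linear_combination (z 0) * h
    · simp; linear_combination (z 1) * h
  right_inv z := by
    have h := Real.sin_sq_add_cos_sq a
    apply e2_ext
    · simp; linear_combination (z 0) * h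
    · simp; linear_combination (z 1) * h
  norm_map' z := by
    have h := Real.sin_sq_add_cos_sq a
    have : ‖(!₂[Real.cos a * z 0 + Real.sin a * z 1, -Real.sin a * z 0 + Real.cos a * z 1] : E2)‖ ^ 2
        = ‖z‖ ^ 2 := by
      rw [norm_sq_E2, norm_sq_E2]; simp
      linear_combination (z 0 ^ 2 + z 1 ^ 2) * h
    exact (sq_eq_sq₀ (norm_nonneg _) (norm_nonneg _)).1 this

@[simp] lemma rotE_zero (a : ℝ) (z : E2) :
    rotE a z 0 = Real.cos a * z 0 + Real.sin a * z 1 := rfl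
@[simp] lemma rotE_one (a : ℝ) (z : E2) :
    rotE a z 1 = -Real.sin a * z 0 + Real.cos a * z 1 := rfl
@[simp] lemma rotE_symm_zero (a : ℝ) (z : E2) :
    (rotE a).symm z 0 = Real.cos a * z 0 - Real.sin a * z 1 := rfl
@[simp] lemma rotE_symm_one (a : ℝ) (z : E2) :
    (rotE a).symm z 1 = Real.sin a * z 0 + Real.cos a * z 1 := rfl

lemma rotE_zero_inner (a : ℝ) (z : E2) : rotE a z 0 = inner ℝ (uu a) z := by
  rw [inner_E2]; simp
lemma rotE_one_inner (a : ℝ) (z : E2) : rotE a z 1 = inner ℝ (uu' a) z := by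
  rw [inner_E2]; simp

lemma rotE_symm_eq (a : ℝ) (y : E2) : (rotE a).symm y = y 0 • uu a + y 1 • uu' a := by
  apply e2_ext <;> simp <;> ring


lemma contDiff_coord (i : Fin 2) : ContDiff ℝ ∞ (fun y : E2 => y i) :=
  (EuclideanSpace.proj i : E2 →L[ℝ] ℝ).contDiff

lemma ThI_eq (κ : ℝ) (y : E2) : ThI κ y = y - (κ / 2 * y 1 ^ 2) • bv 0 := by
  apply e2_ext <;> simp; ring
lemma Th_eq (κ : ℝ) (y : E2) : Th κ y = y + (κ / 2 * y 1 ^ 2) • bv 0 := by
  apply e2_ext <;> simp; ring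

lemma contDiff_Th (κ : ℝ) : ContDiff ℝ ∞ (Th κ) := by
  have e : Th κ = fun y : E2 => y + (κ / 2 * y 1 ^ 2) • bv 0 := by funext y; exact Th_eq κ y
  rw [e]
  exact contDiff_id.add ((contDiff_const.mul ((contDiff_coord 1).pow 2)).smul contDiff_const)

lemma contDiff_ThI (κ : ℝ) : ContDiff ℝ ∞ (ThI κ) := by
  have e : ThI κ = fun y : E2 => y - (κ / 2 * y 1 ^ 2) • bv 0 := by funext y; exact ThI_eq κ y
  rw [e]
  exact contDiff_id.sub ((contDiff_const.mul ((contDiff_coord 1).pow 2)).smul contDiff_const)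

/-- derivative of `ThI κ` at `y` -/
def dThI (κ : ℝ) (y : E2) : E2 →L[ℝ] E2 :=
  ContinuousLinearMap.id ℝ E2 -
    (κ * y 1) • ((EuclideanSpace.proj (1 : Fin 2) : E2 →L[ℝ] ℝ).smulRight (bv 0))

lemma dThI_apply (κ : ℝ) (y v : E2) : dThI κ y v = v - (κ * y 1 * v 1) • bv 0 := by
  simp [dThI, smul_smul]

/-- derivative of `Th κ` at `z` -/
def dTh (κ : ℝ) (z : E2) : E2 →L[ℝ] E2 :=
  ContinuousLinearMap.id ℝ E2 +
    (κ * z 1) • ((EuclideanSpace.proj (1 : Fin 2) : E2 →L[ℝ] ℝ).smulRight (bv 0))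

lemma dTh_apply (κ : ℝ) (z v : E2) : dTh κ z v = v + (κ * z 1 * v 1) • bv 0 := by
  simp [dTh, smul_smul]

lemma hasFDerivAt_sq1 (y : E2) : HasFDerivAt (fun y : E2 => y 1 ^ 2)
    ((2 * y 1) • (EuclideanSpace.proj (1 : Fin 2) : E2 →L[ℝ] ℝ)) y := by
  have h : HasFDerivAt (fun y : E2 => y 1) (EuclideanSpace.proj (1 : Fin 2) : E2 →L[ℝ] ℝ) y :=
    (EuclideanSpace.proj (1 : Fin 2) : E2 →L[ℝ] ℝ).hasFDerivAt
  have := h.pow 2
  simpa using this

lemma hasFDerivAt_shear (c : ℝ) (y : E2) :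
    HasFDerivAt (fun y : E2 => (c / 2 * y 1 ^ 2) • bv 0)
      ((c * y 1) • ((EuclideanSpace.proj (1 : Fin 2) : E2 →L[ℝ] ℝ).smulRight (bv 0))) y := by
  have h := ((hasFDerivAt_sq1 y).const_mul (c / 2)).smul_const (bv 0)
  refine h.congr_fderiv ?_
  apply ContinuousLinearMap.ext
  intro v
  have e : (EuclideanSpace.proj (1 : Fin 2) : E2 →L[ℝ] ℝ) v = v 1 := rfl
  simp only [ContinuousLinearMap.smulRight_apply, _root_.smul_apply, e, smul_smul,
    smul_eq_mul]
  congr 1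
  ring

lemma hasFDerivAt_ThI (κ : ℝ) (y : E2) : HasFDerivAt (ThI κ) (dThI κ y) y := by
  have e : ThI κ = fun y : E2 => y - (κ / 2 * y 1 ^ 2) • bv 0 := by funext y; exact ThI_eq κ y
  rw [e]
  exact (hasFDerivAt_id y).sub (hasFDerivAt_shear κ y)

lemma hasFDerivAt_Th (κ : ℝ) (y : E2) : HasFDerivAt (Th κ) (dTh κ y) y := by
  have e : Th κ = fun y : E2 => y + (κ / 2 * y 1 ^ 2) • bv 0 := by funext y; exact Th_eq κ y
  rw [e]
  exact (hasFDerivAt_id y).add (hasFDerivAt_shear κ y)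

/-- `Th κ` as a homeomorphism -/
def ThH (κ : ℝ) : E2 ≃ₜ E2 where
  toFun := Th κ
  invFun := ThI κ
  left_inv := ThI_Th κ
  right_inv := Th_ThI κ
  continuous_toFun := (contDiff_Th κ).continuous
  continuous_invFun := (contDiff_ThI κ).continuous

/-! ### the planar change of coordinates `par = Th κ ∘ rotE α` and its inverse `sg` -/

/-- `par κ α x = Th κ (rotE α x)` -/
def par (κ α : ℝ) (x : E2) : E2 := Th κ (rotE α x)
/-- inverse of `par` -/
def sg (κ α : ℝ) (y : E2) : E2 := (rotE α).symm (ThI κ y)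

@[simp] lemma sg_par (κ α : ℝ) (x : E2) : sg κ α (par κ α x) = x := by simp [sg, par]
@[simp] lemma par_sg (κ α : ℝ) (y : E2) : par κ α (sg κ α y) = y := by simp [sg, par]

lemma norm_sg (κ α : ℝ) (y : E2) : ‖sg κ α y‖ = ‖ThI κ y‖ := by simp [sg]
lemma ThI_par (κ α : ℝ) (x : E2) : ThI κ (par κ α x) = rotE α x := by simp [par]
lemma norm_ThI_par (κ α : ℝ) (x : E2) : ‖ThI κ (par κ α x)‖ = ‖x‖ := by rw [ThI_par]; simp

lemma contDiff_par (κ α : ℝ) : ContDiff ℝ ∞ (par κ α) :=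
  (contDiff_Th _).comp (rotE _).contDiff
lemma contDiff_sg (κ α : ℝ) : ContDiff ℝ ∞ (sg κ α) :=
  (rotE α).symm.contDiff.comp (contDiff_ThI _)

lemma par_one (κ α : ℝ) (x : E2) : par κ α x 1 = inner ℝ (uu' α) x := by
  simp only [par, Th_one, rotE_one_inner]

/-- the planar coordinate change as a homeomorphism -/
def parH (κ α : ℝ) : E2 ≃ₜ E2 where
  toFun := par κ α
  invFun := sg κ α
  left_inv := sg_par κ α
  right_inv := par_sg κ α
  continuous_toFun := (contDiff_par κ α).continuous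
  continuous_invFun := (contDiff_sg κ α).continuous

/-- the covector `dph = u + κ ⟨u', z⟩ u'` of the phase at `z` -/
def dph (κ α : ℝ) (z : E2) : E2 := uu α + (κ * inner ℝ (uu' α) z) • uu' α
/-- the level direction `dlev = u' - κ ⟨u', z⟩ u` at `z` -/
def dlev (κ α : ℝ) (z : E2) : E2 := uu' α - (κ * inner ℝ (uu' α) z) • uu α


lemma hasFDerivAt_par (κ α : ℝ) (x : E2) : HasFDerivAt (par κ α)
    ((dTh κ (rotE α x)).comp ((rotE α).toContinuousLinearEquiv : E2 →L[ℝ] E2)) x :=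
  (hasFDerivAt_Th κ (rotE α x)).comp x
    (((rotE α).toContinuousLinearEquiv : E2 →L[ℝ] E2).hasFDerivAt (x := x))

lemma hasFDerivAt_sg (κ α : ℝ) (y : E2) : HasFDerivAt (sg κ α)
    (((rotE α).symm.toContinuousLinearEquiv : E2 →L[ℝ] E2).comp (dThI κ y)) y :=
  (((rotE α).symm.toContinuousLinearEquiv : E2 →L[ℝ] E2).hasFDerivAt (x := ThI κ y)).comp y
    (hasFDerivAt_ThI κ y)

lemma fderiv_par (κ α : ℝ) (x v : E2) : fderiv ℝ (par κ α) x v
    = rotE α v + (κ * inner ℝ (uu' α) x * inner ℝ (uu' α) v) • bv 0 := by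
  rw [(hasFDerivAt_par κ α x).fderiv]
  have h : ((dTh κ (rotE α x)).comp ((rotE α).toContinuousLinearEquiv : E2 →L[ℝ] E2)) v
      = dTh κ (rotE α x) (rotE α v) := rfl
  rw [h, dTh_apply, rotE_one_inner, rotE_one_inner]

lemma fderiv_par_zero (κ α : ℝ) (x v : E2) :
    fderiv ℝ (par κ α) x v 0 = inner ℝ (dph κ α x) v := by
  rw [fderiv_par, dph, inner_add_left, inner_smul_left]
  simp only [PiLp.add_apply, PiLp.smul_apply, bv00, rotE_zero_inner]
  simp

lemma fderiv_sg (κ α : ℝ) (y v : E2) : fderiv ℝ (sg κ α) y v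
    = (v 0 - κ * y 1 * v 1) • uu α + v 1 • uu' α := by
  rw [(hasFDerivAt_sg κ α y).fderiv]
  have h : (((rotE α).symm.toContinuousLinearEquiv : E2 →L[ℝ] E2).comp (dThI κ y)) v
      = (rotE α).symm (dThI κ y v) := rfl
  rw [h, rotE_symm_eq, dThI_apply]
  simp

lemma fderiv_sg_bv1 (κ α : ℝ) (y : E2) :
    fderiv ℝ (sg κ α) y (bv 1) = uu' α - (κ * y 1) • uu α := by
  rw [fderiv_sg]; simp; abel
lemma fderiv_sg_bv1_par (κ α : ℝ) (x : E2) :
    fderiv ℝ (sg κ α) (par κ α x) (bv 1) = dlev κ α x := by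
  rw [fderiv_sg_bv1, par_one, dlev]



/-! ### the disc function -/

/-- the disc function in the coordinates of the stage -/
def uf (κ r : ℝ) (y : E2) : ℝ := r ^ 2 - ‖ThI κ y‖ ^ 2

lemma uf_eq (κ r : ℝ) (y : E2) :
    uf κ r y = r ^ 2 - ((y 0 - κ * y 1 ^ 2 / 2) ^ 2 + y 1 ^ 2) := by
  rw [uf, norm_sq_E2]; rfl

lemma contDiff_uf (κ r : ℝ) : ContDiff ℝ ∞ (uf κ r) :=
  contDiff_const.sub ((contDiff_norm_sq ℝ).comp (contDiff_ThI _))

lemma uf_par (κ α r : ℝ) (x : E2) : uf κ r (par κ α x) = r ^ 2 - ‖x‖ ^ 2 := by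
  rw [uf, norm_ThI_par]

lemma uf_pos_iff {κ r : ℝ} (hr : 0 < r) (y : E2) : 0 < uf κ r y ↔ ‖ThI κ y‖ < r := by
  rw [uf, sub_pos, sq_lt_sq₀ (norm_nonneg _) hr.le]

lemma setOf_uf_pos {κ r : ℝ} (hr : 0 < r) :
    {y | 0 < uf κ r y} = (ThH κ).symm ⁻¹' ball 0 r := by
  ext y
  rw [mem_ofPred_eq, uf_pos_iff hr, mem_preimage, mem_ball_zero_iff]; rfl

lemma closure_uf_pos {κ r : ℝ} (hr : 0 < r) :
    closure {y | 0 < uf κ r y} = {y | ‖ThI κ y‖ ≤ r} := by
  rw [setOf_uf_pos hr, ← (ThH κ).symm.preimage_closure, closure_ball _ hr.ne']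
  ext y
  rw [mem_preimage, mem_closedBall_zero_iff]; rfl

lemma frontier_uf_pos {κ r : ℝ} (hr : 0 < r) :
    frontier {y | 0 < uf κ r y} = {y | ‖ThI κ y‖ = r} := by
  rw [setOf_uf_pos hr, ← (ThH κ).symm.preimage_frontier, frontier_ball _ hr.ne']
  ext y
  rw [mem_preimage, mem_sphere_zero_iff_norm]; rfl

lemma isCompact_closure_uf_pos {κ r : ℝ} (hr : 0 < r) :
    IsCompact (closure {y | 0 < uf κ r y}) := by
  have h : closure {y | 0 < uf κ r y} = Th κ '' closedBall 0 r := by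
    rw [closure_uf_pos hr]
    ext y
    constructor
    · intro hy
      exact ⟨ThI κ y, by simpa using hy, by simp⟩
    · rintro ⟨z, hz, rfl⟩
      simpa using hz
  rw [h]
  exact (isCompact_closedBall _ _).image (contDiff_Th _).continuous

lemma star_aux {κ r a s t : ℝ} (hr : 0 < r) (hκ : 0 ≤ κ) (hκr : κ * r ≤ 1 / 2)
    (ht : 0 ≤ t) (hts : t ≤ s) (h : (a - κ * s / 2) ^ 2 + s < r ^ 2) :
    (a - κ * t / 2) ^ 2 + t ≤ (a - κ * s / 2) ^ 2 + s := by
  have hs : s < r ^ 2 := by nlinarith [sq_nonneg (a - κ * s / 2)]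
  have hb : a - κ * s / 2 < r := by
    have hs0 : 0 ≤ s := ht.trans hts
    exact lt_of_pow_lt_pow_left₀ 2 hr.le (by nlinarith)
  have hκr0 : 0 ≤ κ * r := mul_nonneg hκ hr.le
  have h1 : κ * (a - κ * s / 2) ≤ 1 / 2 := by
    calc κ * (a - κ * s / 2) ≤ κ * r := mul_le_mul_of_nonneg_left hb.le hκ
      _ ≤ 1 / 2 := hκr
  have h2 : κ ^ 2 * s ≤ 1 / 4 := by
    calc κ ^ 2 * s ≤ κ ^ 2 * r ^ 2 := mul_le_mul_of_nonneg_left hs.le (sq_nonneg _)
      _ = (κ * r) ^ 2 := by ring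
      _ ≤ (1 / 2) ^ 2 := by gcongr
      _ = 1 / 4 := by norm_num
  have h3 : 0 ≤ κ ^ 2 * t := by positivity
  have key : (a - κ * s / 2) ^ 2 + s - ((a - κ * t / 2) ^ 2 + t)
      = (s - t) * (1 - κ * (a - κ * s / 2) - κ ^ 2 * s / 4 + κ ^ 2 * t / 4) := by ring
  have h4 : 0 ≤ (s - t) * (1 - κ * (a - κ * s / 2) - κ ^ 2 * s / 4 + κ ^ 2 * t / 4) :=
    mul_nonneg (by linarith) (by linarith)
  linarith

/-- star-shapedness of the superlevel sets of the disc function -/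
lemma uf_star {κ r : ℝ} (hr : 0 < r) (hκ : 0 ≤ κ) (hκr : κ * r ≤ 1 / 2) :
    ∀ s : ℝ, 0 ≤ s → ∀ y : E2, s < uf κ r y → ∀ θ : ℝ, 0 ≤ θ → θ ≤ 1 →
      s < uf κ r (y 0 • bv 0 + (θ * y 1) • bv 1) := by
  intro s hs y hy θ h0 h1
  have e0 : (y 0 • bv 0 + (θ * y 1) • bv 1) 0 = y 0 := by simp
  have e1 : (y 0 • bv 0 + (θ * y 1) • bv 1) 1 = θ * y 1 := by simp
  rw [uf_eq] at hy ⊢
  rw [e0, e1]
  have h2 : θ ^ 2 ≤ 1 := pow_le_one₀ h0 h1
  have := star_aux (a := y 0) (s := y 1 ^ 2) (t := (θ * y 1) ^ 2) hr hκ hκr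
    (sq_nonneg _) (by rw [mul_pow]; nlinarith [sq_nonneg (y 1)]) (by linarith)
  linarith

/-! ### charts -/

variable {M : Type*} [TopologicalSpace M] [ChartedSpace E2 M]

lemma trans_mem_maxAtlas {c : OpenPartialHomeomorph M E2}
    (hc : c ∈ IsManifold.maximalAtlas (𝓡 2) ∞ M) {H : E2 ≃ₜ E2}
    (h1 : ContDiff ℝ ∞ H) (h2 : ContDiff ℝ ∞ H.symm) :
    c ≫ₕ H.toOpenPartialHomeomorph ∈ IsManifold.maximalAtlas (𝓡 2) ∞ M := by
  have hT : H.toOpenPartialHomeomorph ∈ contDiffGroupoid ∞ (𝓡 2) := by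
    rw [contDiffGroupoid, mem_groupoid_of_pregroupoid]
    constructor
    · show ContDiffOn ℝ ∞ _ _
      exact h1.contDiffOn
    · show ContDiffOn ℝ ∞ _ _
      exact h2.contDiffOn
  intro e' he'
  obtain ⟨h3, h4⟩ := hc e' he'
  constructor
  · rw [OpenPartialHomeomorph.trans_symm_eq_symm_trans_symm, OpenPartialHomeomorph.trans_assoc]
    exact (contDiffGroupoid ∞ (𝓡 2)).trans ((contDiffGroupoid ∞ (𝓡 2)).symm hT) h3
  · rw [← OpenPartialHomeomorph.trans_assoc]
    exact (contDiffGroupoid ∞ (𝓡 2)).trans h4 hT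

/-- affine homeomorphism `x ↦ L (x - x0)` -/
def affH (x0 : E2) (L : E2 ≃L[ℝ] E2) : E2 ≃ₜ E2 where
  toFun x := L (x - x0)
  invFun z := x0 + L.symm z
  left_inv x := by simp
  right_inv z := by simp
  continuous_toFun := by fun_prop
  continuous_invFun := by fun_prop

/-- the affinely normalised chart `p ↦ L (χ p - x0)` -/
def affChart (χ : OpenPartialHomeomorph M E2) (x0 : E2) (L : E2 ≃L[ℝ] E2) :
    OpenPartialHomeomorph M E2 := χ ≫ₕ (affH x0 L).toOpenPartialHomeomorph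

@[simp] lemma affChart_apply (χ : OpenPartialHomeomorph M E2) (x0 : E2) (L : E2 ≃L[ℝ] E2) (p : M) :
    affChart χ x0 L p = L (χ p - x0) := rfl
@[simp] lemma affChart_symm_apply (χ : OpenPartialHomeomorph M E2) (x0 : E2) (L : E2 ≃L[ℝ] E2)
    (z : E2) : (affChart χ x0 L).symm z = χ.symm (x0 + L.symm z) := rfl
@[simp] lemma affChart_source (χ : OpenPartialHomeomorph M E2) (x0 : E2) (L : E2 ≃L[ℝ] E2) :
    (affChart χ x0 L).source = χ.source := by simp [affChart]

/-- the chart of the stage -/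
def psi (w : OpenPartialHomeomorph M E2) (κ α : ℝ) : OpenPartialHomeomorph M E2 :=
  w ≫ₕ (parH κ α).toOpenPartialHomeomorph

@[simp] lemma psi_source (w : OpenPartialHomeomorph M E2) (κ α : ℝ) :
    (psi w κ α).source = w.source := by simp [psi]
lemma psi_target (w : OpenPartialHomeomorph M E2) (κ α : ℝ) :
    (psi w κ α).target = sg κ α ⁻¹' w.target := by
  rw [psi, OpenPartialHomeomorph.trans_target]
  simp
  rfl
@[simp] lemma psi_apply (w : OpenPartialHomeomorph M E2) (κ α : ℝ) (p : M) :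
    psi w κ α p = par κ α (w p) := rfl
@[simp] lemma psi_symm_apply (w : OpenPartialHomeomorph M E2) (κ α : ℝ) (y : E2) :
    (psi w κ α).symm y = w.symm (sg κ α y) := rfl
lemma psi_mem {w : OpenPartialHomeomorph M E2}
    (hw : w ∈ IsManifold.maximalAtlas (𝓡 2) ∞ M) (κ α : ℝ) :
    psi w κ α ∈ IsManifold.maximalAtlas (𝓡 2) ∞ M :=
  trans_mem_maxAtlas hw (contDiff_par κ α) (contDiff_sg κ α)

/-- **the stage** with chart `par κ α ∘ w` and disc `‖w p‖ < r`. -/
def mkStage (w : OpenPartialHomeomorph M E2) (hw : w ∈ IsManifold.maximalAtlas (𝓡 2) ∞ M)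
    (κ α r : ℝ) (hr : 0 < r) (hκ : 0 ≤ κ) (hκr : κ * r ≤ 1 / 2)
    (hsub : closedBall 0 r ⊆ w.target) : Stage M where
  ψ := psi w κ α
  hψ := psi_mem hw κ α
  u := uf κ r
  hu := contDiff_uf κ r
  cpt := isCompact_closure_uf_pos hr
  sub := by
    rw [closure_uf_pos hr, psi_target]
    intro y hy
    apply hsub
    rw [mem_closedBall_zero_iff, norm_sg]; exact hy
  star := uf_star hr hκ hκr

section stage

variable {w : OpenPartialHomeomorph M E2} {hw : w ∈ IsManifold.maximalAtlas (𝓡 2) ∞ M}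
  {κ α r : ℝ} {hr : 0 < r} {hκ : 0 ≤ κ} {hκr : κ * r ≤ 1 / 2} {hsub : closedBall 0 r ⊆ w.target}

@[simp] lemma mkStage_ψ : (mkStage w hw κ α r hr hκ hκr hsub).ψ = psi w κ α := rfl
@[simp] lemma mkStage_u : (mkStage w hw κ α r hr hκ hκr hsub).u = uf κ r := rfl









/-! ### differential of the phase and level direction -/

lemma mdifferentiableAt_w (hw : w ∈ IsManifold.maximalAtlas (𝓡 2) ∞ M) [IsManifold (𝓡 2) ∞ M]
    {p : M} (hp : p ∈ w.source) : MDifferentiableAt (𝓡 2) (𝓡 2) w p :=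
  (contMDiffAt_of_mem_maximalAtlas hw hp).mdifferentiableAt (by simp)

lemma mdifferentiableAt_symm {c : OpenPartialHomeomorph M E2}
    (hc : c ∈ IsManifold.maximalAtlas (𝓡 2) ∞ M) [IsManifold (𝓡 2) ∞ M]
    {y : E2} (hy : y ∈ c.target) : MDifferentiableAt (𝓡 2) (𝓡 2) c.symm y :=
  (contMDiffAt_symm_of_mem_maximalAtlas hc hy).mdifferentiableAt (by simp)




end stage

/-! ### translation to the names of `DecDefs.lean` (angles change sign: `rot a = rotE (-a)`) -/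

open Dec

lemma comb_zero (a b : ℝ) : (a • bv 0 + b • bv 1 : E2) 0 = a := by simp
lemma comb_one (a b : ℝ) : (a • bv 0 + b • bv 1 : E2) 1 = b := by simp

lemma rot_eq (a : ℝ) (z : E2) : rot a z = rotE (-a) z := by
  apply e2_ext
  · rw [rot, comb_zero, rotE_zero]; simp [sub_eq_add_neg]
  · rw [rot, comb_one, rotE_one]; simp

lemma rot_neg_eq (a : ℝ) (z : E2) : rot (-a) z = (rotE (-a)).symm z := by
  apply e2_ext
  · rw [rot, comb_zero, rotE_symm_zero]
  · rw [rot, comb_one, rotE_symm_one]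

lemma theta_eq (k : ℝ) (z : E2) : theta k z = Th k z := by
  apply e2_ext
  · rw [theta, comb_zero, Th_zero]
  · rw [theta, comb_one, Th_one]

lemma thetaInv_eq (k : ℝ) (z : E2) : thetaInv k z = ThI k z := by
  apply e2_ext
  · rw [thetaInv, comb_zero, ThI_zero]
  · rw [thetaInv, comb_one, ThI_one]

lemma phs_eq (k a : ℝ) (z : E2) : phs k a z = par k (-a) z := by
  rw [phs, theta_eq, rot_eq, par]

lemma phsInv_eq (k a : ℝ) (y : E2) : phsInv k a y = sg k (-a) y := by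
  rw [phsInv, thetaInv_eq, rot_neg_eq, sg]

lemma phsInv_phs (k a : ℝ) (z : E2) : phsInv k a (phs k a z) = z := by
  rw [phsInv_eq, phs_eq, sg_par]


lemma norm_phsInv (k a : ℝ) (y : E2) : ‖phsInv k a y‖ = ‖thetaInv k y‖ := by
  rw [phsInv_eq, thetaInv_eq, norm_sg]

lemma contDiff_phs (k a : ℝ) : ContDiff ℝ ∞ (phs k a) := by
  have h : phs k a = par k (-a) := funext (phs_eq k a)
  rw [h]; exact contDiff_par _ _

lemma contDiff_phsInv (k a : ℝ) : ContDiff ℝ ∞ (phsInv k a) := by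
  have h : phsInv k a = sg k (-a) := funext (phsInv_eq k a)
  rw [h]; exact contDiff_sg _ _

lemma discU_eq (k r : ℝ) : discU k r = uf k r := by
  funext y
  rw [discU, uf, thetaInv_eq]

lemma discU_phs (k a r : ℝ) (z : E2) : discU k r (phs k a z) = r ^ 2 - ‖z‖ ^ 2 := by
  rw [discU_eq, phs_eq, uf_par]


lemma dph_eq (k a : ℝ) (z v : E2) : Dec.dph k a z v = inner ℝ (dph k (-a) z) v := by
  rw [Dec.dph, rot_eq, rot_eq, rotE_zero_inner, rotE_one_inner, rotE_one_inner, dph,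
    inner_add_left, inner_smul_left]
  simp

lemma dlev_eq (k a : ℝ) (z : E2) : Dec.dlev k a z = dlev k (-a) z := by
  rw [Dec.dlev, rot_neg_eq, rotE_symm_eq, rot_eq, rotE_one_inner, dlev]
  simp; abel

/-- The stage of a patch with phase angle `a` and radius `r`. -/
def stg (P : Patch M) (a r : ℝ) (hr : 0 < r) (hr2 : r < 2 * P.R) : Stage M :=
  mkStage P.w P.hw P.κ (-a) r hr P.hκ.le
    ((mul_le_mul_of_nonneg_left hr2.le P.hκ.le).trans P.hκR)
    ((closedBall_subset_closedBall hr2.le).trans P.sub)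

lemma isStage_stg (P : Patch M) (a r : ℝ) (hr : 0 < r) (hr2 : r < 2 * P.R) :
    IsStage P a r (stg P a r hr hr2) where
  src := by simp [stg]
  tgt y := by
    rw [stg, mkStage_ψ, psi_target, mem_preimage, phsInv_eq]
  app p := by
    rw [stg, mkStage_ψ, psi_apply, phs_eq]
  symm y := by
    rw [stg, mkStage_ψ, psi_symm_apply, phsInv_eq]
  u := by rw [stg, mkStage_u, discU_eq]


section isStage

variable {P : Patch M} {a r : ℝ} {S : Stage M}

lemma IsStage_U (hr : 0 < r) (h : IsStage P a r S) : S.U = {y | ‖thetaInv P.κ y‖ < r} := by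
  ext y
  have e : (y ∈ S.U) = (0 < S.u y) := rfl
  rw [e, h.u, discU_eq, mem_ofPred_eq, uf_pos_iff hr, thetaInv_eq]

lemma IsStage_closure_U (hr : 0 < r) (h : IsStage P a r S) :
    closure S.U = {y | ‖thetaInv P.κ y‖ ≤ r} := by
  have e : S.U = {y | 0 < uf P.κ r y} := by
    ext y
    have e : (y ∈ S.U) = (0 < S.u y) := rfl
    rw [e, h.u, discU_eq]; rfl
  rw [e, closure_uf_pos hr]
  ext y
  rw [mem_ofPred_eq, mem_ofPred_eq, thetaInv_eq]

lemma IsStage_C (hr : 0 < r) (h : IsStage P a r S) :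
    S.C = {y | ‖thetaInv P.κ y‖ = r} := by
  have e : S.C = frontier {y | 0 < uf P.κ r y} := by
    have e : S.U = {y | 0 < uf P.κ r y} := by
      ext y
      have e : (y ∈ S.U) = (0 < S.u y) := rfl
      rw [e, h.u, discU_eq]; rfl
    rw [Stage.C, e]
  rw [e, frontier_uf_pos hr]
  ext y
  rw [mem_ofPred_eq, mem_ofPred_eq, thetaInv_eq]

lemma image_symm_phsInv (h : IsStage P a r S) (s : Set E2) :
    S.ψ.symm '' (phsInv P.κ a ⁻¹' s) = P.w.symm '' s := by
  ext p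
  constructor
  · rintro ⟨y, hy, rfl⟩; exact ⟨phsInv P.κ a y, hy, (h.symm y).symm⟩
  · rintro ⟨x, hx, rfl⟩
    refine ⟨phs P.κ a x, ?_, ?_⟩
    · rw [mem_preimage, phsInv_phs]; exact hx
    · rw [h.symm, phsInv_phs]

lemma IsStage_V (hr : 0 < r) (h : IsStage P a r S) : S.V = P.disc r := by
  have e : S.U = phsInv P.κ a ⁻¹' ball 0 r := by
    rw [IsStage_U hr h]; ext y
    rw [mem_preimage, mem_ball_zero_iff, norm_phsInv]; rfl
  rw [Stage.V, e, image_symm_phsInv h, Patch.disc]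

lemma IsStage_circ (hr : 0 < r) (h : IsStage P a r S) : S.circ = P.circ r := by
  have e : S.C = phsInv P.κ a ⁻¹' sphere 0 r := by
    rw [IsStage_C hr h]; ext y
    rw [mem_preimage, mem_sphere_zero_iff_norm, norm_phsInv]; rfl
  rw [Stage.circ, e, image_symm_phsInv h, Patch.circ]

end isStage

end DC2

namespace Dec

variable {M : Type*} [TopologicalSpace M] [ChartedSpace E2 M]

theorem dc2a (M : Type*) [TopologicalSpace M] [ChartedSpace E2 M] [IsManifold (𝓡 2) ∞ M] :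
    DC2a M := fun P a r hr hr2 => ⟨DC2.stg P a r hr hr2, DC2.isStage_stg P a r hr hr2⟩

theorem dc2b (M : Type*) [TopologicalSpace M] [ChartedSpace E2 M] [IsManifold (𝓡 2) ∞ M] :
    DC2b M := fun _ _ _ _ hr _ h =>
  ⟨DC2.IsStage_U hr h, DC2.IsStage_closure_U hr h, DC2.IsStage_V hr h, DC2.IsStage_circ hr h⟩

theorem dc2d (M : Type*) [TopologicalSpace M] [ChartedSpace E2 M] [IsManifold (𝓡 2) ∞ M] :
    DC2d M := by
  intro P a r S h β p
  by_cases hp : p ∈ P.w.source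
  · have hp' : p ∈ S.ψ.source := by rw [h.src]; exact hp
    rw [Stage.amp, if_pos hp', Patch.bump, if_pos hp, Stage.ampP, mul_pow, h.u, h.app,
      DC2.discU_phs]
  · have hp' : p ∉ S.ψ.source := by rw [h.src]; exact hp
    rw [Stage.amp, if_neg hp', Patch.bump, if_neg hp]; simp

theorem dc2f (M : Type*) [TopologicalSpace M] [ChartedSpace E2 M] [IsManifold (𝓡 2) ∞ M] :
    DC2f M := by
  rintro P a r S hr - h X y ⟨hy, p, ⟨hpX, hps⟩, rfl⟩
  rw [DC2.IsStage_closure_U hr h] at hy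
  refine ⟨?_, ?_⟩
  · rw [Metric.mem_closedBall, dist_zero_right, DC2.norm_phsInv]; exact hy
  · rw [h.app, DC2.phsInv_phs]
    exact ⟨p, ⟨hpX, by rw [← h.src]; exact hps⟩, rfl⟩

end Dec
end Crest.Agent.R216
end
end

-- ▼ part R216/DC2c
section

/-!
Row 216 (S0335), part (6): `dc2c` and `dc2e` of `DecIface.lean` (helper674).
-/

set_option autoImplicit false
set_option linter.unusedSectionVars false
open scoped Manifold ContDiff Topology
open Set Metric

noncomputable section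
namespace Crest.Agent.R216
namespace DC2

open Dec

lemma phs_fun (k a : ℝ) : phs k a = par k (-a) := funext (phs_eq k a)
lemma phsInv_fun (k a : ℝ) : phsInv k a = sg k (-a) := funext (phsInv_eq k a)

lemma fderiv_phs_zero (k a : ℝ) (x v : E2) : fderiv ℝ (phs k a) x v 0 = Dec.dph k a x v := by
  rw [phs_fun, fderiv_par_zero, dph_eq]

lemma fderiv_phsInv_bv1 (k a : ℝ) (x : E2) :
    fderiv ℝ (phsInv k a) (phs k a x) (bv 1) = Dec.dlev k a x := by
  rw [phs_fun, phsInv_fun, fderiv_sg_bv1_par, dlev_eq]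

variable {M : Type*} [TopologicalSpace M] [ChartedSpace E2 M] [IsManifold (𝓡 2) ∞ M]

/-- chain rule for the chart of a stage -/
lemma mfderiv_of_app {w : OpenPartialHomeomorph M E2} {c : OpenPartialHomeomorph M E2} {k a : ℝ}
    (hw : w ∈ IsManifold.maximalAtlas (𝓡 2) ∞ M) (hc : ∀ p, c p = phs k a (w p))
    {p : M} (hp : p ∈ w.source) (v : TangentSpace (𝓡 2) p) :
    (mfderiv (𝓡 2) 𝓘(ℝ, E2) c p v : E2)
      = fderiv ℝ (phs k a) (w p) (mfderiv (𝓡 2) 𝓘(ℝ, E2) w p v : E2) := by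
  have h1 : MDifferentiableAt (𝓡 2) (𝓡 2) w p := mdifferentiableAt_w hw hp
  have h2 : DifferentiableAt ℝ (phs k a) (w p) :=
    (contDiff_phs k a).differentiable (by simp) _
  have h3 := mfderiv_comp p h2.mdifferentiableAt h1
  have h4 : (c : M → E2) = phs k a ∘ w := funext hc
  rw [h4]
  have h5 := congrArg (fun T : TangentSpace (𝓡 2) p →L[ℝ] TangentSpace 𝓘(ℝ, E2) (phs k a (w p))
    => T v) h3
  simp only [mfderiv_eq_fderiv] at h5
  exact h5

lemma mfderiv_lev_aux {w w' c : OpenPartialHomeomorph M E2} {k a : ℝ}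
    (hw : w ∈ IsManifold.maximalAtlas (𝓡 2) ∞ M) (hw' : w' ∈ IsManifold.maximalAtlas (𝓡 2) ∞ M)
    (hcm : c ∈ IsManifold.maximalAtlas (𝓡 2) ∞ M)
    (hc : ∀ p, c p = phs k a (w' p)) (hcs : ∀ y, c.symm y = w'.symm (phsInv k a y))
    (hsrc : c.source = w'.source)
    {p : M} (hp : p ∈ w.source) (hp' : p ∈ w'.source) :
    ((mfderiv (𝓡 2) 𝓘(ℝ, E2) w p : E2 →L[ℝ] E2)
      ((mfderiv 𝓘(ℝ, E2) (𝓡 2) c.symm (c p) : E2 →L[ℝ] E2) (bv 1)) : E2)
      = fderiv ℝ (w ∘ w'.symm) (w' p) (Dec.dlev k a (w' p)) := by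
  set y : E2 := c p with hy
  have hps : p ∈ c.source := by rw [hsrc]; exact hp'
  have hyt : y ∈ c.target := c.map_source hps
  have hpy : c.symm y = p := c.left_inv hps
  have hy' : y = phs k a (w' p) := hc p
  have hyI : phsInv k a y = w' p := by rw [hy', phsInv_phs]
  have h1 : MDifferentiableAt (𝓡 2) (𝓡 2) c.symm y := mdifferentiableAt_symm hcm hyt
  have h2 : MDifferentiableAt (𝓡 2) (𝓡 2) w (c.symm y) := by
    rw [hpy]; exact mdifferentiableAt_w hw hp
  have h3 := mfderiv_comp y h2 h1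
  have h4 : (w ∘ c.symm : E2 → E2) = (w ∘ w'.symm) ∘ phsInv k a := by
    funext z; simp only [Function.comp_apply, hcs]
  -- differentiability of the transition map
  have h5 : MDifferentiableAt (𝓡 2) (𝓡 2) w'.symm (w' p) :=
    mdifferentiableAt_symm hw' (w'.map_source hp')
  have h6 : MDifferentiableAt (𝓡 2) (𝓡 2) w (w'.symm (w' p)) := by
    rw [w'.left_inv hp']; exact mdifferentiableAt_w hw hp
  have h7 : DifferentiableAt ℝ (w ∘ w'.symm : E2 → E2) (w' p) :=
    (MDifferentiableAt.comp (w' p) h6 h5).differentiableAt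
  have h7' : DifferentiableAt ℝ (w ∘ w'.symm : E2 → E2) (phsInv k a y) := by rw [hyI]; exact h7
  have h8 : DifferentiableAt ℝ (phsInv k a) y :=
    (contDiff_phsInv k a).differentiable (by simp) _
  have h9 : fderiv ℝ ((w ∘ w'.symm) ∘ phsInv k a : E2 → E2) y
      = (fderiv ℝ (w ∘ w'.symm : E2 → E2) (w' p)).comp (fderiv ℝ (phsInv k a) y) := by
    rw [fderiv_comp y h7' h8, hyI]
  have h10 : fderiv ℝ (phsInv k a) y (bv 1) = Dec.dlev k a (w' p) := by
    rw [hy', fderiv_phsInv_bv1]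
  have h11 : (mfderiv (𝓡 2) (𝓡 2) (w ∘ c.symm : E2 → E2) y : E2 →L[ℝ] E2) (bv 1)
      = fderiv ℝ (w ∘ w'.symm) (w' p) (Dec.dlev k a (w' p)) := by
    have e : (mfderiv (𝓡 2) (𝓡 2) (w ∘ c.symm : E2 → E2) y : E2 →L[ℝ] E2)
        = fderiv ℝ (w ∘ c.symm : E2 → E2) y := mfderiv_eq_fderiv
    have e2 : fderiv ℝ (w ∘ c.symm : E2 → E2) y (bv 1)
        = fderiv ℝ (w ∘ w'.symm) (w' p) (Dec.dlev k a (w' p)) := by
      rw [h4, h9, ContinuousLinearMap.comp_apply, h10]
    exact (congrArg (fun T : E2 →L[ℝ] E2 => T (bv 1)) e).trans e2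
  have h12 := congrArg (fun T : E2 →L[ℝ] E2 => T (bv 1)) h3
  let g : M → (E2 →L[ℝ] E2) := fun q => (mfderiv (𝓡 2) (𝓡 2) w q : E2 →L[ℝ] E2)
  have h13 : g (c.symm y) = g p := congrArg g hpy
  have h14 : g (c.symm y) ((mfderiv (𝓡 2) (𝓡 2) c.symm y : E2 →L[ℝ] E2) (bv 1))
      = fderiv ℝ (w ∘ w'.symm) (w' p) (Dec.dlev k a (w' p)) := by
    rw [← h11]; exact h12.symm
  rw [h13] at h14
  exact h14

end DC2

namespace Dec

theorem dc2c (M : Type*) [TopologicalSpace M] [ChartedSpace E2 M] [IsManifold (𝓡 2) ∞ M] :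
    DC2c M := by
  intro P a r S h p hp v
  have e : S.dphi p v
      = (fun z : E2 => z 0) (mfderiv (𝓡 2) 𝓘(ℝ, E2) S.ψ p v) := rfl
  have e' := congrArg (fun z : E2 => z 0) (DC2.mfderiv_of_app P.hw h.app hp v)
  exact e.trans (e'.trans (DC2.fderiv_phs_zero P.κ a (P.w p) _))

theorem dc2e (M : Type*) [TopologicalSpace M] [ChartedSpace E2 M] [IsManifold (𝓡 2) ∞ M] :
    DC2e M := by
  intro P P' a r a' r' S S' h h' p hp hp'
  have e := dc2c M P a r S h p hp (S'.lev p)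
  have e' := DC2.mfderiv_lev_aux P.hw P'.hw S'.hψ h'.app h'.symm h'.src hp hp'
  exact e.trans (congrArg (fun z : E2 => dph P.κ a (P.w p) z) e')

end Dec
end Crest.Agent.R216
end
end

-- ▼ part R216/DC3F

/-!
Row 216 (S0335), part (6): DC3a, DC3b, DC3d, DC3e (helper321, from GlobCoef and DC3C).
-/

set_option autoImplicit false
set_option linter.unusedSectionVars false
open scoped Manifold ContDiff Topology
open Set

noncomputable section
namespace Crest.Agent.R216.Dec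

theorem dc3a (M : Type*) [TopologicalSpace M] [ChartedSpace E2 M] [IsManifold (𝓡 2) ∞ M] :
    DC3a M := fun g _ hw v v' => Crest.Agent.R216.coef_contDiffOn g hw v v'

theorem dc3b (M : Type*) [TopologicalSpace M] [ChartedSpace E2 M] [IsManifold (𝓡 2) ∞ M] :
    DC3b M := fun _ hf _ hw =>
  ⟨fun v v' => Crest.Agent.R216.coef_pull_contDiffOn hf hw v v',
    fun _ hz v v' => Crest.Agent.R216.coef_pull hf hw hz v v'⟩

theorem dc3d (M : Type*) [TopologicalSpace M] [ChartedSpace E2 M] [IsManifold (𝓡 2) ∞ M] :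
    DC3d M := by
  intro h hb w hw p hp v v'
  have hB : Crest.Agent.R216.DC.TBil h := by
    constructor
    · intro p v v' w
      obtain ⟨B, hB⟩ := hb p
      simp [hB]
    · intro p a v w
      obtain ⟨B, hB⟩ := hb p
      simp [hB]
    · intro p v w w'
      obtain ⟨B, hB⟩ := hb p
      simp [hB]
    · intro p a v w
      obtain ⟨B, hB⟩ := hb p
      simp [hB]
  have key : ∀ V V' : E2, coef h w V V' (w p) = bil (mat h w (w p)) V V' := by
    intro V V'
    rw [Crest.Agent.R216.DC.coef_expand' hB]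
    unfold bil mat
    refine Finset.sum_congr rfl fun i _ => Finset.sum_congr rfl fun j _ => ?_
    ring
  rw [Crest.Agent.R216.tens_eq_coef h hw hp v v']
  exact key _ _

theorem dc3e (M : Type*) [TopologicalSpace M] [ChartedSpace E2 M] [IsManifold (𝓡 2) ∞ M] :
    DC3e M := by
  intro h w hw b hb z hz v v'
  have h1 := hb (w.symm z) (w.map_target hz) (mfderiv 𝓘(ℝ, E2) (𝓡 2) w.symm z v)
    (mfderiv 𝓘(ℝ, E2) (𝓡 2) w.symm z v')
  have hr : w (w.symm z) = z := w.right_inv hz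
  have key : ∀ u : E2, (mfderiv (𝓡 2) 𝓘(ℝ, E2) w (w.symm z)
      (mfderiv 𝓘(ℝ, E2) (𝓡 2) w.symm z u) : E2) = u := by
    intro u
    have hd1 : MDifferentiableAt 𝓘(ℝ, E2) (𝓡 2) w.symm z :=
      Crest.Agent.R216.DC.mdifferentiableAt_symm hw hz
    have hd2 : MDifferentiableAt (𝓡 2) 𝓘(ℝ, E2) w (w.symm z) :=
      Crest.Agent.R216.DC.mdifferentiableAt_chart hw (w.map_target hz)
    have h2 := mfderiv_comp z hd2 hd1
    have h3 : (w ∘ w.symm : E2 → E2) =ᶠ[𝓝 z] id := by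
      filter_upwards [w.open_target.mem_nhds hz] with y hy
      exact w.right_inv hy
    have h4 := h3.mfderiv_eq (I := 𝓘(ℝ, E2)) (I' := 𝓘(ℝ, E2))
    rw [mfderiv_id] at h4
    rw [h4] at h2
    have h5 := congrArg (fun L : E2 →L[ℝ] E2 => L u) h2
    exact h5.symm
  have h2 : coef h w v v' z = bil (b (w (w.symm z)))
      (mfderiv (𝓡 2) 𝓘(ℝ, E2) w (w.symm z) (mfderiv 𝓘(ℝ, E2) (𝓡 2) w.symm z v) : E2)
      (mfderiv (𝓡 2) 𝓘(ℝ, E2) w (w.symm z) (mfderiv 𝓘(ℝ, E2) (𝓡 2) w.symm z v') : E2) := h1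
  rw [h2, hr]
  exact congrArg₂ (fun a c : E2 => bil (b z) a c) (key v) (key v')

theorem dc3c (M : Type*) [TopologicalSpace M] [ChartedSpace E2 M] [IsManifold (𝓡 2) ∞ M] :
    DC3c M := by
  intro A P hs h η hP hcl z hz
  obtain ⟨c, x0, hsym, -, -, htgt, hK⟩ := hP
  have hfun : (P.w.symm : E2 → M) = fun y => (A.χ c).symm (x0 + y) := funext hsym
  -- coefficients are translates
  have hcoef : ∀ (h : Tens M) (v v' : E2), ∀ y ∈ P.w.target,
      coef h P.w v v' y = coef h (A.χ c) v v' (x0 + y) := by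
    intro h v v' y hy
    have hyt := (htgt y).1 hy
    have hd1 : MDifferentiableAt 𝓘(ℝ, E2) (𝓡 2) (A.χ c).symm (x0 + y) :=
      Crest.Agent.R216.DC.mdifferentiableAt_symm (A.hχ c) hyt
    have hd2 : HasFDerivAt (fun y : E2 => x0 + y) (ContinuousLinearMap.id ℝ E2) y := by
      simpa using (hasFDerivAt_id (𝕜 := ℝ) y).const_add x0
    have hd3 : MDifferentiableAt 𝓘(ℝ, E2) 𝓘(ℝ, E2) (fun y : E2 => x0 + y) y :=
      hd2.differentiableAt.mdifferentiableAt
    have key : ∀ u : E2, (mfderiv 𝓘(ℝ, E2) (𝓡 2) P.w.symm y u : E2) =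
        mfderiv 𝓘(ℝ, E2) (𝓡 2) (A.χ c).symm (x0 + y) u := by
      intro u
      have h2 := mfderiv_comp y hd1 hd3
      have h3 : mfderiv 𝓘(ℝ, E2) (𝓡 2) P.w.symm y =
          mfderiv 𝓘(ℝ, E2) (𝓡 2) ((A.χ c).symm ∘ fun y : E2 => x0 + y) y := by
        rw [hfun]; rfl
      have h4 : (mfderiv 𝓘(ℝ, E2) 𝓘(ℝ, E2) (fun y : E2 => x0 + y) y : E2 →L[ℝ] E2) =
          ContinuousLinearMap.id ℝ E2 := by
        rw [mfderiv_eq_fderiv]; exact hd2.fderiv
      have h5 := congrArg (fun L : E2 →L[ℝ] E2 => L u) (h3.trans h2)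
      refine h5.trans ?_
      show mfderiv 𝓘(ℝ, E2) (𝓡 2) (A.χ c).symm (x0 + y)
        ((mfderiv 𝓘(ℝ, E2) 𝓘(ℝ, E2) (fun y : E2 => x0 + y) y : E2 →L[ℝ] E2) u) = _
      rw [h4]; rfl
    exact Crest.Agent.R216.DC.tens_congr h (hsym y) (key v) (key v')
  have hzt : z ∈ P.w.target := P.sub hz
  have hzK : x0 + z ∈ A.K c := hK z hz
  have hη : 0 ≤ η := (abs_nonneg _).trans (hcl.c0 c _ hzK 0 0)
  have hfd : ∀ (h : Tens M) (v v' : E2), fderiv ℝ (coef h P.w v v') z =
      fderiv ℝ (coef h (A.χ c) v v') (x0 + z) := by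
    intro h v v'
    have hev : coef h P.w v v' =ᶠ[𝓝 z] fun y => coef h (A.χ c) v v' (x0 + y) := by
      filter_upwards [P.w.open_target.mem_nhds hzt] with y hy
      exact hcoef h v v' y hy
    rw [hev.fderiv_eq, fderiv_comp_add_left]
  rw [Prod.norm_def]
  refine max_le ?_ ?_
  · refine (pi_norm_le_iff_of_nonneg hη).2 fun i => (pi_norm_le_iff_of_nonneg hη).2 fun j => ?_
    have := hcl.c0 c _ hzK i j
    show ‖coef h P.w (bv i) (bv j) z - coef hs P.w (bv i) (bv j) z‖ ≤ η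
    rw [hcoef h _ _ z hzt, hcoef hs _ _ z hzt]
    exact this
  · refine (pi_norm_le_iff_of_nonneg hη).2 fun i => (pi_norm_le_iff_of_nonneg hη).2 fun j => ?_
    have := hcl.c1 c _ hzK i j
    show ‖fderiv ℝ (coef h P.w (bv i) (bv j)) z - fderiv ℝ (coef hs P.w (bv i) (bv j)) z‖ ≤ η
    rw [hfd h, hfd hs]
    exact this

end Crest.Agent.R216.Dec
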