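import Mathlib
import Crest.Agent.R216.GlobDefs

/-!
# Row 216 (S0335): global skeleton (architect: helper744)

Frozen interface between the four big parts
* `Decomp`  (part (6): cover + decomposition, helper179/321)
* `Base`    (part (D) + S^3 + bumps: base map)
* `Step`    (PSL + Theorem E + GLOB: one exact step)
and the final theorem.
-/

set_option autoImplicit false
open scoped Manifold ContDiff Topology
open Set

noncomputable section
namespace Crest.Agent.R216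

abbrev E2 := EuclideanSpace ℝ (Fin 2)
abbrev E3 := EuclideanSpace ℝ (Fin 3)
abbrev E4 := EuclideanSpace ℝ (Fin 4)

/-- standard basis vectors of the plane: `bv 0` = phase direction, `bv 1` = level direction. -/
def bv (i : Fin 2) : E2 := EuclideanSpace.single i (1 : ℝ)


/-! ## planar second fundamental form -/

/-- Second derivative `D²f(y)(v,w)` (= `d2` of GlobDefs). -/
abbrev dd (f : E2 → E4) (y v w : E2) : E4 := d2 f y v w

/-- Second fundamental form of `f` at `y` (= `hN` of GlobDefs): component of `D²f(v,w)`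
orthogonal to the range of `fderiv ℝ f y`. -/
abbrev sff (f : E2 → E4) (y v w : E2) : E4 := hN f y v w

/-- geodesic curvature coefficient of the level lines `y 0 = const` (intrinsic): it is nonzero
iff the tangential part of `f_22` is not parallel to `f_2`. -/
def gam (f : E2 → E4) (y : E2) : ℝ :=
  inner ℝ (dd f y (bv 1) (bv 1)) (fderiv ℝ f y (bv 0)) *
      inner ℝ (fderiv ℝ f y (bv 1)) (fderiv ℝ f y (bv 1)) -
    inner ℝ (dd f y (bv 1) (bv 1)) (fderiv ℝ f y (bv 1)) *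
      inner ℝ (fderiv ℝ f y (bv 0)) (fderiv ℝ f y (bv 1))

/-- (P1): `h(v,v)` is nonzero and not a negative multiple of `n`. -/
def P1at (f : E2 → E4) (y v : E2) (n : E4) : Prop :=
  ∀ c : ℝ, 0 ≤ c → sff f y v v ≠ -(c • n)

/-- (P2) for the pair (level direction `w` of the earlier stage, level direction `v` of the
later stage): `|h(v,w)|²|h(w,w)|² - ⟨h(v,w),h(w,w)⟩² < ⟨h(v,v),h(w,w)⟩|h(w,w)|²`, i.e.
`K area² + ⟨h(v,w), n_w⟩² > 0`. -/
def P2at (f : E2 → E4) (y w v : E2) : Prop :=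
  ‖sff f y v w‖ ^ 2 * ‖sff f y w w‖ ^ 2 - (inner ℝ (sff f y v w) (sff f y w w)) ^ 2 <
    inner ℝ (sff f y v v) (sff f y w w) * ‖sff f y w w‖ ^ 2

/-- (P3): `n, h(w,w), h(v,v)` lie in a common open half space (so `0` is not in their convex
hull); needed for rotating `ν` towards `h(w,w)` near crossing points. -/
def P3at (f : E2 → E4) (y w v : E2) (n : E4) : Prop :=
  ∃ z : E4, 0 < inner ℝ z n ∧ 0 < inner ℝ z (sff f y w w) ∧ 0 < inner ℝ z (sff f y v v)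

variable {M : Type*} [TopologicalSpace M] [ChartedSpace E2 M]

/-- a 2-tensor on `M` -/
abbrev Tens (M : Type*) [TopologicalSpace M] [ChartedSpace E2 M] :=
  ∀ p : M, TangentSpace (𝓡 2) p → TangentSpace (𝓡 2) p → ℝ

/-- pulled back metric -/
def pull (F : M → E4) : Tens M := fun p v w =>
  @inner ℝ E4 _ (mfderiv (𝓡 2) 𝓘(ℝ, E4) F p v) (mfderiv (𝓡 2) 𝓘(ℝ, E4) F p w)

/-- planar coordinate function `h(∂_v, ∂_w)` of a 2-tensor in a chart. -/
def coef (h : Tens M) (ψ : OpenPartialHomeomorph M E2) (v w : E2) (y : E2) : ℝ :=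
  h (ψ.symm y) (mfderiv 𝓘(ℝ, E2) (𝓡 2) ψ.symm y v) (mfderiv 𝓘(ℝ, E2) (𝓡 2) ψ.symm y w)

/-- Geometry of one stage: a chart (first coordinate = phase), and a function `u` whose
positivity set is the support of the amplitude. -/
structure Stage (M : Type*) [TopologicalSpace M] [ChartedSpace E2 M] where
  ψ : OpenPartialHomeomorph M E2
  hψ : ψ ∈ IsManifold.maximalAtlas (𝓡 2) ∞ M
  u : E2 → ℝ
  hu : ContDiff ℝ ∞ u
  cpt : IsCompact (closure {y | 0 < u y})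
  sub : closure {y | 0 < u y} ⊆ ψ.target
  star : ∀ s : ℝ, 0 ≤ s → ∀ y : E2, s < u y → ∀ θ : ℝ, 0 ≤ θ → θ ≤ 1 →
    s < u (y 0 • bv 0 + (θ * y 1) • bv 1)

namespace Stage
variable (S : Stage M)
/-- planar support -/
def U : Set E2 := {y | 0 < S.u y}
/-- planar boundary circle -/
def C : Set E2 := frontier S.U
/-- support on `M` -/
def V : Set M := S.ψ.symm '' S.U
/-- boundary circle on `M` -/
def circ : Set M := S.ψ.symm '' S.C
/-- differential of the phase at `p` -/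
def dphi (p : M) (v : TangentSpace (𝓡 2) p) : ℝ :=
  (EuclideanSpace.proj (0 : Fin 2) : E2 →L[ℝ] ℝ) (mfderiv (𝓡 2) 𝓘(ℝ, E2) S.ψ p v)
/-- level direction at `p` -/
def lev (p : M) : TangentSpace (𝓡 2) p :=
  (mfderiv 𝓘(ℝ, E2) (𝓡 2) S.ψ.symm (S.ψ p) (bv 1) : TangentSpace (𝓡 2) (S.ψ.symm (S.ψ p)))
/-- level direction of `T` written in the chart of `S` at `p` -/
def levIn (S T : Stage M) (p : M) : E2 := fderiv ℝ (S.ψ ∘ T.ψ.symm) (T.ψ p) (bv 1)
/-- planar amplitude with smooth positive factor `β` -/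
def ampP (β : E2 → ℝ) (y : E2) : ℝ := expNegInvGlue (S.u y) * β y
open Classical in
/-- amplitude on `M` -/
def amp (β : E2 → ℝ) (p : M) : ℝ := if p ∈ S.ψ.source then S.ampP β (S.ψ p) else 0
/-- primitive metric of the stage -/
def prim (β : E2 → ℝ) : Tens M := fun p v w => S.amp β p ^ 2 * S.dphi p v * S.dphi p w
end Stage

/-- A finite atlas with compact pieces, used to measure `C¹`-norms. -/
structure FinAtlas (M : Type*) [TopologicalSpace M] [ChartedSpace E2 M] where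
  n : ℕ
  χ : Fin n → OpenPartialHomeomorph M E2
  hχ : ∀ c, χ c ∈ IsManifold.maximalAtlas (𝓡 2) ∞ M
  K : Fin n → Set E2
  cpt : ∀ c, IsCompact (K c)
  sub : ∀ c, K c ⊆ (χ c).target
  cover : ∀ p : M, ∃ c, p ∈ (χ c).source ∧ χ c p ∈ interior (K c)

/-- The `C¹`-class of base metrics: `h` is `C¹`-close to the fixed metric `hs`. -/
structure InClass (A : FinAtlas M) (hs : Tens M) (η : ℝ) (h : Tens M) : Prop where
  c0 : ∀ c, ∀ y ∈ A.K c, ∀ i j : Fin 2,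
    |coef h (A.χ c) (bv i) (bv j) y - coef hs (A.χ c) (bv i) (bv j) y| ≤ η
  c1 : ∀ c, ∀ y ∈ A.K c, ∀ i j : Fin 2,
    ‖fderiv ℝ (coef h (A.χ c) (bv i) (bv j)) y - fderiv ℝ (coef hs (A.χ c) (bv i) (bv j)) y‖ ≤ η

/-- General position of the stages. -/
structure GenPos {J : ℕ} (S : Fin J → Stage M) : Prop where
  fin : ∀ j k, (S j).circ = (S k).circ ∨ ((S j).circ ∩ (S k).circ).Finite
  /-- at crossing points inside an earlier support the level directions are transversal -/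
  trans : ∀ k j l, k < j → k < l → (S j).circ ≠ (S l).circ →
    ∀ p, p ∈ (S j).circ → p ∈ (S l).circ → p ∈ (S k).V → (S k).dphi p ((S j).lev p) ≠ 0
  /-- thinness: later circles meet the level lines of an earlier stage in null sets -/
  thin : ∀ k j, k < j → ∀ a : ℝ, MeasureTheory.volume
    {b : ℝ | a • bv 0 + b • bv 1 ∈ closure (S k).U ∩ (S k).ψ '' ((S j).circ ∩ (S k).ψ.source)} = 0

/-- metric after the stages `< k` -/
def Gk {J : ℕ} (S : Fin J → Stage M) (β : Fin J → E2 → ℝ) (h : Tens M) (k : ℕ) : Tens M :=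
  fun p v w => h p v w + ∑ j : Fin J, if j.1 < k then (S j).prim (β j) p v w else 0

/-- **Part (6)**: cover + decomposition. -/
def DecompStatement (M : Type*) [TopologicalSpace M] [ChartedSpace E2 M]
    [IsManifold (𝓡 2) ∞ M] : Prop :=
  ∀ (g : Bundle.ContMDiffRiemannianMetric (𝓡 2) ∞ E2 (TangentSpace (𝓡 2) : M → Type))
    (A : FinAtlas M) (fs : M → E4), ContMDiff (𝓡 2) 𝓘(ℝ, E4) ∞ fs →
    (∀ (p : M) (v : TangentSpace (𝓡 2) p), v ≠ 0 →
      0 < pull fs p v v ∧ pull fs p v v < g.inner p v v) →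
  ∃ (η : ℝ) (J : ℕ) (S : Fin J → Stage M), 0 < η ∧ GenPos S ∧
    ∀ f0 : M → E4, ContMDiff (𝓡 2) 𝓘(ℝ, E4) ∞ f0 →
      InClass A (pull fs) η (pull f0) →
    ∃ β : Fin J → E2 → ℝ, (∀ j, ContDiff ℝ ∞ (β j)) ∧ (∀ j y, 0 < β j y) ∧
      (∀ p v w, Gk S β (pull f0) J p v w = g.inner p v w) ∧
      (∀ (k : Fin J) (f : M → E4), ContMDiff (𝓡 2) 𝓘(ℝ, E4) ∞ f →
        (∀ p v w, pull f p v w = Gk S β (pull f0) k.1 p v w) →
        ∀ y ∈ closure (S k).U, gam (f ∘ (S k).ψ.symm) y ≠ 0)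

/-- **Part (D)+base map**. -/
def BaseStatement (M : Type*) [TopologicalSpace M] [ChartedSpace E2 M]
    [IsManifold (𝓡 2) ∞ M] : Prop :=
  ∀ (g : Bundle.ContMDiffRiemannianMetric (𝓡 2) ∞ E2 (TangentSpace (𝓡 2) : M → Type))
    (A : FinAtlas M), ∃ fs : M → E4, ContMDiff (𝓡 2) 𝓘(ℝ, E4) ∞ fs ∧
    (∀ (p : M) (v : TangentSpace (𝓡 2) p), v ≠ 0 →
      0 < pull fs p v v ∧ pull fs p v v < g.inner p v v) ∧
    ∀ (η : ℝ) (X : Set M), 0 < η → X.Finite →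
  ∃ (f0 ν0 : M → E4), ContMDiff (𝓡 2) 𝓘(ℝ, E4) ∞ f0 ∧ ContMDiff (𝓡 2) 𝓘(ℝ, E4) ∞ ν0 ∧
    (∀ (p : M) (v : TangentSpace (𝓡 2) p), v ≠ 0 → 0 < pull f0 p v v) ∧
    (∀ p, ‖ν0 p‖ = 1) ∧ (∀ p v, inner ℝ (ν0 p) (mfderiv (𝓡 2) 𝓘(ℝ, E4) f0 p v : E4) = 0) ∧
    InClass A (pull fs) η (pull f0) ∧
    (∀ ψ ∈ IsManifold.maximalAtlas (𝓡 2) ∞ M, ∀ y ∈ ψ.target, ∀ v : E2, v ≠ 0 →
      0 < inner ℝ (sff (f0 ∘ ψ.symm) y v v) (ν0 (ψ.symm y))) ∧
    (∀ ψ ∈ IsManifold.maximalAtlas (𝓡 2) ∞ M, ∀ p ∈ X, p ∈ ψ.source →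
      ∀ v w : E2, w ≠ 0 → P2at (f0 ∘ ψ.symm) (ψ p) w v ∨ v = 0)

/-- invariants after the stages `< k` -/
structure Inv {J : ℕ} (S : Fin J → Stage M) (β : Fin J → E2 → ℝ) (h : Tens M) (k : ℕ)
    (f ν : M → E4) : Prop where
  smf : ContMDiff (𝓡 2) 𝓘(ℝ, E4) ∞ f
  smν : ContMDiff (𝓡 2) 𝓘(ℝ, E4) ∞ ν
  unit : ∀ p, ‖ν p‖ = 1
  normal : ∀ p v, inner ℝ (ν p) (mfderiv (𝓡 2) 𝓘(ℝ, E4) f p v : E4) = 0
  met : ∀ p v w, pull f p v w = Gk S β h k p v w
  P1 : ∀ j : Fin J, k ≤ j.1 → ∀ y ∈ (S j).C,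
    P1at (f ∘ (S j).ψ.symm) y (bv 1) (ν ((S j).ψ.symm y))
  P2 : ∀ j l : Fin J, k ≤ j.1 → j < l → (S j).circ ≠ (S l).circ → ∀ p ∈ (S j).circ ∩ (S l).circ,
    P2at (f ∘ (S j).ψ.symm) ((S j).ψ p) (bv 1) ((S j).levIn (S l) p)
  P3 : ∀ j l : Fin J, k ≤ j.1 → j < l → (S j).circ ≠ (S l).circ → ∀ p ∈ (S j).circ ∩ (S l).circ,
    P3at (f ∘ (S j).ψ.symm) ((S j).ψ p) (bv 1) ((S j).levIn (S l) p) (ν p)

/-- **PSL + Theorem E + GLOB**: one exact step. -/
def StepStatement (M : Type*) [TopologicalSpace M] [ChartedSpace E2 M] : Prop :=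
  ∀ {J : ℕ} (S : Fin J → Stage M) (β : Fin J → E2 → ℝ) (h : Tens M) (k : Fin J),
    GenPos S → (∀ j, ContDiff ℝ ∞ (β j)) → (∀ j y, 0 < β j y) →
    ∀ f ν : M → E4, Inv S β h k.1 f ν →
    (∀ p v, v ≠ 0 → 0 < pull f p v v) →
    (∀ y ∈ closure (S k).U, gam (f ∘ (S k).ψ.symm) y ≠ 0) →
    ∃ f' ν' : M → E4, Inv S β h (k.1 + 1) f' ν'

end Crest.Agent.R216
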