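import Mathlib
import Crest.Agent.R216.Skel

-- ▼ part R216/DC4
section

/-!
Row 216 (S0335), part (6), module DC4: the geodesic curvature coefficient of a bent chart is
negative (blueprint 7542 (6.5)).
-/

set_option autoImplicit false
open scoped Manifold ContDiff Topology
open Set

noncomputable section
namespace Crest.Agent.R216.DC

/-- metric coefficients of a planar map -/
def gc (F : E2 → E4) (v w : E2) (x : E2) : ℝ := inner ℝ (fderiv ℝ F x v) (fderiv ℝ F x w)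


lemma gc_differentiableAt {F : E2 → E4} {x : E2} (hF : ContDiffAt ℝ 2 F x) (v w : E2) :
    DifferentiableAt ℝ (gc F v w) x := by
  have hdf : DifferentiableAt ℝ (fderiv ℝ F) x :=
    (hF.fderiv_right (m := 1) (by norm_num)).differentiableAt (by norm_num)
  unfold gc
  exact (hdf.clm_apply (differentiableAt_const v)).inner ℝ
    (hdf.clm_apply (differentiableAt_const w))

/-- derivative of a metric coefficient -/
lemma fderiv_gc {F : E2 → E4} {x : E2} (hF : ContDiffAt ℝ 2 F x) (v w z : E2) :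
    fderiv ℝ (gc F v w) x z =
      inner ℝ (d2 F x z v) (fderiv ℝ F x w) + inner ℝ (fderiv ℝ F x v) (d2 F x z w) := by
  have hdf : DifferentiableAt ℝ (fderiv ℝ F) x :=
    (hF.fderiv_right (m := 1) (by norm_num)).differentiableAt (by norm_num)
  have h1 : HasFDerivAt (fun x => fderiv ℝ F x v)
      ((ContinuousLinearMap.apply ℝ E4 v).comp (fderiv ℝ (fderiv ℝ F) x)) x :=
    (ContinuousLinearMap.apply ℝ E4 v).hasFDerivAt.comp x hdf.hasFDerivAt
  have h2 : HasFDerivAt (fun x => fderiv ℝ F x w)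
      ((ContinuousLinearMap.apply ℝ E4 w).comp (fderiv ℝ (fderiv ℝ F) x)) x :=
    (ContinuousLinearMap.apply ℝ E4 w).hasFDerivAt.comp x hdf.hasFDerivAt
  have h3 := (h1.inner ℝ h2).fderiv
  unfold gc
  rw [h3]
  simp [d2, real_inner_comm, add_comm]

/-- symmetry of the second derivative -/
lemma d2_symm {F : E2 → E4} {x : E2} (hF : ContDiffAt ℝ 2 F x) (v w : E2) :
    d2 F x v w = d2 F x w v := by
  have h : IsSymmSndFDerivAt ℝ F x := hF.isSymmSndFDerivAt (by simp)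
  exact h v w

/-- the tangential part of the second derivative is intrinsic -/
lemma inner_d2_eq {F : E2 → E4} {x : E2} (hF : ContDiffAt ℝ 2 F x) (X v : E2) :
    inner ℝ (d2 F x X X) (fderiv ℝ F x v) =
      fderiv ℝ (gc F X v) x X - (1 / 2) * fderiv ℝ (gc F X X) x v := by
  rw [fderiv_gc hF, fderiv_gc hF, d2_symm hF X v,
    real_inner_comm (fderiv ℝ F x X) (d2 F x v X)]
  ring

lemma decomp_bv (v : E2) : v = v 0 • bv 0 + v 1 • bv 1 := by
  ext i
  fin_cases i <;> simp [bv]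


lemma gc_expand (F : E2 → E4) (v w : E2) (x : E2) :
    gc F v w x = v 0 * w 0 * gc F (bv 0) (bv 0) x + v 0 * w 1 * gc F (bv 0) (bv 1) x
      + v 1 * w 0 * gc F (bv 1) (bv 0) x + v 1 * w 1 * gc F (bv 1) (bv 1) x := by
  unfold gc
  conv_lhs => rw [decomp_bv v, decomp_bv w]
  simp only [map_add, map_smul, inner_add_left, inner_add_right, real_inner_smul_left,
    real_inner_smul_right]
  ring




/-- formula for `gam` in a chart `σ` with `σ_22 = -κ σ_1` -/
theorem gam_comp_eq {F : E2 → E4} {σ : E2 → E2} {y : E2} {κ : ℝ}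
    (hF : ContDiffAt ℝ 2 F (σ y)) (hσ : ContDiffAt ℝ 2 σ y)
    (h22 : fderiv ℝ (fderiv ℝ σ) y (bv 1) (bv 1) = -(κ • fderiv ℝ σ y (bv 0))) :
    gam (F ∘ σ) y =
      -(κ * (gc F (fderiv ℝ σ y (bv 0)) (fderiv ℝ σ y (bv 0)) (σ y) *
          gc F (fderiv ℝ σ y (bv 1)) (fderiv ℝ σ y (bv 1)) (σ y) -
          gc F (fderiv ℝ σ y (bv 0)) (fderiv ℝ σ y (bv 1)) (σ y) ^ 2)) +
      (inner ℝ (d2 F (σ y) (fderiv ℝ σ y (bv 1)) (fderiv ℝ σ y (bv 1)))
          (fderiv ℝ F (σ y) (fderiv ℝ σ y (bv 0))) *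
          gc F (fderiv ℝ σ y (bv 1)) (fderiv ℝ σ y (bv 1)) (σ y) -
        inner ℝ (d2 F (σ y) (fderiv ℝ σ y (bv 1)) (fderiv ℝ σ y (bv 1)))
          (fderiv ℝ F (σ y) (fderiv ℝ σ y (bv 1))) *
          gc F (fderiv ℝ σ y (bv 0)) (fderiv ℝ σ y (bv 1)) (σ y)) := by
  have hd : ∀ v, fderiv ℝ (F ∘ σ) y v = fderiv ℝ F (σ y) (fderiv ℝ σ y v) := by
    intro v
    rw [fderiv_comp y (hF.differentiableAt (by norm_num)) (hσ.differentiableAt (by norm_num))]
    rfl
  unfold gam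
  simp only [dd]
  rw [d2_comp hF hσ, h22]
  simp only [hd, gc]
  generalize fderiv ℝ σ y (bv 0) = X0
  generalize fderiv ℝ σ y (bv 1) = X1
  simp only [map_neg, map_smul, inner_add_left, inner_neg_left, real_inner_smul_left]
  have := real_inner_comm (fderiv ℝ F (σ y) X0) (fderiv ℝ F (σ y) X1)
  ring




end Crest.Agent.R216.DC
end
end

-- ▼ part R216/DC4J

/-!
Row 216 (S0335), module DC4, soft form: `gam` of a surface in a bent, rotated chart is a fixed
continuous function of the 1-jet of the metric coefficients (helper973).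
-/

set_option autoImplicit false
open scoped Manifold ContDiff Topology
open Set

noncomputable section
namespace Crest.Agent.R216.DC4J

open Crest.Agent.R216.DC

/-- the inverse of `Θ_κ` : `(y₀ - κ y₁² / 2, y₁)`. -/
def thInv (κ : ℝ) (y : E2) : E2 := y - (κ * y 1 ^ 2 / 2) • bv 0








/-- coordinate `y ↦ y 1` as a continuous linear map -/
def pr1 : E2 →L[ℝ] ℝ := EuclideanSpace.proj (1 : Fin 2)

@[simp] lemma pr1_apply (y : E2) : pr1 y = y 1 := rfl

/-- derivative of `thInv κ`. -/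
def dth (κ : ℝ) (y : E2) : E2 →L[ℝ] E2 :=
  ContinuousLinearMap.id ℝ E2 - (κ * y 1) • pr1.smulRight (bv 0)

lemma hasFDerivAt_thInv (κ : ℝ) (y : E2) : HasFDerivAt (thInv κ) (dth κ y) y := by
  have h1 : HasFDerivAt (fun y : E2 => y 1) pr1 y := pr1.hasFDerivAt
  have h2 : HasFDerivAt (fun y : E2 => κ * y 1 ^ 2 / 2) ((κ * y 1) • pr1) y := by
    have h := ((h1.pow 2).const_mul κ).mul_const (1/2 : ℝ)
    have e : (fun y : E2 => κ * y 1 ^ 2 / 2) = fun y : E2 => κ * y 1 ^ 2 * (1 / 2) := by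
      funext z; ring
    rw [e]
    refine h.congr_fderiv ?_
    ext z
    simp
    ring
  have h3 := h2.smul_const (bv 0)
  have h4 := (hasFDerivAt_id y).sub h3
  refine h4.congr_fderiv ?_
  ext z i
  simp [dth]
  ring

lemma hasFDerivAt_dth (κ : ℝ) (y : E2) :
    HasFDerivAt (dth κ) (-(pr1.smulRight (κ • pr1.smulRight (bv 0)))) y := by
  have h1 : HasFDerivAt (fun y : E2 => κ * y 1) (κ • pr1) y := (pr1.hasFDerivAt).const_mul κ
  have h2 := h1.smul_const (pr1.smulRight (bv 0) : E2 →L[ℝ] E2)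
  have h3 := (hasFDerivAt_const (ContinuousLinearMap.id ℝ E2) y).sub h2
  refine h3.congr_fderiv ?_
  ext z w i
  simp
  ring

/-- the patch parametrisation -/
def sg (x0 : E2) (A : E2 →L[ℝ] E2) (κ : ℝ) (y : E2) : E2 := x0 + A (thInv κ y)

lemma hasFDerivAt_sg (x0 : E2) (A : E2 →L[ℝ] E2) (κ : ℝ) (y : E2) :
    HasFDerivAt (sg x0 A κ) (A.comp (dth κ y)) y := by
  have := (A.hasFDerivAt.comp y (hasFDerivAt_thInv κ y)).const_add x0
  exact this

lemma fderiv_sg (x0 : E2) (A : E2 →L[ℝ] E2) (κ : ℝ) :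
    fderiv ℝ (sg x0 A κ) = fun y => A.comp (dth κ y) := by
  funext y; exact (hasFDerivAt_sg x0 A κ y).fderiv

lemma contDiff_thInv (κ : ℝ) {n : WithTop ℕ∞} : ContDiff ℝ n (thInv κ) := by
  unfold thInv
  have h1 : ContDiff ℝ n (fun y : E2 => y 1) := pr1.contDiff
  exact contDiff_id.sub (((contDiff_const.mul (h1.pow 2)).div_const _).smul contDiff_const)


lemma contDiff_sg (x0 : E2) (A : E2 →L[ℝ] E2) (κ : ℝ) {n : WithTop ℕ∞} :
    ContDiff ℝ n (sg x0 A κ) := by
  unfold sg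
  exact contDiff_const.add (A.contDiff.comp (contDiff_thInv κ))

lemma fderiv_sg_zero (x0 : E2) (A : E2 →L[ℝ] E2) (κ : ℝ) (y : E2) :
    fderiv ℝ (sg x0 A κ) y (bv 0) = A (bv 0) := by
  rw [fderiv_sg]; simp [dth, bv]

lemma fderiv_sg_one (x0 : E2) (A : E2 →L[ℝ] E2) (κ : ℝ) (y : E2) :
    fderiv ℝ (sg x0 A κ) y (bv 1) = A (bv 1 - (κ * y 1) • bv 0) := by
  rw [fderiv_sg]; simp [dth, bv]

lemma fderiv2_sg (x0 : E2) (A : E2 →L[ℝ] E2) (κ : ℝ) (y : E2) :
    fderiv ℝ (fderiv ℝ (sg x0 A κ)) y (bv 1) (bv 1) = -(κ • A (bv 0)) := by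
  rw [fderiv_sg]
  have h := (((ContinuousLinearMap.compL ℝ E2 E2 E2) A).hasFDerivAt.comp y (hasFDerivAt_dth κ y))
  have h' : HasFDerivAt (fun y => A.comp (dth κ y)) _ y := h
  rw [h'.fderiv]
  simp [bv]

/-! ### the formula -/

/-- bilinear form with coefficient matrix `G` -/
def qf (G : Fin 2 → Fin 2 → ℝ) (v w : E2) : ℝ := ∑ i, ∑ j, v i * w j * G i j

/-- trilinear form with coefficients `D` -/
def cf (D : Fin 2 → Fin 2 → Fin 2 → ℝ) (v w u : E2) : ℝ :=
  ∑ i, ∑ j, ∑ k, v i * w j * u k * D i j k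

/-- the universal formula: `G` = coefficients, `D i j k = ∂_k g_ij`, `a = σ_1`, `X = σ_2`,
`σ_22 = -κ a`. -/
def Fgam (κ : ℝ) (a X : E2) (G : Fin 2 → Fin 2 → ℝ) (D : Fin 2 → Fin 2 → Fin 2 → ℝ) : ℝ :=
  -(κ * (qf G a a * qf G X X - qf G a X ^ 2)) +
    ((cf D X a X - (1 / 2) * cf D X X a) * qf G X X - ((1 / 2) * cf D X X X) * qf G a X)






/-! ### positivity of the Gram determinant and choice of `κ` -/







end Crest.Agent.R216.DC4J
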