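import Mathlib
import Crest.Agent.R216.GlobChart

-- ▼ part R216/GenPos
section

/-!
# General position for finitely many gauge functions on a surface (row 216, note 6825 (E))
-/

set_option autoImplicit false

open MeasureTheory Set Filter Topology
open scoped ContDiff Manifold

namespace Crest.Agent.R216

/-- the model plane -/
local notation "E2" => EuclideanSpace ℝ (Fin 2)

/-- linear identification of `ℝ × ℝ` with the Euclidean plane -/
noncomputable def eqPlane : (ℝ × ℝ) ≃L[ℝ] E2 :=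
  ContinuousLinearEquiv.ofFinrankEq (by simp)

theorem det_eq_zero_of_ker {V : Type*} [NormedAddCommGroup V] [NormedSpace ℝ V]
    [FiniteDimensional ℝ V] (A : V →L[ℝ] V) {v : V} (hv : v ≠ 0) (hA : A v = 0) : A.det = 0 := by
  by_contra h
  have h1 : LinearMap.det (A : V →ₗ[ℝ] V) ≠ 0 := h
  have h2 : IsUnit (LinearMap.det (A : V →ₗ[ℝ] V)) := isUnit_iff_ne_zero.2 h1
  have h3 := (LinearMap.isUnit_iff_isUnit_det _).2 h2
  have h4 : Function.Injective (A : V →ₗ[ℝ] V) := by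
    have := (Module.End.isUnit_iff _).1 h3
    exact this.1
  exact hv (h4 (by simpa using hA))

/-- planar Sard: the image of the set where the differential is not injective is null -/
theorem volume_image_eq_zero_of_ker {f : E2 → ℝ × ℝ} {f' : E2 → E2 →L[ℝ] ℝ × ℝ} {s : Set E2}
    (hf : ∀ x ∈ s, HasFDerivAt f (f' x) x) (hker : ∀ x ∈ s, ∃ v : E2, v ≠ 0 ∧ f' x v = 0) :
    volume (f '' s) = 0 := by
  have h1 : f '' s = (f ∘ eqPlane) '' (eqPlane ⁻¹' s) := by
    rw [image_comp, image_preimage_eq _ eqPlane.surjective]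
  rw [h1]
  refine addHaar_image_eq_zero_of_det_fderivWithin_eq_zero (μ := (volume : Measure (ℝ × ℝ)))
    (f' := fun y => (f' (eqPlane y)).comp (eqPlane : (ℝ × ℝ) →L[ℝ] E2)) ?_ ?_
  · intro y hy
    exact ((hf _ hy).comp y eqPlane.hasFDerivAt).hasFDerivWithinAt
  · intro y hy
    obtain ⟨v, hv, hv0⟩ := hker _ hy
    refine det_eq_zero_of_ker _ (v := eqPlane.symm v) (by simpa using hv) ?_
    simp [hv0]

theorem isAddHaar_three : (volume : Measure (ℝ × ℝ × ℝ)).IsAddHaarMeasure := by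
  have h : (volume : Measure (ℝ × ℝ)).IsAddHaarMeasure := inferInstance
  exact Measure.prod.instIsAddHaarMeasure (volume : Measure ℝ) (volume : Measure (ℝ × ℝ))

/-- the image of a planar set under a differentiable map to `ℝ³` is null -/
theorem volume_image_eq_zero_three {f : E2 → ℝ × ℝ × ℝ} {f' : E2 → E2 →L[ℝ] ℝ × ℝ × ℝ} {s : Set E2}
    (hf : ∀ x ∈ s, HasFDerivAt f (f' x) x) : volume (f '' s) = 0 := by
  -- extend to `ℝ × ℝ × ℝ`
  have hHaar := isAddHaar_three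
  let π : (ℝ × ℝ × ℝ) →L[ℝ] E2 := (eqPlane : (ℝ × ℝ) →L[ℝ] E2).comp
    ((ContinuousLinearMap.fst ℝ ℝ (ℝ × ℝ)).prod
      ((ContinuousLinearMap.fst ℝ ℝ ℝ).comp (ContinuousLinearMap.snd ℝ ℝ (ℝ × ℝ))))
  have hπ : Function.Surjective π := by
    intro x
    refine ⟨((eqPlane.symm x).1, (eqPlane.symm x).2, 0), ?_⟩
    simp [π]
  have h1 : f '' s = (f ∘ π) '' (π ⁻¹' s) := by
    rw [image_comp, image_preimage_eq _ hπ]
  rw [h1]
  refine addHaar_image_eq_zero_of_det_fderivWithin_eq_zero (μ := (volume : Measure (ℝ × ℝ × ℝ)))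
    (f' := fun y => (f' (π y)).comp π) ?_ ?_
  · intro y hy
    exact ((hf _ hy).comp y π.hasFDerivAt).hasFDerivWithinAt
  · intro y hy
    refine det_eq_zero_of_ker _ (v := ((0:ℝ), (0:ℝ), (1:ℝ))) (by simp) ?_
    have : π ((0:ℝ), (0:ℝ), (1:ℝ)) = 0 := by
      simp [π]
    simp [this]

/-- choose generic radii -/
theorem exists_radii {ι : Type*} [Finite ι] (N2 : ι → ι → Set (ℝ × ℝ))
    (N3 : ι → ι → ι → Set (ℝ × ℝ × ℝ)) (N1 : ι → Set ℝ)
    (h1 : ∀ i, volume (N1 i) = 0)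
    (h2 : ∀ i j, i ≠ j → volume (N2 i j) = 0)
    (h3 : ∀ i j k, i ≠ j → j ≠ k → i ≠ k → volume (N3 i j k) = 0)
    (α β : ι → ℝ) (hαβ : ∀ i, α i < β i) :
    ∃ r : ι → ℝ, (∀ i, r i ∈ Ioo (α i) (β i)) ∧ (∀ i, r i ∉ N1 i) ∧
      (∀ i j, i ≠ j → (r i, r j) ∉ N2 i j) ∧
      (∀ i j k, i ≠ j → j ≠ k → i ≠ k → (r i, r j, r k) ∉ N3 i j k) := by
  classical
  have hHaar := isAddHaar_three
  have : Fintype ι := Fintype.ofFinite ι
  have e1 : ∀ i, ∀ᵐ r : ι → ℝ, r i ∉ N1 i := by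
    intro i
    have hs : Function.Surjective (LinearMap.proj i : (ι → ℝ) →ₗ[ℝ] ℝ) := by
      intro y; exact ⟨fun _ => y, rfl⟩
    have hmeas : MeasurableSet ((toMeasurable volume (N1 i))ᶜ) :=
      (measurableSet_toMeasurable _ _).compl
    have := (ae_comp_linearMap_mem_iff (LinearMap.proj i : (ι → ℝ) →ₗ[ℝ] ℝ)
      (μ := (volume : Measure (ι → ℝ))) (ν := (volume : Measure ℝ)) hs hmeas).2 (by
        rw [ae_iff]
        simpa [measure_toMeasurable] using h1 i)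
    filter_upwards [this] with r hr hr'
    exact hr (subset_toMeasurable _ _ hr')
  have e2 : ∀ i j, i ≠ j → ∀ᵐ r : ι → ℝ, (r i, r j) ∉ N2 i j := by
    intro i j hij
    set Lm : (ι → ℝ) →ₗ[ℝ] ℝ × ℝ := (LinearMap.proj i).prod (LinearMap.proj j) with hLm
    have hs : Function.Surjective Lm := by
      rintro ⟨a, b⟩
      refine ⟨fun k => if k = i then a else b, ?_⟩
      simp [hLm, hij.symm]
    have hmeas : MeasurableSet ((toMeasurable volume (N2 i j))ᶜ) :=
      (measurableSet_toMeasurable _ _).compl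
    have := (ae_comp_linearMap_mem_iff Lm
      (μ := (volume : Measure (ι → ℝ))) (ν := (volume : Measure (ℝ × ℝ))) hs hmeas).2 (by
        rw [ae_iff]
        simpa [measure_toMeasurable] using h2 i j hij)
    filter_upwards [this] with r hr hr'
    exact hr (subset_toMeasurable _ _ hr')
  have e3 : ∀ i j k, i ≠ j → j ≠ k → i ≠ k → ∀ᵐ r : ι → ℝ, (r i, r j, r k) ∉ N3 i j k := by
    intro i j k hij hjk hik
    set Lm : (ι → ℝ) →ₗ[ℝ] ℝ × ℝ × ℝ :=
      (LinearMap.proj i).prod ((LinearMap.proj j).prod (LinearMap.proj k)) with hLm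
    have hs : Function.Surjective Lm := by
      rintro ⟨a, b, c⟩
      refine ⟨fun l => if l = i then a else if l = j then b else c, ?_⟩
      simp [hLm, hij.symm, hik.symm, hjk.symm]
    have hmeas : MeasurableSet ((toMeasurable volume (N3 i j k))ᶜ) :=
      (measurableSet_toMeasurable _ _).compl
    have := (ae_comp_linearMap_mem_iff Lm
      (μ := (volume : Measure (ι → ℝ))) (ν := (volume : Measure (ℝ × ℝ × ℝ))) hs hmeas).2 (by
        rw [ae_iff]
        simpa [measure_toMeasurable] using h3 i j k hij hjk hik)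
    filter_upwards [this] with r hr hr'
    exact hr (subset_toMeasurable _ _ hr')
  have hall : ∀ᵐ r : ι → ℝ, (∀ i, r i ∉ N1 i) ∧
      (∀ i j, i ≠ j → (r i, r j) ∉ N2 i j) ∧
      (∀ i j k, i ≠ j → j ≠ k → i ≠ k → (r i, r j, r k) ∉ N3 i j k) := by
    refine (ae_all_iff.2 e1).and (Filter.Eventually.and ?_ ?_)
    · refine ae_all_iff.2 fun i => ae_all_iff.2 fun j => ?_
      by_cases hij : i = j
      · exact Filter.Eventually.of_forall (fun r h => (h hij).elim)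
      · filter_upwards [e2 i j hij] with r hr _ using hr
    · refine ae_all_iff.2 fun i => ae_all_iff.2 fun j => ae_all_iff.2 fun k => ?_
      by_cases hij : i = j
      · exact Filter.Eventually.of_forall (fun r h => (h hij).elim)
      by_cases hjk : j = k
      · exact Filter.Eventually.of_forall (fun r _ h => (h hjk).elim)
      by_cases hik : i = k
      · exact Filter.Eventually.of_forall (fun r _ _ h => (h hik).elim)
      filter_upwards [e3 i j k hij hjk hik] with r hr _ _ _ using hr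
  have hopen : IsOpen (Set.pi univ (fun i => Ioo (α i) (β i))) :=
    isOpen_set_pi finite_univ (fun i _ => isOpen_Ioo)
  have hne : (Set.pi univ (fun i => Ioo (α i) (β i))).Nonempty := by
    refine ⟨fun i => (α i + β i)/2, fun i _ => ?_⟩
    have := hαβ i
    constructor <;> linarith
  have hfreq := (hopen.measure_pos (volume : Measure (ι → ℝ)) hne)
  have hex : ∃ r ∈ Set.pi univ (fun i => Ioo (α i) (β i)), (∀ i, r i ∉ N1 i) ∧
      (∀ i j, i ≠ j → (r i, r j) ∉ N2 i j) ∧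
      (∀ i j k, i ≠ j → j ≠ k → i ≠ k → (r i, r j, r k) ∉ N3 i j k) := by
    by_contra hcon
    push Not at hcon
    have hsub : Set.pi univ (fun i => Ioo (α i) (β i)) ⊆ {r : ι → ℝ | ¬ ((∀ i, r i ∉ N1 i) ∧
      (∀ i j, i ≠ j → (r i, r j) ∉ N2 i j) ∧
      (∀ i j k, i ≠ j → j ≠ k → i ≠ k → (r i, r j, r k) ∉ N3 i j k))} := by
      intro r hr h
      obtain ⟨i, j, k, hij, hjk, hik, hmem⟩ := hcon r hr h.1 h.2.1
      exact h.2.2 i j k hij hjk hik hmem
    have : volume (Set.pi univ (fun i => Ioo (α i) (β i))) = 0 :=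
      measure_mono_null hsub (ae_iff.1 hall)
    exact hfreq.ne' this
  obtain ⟨r, hr, hr'⟩ := hex
  exact ⟨r, fun i => hr i (mem_univ i), hr'⟩

variable {M : Type*} [TopologicalSpace M] [ChartedSpace E2 M]

/-- `dσ` and `dσ'` have no common kernel at `p`. -/
def Transv (σ σ' : M → ℝ) (p : M) : Prop :=
  ∀ v : TangentSpace (𝓡 2) p, mfderiv (𝓡 2) 𝓘(ℝ) σ p v = 0 → mfderiv (𝓡 2) 𝓘(ℝ) σ' p v = 0 → v = 0

/-- a finite family of points whose charts cover -/
theorem exists_finite_chart_cover [CompactSpace M] :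
    ∃ t : Finset M, ∀ p : M, ∃ q ∈ t, p ∈ (chartAt E2 q).source := by
  obtain ⟨t, ht⟩ := isCompact_univ.elim_nhds_subcover (fun x : M => (chartAt E2 x).source)
    (fun x _ => chart_source_mem_nhds E2 x)
  refine ⟨t, fun p => ?_⟩
  have := ht.2 (mem_univ p)
  simpa using this

section charts

variable [IsManifold (𝓡 2) 1 M]

omit [IsManifold (𝓡 2) 1 M] in
theorem mdiffAt_of_contMDiffOn {O : Set M} (hO : IsOpen O) {σ : M → ℝ}
    (hσ : ContMDiffOn (𝓡 2) 𝓘(ℝ) 1 σ O) {p : M} (hp : p ∈ O) :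
    MDifferentiableAt (𝓡 2) 𝓘(ℝ) σ p :=
  ((hσ p hp).contMDiffAt (hO.mem_nhds hp)).mdifferentiableAt (by simp)


/-- **Sard for pairs**: the set of pairs of values where the pair `(σ, σ')` is not transversal is
null. -/
theorem volume_nontransv_eq_zero [CompactSpace M] {O O' : Set M} (hO : IsOpen O) (hO' : IsOpen O')
    {σ σ' : M → ℝ} (hσ : ContMDiffOn (𝓡 2) 𝓘(ℝ) 1 σ O) (hσ' : ContMDiffOn (𝓡 2) 𝓘(ℝ) 1 σ' O') :
    volume {y : ℝ × ℝ | ∃ p ∈ O ∩ O', ¬ Transv σ σ' p ∧ (σ p, σ' p) = y} = 0 := by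
  classical
  obtain ⟨t, ht⟩ := exists_finite_chart_cover (M := M)
  have hsub : {y : ℝ × ℝ | ∃ p ∈ O ∩ O', ¬ Transv σ σ' p ∧ (σ p, σ' p) = y} ⊆
      ⋃ q ∈ t, (fun x => (σ ((chartAt E2 q).symm x), σ' ((chartAt E2 q).symm x))) ''
        {x | x ∈ (chartAt E2 q).target ∧ (chartAt E2 q).symm x ∈ O ∩ O' ∧
          ¬ Transv σ σ' ((chartAt E2 q).symm x)} := by
    rintro y ⟨p, hp, hnt, rfl⟩
    obtain ⟨q, hq, hpq⟩ := ht p
    refine mem_biUnion hq ⟨chartAt E2 q p, ⟨(chartAt E2 q).map_source hpq, ?_, ?_⟩, ?_⟩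
    · rwa [(chartAt E2 q).left_inv hpq]
    · rwa [(chartAt E2 q).left_inv hpq]
    · simp only [(chartAt E2 q).left_inv hpq]
  refine measure_mono_null hsub ?_
  refine (measure_biUnion_null_iff t.countable_toSet).2 fun q _ => ?_
  -- a choice of derivatives
  have hder : ∀ x : E2, ∃ L : E2 →L[ℝ] ℝ × ℝ,
      (x ∈ (chartAt E2 q).target ∧ (chartAt E2 q).symm x ∈ O ∩ O' ∧
          ¬ Transv σ σ' ((chartAt E2 q).symm x)) →
      HasFDerivAt (fun x => (σ ((chartAt E2 q).symm x), σ' ((chartAt E2 q).symm x))) L x ∧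
        ∃ v : E2, v ≠ 0 ∧ L v = 0 := by
    intro x
    by_cases hx : x ∈ (chartAt E2 q).target ∧ (chartAt E2 q).symm x ∈ O ∩ O' ∧
          ¬ Transv σ σ' ((chartAt E2 q).symm x)
    · obtain ⟨hxt, hxO, hxn⟩ := hx
      have hch : MDifferentiableAt 𝓘(ℝ, E2) (𝓡 2) (chartAt E2 q).symm x :=
        mdifferentiableAt_atlas_symm (chart_mem_atlas E2 q) hxt
      have hs := mdiffAt_of_contMDiffOn hO hσ hxO.1
      have hs' := mdiffAt_of_contMDiffOn hO' hσ' hxO.2
      let A : TangentSpace 𝓘(ℝ, E2) x ≃L[ℝ] TangentSpace (𝓡 2) ((chartAt E2 q).symm x) :=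
        ((mdifferentiable_chart (I := 𝓡 2) q).symm).mfderiv (x := x) hxt
      have d1 : HasFDerivAt (σ ∘ (chartAt E2 q).symm)
          ((mfderiv (𝓡 2) 𝓘(ℝ) σ ((chartAt E2 q).symm x)).comp
            (mfderiv 𝓘(ℝ, E2) (𝓡 2) (chartAt E2 q).symm x)) x := by
        have h1 : HasFDerivAt (σ ∘ (chartAt E2 q).symm)
            (fderiv ℝ (σ ∘ (chartAt E2 q).symm) x) x :=
          (mdifferentiableAt_iff_differentiableAt.1 (hs.comp x hch)).hasFDerivAt
        rw [← mfderiv_eq_fderiv, mfderiv_comp x hs hch] at h1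
        exact h1
      have d2 : HasFDerivAt (σ' ∘ (chartAt E2 q).symm)
          ((mfderiv (𝓡 2) 𝓘(ℝ) σ' ((chartAt E2 q).symm x)).comp
            (mfderiv 𝓘(ℝ, E2) (𝓡 2) (chartAt E2 q).symm x)) x := by
        have h1 : HasFDerivAt (σ' ∘ (chartAt E2 q).symm)
            (fderiv ℝ (σ' ∘ (chartAt E2 q).symm) x) x :=
          (mdifferentiableAt_iff_differentiableAt.1 (hs'.comp x hch)).hasFDerivAt
        rw [← mfderiv_eq_fderiv, mfderiv_comp x hs' hch] at h1
        exact h1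
      unfold Transv at hxn
      push Not at hxn
      obtain ⟨v, hv1, hv2, hv0⟩ := hxn
      refine ⟨_, fun _ => ⟨d1.prodMk d2, A.symm v, ?_, ?_⟩⟩
      · intro h
        apply hv0
        have : A (A.symm v) = A 0 := congrArg A h
        simpa using this
      · have hA : (mfderiv 𝓘(ℝ, E2) (𝓡 2) (chartAt E2 q).symm x) (A.symm v) = v :=
          A.apply_symm_apply v
        refine Prod.ext ?_ ?_
        · change (mfderiv (𝓡 2) 𝓘(ℝ) σ ((chartAt E2 q).symm x))
            ((mfderiv 𝓘(ℝ, E2) (𝓡 2) (chartAt E2 q).symm x) (A.symm v)) = 0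
          rw [hA]; exact hv1
        · change (mfderiv (𝓡 2) 𝓘(ℝ) σ' ((chartAt E2 q).symm x))
            ((mfderiv 𝓘(ℝ, E2) (𝓡 2) (chartAt E2 q).symm x) (A.symm v)) = 0
          rw [hA]; exact hv2
    · exact ⟨0, fun h => (hx h).elim⟩
  choose L hL using hder
  exact volume_image_eq_zero_of_ker (f' := L) (fun x hx => (hL x hx).1) (fun x hx => (hL x hx).2)

/-- triples of values taken at a common point are null -/
theorem volume_triple_eq_zero [CompactSpace M] {O O' O'' : Set M} (hO : IsOpen O) (hO' : IsOpen O')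
    (hO'' : IsOpen O'') {σ σ' σ'' : M → ℝ} (hσ : ContMDiffOn (𝓡 2) 𝓘(ℝ) 1 σ O)
    (hσ' : ContMDiffOn (𝓡 2) 𝓘(ℝ) 1 σ' O') (hσ'' : ContMDiffOn (𝓡 2) 𝓘(ℝ) 1 σ'' O'') :
    volume {y : ℝ × ℝ × ℝ | ∃ p ∈ O ∩ O' ∩ O'', (σ p, σ' p, σ'' p) = y} = 0 := by
  classical
  obtain ⟨t, ht⟩ := exists_finite_chart_cover (M := M)
  have hsub : {y : ℝ × ℝ × ℝ | ∃ p ∈ O ∩ O' ∩ O'', (σ p, σ' p, σ'' p) = y} ⊆
      ⋃ q ∈ t, (fun x => (σ ((chartAt E2 q).symm x), σ' ((chartAt E2 q).symm x),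
          σ'' ((chartAt E2 q).symm x))) ''
        {x | x ∈ (chartAt E2 q).target ∧ (chartAt E2 q).symm x ∈ O ∩ O' ∩ O''} := by
    rintro y ⟨p, hp, rfl⟩
    obtain ⟨q, hq, hpq⟩ := ht p
    refine mem_biUnion hq ⟨chartAt E2 q p, ⟨(chartAt E2 q).map_source hpq, ?_⟩, ?_⟩
    · rwa [(chartAt E2 q).left_inv hpq]
    · simp only [(chartAt E2 q).left_inv hpq]
  refine measure_mono_null hsub ?_
  refine (measure_biUnion_null_iff t.countable_toSet).2 fun q _ => ?_
  have hd : ∀ {U : Set M} (_ : IsOpen U) {τ : M → ℝ} (_ : ContMDiffOn (𝓡 2) 𝓘(ℝ) 1 τ U) (x : E2),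
      x ∈ (chartAt E2 q).target → (chartAt E2 q).symm x ∈ U →
      HasFDerivAt (fun x => τ ((chartAt E2 q).symm x))
        (fderiv ℝ (fun x => τ ((chartAt E2 q).symm x)) x) x := by
    intro U hU τ hτ x hx hxU
    have hch : MDifferentiableAt 𝓘(ℝ, E2) (𝓡 2) (chartAt E2 q).symm x :=
      mdifferentiableAt_atlas_symm (chart_mem_atlas E2 q) hx
    have hs := mdiffAt_of_contMDiffOn hU hτ hxU
    exact (mdifferentiableAt_iff_differentiableAt.1 (hs.comp x hch)).hasFDerivAt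
  refine volume_image_eq_zero_three (f' := fun x =>
    (fderiv ℝ (fun x => σ ((chartAt E2 q).symm x)) x).prod
      ((fderiv ℝ (fun x => σ' ((chartAt E2 q).symm x)) x).prod
        (fderiv ℝ (fun x => σ'' ((chartAt E2 q).symm x)) x))) ?_
  rintro x ⟨hx, hxO⟩
  exact (hd hO hσ x hx hxO.1.1).prodMk ((hd hO' hσ' x hx hxO.1.2).prodMk (hd hO'' hσ'' x hx hxO.2))

/-- **General position of finitely many circles `{σ i = r i}`**. -/
theorem exists_generic_radii [CompactSpace M] {ι : Type*} [Finite ι] (O : ι → Set M)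
    (hO : ∀ i, IsOpen (O i)) (σ : ι → M → ℝ) (hσ : ∀ i, ContMDiffOn (𝓡 2) 𝓘(ℝ) 1 (σ i) (O i))
    (α β : ι → ℝ) (hαβ : ∀ i, α i < β i) :
    ∃ r : ι → ℝ, (∀ i, r i ∈ Ioo (α i) (β i)) ∧
      (∀ i j, i ≠ j → ∀ p ∈ O i ∩ O j, σ i p = r i → σ j p = r j → Transv (σ i) (σ j) p) ∧
      (∀ i j k, i ≠ j → j ≠ k → i ≠ k → ∀ p ∈ O i ∩ O j ∩ O k,
        ¬ (σ i p = r i ∧ σ j p = r j ∧ σ k p = r k)) := by
  obtain ⟨r, hr, -, hr2, hr3⟩ := exists_radii
    (fun i j => {y : ℝ × ℝ | ∃ p ∈ O i ∩ O j, ¬ Transv (σ i) (σ j) p ∧ (σ i p, σ j p) = y})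
    (fun i j k => {y : ℝ × ℝ × ℝ | ∃ p ∈ O i ∩ O j ∩ O k, (σ i p, σ j p, σ k p) = y})
    (fun _ => (∅ : Set ℝ)) (fun _ => measure_empty)
    (fun i j _ => volume_nontransv_eq_zero (hO i) (hO j) (hσ i) (hσ j))
    (fun i j k _ _ _ => volume_triple_eq_zero (hO i) (hO j) (hO k) (hσ i) (hσ j) (hσ k)) α β hαβ
  refine ⟨r, hr, ?_, ?_⟩
  · intro i j hij p hp h1 h2
    by_contra hn
    exact hr2 i j hij ⟨p, hp, hn, by rw [h1, h2]⟩
  · rintro i j k hij hjk hik p hp ⟨h1, h2, h3⟩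
    exact hr3 i j k hij hjk hik ⟨p, hp, by rw [h1, h2, h3]⟩

/-- transversal common level points are isolated -/
theorem Transv.eventually_ne {O O' : Set M} (hO : IsOpen O) (hO' : IsOpen O')
    {σ σ' : M → ℝ} (hσ : ContMDiffOn (𝓡 2) 𝓘(ℝ) 1 σ O) (hσ' : ContMDiffOn (𝓡 2) 𝓘(ℝ) 1 σ' O')
    {p : M} (hp : p ∈ O ∩ O') (h : Transv σ σ' p) (r r' : ℝ) :
    ∀ᶠ x in 𝓝[≠] p, ¬ (σ x = r ∧ σ' x = r') := by
  set φ := chartAt E2 p with hφ
  have hps : p ∈ φ.source := mem_chart_source E2 p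
  have hxt : φ p ∈ φ.target := φ.map_source hps
  have hinv : φ.symm (φ p) = p := φ.left_inv hps
  have hch : MDifferentiableAt 𝓘(ℝ, E2) (𝓡 2) φ.symm (φ p) :=
    mdifferentiableAt_atlas_symm (chart_mem_atlas E2 p) hxt
  have hs : MDifferentiableAt (𝓡 2) 𝓘(ℝ) σ (φ.symm (φ p)) := by
    rw [hinv]; exact mdiffAt_of_contMDiffOn hO hσ hp.1
  have hs' : MDifferentiableAt (𝓡 2) 𝓘(ℝ) σ' (φ.symm (φ p)) := by
    rw [hinv]; exact mdiffAt_of_contMDiffOn hO' hσ' hp.2
  have hT : Transv σ σ' (φ.symm (φ p)) := by rw [hinv]; exact h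
  let A : TangentSpace 𝓘(ℝ, E2) (φ p) ≃L[ℝ] TangentSpace (𝓡 2) (φ.symm (φ p)) :=
    ((mdifferentiable_chart (I := 𝓡 2) p).symm).mfderiv (x := φ p) hxt
  have d1 : HasFDerivAt (σ ∘ φ.symm)
      ((mfderiv (𝓡 2) 𝓘(ℝ) σ (φ.symm (φ p))).comp
        (mfderiv 𝓘(ℝ, E2) (𝓡 2) φ.symm (φ p))) (φ p) := by
    have h1 : HasFDerivAt (σ ∘ φ.symm)
        (fderiv ℝ (σ ∘ φ.symm) (φ p)) (φ p) :=
      (mdifferentiableAt_iff_differentiableAt.1 (hs.comp (φ p) hch)).hasFDerivAt
    rw [← mfderiv_eq_fderiv, mfderiv_comp (φ p) hs hch] at h1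
    exact h1
  have d2 : HasFDerivAt (σ' ∘ φ.symm)
      ((mfderiv (𝓡 2) 𝓘(ℝ) σ' (φ.symm (φ p))).comp
        (mfderiv 𝓘(ℝ, E2) (𝓡 2) φ.symm (φ p))) (φ p) := by
    have h1 : HasFDerivAt (σ' ∘ φ.symm)
        (fderiv ℝ (σ' ∘ φ.symm) (φ p)) (φ p) :=
      (mdifferentiableAt_iff_differentiableAt.1 (hs'.comp (φ p) hch)).hasFDerivAt
    rw [← mfderiv_eq_fderiv, mfderiv_comp (φ p) hs' hch] at h1
    exact h1
  set L : E2 →L[ℝ] ℝ × ℝ := ((mfderiv (𝓡 2) 𝓘(ℝ) σ (φ.symm (φ p))).comp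
        (mfderiv 𝓘(ℝ, E2) (𝓡 2) φ.symm (φ p)) : E2 →L[ℝ] ℝ).prod
        ((mfderiv (𝓡 2) 𝓘(ℝ) σ' (φ.symm (φ p))).comp
        (mfderiv 𝓘(ℝ, E2) (𝓡 2) φ.symm (φ p)) : E2 →L[ℝ] ℝ) with hLdef
  have d12 : HasFDerivAt (fun x => ((σ ∘ φ.symm) x, (σ' ∘ φ.symm) x)) L (φ p) := d1.prodMk d2
  have hLinj : Function.Injective L := by
    rw [injective_iff_map_eq_zero]
    intro v hv
    have hv1 : (mfderiv (𝓡 2) 𝓘(ℝ) σ (φ.symm (φ p)))
        ((mfderiv 𝓘(ℝ, E2) (𝓡 2) φ.symm (φ p)) v) = 0 := congrArg Prod.fst hv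
    have hv2 : (mfderiv (𝓡 2) 𝓘(ℝ) σ' (φ.symm (φ p)))
        ((mfderiv 𝓘(ℝ, E2) (𝓡 2) φ.symm (φ p)) v) = 0 := congrArg Prod.snd hv
    have h3 : A v = 0 := hT _ hv1 hv2
    exact A.injective (h3.trans A.map_zero.symm)
  have hanti : ∃ C, AntilipschitzWith C L := by
    obtain ⟨C, -, hC⟩ := (L : E2 →ₗ[ℝ] ℝ × ℝ).exists_antilipschitzWith
      (LinearMap.ker_eq_bot.2 hLinj)
    exact ⟨C, hC⟩
  have hne := d12.eventually_ne (c := (r, r')) hanti
  -- pull back to `M`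
  have hcont : Tendsto φ (𝓝[≠] p) (𝓝[≠] (φ p)) := by
    refine tendsto_nhdsWithin_iff.2 ⟨?_, ?_⟩
    · exact (φ.continuousAt hps).tendsto.mono_left nhdsWithin_le_nhds
    · have : φ.source ∈ 𝓝[≠] p := mem_nhdsWithin_of_mem_nhds (φ.open_source.mem_nhds hps)
      filter_upwards [this, self_mem_nhdsWithin] with x hx hxp h
      exact hxp (φ.injOn hx hps h)
  have hsrc : φ.source ∈ 𝓝[≠] p := mem_nhdsWithin_of_mem_nhds (φ.open_source.mem_nhds hps)
  filter_upwards [hcont.eventually hne, hsrc] with x hx hxs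
  rintro ⟨h1, h2⟩
  apply hx
  simp [φ.left_inv hxs, h1, h2]

/-- finiteness of the intersection of two transversal circles in a compact set -/
theorem finite_level_inter {O O' : Set M} (hO : IsOpen O) (hO' : IsOpen O')
    {σ σ' : M → ℝ} (hσ : ContMDiffOn (𝓡 2) 𝓘(ℝ) 1 σ O) (hσ' : ContMDiffOn (𝓡 2) 𝓘(ℝ) 1 σ' O')
    {r r' : ℝ} (hT : ∀ p ∈ O ∩ O', σ p = r → σ' p = r' → Transv σ σ' p)
    {K : Set M} (hK : IsCompact K) (hKO : K ⊆ O ∩ O') :
    {p ∈ K | σ p = r ∧ σ' p = r'}.Finite := by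
  -- compactness + discreteness
  set Z : Set M := {p ∈ K | σ p = r ∧ σ' p = r'} with hZ
  have hevent : ∀ p ∈ K, ∃ U ∈ 𝓝 p, (Z ∩ U).Finite := by
    intro p hp
    by_cases hpz : σ p = r ∧ σ' p = r'
    · have h1 := (hT p (hKO hp) hpz.1 hpz.2).eventually_ne hO hO' hσ hσ' (hKO hp) r r'
      rw [eventually_nhdsWithin_iff] at h1
      refine ⟨_, h1, (Set.finite_singleton p).subset ?_⟩
      rintro x ⟨hxZ, hxU⟩
      by_contra hxp
      exact hxU hxp hxZ.2
    · -- continuity: nearby points are not in Z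
      have hc : ContinuousAt σ p := (hσ p (hKO hp).1).continuousWithinAt.continuousAt
        (hO.mem_nhds (hKO hp).1)
      have hc' : ContinuousAt σ' p := (hσ' p (hKO hp).2).continuousWithinAt.continuousAt
        (hO'.mem_nhds (hKO hp).2)
      have : ∀ᶠ x in 𝓝 p, ¬ (σ x = r ∧ σ' x = r') := by
        by_cases h1 : σ p = r
        · have h2 : σ' p ≠ r' := fun h => hpz ⟨h1, h⟩
          filter_upwards [hc'.eventually_ne h2] with x hx h using hx h.2
        · filter_upwards [hc.eventually_ne h1] with x hx h using hx h.1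
      refine ⟨_, this, ?_⟩
      have he : Z ∩ {x | ¬ (σ x = r ∧ σ' x = r')} = ∅ := by
        ext x
        simp only [mem_inter_iff, mem_empty_iff_false, iff_false]
        rintro ⟨hx, hx'⟩
        exact hx' hx.2
      rw [he]; exact Set.finite_empty
  have hfin : (Z ∩ K).Finite := by
    refine hK.induction_on (p := fun S => (Z ∩ S).Finite) (by simp) ?_ ?_ ?_
    · intro s t hst ht
      exact ht.subset (inter_subset_inter_right _ hst)
    · intro s t hs ht
      rw [inter_union_distrib_left]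
      exact hs.union ht
    · intro p hp
      obtain ⟨U, hU, hf⟩ := hevent p hp
      exact ⟨U, mem_nhdsWithin_of_mem_nhds hU, hf⟩
  exact hfin.subset (fun x hx => ⟨hx, hx.1⟩)

end charts

end Crest.Agent.R216
end

-- ▼ part R216/DecGen

/-!
# Row 216, part (6): generic choice of radii and phase angles

Patches are charts `φ q` (in the maximal atlas) whose target contains `closedBall 0 (2 * R0 q)`.
Circles: `(φ q).symm '' sphere 0 (r q)`. Phase charts: `θ κ ∘ rot α ∘ φ q`.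
-/

set_option autoImplicit false

open MeasureTheory Set Filter Topology
open scoped ContDiff Manifold

noncomputable section

namespace Crest.Agent.R216

/-- rotation by the angle `a` -/
def rot (a : ℝ) (z : P2) : P2 :=
  (Real.cos a * z 0 - Real.sin a * z 1) • e1 + (Real.sin a * z 0 + Real.cos a * z 1) • e2

/-- point of the level line `y₀ = c` at `y₁ = b` -/
def par (κ a c b : ℝ) : P2 := rot (-a) ((c - κ * b ^ 2 / 2) • e1 + b • e2)

/-- level direction of the phase at `w` -/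
def dlev (κ a : ℝ) (w : P2) : P2 := rot (-a) ((-(κ * (rot a w) 1)) • e1 + (1:ℝ) • e2)

/-- differential of the phase at `w` applied to `v` -/
def dph (κ a : ℝ) (w v : P2) : ℝ := (rot a v) 0 + κ * (rot a w) 1 * (rot a v) 1

@[simp] lemma e1_zero : (e1 : P2) 0 = 1 := by simp [e1]
@[simp] lemma e1_one : (e1 : P2) 1 = 0 := by simp [e1]
@[simp] lemma e2_zero : (e2 : P2) 0 = 0 := by simp [e2]
@[simp] lemma e2_one : (e2 : P2) 1 = 1 := by simp [e2]

@[simp] lemma rot_zero_coord (a : ℝ) (z : P2) : (rot a z) 0 = Real.cos a * z 0 - Real.sin a * z 1 := by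
  simp [rot]
@[simp] lemma rot_one_coord (a : ℝ) (z : P2) : (rot a z) 1 = Real.sin a * z 0 + Real.cos a * z 1 := by
  simp [rot]

lemma ext_coord {x y : P2} (h0 : x 0 = y 0) (h1 : x 1 = y 1) : x = y := by
  ext i; fin_cases i
  · exact h0
  · exact h1

lemma normSq_coord (x : P2) : ‖x‖ ^ 2 = x 0 ^ 2 + x 1 ^ 2 := by
  rw [EuclideanSpace.norm_sq_eq]; simp [Fin.sum_univ_two]

lemma rot_neg_rot (a : ℝ) (z : P2) : rot (-a) (rot a z) = z := by
  have h := Real.sin_sq_add_cos_sq a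
  apply ext_coord
  · simp only [rot_zero_coord, rot_one_coord, Real.cos_neg, Real.sin_neg]
    linear_combination (z 0) * h
  · simp only [rot_zero_coord, rot_one_coord, Real.cos_neg, Real.sin_neg]
    linear_combination (z 1) * h

lemma rot_rot_neg (a : ℝ) (z : P2) : rot a (rot (-a) z) = z := by
  have := rot_neg_rot (-a) z
  rwa [neg_neg] at this

lemma norm_rot (a : ℝ) (z : P2) : ‖rot a z‖ = ‖z‖ := by
  have h := Real.sin_sq_add_cos_sq a
  have h2 : ‖rot a z‖ ^ 2 = ‖z‖ ^ 2 := by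
    rw [normSq_coord, normSq_coord]
    simp only [rot_zero_coord, rot_one_coord]
    linear_combination (z 0 ^ 2 + z 1 ^ 2) * h
  exact (sq_eq_sq₀ (norm_nonneg _) (norm_nonneg _)).1 h2

/-- `2`-dimensional determinant -/
def det2 (v w : P2) : ℝ := v 0 * w 1 - v 1 * w 0

/-- `dph` is the determinant with the level direction -/
lemma dph_eq_det2 (κ a : ℝ) (w v : P2) : dph κ a w v = det2 v (dlev κ a w) := by
  simp only [dph, det2, dlev, rot_zero_coord, rot_one_coord, Real.cos_neg, Real.sin_neg,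
    PiLp.add_apply, PiLp.smul_apply, e1_zero, e1_one, e2_zero, e2_one, smul_eq_mul]
  ring

/-- determinant of two level directions in the same patch -/
lemma det2_dlev (κ a a' : ℝ) (w : P2) :
    det2 (dlev κ a w) (dlev κ a' w)
      = Real.sin (a - a') * (1 + κ ^ 2 * (rot a w) 1 * (rot a' w) 1)
        + κ * Real.cos (a - a') * ((rot a' w) 1 - (rot a w) 1) := by
  rw [Real.sin_sub, Real.cos_sub]
  simp only [det2, dlev, rot_zero_coord, rot_one_coord, Real.cos_neg, Real.sin_neg,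
    PiLp.add_apply, PiLp.smul_apply, e1_zero, e1_one, e2_zero, e2_one, smul_eq_mul]
  have h := Real.sin_sq_add_cos_sq a
  have h' := Real.sin_sq_add_cos_sq a'
  ring

lemma abs_coord_le (x : P2) (i : Fin 2) : |x i| ≤ ‖x‖ := by
  have := PiLp.norm_apply_le x i
  simpa [Real.norm_eq_abs] using this

/-- level directions for different angles are independent -/
lemma det2_dlev_ne_zero {κ a a' : ℝ} {w : P2} (hκ : 0 ≤ κ) (hw : κ * ‖w‖ ≤ 1 / 2) (hne : a ≠ a')
    (hd : |a - a'| ≤ 1 / 2) : det2 (dlev κ a w) (dlev κ a' w) ≠ 0 := by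
  rw [det2_dlev]
  set d := a - a' with hdd
  set m := (a + a') / 2 with hm
  have ha : a = m + d / 2 := by rw [hm, hdd]; ring
  have ha' : a' = m - d / 2 := by rw [hm, hdd]; ring
  have hdiff : (rot a' w) 1 - (rot a w) 1 = -(2 * Real.sin (d / 2) * (rot m w) 0) := by
    simp only [rot_zero_coord, rot_one_coord]
    rw [ha, ha', Real.sin_sub, Real.sin_add, Real.cos_sub, Real.cos_add]
    ring
  have hsin : Real.sin d = 2 * Real.sin (d / 2) * Real.cos (d / 2) := by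
    rw [← Real.sin_two_mul]; congr 1; ring
  rw [hdiff, hsin]
  have e : 2 * Real.sin (d / 2) * Real.cos (d / 2) * (1 + κ ^ 2 * (rot a w) 1 * (rot a' w) 1)
        + κ * Real.cos d * -(2 * Real.sin (d / 2) * (rot m w) 0)
      = 2 * Real.sin (d / 2) * (Real.cos (d / 2) * (1 + κ ^ 2 * (rot a w) 1 * (rot a' w) 1)
        - κ * Real.cos d * (rot m w) 0) := by ring
  rw [e]
  have hd2 : |d / 2| ≤ 1 / 4 := by rw [abs_div]; norm_num; linarith
  have hd0 : d / 2 ≠ 0 := by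
    intro h; apply hne; have : d = 0 := by linarith
    rw [hdd] at this; linarith
  have hs : Real.sin (d / 2) ≠ 0 := by
    rw [abs_le] at hd2
    intro h
    rw [Real.sin_eq_zero_iff_of_lt_of_lt (by linarith [Real.pi_gt_three]) (by linarith [Real.pi_gt_three])] at h
    exact hd0 h
  have hc : 31 / 32 ≤ Real.cos (d / 2) := by
    have h1 := Real.one_sub_sq_div_two_le_cos (x := d / 2)
    have h2 : (d / 2) ^ 2 ≤ (1 / 4) ^ 2 := sq_le_sq' (by rw [abs_le] at hd2; linarith) (by rw [abs_le] at hd2; linarith)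
    linarith
  have hx : |κ * (rot a w) 1| ≤ 1 / 2 := by
    rw [abs_mul, abs_of_nonneg hκ]
    refine (mul_le_mul_of_nonneg_left ((abs_coord_le _ 1).trans (norm_rot a w).le) hκ).trans hw
  have hx' : |κ * (rot a' w) 1| ≤ 1 / 2 := by
    rw [abs_mul, abs_of_nonneg hκ]
    refine (mul_le_mul_of_nonneg_left ((abs_coord_le _ 1).trans (norm_rot a' w).le) hκ).trans hw
  have hy : |κ * (rot m w) 0| ≤ 1 / 2 := by
    rw [abs_mul, abs_of_nonneg hκ]
    refine (mul_le_mul_of_nonneg_left ((abs_coord_le _ 0).trans (norm_rot m w).le) hκ).trans hw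
  have hprod : |κ ^ 2 * (rot a w) 1 * (rot a' w) 1| ≤ 1 / 4 := by
    have : κ ^ 2 * (rot a w) 1 * (rot a' w) 1 = (κ * (rot a w) 1) * (κ * (rot a' w) 1) := by ring
    rw [this, abs_mul]
    calc |κ * (rot a w) 1| * |κ * (rot a' w) 1| ≤ (1/2) * (1/2) :=
          mul_le_mul hx hx' (abs_nonneg _) (by norm_num)
      _ = 1 / 4 := by norm_num
  have hcd : |Real.cos d| ≤ 1 := Real.abs_cos_le_one d
  have hlast : |κ * Real.cos d * (rot m w) 0| ≤ 1 / 2 := by
    have : κ * Real.cos d * (rot m w) 0 = Real.cos d * (κ * (rot m w) 0) := by ring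
    rw [this, abs_mul]
    calc |Real.cos d| * |κ * (rot m w) 0| ≤ 1 * (1/2) :=
          mul_le_mul hcd hy (abs_nonneg _) (by norm_num)
      _ = 1 / 2 := by norm_num
  refine mul_ne_zero (mul_ne_zero two_ne_zero hs) ?_
  rw [abs_le] at hprod hlast
  have h1 : (31/32 : ℝ) * (3/4) ≤ Real.cos (d / 2) * (1 + κ ^ 2 * (rot a w) 1 * (rot a' w) 1) :=
    mul_le_mul hc (by linarith [hprod.1]) (by norm_num) (by linarith)
  intro h
  linarith [hlast.2]

/-- linear algebra: a nonzero functional on the plane cannot vanish on two independent vectors -/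
lemma clm_eq_zero_of_det2 {A : P2 →L[ℝ] ℝ} {v w : P2} (hdet : det2 v w ≠ 0) (hv : A v = 0)
    (hw : A w = 0) : A = 0 := by
  ext x
  have hx : det2 v w • x = det2 x w • v + det2 v x • w := by
    apply ext_coord <;> simp [det2] <;> ring
  have h1 : det2 v w * A x = 0 := by
    have := congrArg A hx
    simpa [hv, hw] using this
  rcases mul_eq_zero.1 h1 with h | h
  · exact absurd h hdet
  · simpa using h

/-! ### curves -/

/-- a locally Lipschitz (here: `C¹`) map of a null set of `ℝ` has null length -/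
lemma hausdorff_image_null {h : ℝ → P2} {N : Set ℝ} (hN : volume N = 0)
    (hh : ∀ t ∈ N, ContDiffAt ℝ 1 h t) : μH[1] (h '' N) = 0 := by
  -- local statement
  have hloc : ∀ t ∈ N, ∃ U : Set ℝ, U ∈ 𝓝 t ∧ μH[1] (h '' (N ∩ U)) = 0 := by
    intro t ht
    obtain ⟨K, U, hU, hLip⟩ := (hh t ht).exists_lipschitzOnWith
    refine ⟨U, hU, ?_⟩
    have h1 : μH[1] (h '' (N ∩ U)) ≤ (K : ENNReal) ^ (1:ℝ) * μH[1] (N ∩ U) :=
      (hLip.mono inter_subset_right).hausdorffMeasure_image_le zero_le_one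
    have h2 : (μH[1] : Measure ℝ) (N ∩ U) = 0 := by
      rw [MeasureTheory.hausdorffMeasure_real]
      exact measure_mono_null inter_subset_left hN
    rw [h2, mul_zero] at h1
    exact le_antisymm h1 bot_le
  choose! U hU hU0 using hloc
  obtain ⟨T, hTN, hTc, hT⟩ := TopologicalSpace.countable_cover_nhdsWithin
    (s := N) (f := U) (fun t ht => mem_nhdsWithin_of_mem_nhds (hU t ht))
  have hsub : h '' N ⊆ ⋃ t ∈ T, h '' (N ∩ U t) := by
    rintro _ ⟨t, ht, rfl⟩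
    obtain ⟨t', ht', htt'⟩ := mem_iUnion₂.1 (hT ht)
    exact mem_iUnion₂.2 ⟨t', ht', ⟨t, ⟨ht, htt'⟩, rfl⟩⟩
  refine measure_mono_null hsub ?_
  exact (measure_biUnion_null_iff hTc).2 fun t ht => hU0 t (hTN ht)

/-! ### level lines -/

lemma rot_par_one (κ a c b : ℝ) : (rot a (par κ a c b)) 1 = b := by
  simp only [par, rot_rot_neg, PiLp.add_apply, PiLp.smul_apply, e1_one, e2_one, smul_eq_mul]
  ring


lemma hasDerivAt_par (κ a c b : ℝ) :
    HasDerivAt (par κ a c) (dlev κ a (par κ a c b)) b := by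
  have e : par κ a c = fun b : ℝ =>
      (Real.cos (-a) * (c - κ * b ^ 2 / 2) - Real.sin (-a) * b) • e1 +
      (Real.sin (-a) * (c - κ * b ^ 2 / 2) + Real.cos (-a) * b) • e2 := by
    funext b
    simp [par, rot]
  have h0 : HasDerivAt (fun b : ℝ => c - κ * b ^ 2 / 2) (-(κ * b)) b := by
    have := (((hasDerivAt_id b).pow 2).const_mul (κ / 2)).const_sub c
    refine (this.congr_deriv ?_).congr_of_eventuallyEq ?_
    · simp; ring
    · exact Filter.Eventually.of_forall fun x => by simp; ring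
  have h1 : HasDerivAt (fun b : ℝ => Real.cos (-a) * (c - κ * b ^ 2 / 2) - Real.sin (-a) * b)
      (Real.cos (-a) * (-(κ * b)) - Real.sin (-a)) b := by
    have := (h0.const_mul (Real.cos (-a))).sub ((hasDerivAt_id b).const_mul (Real.sin (-a)))
    refine (this.congr_deriv (by simp)).congr_of_eventuallyEq ?_
    exact Filter.Eventually.of_forall fun x => rfl
  have h2 : HasDerivAt (fun b : ℝ => Real.sin (-a) * (c - κ * b ^ 2 / 2) + Real.cos (-a) * b)
      (Real.sin (-a) * (-(κ * b)) + Real.cos (-a)) b := by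
    have := (h0.const_mul (Real.sin (-a))).add ((hasDerivAt_id b).const_mul (Real.cos (-a)))
    refine (this.congr_deriv (by simp)).congr_of_eventuallyEq ?_
    exact Filter.Eventually.of_forall fun x => rfl
  rw [e]
  have h3 := (h1.smul_const e1).add (h2.smul_const e2)
  refine h3.congr_deriv ?_
  rw [← e, dlev, rot_par_one]
  simp [rot]

lemma rot_sub (a : ℝ) (x y : P2) : rot a x - rot a y = rot a (x - y) := by
  apply ext_coord <;> simp <;> ring

lemma antilipschitz_par (κ a c : ℝ) : AntilipschitzWith 1 (par κ a c) := by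
  refine AntilipschitzWith.of_le_mul_dist fun b b' => ?_
  rw [NNReal.coe_one, one_mul, dist_eq_norm, dist_eq_norm]
  have h1 : (rot a (par κ a c b - par κ a c b')) 1 = b - b' := by
    rw [← rot_sub]
    simp only [PiLp.sub_apply, rot_par_one]
  rw [← h1, Real.norm_eq_abs]
  exact (abs_coord_le _ 1).trans (norm_rot _ _).le

lemma volume_par_null {T : Set P2} (hT : μH[1] T = 0) (κ a c : ℝ) :
    volume {b : ℝ | par κ a c b ∈ T} = 0 := by
  have h1 := (antilipschitz_par κ a c).hausdorffMeasure_preimage_le (d := 1) zero_le_one T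
  rw [hT, mul_zero, MeasureTheory.hausdorffMeasure_real] at h1
  exact le_antisymm h1 bot_le

lemma volume_isolated_null (g : ℝ → ℝ) (ρ : ℝ) :
    volume {b : ℝ | g b = ρ ∧ ∃ g', g' ≠ 0 ∧ HasDerivAt g g' b} = 0 := by
  refine measure_null_of_locally_null _ fun b hb => ?_
  obtain ⟨-, g', hg', hd⟩ := hb
  refine ⟨{b}, ?_, by simp⟩
  have h1 := hd.eventually_ne hg' (c := ρ)
  rw [mem_nhdsWithin_iff_exists_mem_nhds_inter]
  rw [eventually_nhdsWithin_iff] at h1
  refine ⟨_, h1, ?_⟩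
  rintro x ⟨hx, hx'⟩
  by_contra hne
  exact hx hne hx'.1

/-- thinness of a set `Γ` contained in a level set of `s`, w.r.t. the parabola foliation -/
lemma thin_of_null {s : P2 → ℝ} {Γ : Set P2} {ρ : ℝ} (hd : ∀ w ∈ Γ, DifferentiableAt ℝ s w)
    (hs : ∀ w ∈ Γ, s w = ρ) {κ a : ℝ}
    (hT : μH[1] {w ∈ Γ | fderiv ℝ s w (dlev κ a w) = 0} = 0) (c : ℝ) :
    volume {b : ℝ | par κ a c b ∈ Γ} = 0 := by
  have h1 := volume_par_null hT κ a c
  have h2 := volume_isolated_null (fun b => s (par κ a c b)) ρ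
  refine measure_mono_null ?_ (measure_union_null h1 h2)
  intro b hb
  by_cases h : fderiv ℝ s (par κ a c b) (dlev κ a (par κ a c b)) = 0
  · exact Or.inl ⟨hb, h⟩
  · refine Or.inr ⟨hs _ hb, _, h, ?_⟩
    exact (hd _ hb).hasFDerivAt.comp_hasDerivAt b (hasDerivAt_par κ a c b)

/-- only countably many angles are bad -/
lemma countable_bad {s : P2 → ℝ} {Γ : Set P2} {h : ℝ → P2} {A : Set ℝ}
    (hh : ∀ t ∈ A, ContDiffAt ℝ 1 h t) (hΓ : Γ ⊆ h '' A) {κ : ℝ} (hκ : 0 ≤ κ)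
    (hκΓ : ∀ w ∈ Γ, κ * ‖w‖ ≤ 1 / 2) (hd : ∀ w ∈ Γ, fderiv ℝ s w ≠ 0) {I : Set ℝ}
    (hI : ∀ a ∈ I, ∀ a' ∈ I, |a - a'| ≤ 1 / 2)
    (hmeas : ∀ a, MeasurableSet {t | t ∈ A ∧ h t ∈ Γ ∧ fderiv ℝ s (h t) (dlev κ a (h t)) = 0}) :
    {a ∈ I | μH[1] {w ∈ Γ | fderiv ℝ s w (dlev κ a w) = 0} ≠ 0}.Countable := by
  let As : I → Set ℝ := fun a =>
    {t | t ∈ A ∧ h t ∈ Γ ∧ fderiv ℝ s (h t) (dlev κ (a : ℝ) (h t)) = 0}
  have hdisj : Pairwise (Function.onFun Disjoint As) := by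
    intro a a' haa'
    rw [Function.onFun, Set.disjoint_left]
    rintro t ⟨_, htΓ, h1⟩ ⟨_, _, h2⟩
    have hne : (a : ℝ) ≠ a' := fun h => haa' (Subtype.ext h)
    exact hd _ htΓ (clm_eq_zero_of_det2
      (det2_dlev_ne_zero hκ (hκΓ _ htΓ) hne (hI _ a.2 _ a'.2)) h1 h2)
  have hc := Measure.countable_meas_pos_of_disjoint_iUnion (μ := (volume : Measure ℝ))
    (As := As) (fun a => hmeas a) hdisj
  refine (hc.image (Subtype.val)).mono ?_
  rintro a ⟨haI, ha⟩
  refine ⟨⟨a, haI⟩, ?_, rfl⟩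
  change 0 < volume (As ⟨a, haI⟩)
  rw [pos_iff_ne_zero]
  intro h0
  apply ha
  have h1 : μH[1] (h '' As ⟨a, haI⟩) = 0 := hausdorff_image_null h0 (fun t ht => hh t ht.1)
  refine measure_mono_null ?_ h1
  rintro w ⟨hw, hw'⟩
  obtain ⟨t, ht, rfl⟩ := hΓ hw
  exact ⟨t, ⟨ht, hw, hw'⟩, rfl⟩

/-! ### two patches -/

section pair
variable {M : Type*} [TopologicalSpace M] [ChartedSpace P2 M] [IsManifold (𝓡 2) ∞ M]

/-- circle of radius `r` in the chart `φ` -/
def circ (φ : OpenPartialHomeomorph M P2) (r : ℝ) : Set M := φ.symm '' Metric.sphere 0 r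

/-- the part of the circle `(φ', r')` seen in the disc of radius `r` of `φ` -/
def gset (φ φ' : OpenPartialHomeomorph M P2) (r r' : ℝ) : Set P2 :=
  {w | w ∈ Metric.closedBall (0 : P2) r ∧ w ∈ φ.target ∩ φ.symm ⁻¹' φ'.source ∧
    ‖trans φ φ' w‖ = r'}

omit [ChartedSpace P2 M] [IsManifold (𝓡 2) ∞ M] in
lemma gset_eq {φ φ' : OpenPartialHomeomorph M P2} {r r' : ℝ}
    (hsub' : Metric.sphere (0 : P2) r' ⊆ φ'.target) :
    Metric.closedBall (0 : P2) r ∩ φ '' (circ φ' r' ∩ φ.source) ⊆ gset φ φ' r r' := by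
  rintro w ⟨hw, p, ⟨⟨y, hy, rfl⟩, hp⟩, rfl⟩
  have hyt : y ∈ φ'.target := hsub' hy
  refine ⟨hw, ⟨φ.map_source hp, ?_⟩, ?_⟩
  · change φ.symm (φ (φ'.symm y)) ∈ φ'.source
    rw [φ.left_inv hp]; exact φ'.map_target hyt
  · change ‖φ' (φ.symm (φ (φ'.symm y)))‖ = r'
    rw [φ.left_inv hp, φ'.right_inv hyt]
    simpa using hy

/-- square of the gauge of the second patch in the coordinates of the first -/
def sq (φ φ' : OpenPartialHomeomorph M P2) (w : P2) : ℝ := ‖trans φ φ' w‖ ^ 2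

lemma sq_contDiffOn {φ φ' : OpenPartialHomeomorph M P2}
    (hφ : φ ∈ IsManifold.maximalAtlas (𝓡 2) ∞ M) (hφ' : φ' ∈ IsManifold.maximalAtlas (𝓡 2) ∞ M) :
    ContDiffOn ℝ ∞ (sq φ φ') (φ.target ∩ φ.symm ⁻¹' φ'.source) :=
  (trans_contDiffOn hφ hφ').norm_sq ℝ

lemma fderiv_sq {φ φ' : OpenPartialHomeomorph M P2}
    (hφ : φ ∈ IsManifold.maximalAtlas (𝓡 2) ∞ M) (hφ' : φ' ∈ IsManifold.maximalAtlas (𝓡 2) ∞ M)
    {w : P2} (hw : w ∈ φ.target ∩ φ.symm ⁻¹' φ'.source) (v : P2) :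
    fderiv ℝ (sq φ φ') w v = 2 * inner ℝ (trans φ φ' w) (fderiv ℝ (trans φ φ') w v) := by
  have h1 : DifferentiableAt ℝ (trans φ φ') w :=
    (trans_contDiffAt hφ hφ' hw.1 hw.2).differentiableAt (by simp)
  have h2 : HasFDerivAt (sq φ φ') _ w := h1.hasFDerivAt.norm_sq
  rw [h2.fderiv]
  simp

lemma fderiv_sq_ne_zero {φ φ' : OpenPartialHomeomorph M P2}
    (hφ : φ ∈ IsManifold.maximalAtlas (𝓡 2) ∞ M) (hφ' : φ' ∈ IsManifold.maximalAtlas (𝓡 2) ∞ M)
    {w : P2} (hw : w ∈ φ.target ∩ φ.symm ⁻¹' φ'.source) (hne : trans φ φ' w ≠ 0) :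
    fderiv ℝ (sq φ φ') w ≠ 0 := by
  intro h
  obtain ⟨v, hv⟩ := fderiv_trans_surjective hφ hφ' hw.1 hw.2 (trans φ φ' w)
  have h1 := fderiv_sq hφ hφ' hw v
  rw [h, hv, real_inner_self_eq_norm_sq] at h1
  have h0 : (0 : P2 →L[ℝ] ℝ) v = 0 := rfl
  rw [h0] at h1
  have h2 : ‖trans φ φ' w‖ ^ 2 = 0 := by linarith
  exact hne (norm_eq_zero.1 (by simpa using h2))

/-- parametrisation of the circle of radius `r` -/
def circPar (r t : ℝ) : P2 := (r * Real.cos t) • e1 + (r * Real.sin t) • e2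

lemma circPar_contDiff (r : ℝ) : ContDiff ℝ ∞ (circPar r) := by
  unfold circPar
  exact ((contDiff_const.mul Real.contDiff_cos).smul contDiff_const).add
    ((contDiff_const.mul Real.contDiff_sin).smul contDiff_const)

lemma norm_circPar {r : ℝ} (hr : 0 ≤ r) (t : ℝ) : ‖circPar r t‖ = r := by
  have h : ‖circPar r t‖ ^ 2 = r ^ 2 := by
    rw [normSq_coord]
    simp only [circPar, PiLp.add_apply, PiLp.smul_apply, e1_zero, e1_one, e2_zero, e2_one,
      smul_eq_mul]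
    linear_combination (r ^ 2) * Real.sin_sq_add_cos_sq t
  exact (sq_eq_sq₀ (norm_nonneg _) hr).1 h

lemma exists_circPar {r : ℝ} (hr : 0 < r) {y : P2} (hy : ‖y‖ = r) : ∃ t, circPar r t = y := by
  have h1 : (y 0 / r) ^ 2 + (y 1 / r) ^ 2 = 1 := by
    have := normSq_coord y
    rw [hy] at this
    field_simp
    linarith
  obtain ⟨t, ht⟩ : ∃ t : ℝ, Real.cos t = y 0 / r ∧ Real.sin t = y 1 / r := by
    set z : ℂ := ⟨y 0 / r, y 1 / r⟩ with hz
    have hz1 : ‖z‖ = 1 := by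
      rw [Complex.norm_def, Complex.normSq_apply]
      have : (y 0 / r) * (y 0 / r) + (y 1 / r) * (y 1 / r) = 1 := by nlinarith [h1]
      simp [hz, this]
    refine ⟨Complex.arg z, ?_, ?_⟩
    · have := Complex.cos_arg (x := z) (by intro h; rw [h] at hz1; simp at hz1)
      rw [this, hz1]; simp [hz]
    · have := Complex.sin_arg z
      rw [this, hz1]; simp [hz]
  refine ⟨t, ?_⟩
  apply ext_coord
  · simp only [circPar, PiLp.add_apply, PiLp.smul_apply, e1_zero, e2_zero, smul_eq_mul, ht.1]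
    field_simp; ring
  · simp only [circPar, PiLp.add_apply, PiLp.smul_apply, e1_one, e2_one, smul_eq_mul, ht.2]
    field_simp; ring

/-- only countably many phase angles are bad for a pair (patch, circle) -/
lemma pair_bad {φ φ' : OpenPartialHomeomorph M P2}
    (hφ : φ ∈ IsManifold.maximalAtlas (𝓡 2) ∞ M) (hφ' : φ' ∈ IsManifold.maximalAtlas (𝓡 2) ∞ M)
    {r r' : ℝ} (hr' : 0 < r') {κ : ℝ} (hκ : 0 ≤ κ)
    (hκr : κ * r ≤ 1 / 2) {I : Set ℝ} (hI : ∀ a ∈ I, ∀ a' ∈ I, |a - a'| ≤ 1 / 2) :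
    {a ∈ I | μH[1] {w ∈ gset φ φ' r r' | fderiv ℝ (sq φ φ') w (dlev κ a w) = 0} ≠ 0}.Countable := by
  set A : Set ℝ := circPar r' ⁻¹' (φ'.target ∩ φ'.symm ⁻¹' φ.source) with hA
  have hAo : IsOpen A := (isOpen_transDom φ' φ).preimage (circPar_contDiff r').continuous
  set h : ℝ → P2 := trans φ' φ ∘ circPar r' with hh
  have hcd : ∀ t ∈ A, ContDiffAt ℝ ∞ h t := by
    intro t ht
    exact (trans_contDiffAt hφ' hφ ht.1 ht.2).comp t (circPar_contDiff r').contDiffAt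
  -- properties of `h t` for `t ∈ A`
  have hdom : ∀ t ∈ A, h t ∈ φ.target ∩ φ.symm ⁻¹' φ'.source := by
    intro t ht
    refine ⟨φ.map_source ht.2, ?_⟩
    change φ.symm (φ (φ'.symm (circPar r' t))) ∈ φ'.source
    rw [φ.left_inv ht.2]; exact φ'.map_target ht.1
  have hval : ∀ t ∈ A, trans φ φ' (h t) = circPar r' t := by
    intro t ht
    change φ' (φ.symm (φ (φ'.symm (circPar r' t)))) = circPar r' t
    rw [φ.left_inv ht.2, φ'.right_inv ht.1]
  have hGam : gset φ φ' r r' ⊆ h '' A := by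
    rintro w ⟨_, hwd, hwn⟩
    obtain ⟨t, ht⟩ := exists_circPar hr' hwn
    refine ⟨t, ?_, ?_⟩
    · change circPar r' t ∈ φ'.target ∩ φ'.symm ⁻¹' φ.source
      rw [ht]
      refine ⟨φ'.map_source hwd.2, ?_⟩
      change φ'.symm (φ' (φ.symm w)) ∈ φ.source
      rw [φ'.left_inv hwd.2]; exact φ.map_target hwd.1
    · change φ (φ'.symm (circPar r' t)) = w
      rw [ht]
      change φ (φ'.symm (φ' (φ.symm w))) = w
      rw [φ'.left_inv hwd.2, φ.right_inv hwd.1]
  refine countable_bad (h := h) (A := A) (fun t ht => (hcd t ht).of_le (by simp)) hGam hκ ?_ ?_ hI ?_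
  · intro w hw
    refine (mul_le_mul_of_nonneg_left ?_ hκ).trans hκr
    simpa using hw.1
  · intro w hw
    refine fderiv_sq_ne_zero hφ hφ' hw.2.1 ?_
    intro h0
    have := hw.2.2
    rw [h0, norm_zero] at this
    linarith
  · intro a
    have hcont : ContinuousOn (fun t => fderiv ℝ (sq φ φ') (h t) (dlev κ a (h t))) A := by
      have hc1 : ContinuousOn h A := fun t ht => (hcd t ht).continuousAt.continuousWithinAt
      have hc2 : ContinuousOn (fderiv ℝ (sq φ φ')) (φ.target ∩ φ.symm ⁻¹' φ'.source) :=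
        ((sq_contDiffOn hφ hφ').fderiv_of_isOpen (isOpen_transDom φ φ') (m := ∞)
          (by simp)).continuousOn
      have hc3 : ContinuousOn (fun t => fderiv ℝ (sq φ φ') (h t)) A := hc2.comp hc1 hdom
      have hc4 : Continuous (dlev κ a) := by
        unfold dlev rot
        fun_prop
      exact hc3.clm_apply (hc4.comp_continuousOn hc1)
    have hc1 : ContinuousOn h A := fun t ht => (hcd t ht).continuousAt.continuousWithinAt
    obtain ⟨u, hu, hu'⟩ := (continuousOn_iff_isClosed.1 hcont) {0} isClosed_singleton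
    obtain ⟨v, hv, hv'⟩ := (continuousOn_iff_isClosed.1 hc1) (Metric.closedBall 0 r)
      Metric.isClosed_closedBall
    have e : {t | t ∈ A ∧ h t ∈ gset φ φ' r r' ∧ fderiv ℝ (sq φ φ') (h t) (dlev κ a (h t)) = 0}
        = (u ∩ A) ∩ (v ∩ A) := by
      rw [← hu', ← hv']
      ext t
      constructor
      · rintro ⟨h1, h2, h3⟩
        exact ⟨⟨h3, h1⟩, ⟨h2.1, h1⟩⟩
      · rintro ⟨⟨h3, h1⟩, ⟨h2, _⟩⟩
        exact ⟨h1, ⟨h2, hdom t h1, by rw [hval t h1, norm_circPar hr'.le]⟩, h3⟩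
    rw [e]
    exact (hu.measurableSet.inter hAo.measurableSet).inter (hv.measurableSet.inter hAo.measurableSet)

/-- thinness for a good angle -/
lemma pair_thin {φ φ' : OpenPartialHomeomorph M P2}
    (hφ : φ ∈ IsManifold.maximalAtlas (𝓡 2) ∞ M) (hφ' : φ' ∈ IsManifold.maximalAtlas (𝓡 2) ∞ M)
    {r r' : ℝ} (hsub' : Metric.sphere (0 : P2) r' ⊆ φ'.target) {κ a : ℝ}
    (hgood : μH[1] {w ∈ gset φ φ' r r' | fderiv ℝ (sq φ φ') w (dlev κ a w) = 0} = 0) (c : ℝ) :
    volume {b : ℝ | par κ a c b ∈ Metric.closedBall (0 : P2) r ∩ φ '' (circ φ' r' ∩ φ.source)}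
      = 0 := by
  have h1 := thin_of_null (s := sq φ φ') (Γ := gset φ φ' r r') (ρ := r' ^ 2) (κ := κ) (a := a)
    (fun w hw => ((sq_contDiffOn hφ hφ').contDiffAt
      ((isOpen_transDom φ φ').mem_nhds hw.2.1)).differentiableAt (by simp))
    (fun w hw => by rw [sq, hw.2.2]) hgood c
  exact measure_mono_null (fun b hb => gset_eq hsub' hb) h1




lemma dlev_ne_zero (κ a : ℝ) (w : P2) : dlev κ a w ≠ 0 := by
  intro h
  have h1 : rot a (dlev κ a w) = rot a 0 := by rw [h]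
  have h2 : (rot a (dlev κ a w)) 1 = 1 := by
    rw [dlev, rot_rot_neg]; simp
  rw [h1] at h2
  simp at h2

/-- a fixed direction is a level direction for at most one angle -/
lemma subsingleton_dph {κ : ℝ} (hκ : 0 ≤ κ) {w v : P2} (hw : κ * ‖w‖ ≤ 1 / 2) (hv : v ≠ 0)
    {I : Set ℝ} (hI : ∀ a ∈ I, ∀ a' ∈ I, |a - a'| ≤ 1 / 2) :
    {a ∈ I | dph κ a w v = 0}.Subsingleton := by
  rintro a ⟨haI, ha⟩ a' ⟨haI', ha'⟩
  by_contra hne
  have hdet := det2_dlev_ne_zero hκ hw hne (hI a haI a' haI')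
  rw [dph_eq_det2] at ha ha'
  apply hv
  -- `v` is parallel to both level directions
  have e0 : det2 (dlev κ a w) (dlev κ a' w) * v 0 = 0 := by
    simp only [det2] at ha ha' ⊢
    linear_combination (dlev κ a' w) 0 * ha * (-1) + (dlev κ a w) 0 * ha'
  have e1' : det2 (dlev κ a w) (dlev κ a' w) * v 1 = 0 := by
    simp only [det2] at ha ha' ⊢
    linear_combination (dlev κ a' w) 1 * ha * (-1) + (dlev κ a w) 1 * ha'
  apply ext_coord
  · simpa using (mul_eq_zero.1 e0).resolve_left hdet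
  · simpa using (mul_eq_zero.1 e1').resolve_left hdet

/-- for a fixed angle in the second patch at most one angle of the first is bad -/
lemma subsingleton_dph' {κ κ' : ℝ} (hκ : 0 ≤ κ) {w w' : P2} (hw : κ * ‖w‖ ≤ 1 / 2)
    {L : P2 →L[ℝ] P2} (hL : Function.Injective L) (a' : ℝ)
    {I : Set ℝ} (hI : ∀ a ∈ I, ∀ a' ∈ I, |a - a'| ≤ 1 / 2) :
    {a ∈ I | dph κ' a' w' (L (dlev κ a w)) = 0}.Subsingleton := by
  rintro a ⟨haI, ha⟩ b ⟨hbI, hb⟩
  by_contra hne
  have hdet := det2_dlev_ne_zero hκ hw hne (hI a haI b hbI)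
  rw [dph_eq_det2] at ha hb
  set u := dlev κ a w with hu
  set v := dlev κ b w with hv
  set d := dlev κ' a' w' with hd
  have hd0 : d ≠ 0 := dlev_ne_zero _ _ _
  -- `L u` and `L v` are parallel
  have hpar : det2 (L u) (L v) = 0 := by
    by_contra hpar
    apply hd0
    have e0 : det2 (L u) (L v) * d 0 = 0 := by
      simp only [det2] at ha hb ⊢
      linear_combination (L v) 0 * ha - (L u) 0 * hb
    have e1' : det2 (L u) (L v) * d 1 = 0 := by
      simp only [det2] at ha hb ⊢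
      linear_combination (L v) 1 * ha - (L u) 1 * hb
    apply ext_coord
    · simpa using (mul_eq_zero.1 e0).resolve_left hpar
    · simpa using (mul_eq_zero.1 e1').resolve_left hpar
  -- dependence of `u`, `v`
  have hLu : L u ≠ 0 := fun h => dlev_ne_zero κ a w (hL (by rw [map_zero]; exact h))
  have hcomb : ∀ i : Fin 2, L ((L v) i • u - (L u) i • v) = 0 := by
    intro i
    rw [map_sub, map_smul, map_smul]
    simp only [det2] at hpar
    fin_cases i
    · apply ext_coord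
      · simp only [PiLp.sub_apply, PiLp.smul_apply, smul_eq_mul, PiLp.zero_apply, Fin.zero_eta]
        ring
      · simp only [PiLp.sub_apply, PiLp.smul_apply, smul_eq_mul, PiLp.zero_apply, Fin.zero_eta]
        linear_combination -hpar
    · apply ext_coord
      · simp only [PiLp.sub_apply, PiLp.smul_apply, smul_eq_mul, PiLp.zero_apply, Fin.mk_one]
        linear_combination hpar
      · simp only [PiLp.sub_apply, PiLp.smul_apply, smul_eq_mul, PiLp.zero_apply, Fin.mk_one]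
        ring
  have hcomb' : ∀ i : Fin 2, (L v) i • u - (L u) i • v = 0 := fun i =>
    hL (by rw [map_zero]; exact hcomb i)
  apply hLu
  have hz : ∀ i : Fin 2, (L u) i = 0 := by
    intro i
    have h1 := hcomb' i
    have h2 : (L u) i * det2 u v = 0 := by
      have c0 : (L v) i * u 0 - (L u) i * v 0 = 0 := by
        have := congrArg (fun x : P2 => x 0) h1
        simpa using this
      have c1 : (L v) i * u 1 - (L u) i * v 1 = 0 := by
        have := congrArg (fun x : P2 => x 1) h1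
        simpa using this
      simp only [det2]
      linear_combination (u 1) * c0 - (u 0) * c1
    exact (mul_eq_zero.1 h2).resolve_right hdet
  exact ext_coord (by simpa using hz 0) (by simpa using hz 1)

end pair

/-- sequential choice avoiding countable sets -/
lemma exists_choice {ι : Type*} [Finite ι] (I : ι → Set ℝ) (hI : ∀ i, ¬ (I i).Countable)
    (B : ι → Set ℝ) (hB : ∀ i, (I i ∩ B i).Countable) (R : ι → ι → ℝ → ℝ → Prop)
    (hR : ∀ i j y, {x ∈ I i | R i j x y}.Countable)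
    (hR' : ∀ i j y, {x ∈ I i | R j i y x}.Countable) :
    ∃ α : ι → ℝ, (∀ i, α i ∈ I i) ∧ (∀ i, α i ∉ B i) ∧ ∀ i j, i ≠ j → ¬ R i j (α i) (α j) := by
  classical
  have : Fintype ι := Fintype.ofFinite ι
  have key : ∀ s : Finset ι, ∃ α : ι → ℝ, (∀ i, α i ∈ I i) ∧ (∀ i ∈ s, α i ∉ B i) ∧
      ∀ i ∈ s, ∀ j ∈ s, i ≠ j → ¬ R i j (α i) (α j) := by
    intro s
    induction s using Finset.induction_on with
    | empty =>
      have hne : ∀ i, (I i).Nonempty := by
        intro i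
        rw [Set.nonempty_iff_ne_empty]
        intro h
        exact hI i (by rw [h]; exact Set.countable_empty)
      choose α hα using hne
      exact ⟨α, hα, by simp, by simp⟩
    | insert a s has ih =>
      obtain ⟨α, h1, h2, h3⟩ := ih
      have hcount : ((I a ∩ B a) ∪ ⋃ j ∈ s, ({x ∈ I a | R a j x (α j)} ∪
          {x ∈ I a | R j a (α j) x})).Countable :=
        (hB a).union (Set.Countable.biUnion s.countable_toSet fun j _ =>
          (hR a j _).union (hR' a j _))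
      obtain ⟨x, hx, hx'⟩ : ∃ x ∈ I a, x ∉ ((I a ∩ B a) ∪ ⋃ j ∈ s, ({x ∈ I a | R a j x (α j)} ∪
          {x ∈ I a | R j a (α j) x})) := by
        by_contra hcon
        push Not at hcon
        exact hI a (hcount.mono hcon)
      rw [mem_union, not_or] at hx'
      obtain ⟨hxB, hxR⟩ := hx'
      have hxB' : x ∉ B a := fun h => hxB ⟨hx, h⟩
      have hxR1 : ∀ j ∈ s, ¬ R a j x (α j) := fun j hj h =>
        hxR (mem_iUnion₂.2 ⟨j, hj, Or.inl ⟨hx, h⟩⟩)
      have hxR2 : ∀ j ∈ s, ¬ R j a (α j) x := fun j hj h =>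
        hxR (mem_iUnion₂.2 ⟨j, hj, Or.inr ⟨hx, h⟩⟩)
      refine ⟨Function.update α a x, ?_, ?_, ?_⟩
      · intro i
        by_cases hi : i = a
        · subst hi; simpa using hx
        · simpa [Function.update_of_ne hi] using h1 i
      · intro i hi
        rcases Finset.mem_insert.1 hi with rfl | hi'
        · simpa using hxB'
        · have hia : i ≠ a := fun h => has (h ▸ hi')
          simpa [Function.update_of_ne hia] using h2 i hi'
      · intro i hi j hj hij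
        rcases Finset.mem_insert.1 hi with rfl | hi'
        · rcases Finset.mem_insert.1 hj with rfl | hj'
          · exact absurd rfl hij
          · have hja : j ≠ i := fun h => has (h ▸ hj')
            simpa [Function.update_of_ne hja] using hxR1 j hj'
        · have hia : i ≠ a := fun h => has (h ▸ hi')
          rcases Finset.mem_insert.1 hj with rfl | hj'
          · simpa [Function.update_of_ne hia] using hxR2 i hi'
          · have hja : j ≠ a := fun h => has (h ▸ hj')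
            simpa [Function.update_of_ne hia, Function.update_of_ne hja] using h3 i hi' j hj' hij
  obtain ⟨α, h1, h2, h3⟩ := key Finset.univ
  exact ⟨α, h1, fun i => h2 i (Finset.mem_univ i),
    fun i j hij => h3 i (Finset.mem_univ i) j (Finset.mem_univ j) hij⟩

section main
variable {M : Type*} [TopologicalSpace M] [ChartedSpace P2 M] [IsManifold (𝓡 2) ∞ M]
  [T2Space M] [CompactSpace M]

omit [ChartedSpace P2 M] [IsManifold (𝓡 2) ∞ M] [T2Space M] [CompactSpace M] in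
lemma isCompact_circ {φ : OpenPartialHomeomorph M P2} {r : ℝ}
    (hsub : Metric.sphere (0 : P2) r ⊆ φ.target) : IsCompact (circ φ r) :=
  (isCompact_sphere _ _).image_of_continuousOn (φ.continuousOn_symm.mono hsub)

omit [ChartedSpace P2 M] [IsManifold (𝓡 2) ∞ M] [T2Space M] [CompactSpace M] in
lemma circ_subset {φ : OpenPartialHomeomorph M P2} {r : ℝ}
    (hsub : Metric.sphere (0 : P2) r ⊆ φ.target) {p : M} (hp : p ∈ circ φ r) :
    p ∈ φ.source ∧ ‖φ p‖ = r := by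
  obtain ⟨y, hy, rfl⟩ := hp
  refine ⟨φ.map_target (hsub hy), ?_⟩
  rw [φ.right_inv (hsub hy)]; simpa using hy

/-- choice of radii -/
theorem exists_radii_fin {Qi : Type*} [Finite Qi] (φ : Qi → OpenPartialHomeomorph M P2)
    (hφ : ∀ q, φ q ∈ IsManifold.maximalAtlas (𝓡 2) ∞ M) (R0 : Qi → ℝ) (hR0 : ∀ q, 0 < R0 q)
    (hsub : ∀ q, Metric.closedBall (0 : P2) (2 * R0 q) ⊆ (φ q).target) :
    ∃ r : Qi → ℝ, (∀ q, R0 q < r q ∧ r q < 2 * R0 q) ∧
      (∀ q q', q ≠ q' → (circ (φ q) (r q) ∩ circ (φ q') (r q')).Finite) ∧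
      (∀ q q' q'', q ≠ q' → q' ≠ q'' → q ≠ q'' →
        circ (φ q) (r q) ∩ circ (φ q') (r q') ∩ circ (φ q'') (r q'') = ∅) := by
  have hσ : ∀ q, ContMDiffOn (𝓡 2) 𝓘(ℝ) 1 (fun p => ‖φ q p‖ ^ 2) (φ q).source := by
    intro q
    have h1 : ContMDiffOn (𝓡 2) 𝓘(ℝ, P2) ∞ (φ q) (φ q).source :=
      contMDiffOn_of_mem_maximalAtlas (hφ q)
    have h2 : ContMDiff 𝓘(ℝ, P2) 𝓘(ℝ) ∞ (fun x : P2 => ‖x‖ ^ 2) :=
      (contDiff_norm_sq ℝ).contMDiff
    exact ((h2.comp_contMDiffOn h1).of_le (by simp))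
  have : IsManifold (𝓡 2) 1 M := IsManifold.of_le (n := ∞) (by simp)
  obtain ⟨ρ, hρ, hT, h3⟩ := exists_generic_radii (M := M) (fun q => (φ q).source)
    (fun q => (φ q).open_source) (fun q p => ‖φ q p‖ ^ 2) hσ
    (fun q => R0 q ^ 2) (fun q => (2 * R0 q) ^ 2)
    (fun q => by nlinarith [hR0 q, sq_nonneg (R0 q), mul_pos (hR0 q) (hR0 q)])
  have hρpos : ∀ q, 0 < ρ q := fun q => lt_trans (by have := hR0 q; positivity) (hρ q).1
  have hsq : ∀ q, Real.sqrt (ρ q) ^ 2 = ρ q := fun q => Real.sq_sqrt (hρpos q).le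
  have hlt1 : ∀ q, R0 q < Real.sqrt (ρ q) := fun q =>
    (Real.lt_sqrt (hR0 q).le).2 (hρ q).1
  have hlt2 : ∀ q, Real.sqrt (ρ q) < 2 * R0 q := fun q => by
    rw [Real.sqrt_lt' (by have := hR0 q; positivity)]
    exact (hρ q).2
  have hsph : ∀ q, Metric.sphere (0 : P2) (Real.sqrt (ρ q)) ⊆ (φ q).target := fun q x hx =>
    hsub q (by
      rw [mem_sphere_zero_iff_norm] at hx
      rw [mem_closedBall_zero_iff, hx]; exact (hlt2 q).le)
  refine ⟨fun q => Real.sqrt (ρ q), fun q => ⟨hlt1 q, hlt2 q⟩, ?_, ?_⟩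
  · intro q q' hqq'
    have hK : IsCompact (circ (φ q) (Real.sqrt (ρ q)) ∩ circ (φ q') (Real.sqrt (ρ q'))) :=
      (isCompact_circ (hsph q)).inter (isCompact_circ (hsph q'))
    have hfin := finite_level_inter (φ q).open_source (φ q').open_source (hσ q) (hσ q')
      (hT q q' hqq') hK (fun p hp => ⟨(circ_subset (hsph q) hp.1).1, (circ_subset (hsph q') hp.2).1⟩)
    refine hfin.subset ?_
    intro p hp
    refine ⟨hp, ?_, ?_⟩
    · rw [(circ_subset (hsph q) hp.1).2, hsq]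
    · rw [(circ_subset (hsph q') hp.2).2, hsq]
  · intro q q' q'' h1 h2 h3'
    ext p
    simp only [mem_empty_iff_false, iff_false]
    rintro ⟨⟨hp, hp'⟩, hp''⟩
    refine h3 q q' q'' h1 h2 h3' p ⟨⟨(circ_subset (hsph q) hp).1, (circ_subset (hsph q') hp').1⟩,
      (circ_subset (hsph q'') hp'').1⟩ ⟨?_, ?_, ?_⟩
    · rw [(circ_subset (hsph q) hp).2, hsq]
    · rw [(circ_subset (hsph q') hp').2, hsq]
    · rw [(circ_subset (hsph q'') hp'').2, hsq]

/-- **General position** (GP): choice of the radii and of the phase angles. -/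
theorem exists_genpos {Qi : Type*} [Finite Qi] {μi : Type*} [Finite μi]
    (φ : Qi → OpenPartialHomeomorph M P2)
    (hφ : ∀ q, φ q ∈ IsManifold.maximalAtlas (𝓡 2) ∞ M) (R0 : Qi → ℝ) (hR0 : ∀ q, 0 < R0 q)
    (hsub : ∀ q, Metric.closedBall (0 : P2) (2 * R0 q) ⊆ (φ q).target)
    (κ : Qi → ℝ) (hκ : ∀ q, 0 ≤ κ q) (hκR : ∀ q, κ q * (2 * R0 q) ≤ 1 / 2)
    (A : Qi → μi → ℝ) {δ : ℝ} (hδ : 0 < δ) :
    ∃ (r : Qi → ℝ) (α : Qi → μi → ℝ), (∀ q, R0 q < r q ∧ r q < 2 * R0 q) ∧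
      (∀ q m, |α q m - A q m| < δ) ∧
      (∀ q q', q ≠ q' → (circ (φ q) (r q) ∩ circ (φ q') (r q')).Finite) ∧
      (∀ q q' q'' m m', q ≠ q' → q' ≠ q'' → ∀ p ∈ circ (φ q') (r q') ∩ circ (φ q'') (r q''),
        p ∈ (φ q).source → ‖φ q p‖ ≤ r q →
        dph (κ q) (α q m) (φ q p)
          (fderiv ℝ (trans (φ q') (φ q)) (φ q' p) (dlev (κ q') (α q' m') (φ q' p))) ≠ 0) ∧
      (∀ q q' m c, volume {b : ℝ | par (κ q) (α q m) c b ∈
        Metric.closedBall (0 : P2) (r q) ∩ φ q '' (circ (φ q') (r q') ∩ (φ q).source)} = 0) ∧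
      (∀ q q' q'', q ≠ q' → q' ≠ q'' → q ≠ q'' →
        circ (φ q) (r q) ∩ circ (φ q') (r q') ∩ circ (φ q'') (r q'') = ∅) := by
  classical
  obtain ⟨r, hr, hfin, htrip⟩ := exists_radii_fin φ hφ R0 hR0 hsub
  have hrpos : ∀ q, 0 < r q := fun q => lt_trans (hR0 q) (hr q).1
  have hsph : ∀ q, Metric.sphere (0 : P2) (r q) ⊆ (φ q).target := fun q x hx =>
    hsub q (by
      rw [mem_sphere_zero_iff_norm] at hx
      rw [mem_closedBall_zero_iff, hx]; exact (hr q).2.le)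
  have hκr : ∀ q, κ q * r q ≤ 1 / 2 := fun q =>
    (mul_le_mul_of_nonneg_left (hr q).2.le (hκ q)).trans (hκR q)
  -- crossing points
  set X : Set M := ⋃ q : Qi, ⋃ q' : Qi, if q = q' then ∅ else circ (φ q) (r q) ∩ circ (φ q') (r q')
    with hX
  have hXfin : X.Finite := by
    refine Set.finite_iUnion fun q => Set.finite_iUnion fun q' => ?_
    by_cases h : q = q'
    · simp [h]
    · simp only [h, if_false]; exact hfin q q' h
  have hmemX : ∀ {q q' : Qi} {p : M}, q ≠ q' → p ∈ circ (φ q) (r q) ∩ circ (φ q') (r q') → p ∈ X := by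
    intro q q' p h hp
    refine mem_iUnion.2 ⟨q, mem_iUnion.2 ⟨q', ?_⟩⟩
    simp only [h, if_false]; exact hp
  -- intervals
  set ε : ℝ := min δ (1 / 4) with hε
  have hεpos : 0 < ε := lt_min hδ (by norm_num)
  let I : Qi × μi → Set ℝ := fun i => Ioo (A i.1 i.2 - ε) (A i.1 i.2 + ε)
  have hI2 : ∀ i, ∀ a ∈ I i, ∀ a' ∈ I i, |a - a'| ≤ 1 / 2 := by
    intro i a ha a' ha'
    have h1 : ε ≤ 1 / 4 := min_le_right _ _
    rw [abs_le]
    constructor <;> linarith [ha.1, ha.2, ha'.1, ha'.2]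
  have hIunc : ∀ i, ¬ (I i).Countable := by
    intro i hc
    have h0 := hc.measure_zero (volume : Measure ℝ)
    simp only [I, Real.volume_Ioo] at h0
    rw [ENNReal.ofReal_eq_zero] at h0
    linarith
  -- bad angles for thinness
  let B : Qi × μi → Set ℝ := fun i => ⋃ q' : Qi, {a | μH[1] {w ∈ gset (φ i.1) (φ q') (r i.1) (r q') |
    fderiv ℝ (sq (φ i.1) (φ q')) w (dlev (κ i.1) a w) = 0} ≠ 0}
  have hB : ∀ i, (I i ∩ B i).Countable := by
    intro i
    have : I i ∩ B i = ⋃ q' : Qi, {a ∈ I i | μH[1] {w ∈ gset (φ i.1) (φ q') (r i.1) (r q') |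
        fderiv ℝ (sq (φ i.1) (φ q')) w (dlev (κ i.1) a w) = 0} ≠ 0} := by
      rw [inter_iUnion]; rfl
    rw [this]
    have : Countable Qi := Finite.to_countable
    exact Set.countable_iUnion fun q' =>
      pair_bad (hφ i.1) (hφ q') (hrpos q') (hκ i.1) (hκr i.1) (hI2 i)
  -- bad pairs
  let R : Qi × μi → Qi × μi → ℝ → ℝ → Prop := fun i j x y =>
    ∃ p ∈ X, p ∈ (φ i.1).source ∧ ‖φ i.1 p‖ ≤ r i.1 ∧ p ∈ (φ j.1).source ∧ ‖φ j.1 p‖ ≤ r j.1 ∧
      dph (κ i.1) x (φ i.1 p)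
        (fderiv ℝ (trans (φ j.1) (φ i.1)) (φ j.1 p) (dlev (κ j.1) y (φ j.1 p))) = 0
  have hinj : ∀ (q q' : Qi) (p : M), p ∈ (φ q).source → p ∈ (φ q').source →
      Function.Injective (fderiv ℝ (trans (φ q') (φ q)) (φ q' p)) := by
    intro q q' p hp hp'
    exact fderiv_trans_injective (hφ q') (hφ q) ((φ q').map_source hp')
      (by rw [(φ q').left_inv hp']; exact hp)
  have hκn : ∀ q (w : P2), ‖w‖ ≤ r q → κ q * ‖w‖ ≤ 1 / 2 := fun q w hw =>
    (mul_le_mul_of_nonneg_left hw (hκ q)).trans (hκr q)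
  have hR : ∀ i j y, {x ∈ I i | R i j x y}.Countable := by
    intro i j y
    have hsub' : {x ∈ I i | R i j x y} ⊆ ⋃ p ∈ X, {x | (p ∈ (φ i.1).source ∧ ‖φ i.1 p‖ ≤ r i.1 ∧
        p ∈ (φ j.1).source ∧ ‖φ j.1 p‖ ≤ r j.1) ∧ x ∈ I i ∧ dph (κ i.1) x (φ i.1 p)
        (fderiv ℝ (trans (φ j.1) (φ i.1)) (φ j.1 p) (dlev (κ j.1) y (φ j.1 p))) = 0} := by
      rintro x ⟨hx, p, hpX, h1, h2, h3, h4, h5⟩
      exact mem_iUnion₂.2 ⟨p, hpX, ⟨h1, h2, h3, h4⟩, hx, h5⟩
    refine (Set.Countable.biUnion hXfin.countable fun p _ => ?_).mono hsub'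
    by_cases hc : p ∈ (φ i.1).source ∧ ‖φ i.1 p‖ ≤ r i.1 ∧ p ∈ (φ j.1).source ∧ ‖φ j.1 p‖ ≤ r j.1
    · have hne : fderiv ℝ (trans (φ j.1) (φ i.1)) (φ j.1 p) (dlev (κ j.1) y (φ j.1 p)) ≠ 0 := by
        intro h0
        exact dlev_ne_zero _ _ _ (hinj i.1 j.1 p hc.1 hc.2.2.1 (by rw [map_zero]; exact h0))
      refine ((subsingleton_dph (hκ i.1) (hκn _ _ hc.2.1) hne (hI2 i)).countable).mono ?_
      rintro x ⟨_, hx, hx'⟩
      exact ⟨hx, hx'⟩
    · refine Set.countable_empty.mono ?_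
      rintro x ⟨h, _⟩
      exact (hc h).elim
  have hR' : ∀ i j y, {x ∈ I i | R j i y x}.Countable := by
    intro i j y
    have hsub' : {x ∈ I i | R j i y x} ⊆ ⋃ p ∈ X, {x | (p ∈ (φ i.1).source ∧ ‖φ i.1 p‖ ≤ r i.1 ∧
        p ∈ (φ j.1).source ∧ ‖φ j.1 p‖ ≤ r j.1) ∧ x ∈ I i ∧ dph (κ j.1) y (φ j.1 p)
        (fderiv ℝ (trans (φ i.1) (φ j.1)) (φ i.1 p) (dlev (κ i.1) x (φ i.1 p))) = 0} := by
      rintro x ⟨hx, p, hpX, h1, h2, h3, h4, h5⟩
      exact mem_iUnion₂.2 ⟨p, hpX, ⟨h3, h4, h1, h2⟩, hx, h5⟩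
    refine (Set.Countable.biUnion hXfin.countable fun p _ => ?_).mono hsub'
    by_cases hc : p ∈ (φ i.1).source ∧ ‖φ i.1 p‖ ≤ r i.1 ∧ p ∈ (φ j.1).source ∧ ‖φ j.1 p‖ ≤ r j.1
    · refine ((subsingleton_dph' (κ' := κ j.1) (w' := φ j.1 p) (hκ i.1) (hκn _ _ hc.2.1)
        (hinj j.1 i.1 p hc.2.2.1 hc.1) y (hI2 i)).countable).mono ?_
      rintro x ⟨_, hx, hx'⟩
      exact ⟨hx, hx'⟩
    · refine Set.countable_empty.mono ?_
      rintro x ⟨h, _⟩
      exact (hc h).elim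
  obtain ⟨α, hα1, hα2, hα3⟩ := exists_choice I hIunc B hB R hR hR'
  refine ⟨r, fun q m => α (q, m), hr, ?_, hfin, ?_, ?_, htrip⟩
  · intro q m
    have h1 := hα1 (q, m)
    have h2 : ε ≤ δ := min_le_left _ _
    rw [abs_lt]
    constructor <;> linarith [h1.1, h1.2]
  · intro q q' q'' m m' hqq' hq'q'' p hp hps hpr h0
    have hp' := circ_subset (hsph q') hp.1
    refine hα3 (q, m) (q', m') (fun h => hqq' (congrArg Prod.fst h)) ?_
    exact ⟨p, hmemX hq'q'' hp, hps, hpr, hp'.1, hp'.2.le, h0⟩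
  · intro q q' m c
    have h1 := hα2 (q, m)
    have h2 : μH[1] {w ∈ gset (φ q) (φ q') (r q) (r q') |
        fderiv ℝ (sq (φ q) (φ q')) w (dlev (κ q) (α (q, m)) w) = 0} = 0 := by
      by_contra h
      exact h1 (mem_iUnion.2 ⟨q', h⟩)
    exact pair_thin (hφ q) (hφ q') (hsph q') h2 c

end main

end Crest.Agent.R216
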