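import Crest.Agent.R216.D3_Mg
import Crest.Agent.R216.D5_Mg
import Crest.Agent.R216.BaseAsm
import Crest.Agent.R216.BaseFlat
import Crest.Agent.R216.DecIface
import Crest.Agent.R216.DC3C
import Crest.Agent.R216.DC4J
import Crest.Agent.R216.DecGen
import Crest.Agent.R216.GlobCoef
import Crest.Agent.R216.DC1
import Crest.Agent.R216.Skel
import Crest.Agent.R216.GlobChart
import Mathlib

-- ▼ part R216/D6
section

/-! Row 216 (D), module D6: assembly. Every compact surface immerses in `ℝ³`. -/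

set_option autoImplicit false
open scoped Manifold ContDiff Topology
open Set Metric Function

namespace Crest.Agent.R216.D

theorem exists_immersion_E3 (M : Type*) [TopologicalSpace M] [T2Space M] [CompactSpace M]
    [ChartedSpace E2 M] [IsManifold (𝓡 2) ∞ M] :
    ∃ j : M → E3, ContMDiff (𝓡 2) 𝓘(ℝ, E3) ∞ j ∧
      ∀ x, Injective (mfderiv (𝓡 2) 𝓘(ℝ, E3) j x) := by
  obtain ⟨𝒜⟩ := exists_ballAtlas (M := M)
  obtain ⟨F, G, hG, hFG, hT, hN⟩ := exists_generic 𝒜
  have hsing : F.sing = sing G := by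
    ext x
    obtain ⟨i, hx, -⟩ := 𝒜.cover x
    have hu : 𝒜.c i x ∈ (𝒜.c i).target := (𝒜.c i).map_source hx
    have hxe : (𝒜.c i).symm (𝒜.c i x) = x := (𝒜.c i).left_inv hx
    rw [← hxe, F.mem_sing_iff (𝒜.mem i) hu, mem_sing_iff hG (𝒜.mem i) hu, hFG i _ hu]
  have hfin := finite_sing 𝒜 hG hN
  have heven := even_sing 𝒜 hG hT hN
  have hNF : ∀ i, ∀ u ∈ (𝒜.c i).target, Nondeg (F.mat (𝒜.c i)) u := by
    intro i u hu
    have h := hN i u hu
    have hEq : (fderiv ℝ (G ∘ (𝒜.c i).symm)) =ᶠ[𝓝 u] F.mat (𝒜.c i) :=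
      Filter.eventuallyEq_of_mem ((𝒜.c i).open_target.mem_nhds hu) (hFG i)
    intro e he h0 δ w hw
    refine h e he ?_ δ w ?_
    · rw [hFG i u hu]; exact h0
    · rw [hEq.fderiv_eq, hFG i u hu]; exact hw
  obtain ⟨F', hF'⟩ := exists_formal_immersion 𝒜 F hNF (hsing ▸ hfin) (by
    intro x; rw [hsing]; exact heven x)
  obtain ⟨j, hj, hjs⟩ := exists_immersion_of_formal 𝒜 F' hF'
  refine ⟨j, hj, fun x => ?_⟩
  refine (injective_iff_map_eq_zero _).2 fun v hv => ?_
  by_contra hne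
  have : x ∈ sing j := ⟨v, hne, hv⟩
  rw [hjs] at this
  exact this

end Crest.Agent.R216.D
end

-- ▼ part R216/BaseMain
section

/-!
# Row 216: BASE MAP, final statement (helper904, helper326)
-/

set_option autoImplicit false
open scoped Manifold ContDiff Topology
open Set

noncomputable section
namespace Crest.Agent.R216
namespace Base

variable {M : Type*} [TopologicalSpace M] [ChartedSpace E2 M] [IsManifold (𝓡 2) ∞ M]
  [T2Space M] [CompactSpace M]

theorem flatStatement : FlatStatement M := fun A j hj hpos X hX η hη =>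
  exists_flat A j hj hpos X hX η hη

/-- **BASE**: an immersion into `ℝ³` gives `BaseStatement`. -/
theorem base_of_immersion {j : M → E3} (hj : ContMDiff (𝓡 2) 𝓘(ℝ, E3) ∞ j)
    (hinj : ∀ p, Function.Injective (mfderiv (𝓡 2) 𝓘(ℝ, E3) j p)) : BaseStatement M :=
  base_of_immersion_of_flat flatStatement hj hinj

end Base
end Crest.Agent.R216
end
end

-- ▼ part R216/DC4A
section

/-!
Row 216 (S0335), part (6): module DC4a (helper973): `gam` in a phase chart is `Fgam` of the jet.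
-/

set_option autoImplicit false
open scoped Manifold ContDiff Topology
open Set

noncomputable section
namespace Crest.Agent.R216.Dec

namespace D4a

open Crest.Agent.R216.DC4J (thInv sg fderiv_sg_zero fderiv_sg_one fderiv2_sg contDiff_sg pr1)

/-- first coordinate -/
def pr0 : E2 →L[ℝ] ℝ := EuclideanSpace.proj (0 : Fin 2)

/-- rotation as a continuous linear map -/
def rotL (a : ℝ) : E2 →L[ℝ] E2 :=
  (Real.cos a • pr0 - Real.sin a • pr1).smulRight (bv 0) +
    (Real.sin a • pr0 + Real.cos a • pr1).smulRight (bv 1)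

lemma rotL_apply (a : ℝ) (z : E2) : rotL a z = rot a z := by
  simp [rotL, rot, pr0, pr1]

lemma thetaInv_eq (k : ℝ) (y : E2) : thetaInv k y = thInv k y := by
  ext i; fin_cases i <;> simp [thetaInv, thInv, bv]

lemma phsInv_eq (k a : ℝ) (y : E2) : phsInv k a y = sg 0 (rotL (-a)) k y := by
  simp [phsInv, sg, rotL_apply, thetaInv_eq]

lemma rot_rot_neg (a : ℝ) (z : E2) : rot a (rot (-a) z) = z := by
  ext i
  have h := Real.sin_sq_add_cos_sq a
  fin_cases i
  · simp [rot, bv]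
    linear_combination (z 0) * h
  · simp [rot, bv]
    linear_combination (z 1) * h

lemma rot_phsInv_one (k a : ℝ) (y : E2) : rot a (phsInv k a y) 1 = y 1 := by
  rw [phsInv, rot_rot_neg, thetaInv_eq]
  simp [thInv, bv]

lemma dlev_eq (k a : ℝ) (y : E2) :
    dlev k a (phsInv k a y) = rotL (-a) (bv 1 - (k * y 1) • bv 0) := by
  rw [dlev, rot_phsInv_one, rotL_apply]
  congr 1
  rw [neg_smul]
  abel

lemma dnor_eq (a : ℝ) : dnor a = rotL (-a) (bv 0) := by
  rw [dnor, rotL_apply]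

end D4a

open D4a
open Crest.Agent.R216.DC4J (thInv sg fderiv_sg_zero fderiv_sg_one fderiv2_sg contDiff_sg)
open Crest.Agent.R216.DC (gc gc_expand gc_differentiableAt gam_comp_eq inner_d2_eq)

theorem dc4a (M : Type*) [TopologicalSpace M] [ChartedSpace E2 M] [IsManifold (𝓡 2) ∞ M] :
    DC4a M := by
  intro P a r S hr hr2 hS f hf y hy
  have hyt : y ∈ S.ψ.target := S.sub hy
  have hz : phsInv P.κ a y ∈ P.w.target := (hS.tgt y).1 hyt
  set F : E2 → E4 := rep f P.w with hF
  set σ : E2 → E2 := sg 0 (rotL (-a)) P.κ with hσ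
  have hfun : f ∘ S.ψ.symm = F ∘ σ := by
    funext x
    simp only [hF, rep, Function.comp_apply, hS.symm x, phsInv_eq, hσ]
  have hσy : σ y = phsInv P.κ a y := (phsInv_eq _ _ _).symm
  set z := phsInv P.κ a y with hzdef
  have hFz : ContDiffAt ℝ 2 F z :=
    (((rep_contDiffOn hf P.hw).contDiffAt (P.w.open_target.mem_nhds hz)).of_le
      (WithTop.coe_le_coe.2 (le_top : (2 : ℕ∞) ≤ ⊤)))
  have hFσ : ContDiffAt ℝ 2 F (σ y) := by rw [hσy]; exact hFz
  -- coefficients
  have hcoef : ∀ x ∈ P.w.target, ∀ v w : E2, coef (pull f) P.w v w x = gc F v w x := by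
    intro x hx v w
    rw [DC.coef_pull hf P.hw hx]
    rfl
  have hb : ∀ v w : E2, bil (jet (pull f) P.w z).1 v w = gc F v w z := by
    intro v w
    rw [gc_expand]
    simp only [bil, jet, mat, Fin.sum_univ_two, hcoef z hz]
    ring
  have hfd : ∀ i j : Fin 2, fderiv ℝ (coef (pull f) P.w (bv i) (bv j)) z =
      fderiv ℝ (gc F (bv i) (bv j)) z := by
    intro i j
    apply Filter.EventuallyEq.fderiv_eq
    filter_upwards [P.w.open_target.mem_nhds hz] with x hx
    exact hcoef x hx _ _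
  have hdb : ∀ u v w : E2, dbil (jet (pull f) P.w z).2 u v w = fderiv ℝ (gc F v w) z u := by
    intro u v w
    have hd := fun i j : Fin 2 => gc_differentiableAt hFz (bv i) (bv j)
    have h2 := ((((hd 0 0).hasFDerivAt.const_mul (v 0 * w 0)).add
      ((hd 0 1).hasFDerivAt.const_mul (v 0 * w 1))).add
      ((hd 1 0).hasFDerivAt.const_mul (v 1 * w 0))).add
      ((hd 1 1).hasFDerivAt.const_mul (v 1 * w 1))
    have h3 := (h2.congr_of_eventuallyEq (f₁ := gc F v w) (Filter.Eventually.of_forall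
      fun y => by simpa using gc_expand F v w y)).fderiv
    have h4 := congrArg (fun L : E2 →L[ℝ] ℝ => L u) h3
    have h5 : fderiv ℝ (gc F v w) z u =
        v 0 * w 0 * fderiv ℝ (gc F (bv 0) (bv 0)) z u
        + v 0 * w 1 * fderiv ℝ (gc F (bv 0) (bv 1)) z u
        + v 1 * w 0 * fderiv ℝ (gc F (bv 1) (bv 0)) z u
        + v 1 * w 1 * fderiv ℝ (gc F (bv 1) (bv 1)) z u := by simpa using h4
    rw [h5]
    simp only [dbil, jet, Fin.sum_univ_two, hfd]
    ring
  have h0 : fderiv ℝ σ y (bv 0) = dnor a := by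
    rw [dnor_eq]; exact fderiv_sg_zero _ _ _ _
  have h1 : fderiv ℝ σ y (bv 1) = dlev P.κ a z := by
    rw [hzdef, dlev_eq]; exact fderiv_sg_one _ _ _ _
  have h22 : fderiv ℝ (fderiv ℝ σ) y (bv 1) (bv 1) = -(P.κ • fderiv ℝ σ y (bv 0)) := by
    rw [h0, dnor_eq]; exact fderiv2_sg _ _ _ _
  rw [hfun, gam_comp_eq hFσ (contDiff_sg _ _ _).contDiffAt h22, h0, h1, hσy,
    inner_d2_eq hFz, inner_d2_eq hFz]
  simp only [Fgam, hb, hdb]
  ring

end Crest.Agent.R216.Dec
end
end

-- ▼ part R216/DC6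
section

/-!
Row 216, part (6): `DC6` from `exists_genpos` (helper609).
-/

set_option autoImplicit false
open scoped Manifold ContDiff Topology
open Set

noncomputable section
namespace Crest.Agent.R216.Dec

lemma rot_eq (a : ℝ) (z : E2) : rot a z = Crest.Agent.R216.rot a z := rfl

lemma phsInv_eq_par (κ a c b : ℝ) :
    phsInv κ a (c • bv 0 + b • bv 1) = Crest.Agent.R216.par κ a c b := by
  have h0 : (c • bv 0 + b • bv 1 : E2) 0 = c := by simp [bv]
  have h1 : (c • bv 0 + b • bv 1 : E2) 1 = b := by simp [bv]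
  unfold phsInv thetaInv Crest.Agent.R216.par
  rw [h0, h1, rot_eq]
  rfl

lemma dph_eq (k a : ℝ) (z v : E2) : dph k a z v = Crest.Agent.R216.dph k a z v := rfl

lemma dlev_eq (k a : ℝ) (z : E2) : dlev k a z = Crest.Agent.R216.dlev k a z := by
  unfold dlev Crest.Agent.R216.dlev
  rw [rot_eq, rot_eq, one_smul]
  rfl

variable {M : Type*} [TopologicalSpace M] [ChartedSpace E2 M]


theorem dc6 (M : Type*) [TopologicalSpace M] [ChartedSpace E2 M] [IsManifold (𝓡 2) ∞ M]
    [T2Space M] [CompactSpace M] : DC6 M := by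
  intro Q P
  obtain ⟨δ, hδ, hδP⟩ : ∃ δ : ℝ, 0 < δ ∧ ∀ q, δ ≤ (P q).δ := by
    rcases isEmpty_or_nonempty (Fin Q) with h | h
    · exact ⟨1, one_pos, fun q => (h.false q).elim⟩
    · obtain ⟨q0, hq0⟩ := Finite.exists_min (fun q => (P q).δ)
      exact ⟨(P q0).δ, (P q0).hδ, hq0⟩
  obtain ⟨r, α, hr, hα, hfin, htr, hthin, -⟩ := exists_genpos (fun q => (P q).w)
    (fun q => (P q).hw) (fun q => (P q).R) (fun q => (P q).hR) (fun q => (P q).sub)
    (fun q => (P q).κ) (fun q => (P q).hκ.le) (fun q => (P q).hκR) (fun q => (P q).A) hδ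
  refine ⟨r, α, hr, fun q m => (hα q m).trans_le (hδP q), hfin, ?_, ?_⟩
  · intro q q' q'' h1 h2 m m' p hp' hp'' hp
    obtain ⟨y, hy, rfl⟩ := hp
    have hyr : ‖y‖ < r q := by simpa using hy
    have hyt : y ∈ (P q).w.target := (P q).sub (by
      rw [mem_closedBall_zero_iff]; linarith [(hr q).2])
    have hsrc : (P q).w.symm y ∈ (P q).w.source := (P q).w.map_target hyt
    have hn : ‖(P q).w ((P q).w.symm y)‖ ≤ r q := by
      rw [(P q).w.right_inv hyt]; exact hyr.le
    have h := htr q q' q'' m m' h1 h2 _ ⟨hp', hp''⟩ hsrc hn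
    rw [dph_eq, dlev_eq]
    exact h
  · intro q q' m a
    have := hthin q q' m a
    simp only [phsInv_eq_par]
    exact this

end Crest.Agent.R216.Dec
end
end

-- ▼ part R216/DCL
section

/-!
Row 216, part (6), module DCL: existence of good patches.
-/

set_option autoImplicit false
open scoped Manifold ContDiff Topology
open Set

noncomputable section
namespace Crest.Agent.R216.Dec

namespace L

section
variable {M : Type*} [TopologicalSpace M]

/-- translate of a chart -/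
def transl (χ : OpenPartialHomeomorph M E2) (x0 : E2) : OpenPartialHomeomorph M E2 :=
  χ.trans (Homeomorph.addLeft x0).symm.toOpenPartialHomeomorph

lemma transl_apply (χ : OpenPartialHomeomorph M E2) (x0 : E2) (p : M) :
    transl χ x0 p = χ p - x0 := by
  have : transl χ x0 p = -x0 + χ p := rfl
  rw [this]; abel

lemma transl_symm_apply (χ : OpenPartialHomeomorph M E2) (x0 y : E2) :
    (transl χ x0).symm y = χ.symm (x0 + y) := rfl

lemma transl_source (χ : OpenPartialHomeomorph M E2) (x0 : E2) :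
    (transl χ x0).source = χ.source := by simp [transl]

lemma mem_transl_target (χ : OpenPartialHomeomorph M E2) (x0 y : E2) :
    y ∈ (transl χ x0).target ↔ x0 + y ∈ χ.target := by simp [transl]

lemma transl_mem [ChartedSpace E2 M] [IsManifold (𝓡 2) ∞ M] {χ : OpenPartialHomeomorph M E2}
    (hχ : χ ∈ IsManifold.maximalAtlas (𝓡 2) ∞ M) (x0 : E2) :
    transl χ x0 ∈ IsManifold.maximalAtlas (𝓡 2) ∞ M := by
  rw [IsManifold.mem_maximalAtlas_iff_contMDiffOn]
  constructor
  · rw [transl_source]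
    have h1 : ContMDiff (𝓡 2) (𝓡 2) ∞ (fun z : E2 => z - x0) :=
      (contDiff_id.sub contDiff_const).contMDiff
    exact (h1.comp_contMDiffOn (contMDiffOn_of_mem_maximalAtlas hχ)).congr
      fun p _ => transl_apply χ x0 p
  · have h1 : ContMDiff (𝓡 2) (𝓡 2) ∞ (fun z : E2 => x0 + z) :=
      (contDiff_const.add contDiff_id).contMDiff
    exact (contMDiffOn_symm_of_mem_maximalAtlas hχ).comp h1.contMDiffOn
      fun y hy => (mem_transl_target χ x0 y).mp hy

end

/-! ### continuity of the covectors -/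

lemma bv_apply (i j : Fin 2) : bv i j = if j = i then (1 : ℝ) else 0 := by
  simp [bv]

lemma rot_zero (a : ℝ) (z : E2) : rot a z 0 = Real.cos a * z 0 - Real.sin a * z 1 := by
  simp [rot, bv]

lemma rot_one (a : ℝ) (z : E2) : rot a z 1 = Real.sin a * z 0 + Real.cos a * z 1 := by
  simp [rot, bv]



lemma continuous_wedge (k : ℝ) : Continuous (fun q : ℝ × ℝ × E2 =>
    wedge (cov k q.1 q.2.2) (cov k q.2.1 q.2.2)) := by
  simp only [wedge, cov, dph, rot_zero, rot_one]
  fun_prop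

lemma cont_aux1 {G : ℝ × ℝ × E2 → ℝ} (hG : Continuous G) (i j : Fin 3) :
    Continuous (fun q : (Fin 3 → ℝ) × E2 × (Fin 2 → Fin 2 → ℝ) => G (q.1 i, q.1 j, q.2.1)) :=
  hG.comp (by fun_prop)

lemma eventually_pos (h1c : DC1c) {k : ℝ} {A : Fin 3 → ℝ} {b0 : Fin 2 → Fin 2 → ℝ}
    (h : ∀ m, wedge (cov k (A m) 0) (cov k (A (m + 1)) 0) ≠ 0 ∧
      0 < cC (fun l => cov k (A l) 0) b0 m) :
    ∀ᶠ q : (Fin 3 → ℝ) × E2 × (Fin 2 → Fin 2 → ℝ) in 𝓝 (A, 0, b0),
      ∀ m, wedge (cov k (q.1 m) q.2.1) (cov k (q.1 (m + 1)) q.2.1) ≠ 0 ∧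
        0 < cC (fun l => cov k (q.1 l) q.2.1) q.2.2 m := by
  rw [Filter.eventually_all]
  intro m
  refine Filter.Eventually.and ?_ ?_
  · have hc := cont_aux1 (continuous_wedge k) m (m + 1)
    exact hc.continuousAt.eventually_ne (h m).1
  · have hc := h1c k A 0 b0 m (fun l => (h l).1)
    exact hc.eventually (lt_mem_nhds (h m).2)

/-- neighbourhoods in the product of angles, points and matrices -/
lemma nhds_aux1 {P : (Fin 3 → ℝ) → E2 → (Fin 2 → Fin 2 → ℝ) → Prop} {A : Fin 3 → ℝ}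
    {b0 : Fin 2 → Fin 2 → ℝ}
    (h : ∀ᶠ q : (Fin 3 → ℝ) × E2 × (Fin 2 → Fin 2 → ℝ) in 𝓝 (A, 0, b0), P q.1 q.2.1 q.2.2) :
    ∃ ε : ℝ, 0 < ε ∧ ∀ z : E2, ‖z‖ < ε → ∀ α : Fin 3 → ℝ, (∀ m, |α m - A m| < ε) →
      ∀ b : Fin 2 → Fin 2 → ℝ, (∀ i j, |b i j - b0 i j| < ε) → P α z b := by
  obtain ⟨ε, hε, hball⟩ := Metric.eventually_nhds_iff.mp h
  refine ⟨ε, hε, fun z hz α hα b hb => hball (y := (α, z, b)) ?_⟩
  rw [Prod.dist_eq, Prod.dist_eq]
  refine max_lt ?_ (max_lt ?_ ?_)
  · rw [dist_pi_lt_iff hε]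
    intro m
    rw [Real.dist_eq]; exact hα m
  · rw [dist_zero_right]; exact hz
  · rw [dist_pi_lt_iff hε]
    intro i
    rw [dist_pi_lt_iff hε]
    intro j
    rw [Real.dist_eq]; exact hb i j

/-- positivity of the Cramer coefficients near the centre -/
lemma pos_near (h1c : DC1c) {k : ℝ} {A : Fin 3 → ℝ} {b0 : Fin 2 → Fin 2 → ℝ}
    (h : ∀ m, wedge (cov k (A m) 0) (cov k (A (m + 1)) 0) ≠ 0 ∧
      0 < cC (fun l => cov k (A l) 0) b0 m) :
    ∃ ε : ℝ, 0 < ε ∧ ∀ z : E2, ‖z‖ < ε → ∀ α : Fin 3 → ℝ, (∀ m, |α m - A m| < ε) →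
      ∀ b : Fin 2 → Fin 2 → ℝ, (∀ i j, |b i j - b0 i j| < ε) →
      ∀ m, wedge (cov k (α m) z) (cov k (α (m + 1)) z) ≠ 0 ∧
        0 < cC (fun l => cov k (α l) z) b m :=
  nhds_aux1 (P := fun α z b => ∀ m, wedge (cov k (α m) z) (cov k (α (m + 1)) z) ≠ 0 ∧
        0 < cC (fun l => cov k (α l) z) b m) (eventually_pos h1c h)

/-- tube lemma -/
lemma tube_aux {X : Type*} [NormedAddCommGroup X] [NormedSpace ℝ X] {G : ℝ × E2 × X → ℝ}
    (hG : Continuous G) {a : ℝ} {js jg : E2 → X} (hs : ContinuousAt js 0) (hg : ContinuousAt jg 0)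
    (h : ∀ s ∈ Icc (0 : ℝ) 1, G (a, 0, js 0 + s • (jg 0 - js 0)) < 0) :
    ∀ᶠ q : ℝ × E2 × X in 𝓝 (a, 0, 0), ∀ s ∈ Icc (0 : ℝ) 1,
      G (q.1, q.2.1, (js q.2.1 + s • (jg q.2.1 - js q.2.1)) + q.2.2) < 0 := by
  refine IsCompact.eventually_forall_of_forall_eventually isCompact_Icc ?_
  intro s hsI
  have hc1 : ContinuousAt (fun r : (ℝ × E2 × X) × ℝ => js r.1.2.1) ((a, 0, 0), s) :=
    ContinuousAt.comp (g := js) (f := fun r : (ℝ × E2 × X) × ℝ => r.1.2.1) hs (by fun_prop)
  have hc2 : ContinuousAt (fun r : (ℝ × E2 × X) × ℝ => jg r.1.2.1) ((a, 0, 0), s) :=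
    ContinuousAt.comp (g := jg) (f := fun r : (ℝ × E2 × X) × ℝ => r.1.2.1) hg (by fun_prop)
  have hc3 : ContinuousAt (fun r : (ℝ × E2 × X) × ℝ => r.2) ((a, 0, 0), s) := by fun_prop
  have hc4 : ContinuousAt (fun r : (ℝ × E2 × X) × ℝ => r.1.2.2) ((a, 0, 0), s) := by fun_prop
  have hc5 : ContinuousAt (fun r : (ℝ × E2 × X) × ℝ => r.1.1) ((a, 0, 0), s) := by fun_prop
  have hc6 : ContinuousAt (fun r : (ℝ × E2 × X) × ℝ => r.1.2.1) ((a, 0, 0), s) := by fun_prop
  have hc : ContinuousAt (fun r : (ℝ × E2 × X) × ℝ => ((r.1.1, r.1.2.1,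
      (js r.1.2.1 + r.2 • (jg r.1.2.1 - js r.1.2.1)) + r.1.2.2) : ℝ × E2 × X))
      ((a, 0, 0), s) :=
    hc5.prodMk (hc6.prodMk ((hc1.add (hc3.smul (hc2.sub hc1))).add hc4))
  have hF : ContinuousAt (fun r : (ℝ × E2 × X) × ℝ => G (r.1.1, r.1.2.1,
      (js r.1.2.1 + r.2 • (jg r.1.2.1 - js r.1.2.1)) + r.1.2.2)) ((a, 0, 0), s) :=
    ContinuousAt.comp (g := G) hG.continuousAt hc
  have h0 : G (a, 0, (js 0 + s • (jg 0 - js 0)) + 0) < 0 := by
    rw [add_zero]; exact h s hsI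
  exact hF.eventually (gt_mem_nhds h0)

lemma tube_near {X : Type*} [NormedAddCommGroup X] [NormedSpace ℝ X] {G : ℝ × E2 × X → ℝ}
    (hG : Continuous G) {a : ℝ} {js jg : E2 → X} (hs : ContinuousAt js 0) (hg : ContinuousAt jg 0)
    (h : ∀ s ∈ Icc (0 : ℝ) 1, G (a, 0, js 0 + s • (jg 0 - js 0)) < 0) :
    ∃ ε : ℝ, 0 < ε ∧ ∀ z : E2, ‖z‖ < ε → ∀ α : ℝ, |α - a| < ε → ∀ s ∈ Icc (0 : ℝ) 1,
      ∀ J : X, ‖J - (js z + s • (jg z - js z))‖ < ε → G (α, z, J) < 0 := by
  obtain ⟨ε, hε, hball⟩ := Metric.eventually_nhds_iff.mp (tube_aux hG hs hg h)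
  refine ⟨ε, hε, fun z hz α hα s hsI J hJ => ?_⟩
  have h1 := hball (y := (α, z, J - (js z + s • (jg z - js z)))) ?_ s hsI
  · have h2 : (js z + s • (jg z - js z)) + (J - (js z + s • (jg z - js z))) = J := by abel
    rw [← h2]; exact h1
  · rw [Prod.dist_eq, Prod.dist_eq]
    refine max_lt ?_ (max_lt ?_ ?_)
    · rw [Real.dist_eq]; exact hα
    · rw [dist_zero_right]; exact hz
    · rw [dist_zero_right]; exact hJ

/-- negativity of `gam` near the centre -/
lemma gam_near (h4b : DC4b) {k a : ℝ} {js jg : E2 → Jet} (hs : ContinuousAt js 0)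
    (hg : ContinuousAt jg 0)
    (h : ∀ s ∈ Icc (0 : ℝ) 1, Fgam k a 0 (js 0 + s • (jg 0 - js 0)) < 0) :
    ∃ ε : ℝ, 0 < ε ∧ ∀ z : E2, ‖z‖ < ε → ∀ α : ℝ, |α - a| < ε → ∀ s ∈ Icc (0 : ℝ) 1,
      ∀ J : Jet, ‖J - (js z + s • (jg z - js z))‖ < ε → Fgam k α z J < 0 :=
  tube_near (G := fun q : ℝ × E2 × Jet => Fgam k q.1 q.2.1 q.2.2) (h4b k) hs hg h

/-! ### jets of metrics -/

section
variable {M : Type*} [TopologicalSpace M] [ChartedSpace E2 M]

lemma jet_continuousAt {h : Tens M} {w : OpenPartialHomeomorph M E2}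
    (hc : ∀ v v' : E2, ContDiffOn ℝ ∞ (coef h w v v') w.target) {z : E2} (hz : z ∈ w.target) :
    ContinuousAt (jet h w) z := by
  have h1 : ∀ v v' : E2, ContDiffAt ℝ ∞ (coef h w v v') z := fun v v' =>
    (hc v v').contDiffAt (w.open_target.mem_nhds hz)
  refine ContinuousAt.prodMk ?_ ?_
  · refine continuousAt_pi.mpr fun i => continuousAt_pi.mpr fun j => ?_
    exact (h1 (bv i) (bv j)).continuousAt
  · refine continuousAt_pi.mpr fun i => continuousAt_pi.mpr fun j => ?_
    exact ((h1 (bv i) (bv j)).fderiv_right (m := 0) (WithTop.coe_le_coe.mpr le_top)).continuousAt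

lemma E2_decomp (v : E2) : v = v 0 • bv 0 + v 1 • bv 1 := by
  ext i
  fin_cases i <;> simp [bv]

lemma coef_eq_bil {h : Tens M} {w : OpenPartialHomeomorph M E2} {z : E2}
    (B : TangentSpace (𝓡 2) (w.symm z) →ₗ[ℝ] TangentSpace (𝓡 2) (w.symm z) →ₗ[ℝ] ℝ)
    (hB : ∀ v v', h (w.symm z) v v' = B v v') (v v' : E2) :
    coef h w v v' z = bil (mat h w z) v v' := by
  have h1 : ∀ v v' : E2, coef h w v v' z = B (mfderiv 𝓘(ℝ, E2) (𝓡 2) w.symm z v)
      (mfderiv 𝓘(ℝ, E2) (𝓡 2) w.symm z v') := fun v v' => hB _ _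
  have h2 : ∀ v : E2, mfderiv 𝓘(ℝ, E2) (𝓡 2) w.symm z v =
      v 0 • mfderiv 𝓘(ℝ, E2) (𝓡 2) w.symm z (bv 0) + v 1 • mfderiv 𝓘(ℝ, E2) (𝓡 2) w.symm z (bv 1) := by
    intro v
    have h3 := congrArg (mfderiv 𝓘(ℝ, E2) (𝓡 2) w.symm z) (E2_decomp v)
    refine h3.trans ?_
    erw [map_add, map_smul, map_smul]
  rw [h1, h2 v, h2 v', bil]
  simp only [map_add, map_smul, LinearMap.add_apply, LinearMap.smul_apply, smul_eq_mul,
    Fin.sum_univ_two, mat, h1]
  ring

variable [IsManifold (𝓡 2) ∞ M]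

lemma coef_gT (g : Bundle.ContMDiffRiemannianMetric (𝓡 2) ∞ E2 (TangentSpace (𝓡 2) : M → Type))
    (w : OpenPartialHomeomorph M E2) (z v v' : E2) :
    coef (gT g) w v v' z = bil (mat (gT g) w z) v v' := by
  refine coef_eq_bil (LinearMap.mk₂ ℝ (fun a b => g.inner (w.symm z) a b) ?_ ?_ ?_ ?_)
    (fun a b => rfl) v v'
  · intro a b c
    rw [map_add]; rfl
  · intro r a b
    rw [map_smul]; rfl
  · intro a b c
    exact map_add _ _ _
  · intro r a b
    exact map_smul _ _ _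

omit [IsManifold (𝓡 2) ∞ M] in
lemma coef_pl (f : M → E4) (w : OpenPartialHomeomorph M E2) (z v v' : E2) :
    coef (pull f) w v v' z = bil (mat (pull f) w z) v v' := by
  refine coef_eq_bil (LinearMap.mk₂ ℝ (fun a b => pull f (w.symm z) a b) ?_ ?_ ?_ ?_)
    (fun a b => rfl) v v'
  · intro a b c
    simp only [pull]
    erw [map_add]
    exact inner_add_left _ _ _
  · intro r a b
    simp only [pull]
    erw [map_smul]
    exact real_inner_smul_left _ _ _
  · intro a b c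
    simp only [pull]
    erw [map_add]
    exact inner_add_right _ _ _
  · intro r a b
    simp only [pull]
    erw [map_smul]
    exact real_inner_smul_right _ _ _

lemma symm_ne_zero {w : OpenPartialHomeomorph M E2}
    (hw : w ∈ IsManifold.maximalAtlas (𝓡 2) ∞ M) {z : E2} (hz : z ∈ w.target) {v : E2}
    (hv : v ≠ 0) : mfderiv 𝓘(ℝ, E2) (𝓡 2) w.symm z v ≠ 0 := by
  intro h
  apply hv
  have h1 := dchart_symm hw hz v
  have h2 : mfderiv (𝓡 2) (𝓡 2) w (w.symm z) (mfderiv (𝓡 2) (𝓡 2) w.symm z v) = 0 := by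
    have h3 : mfderiv (𝓡 2) (𝓡 2) w.symm z v = 0 := h
    rw [h3]; exact map_zero _
  exact h1.symm.trans h2

end

lemma det_of_pos {b : Fin 2 → Fin 2 → ℝ} (hsym : b 0 1 = b 1 0)
    (hpos : ∀ v : E2, v ≠ 0 → 0 < bil b v v) : 0 < b 0 0 ∧ 0 < b 0 0 * b 1 1 - b 0 1 ^ 2 := by
  have h1 := hpos (bv 0) (by
    intro h
    have := congrArg (fun v : E2 => v 0) h
    simp [bv] at this)
  have h00 : 0 < b 0 0 := by
    simpa [bil, Fin.sum_univ_two, bv] using h1
  refine ⟨h00, ?_⟩
  have h2 := hpos ((-b 0 1) • bv 0 + b 0 0 • bv 1) (by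
    intro h
    have := congrArg (fun v : E2 => v 1) h
    simp [bv] at this
    exact h00.ne' this)
  have h3 : bil b ((-b 0 1) • bv 0 + b 0 0 • bv 1) ((-b 0 1) • bv 0 + b 0 0 • bv 1) =
      b 0 0 * (b 0 0 * b 1 1 - b 0 1 ^ 2) := by
    simp only [bil, Fin.sum_univ_two, bv]
    simp
    rw [← hsym]; ring
  rw [h3] at h2
  exact (mul_pos_iff_of_pos_left h00).mp h2

lemma bil_comb (b b' : Fin 2 → Fin 2 → ℝ) (s : ℝ) (v w : E2) :
    bil (b + s • (b' - b)) v w = bil b v w + s * (bil b' v w - bil b v w) := by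
  simp only [bil, Fin.sum_univ_two, Pi.add_apply, Pi.smul_apply, Pi.sub_apply, smul_eq_mul]
  ring

lemma bil_sub' (b b' : Fin 2 → Fin 2 → ℝ) (v w : E2) :
    bil (fun i j => b' i j - b i j) v w = bil b' v w - bil b v w := by
  simp only [bil, Fin.sum_univ_two]
  ring

end L

open L in
/-- existence of good patches, from the other modules -/
theorem dcL_of (h1a : DC1a) (h1c : DC1c) (h4b : DC4b) (h4c : DC4c)
    (M : Type*) [TopologicalSpace M] [ChartedSpace E2 M] [IsManifold (𝓡 2) ∞ M] : DCL M := by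
  intro g A fs hfs hlt p
  obtain ⟨c, hpc, hint⟩ := A.cover p
  obtain ⟨χ, hχdef⟩ : ∃ χ, χ = A.χ c := ⟨_, rfl⟩
  rw [← hχdef] at hpc hint
  have hχ : χ ∈ IsManifold.maximalAtlas (𝓡 2) ∞ M := by rw [hχdef]; exact A.hχ c
  obtain ⟨x0, hx0⟩ : ∃ x0, x0 = χ p := ⟨_, rfl⟩
  obtain ⟨w, hwdef⟩ : ∃ w, w = transl χ x0 := ⟨_, rfl⟩
  have hw : w ∈ IsManifold.maximalAtlas (𝓡 2) ∞ M := by rw [hwdef]; exact transl_mem hχ x0
  have h0t : (0 : E2) ∈ w.target := by
    rw [hwdef, mem_transl_target, add_zero, hx0]; exact χ.map_source hpc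
  have hjs : ContinuousAt (jet (pull fs) w) 0 :=
    jet_continuousAt (fun v v' => coef_pull_contDiffOn hfs hw v v') h0t
  have hjg : ContinuousAt (jet (gT g) w) 0 :=
    jet_continuousAt (fun v v' => coef_contDiffOn g hw v v') h0t
  -- positivity at the centre
  have hLpos : ∀ v : E2, v ≠ 0 → 0 < bil (mat (pull fs) w 0) v v ∧
      bil (mat (pull fs) w 0) v v < bil (mat (gT g) w 0) v v := by
    intro v hv
    have h1 := hlt (w.symm 0) (mfderiv 𝓘(ℝ, E2) (𝓡 2) w.symm 0 v) (symm_ne_zero hw h0t hv)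
    rw [← coef_pl, ← coef_gT]
    exact h1
  have hsymS : ∀ v v' : E2, bil (mat (pull fs) w 0) v v' = bil (mat (pull fs) w 0) v' v := by
    intro v v'
    rw [← coef_pl, ← coef_pl]
    exact real_inner_comm _ _
  have hsymG : ∀ v v' : E2, bil (mat (gT g) w 0) v v' = bil (mat (gT g) w 0) v' v := by
    intro v v'
    rw [← coef_gT, ← coef_gT]
    exact g.symm _ _ _
  obtain ⟨b0, hb0⟩ : ∃ b0 : Fin 2 → Fin 2 → ℝ,
      b0 = fun i j => mat (gT g) w 0 i j - mat (pull fs) w 0 i j := ⟨_, rfl⟩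
  have hb0pos : ∀ v : E2, v ≠ 0 → 0 < bil b0 v v := by
    intro v hv
    rw [hb0, bil_sub']
    linarith [(hLpos v hv).2]
  have hb0sym : b0 0 1 = b0 1 0 := by
    have h1 : mat (gT g) w 0 0 1 = mat (gT g) w 0 1 0 := g.symm _ _ _
    have h2 : mat (pull fs) w 0 0 1 = mat (pull fs) w 0 1 0 := real_inner_comm _ _
    rw [hb0]
    simp only [h1, h2]
  obtain ⟨hb00, hbdet⟩ := det_of_pos hb0sym hb0pos
  obtain ⟨Aα, hA⟩ := h1a b0 hb0sym hb00 hbdet
  -- the compact set of jets
  obtain ⟨K, hK⟩ : ∃ K : Set Jet, K = (fun s : ℝ => jet (pull fs) w 0 +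
      s • (jet (gT g) w 0 - jet (pull fs) w 0)) '' Icc 0 1 := ⟨_, rfl⟩
  have hKc : IsCompact K := by
    rw [hK]
    exact isCompact_Icc.image (continuous_const.add (continuous_id.smul continuous_const))
  have hbilK : ∀ s : ℝ, ∀ v v' : E2, bil (jet (pull fs) w 0 +
      s • (jet (gT g) w 0 - jet (pull fs) w 0)).1 v v' = bil (mat (pull fs) w 0) v v' +
        s * (bil (mat (gT g) w 0) v v' - bil (mat (pull fs) w 0) v v') := fun s v v' =>
    bil_comb (mat (pull fs) w 0) (mat (gT g) w 0) s v v'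
  have hKs : ∀ J ∈ K, ∀ v v' : E2, bil J.1 v v' = bil J.1 v' v := by
    intro J hJ v v'
    rw [hK] at hJ
    obtain ⟨s, -, rfl⟩ := hJ
    show bil (jet (pull fs) w 0 + s • (jet (gT g) w 0 - jet (pull fs) w 0)).1 v v' =
      bil (jet (pull fs) w 0 + s • (jet (gT g) w 0 - jet (pull fs) w 0)).1 v' v
    rw [hbilK, hbilK, hsymS v v', hsymG v v']
  have hKp : ∀ J ∈ K, ∀ v : E2, v ≠ 0 → 0 < bil J.1 v v := by
    intro J hJ v hv
    rw [hK] at hJ
    obtain ⟨s, hs, rfl⟩ := hJ
    show 0 < bil (jet (pull fs) w 0 + s • (jet (gT g) w 0 - jet (pull fs) w 0)).1 v v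
    rw [hbilK]
    have h1 := hLpos v hv
    have h2 : 0 ≤ s * (bil (mat (gT g) w 0) v v - bil (mat (pull fs) w 0) v v) :=
      mul_nonneg hs.1 (by linarith [h1.2])
    linarith [h1.1]
  choose k0 hk0 hk0' using fun m : Fin 3 => h4c (Aα m) K hKc hKs hKp
  obtain ⟨κ, hκ⟩ : ∃ κ, κ = k0 0 + k0 1 + k0 2 := ⟨_, rfl⟩
  have hκm : ∀ m, k0 m ≤ κ := by
    intro m
    have h0 := hk0 0
    have h1 := hk0 1
    have h2 := hk0 2
    fin_cases m <;> simp <;> linarith
  have hκ0 : 0 < κ := lt_of_lt_of_le (hk0 0) (hκm 0)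
  obtain ⟨ε1, hε1, hE1⟩ := pos_near h1c (hA κ)
  have hneg : ∀ m : Fin 3, ∀ s ∈ Icc (0 : ℝ) 1, Fgam κ (Aα m) 0 (jet (pull fs) w 0 +
      s • (jet (gT g) w 0 - jet (pull fs) w 0)) < 0 := by
    intro m s hs
    refine hk0' m κ (hκm m) _ ?_
    rw [hK]
    exact ⟨s, hs, rfl⟩
  choose ε2 hε2 hE2 using fun m : Fin 3 => gam_near h4b hjs hjg (hneg m)
  -- continuity of the matrices, and the domain
  have hcs : ∀ i j, ContinuousAt (fun z => mat (pull fs) w z i j) 0 := fun i j =>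
    ((coef_pull_contDiffOn hfs hw (bv i) (bv j)).contDiffAt
      (w.open_target.mem_nhds h0t)).continuousAt
  have hcg : ∀ i j, ContinuousAt (fun z => mat (gT g) w z i j) 0 := fun i j =>
    ((coef_contDiffOn g hw (bv i) (bv j)).contDiffAt
      (w.open_target.mem_nhds h0t)).continuousAt
  have hev3 : ∀ᶠ z in 𝓝 (0 : E2), ∀ i j,
      |(mat (gT g) w z i j - mat (pull fs) w z i j) - b0 i j| < ε1 / 2 := by
    rw [Filter.eventually_all]
    intro i
    rw [Filter.eventually_all]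
    intro j
    have h1 : ContinuousAt (fun z => |(mat (gT g) w z i j - mat (pull fs) w z i j) - b0 i j|) 0 :=
      (((hcg i j).sub (hcs i j)).sub continuousAt_const).abs
    refine h1.eventually (gt_mem_nhds ?_)
    rw [hb0]
    simp only [sub_self, abs_zero]
    linarith
  have hev4 : ∀ᶠ z in 𝓝 (0 : E2), z ∈ w.target ∧ x0 + z ∈ A.K c := by
    refine Filter.Eventually.and (w.open_target.mem_nhds h0t) ?_
    have h1 : ContinuousAt (fun z : E2 => x0 + z) 0 := by fun_prop
    have h2 : A.K c ∈ 𝓝 (x0 + (0 : E2)) := by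
      rw [add_zero, hx0]; exact mem_interior_iff_mem_nhds.mp hint
    exact h1 h2
  obtain ⟨ε3, hε3, hE3⟩ := Metric.eventually_nhds_iff.mp (hev3.and hev4)
  have hE3' : ∀ z : E2, ‖z‖ < ε3 → (∀ i j,
      |(mat (gT g) w z i j - mat (pull fs) w z i j) - b0 i j| < ε1 / 2) ∧
      z ∈ w.target ∧ x0 + z ∈ A.K c := by
    intro z hz
    exact hE3 (by rw [dist_zero_right]; exact hz)
  obtain ⟨R, hR, hR1, hR2, hR3, hR4⟩ : ∃ R : ℝ, 0 < R ∧ 2 * R < ε1 ∧ (∀ m, 2 * R < ε2 m) ∧
      2 * R < ε3 ∧ κ * (2 * R) ≤ 1 / 2 := by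
    have h4 : 0 < 1 / (4 * κ) := by positivity
    refine ⟨min (min (ε1 / 4) (ε3 / 4)) (min (min (ε2 0 / 4) (ε2 1 / 4))
      (min (ε2 2 / 4) (1 / (4 * κ)))), ?_, ?_, ?_, ?_, ?_⟩
    · have h20 := hε2 0
      have h21 := hε2 1
      have h22 := hε2 2
      refine lt_min (lt_min ?_ ?_) (lt_min (lt_min ?_ ?_) (lt_min ?_ h4)) <;> linarith
    · have : min (min (ε1 / 4) (ε3 / 4)) (min (min (ε2 0 / 4) (ε2 1 / 4))
        (min (ε2 2 / 4) (1 / (4 * κ)))) ≤ ε1 / 4 := (min_le_left _ _).trans (min_le_left _ _)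
      linarith
    · intro m
      have h5 : min (min (ε1 / 4) (ε3 / 4)) (min (min (ε2 0 / 4) (ε2 1 / 4))
        (min (ε2 2 / 4) (1 / (4 * κ)))) ≤ ε2 m / 4 := by
        refine (min_le_right _ _).trans ?_
        fin_cases m
        · exact (min_le_left _ _).trans (min_le_left _ _)
        · exact (min_le_left _ _).trans (min_le_right _ _)
        · exact (min_le_right _ _).trans (min_le_left _ _)
      have := hε2 m
      linarith
    · have : min (min (ε1 / 4) (ε3 / 4)) (min (min (ε2 0 / 4) (ε2 1 / 4))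
        (min (ε2 2 / 4) (1 / (4 * κ)))) ≤ ε3 / 4 := (min_le_left _ _).trans (min_le_right _ _)
      linarith
    · have h5 : min (min (ε1 / 4) (ε3 / 4)) (min (min (ε2 0 / 4) (ε2 1 / 4))
        (min (ε2 2 / 4) (1 / (4 * κ)))) ≤ 1 / (4 * κ) :=
        (min_le_right _ _).trans ((min_le_right _ _).trans (min_le_right _ _))
      have h6 : κ * (2 * (1 / (4 * κ))) = 1 / 2 := by field_simp; norm_num
      calc κ * (2 * _) ≤ κ * (2 * (1 / (4 * κ))) := by gcongr
        _ = 1 / 2 := h6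
  obtain ⟨δ, hδ, hδ1, hδ2⟩ : ∃ δ : ℝ, 0 < δ ∧ δ ≤ ε1 / 2 ∧ ∀ m, δ ≤ ε2 m := by
    refine ⟨min (ε1 / 2) (min (ε2 0) (min (ε2 1) (ε2 2))), ?_, min_le_left _ _, ?_⟩
    · exact lt_min (by linarith) (lt_min (hε2 0) (lt_min (hε2 1) (hε2 2)))
    · intro m
      refine (min_le_right _ _).trans ?_
      fin_cases m
      · exact min_le_left _ _
      · exact (min_le_right _ _).trans (min_le_left _ _)
      · exact (min_le_right _ _).trans (min_le_right _ _)
  have hball : ∀ z ∈ Metric.closedBall (0 : E2) (2 * R), ‖z‖ ≤ 2 * R := fun z hz => by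
    rwa [mem_closedBall_zero_iff] at hz
  refine ⟨⟨w, hw, R, κ, δ, Aα, hR, hκ0, hR4, hδ, fun z hz =>
    (hE3' z (lt_of_le_of_lt (hball z hz) hR3)).2.1⟩, ?_, ⟨?_, ?_⟩, ?_⟩
  · refine ⟨c, x0, fun y => ?_, fun q => ?_, ?_, fun y => ?_, fun y hy =>
      (hE3' y (lt_of_le_of_lt (hball y hy) hR3)).2.2⟩
    · show w.symm y = _
      rw [hwdef, transl_symm_apply, hχdef]
    · show w q = _
      rw [hwdef, transl_apply, hχdef]
    · show w.source = _
      rw [hwdef, transl_source, hχdef]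
    · show y ∈ w.target ↔ _
      rw [hwdef, mem_transl_target, hχdef]
  · intro z hz α hα b hb m
    have hzn : ‖z‖ < ε1 := lt_of_le_of_lt (hball z hz) hR1
    refine hE1 z hzn α (fun m => (hα m).trans_le (hδ1.trans (by linarith))) b (fun i j => ?_) m
    have h1 := hb i j
    have h2 := (hE3' z (lt_of_le_of_lt (hball z hz) hR3)).1 i j
    have h3 : b i j - b0 i j = (b i j - (mat (gT g) w z i j - mat (pull fs) w z i j)) +
        ((mat (gT g) w z i j - mat (pull fs) w z i j) - b0 i j) := by ring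
    rw [h3]
    have h4 : |b i j - (mat (gT g) w z i j - mat (pull fs) w z i j)| < δ := h1
    calc _ ≤ |b i j - (mat (gT g) w z i j - mat (pull fs) w z i j)| +
        |(mat (gT g) w z i j - mat (pull fs) w z i j) - b0 i j| := abs_add_le _ _
      _ < ε1 := by linarith
  · intro z hz m α hα s hs J hJ
    have hα' : |α - Aα m| < δ := hα
    have hJ' : ‖J - (jet (pull fs) w z + s • (jet (gT g) w z - jet (pull fs) w z))‖ < δ := hJ
    exact hE2 m z (lt_of_le_of_lt (hball z hz) (hR2 m)) α (hα'.trans_le (hδ2 m)) s hs J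
      (hJ'.trans_le (hδ2 m))
  · show p ∈ w.symm '' Metric.ball 0 R
    refine ⟨0, Metric.mem_ball_self hR, ?_⟩
    rw [hwdef, transl_symm_apply, add_zero, hx0]
    exact χ.left_inv hpc

end Crest.Agent.R216.Dec
end
end

-- ▼ part R216/DCL2
section

/-!
Row 216, part (6): modules DC4b, DC4c (continuity and sign of `Fgam`) and the final form of DCL.
-/

set_option autoImplicit false
open scoped Manifold ContDiff Topology
open Set

noncomputable section
namespace Crest.Agent.R216.Dec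
open L

namespace FG

section
variable {Y : Type*} [TopologicalSpace Y]

lemma cont_dlev (k : ℝ) {α : Y → ℝ} {z : Y → E2} (hα : Continuous α) (hz : Continuous z) :
    Continuous (fun q => dlev k (α q) (z q)) := by
  simp only [dlev, rot, bv]
  fun_prop

lemma cont_dnor {α : Y → ℝ} (hα : Continuous α) : Continuous (fun q => dnor (α q)) := by
  simp only [dnor, rot]
  fun_prop

lemma cont_bil {b : Y → Fin 2 → Fin 2 → ℝ} {v w : Y → E2} (hb : Continuous b) (hv : Continuous v)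
    (hw : Continuous w) : Continuous (fun q => bil (b q) (v q) (w q)) := by
  simp only [bil]
  fun_prop

lemma cont_dbil {d : Y → Fin 2 → Fin 2 → (E2 →L[ℝ] ℝ)} {u v w : Y → E2} (hd : Continuous d)
    (hu : Continuous u) (hv : Continuous v) (hw : Continuous w) :
    Continuous (fun q => dbil (d q) (u q) (v q) (w q)) := by
  simp only [dbil]
  refine continuous_finsetSum _ fun i _ => continuous_finsetSum _ fun j _ => ?_
  have h1 : Continuous (fun q => d q i j) := (continuous_apply j).comp ((continuous_apply i).comp hd)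
  have h2 : Continuous (fun q => d q i j (u q)) := h1.clm_apply hu
  exact (h2.mul (by fun_prop)).mul (by fun_prop)

lemma cont_Fgam (k : ℝ) {α : Y → ℝ} {z : Y → E2} {b : Y → Fin 2 → Fin 2 → ℝ}
    {d : Y → Fin 2 → Fin 2 → (E2 →L[ℝ] ℝ)} (hα : Continuous α) (hz : Continuous z)
    (hb : Continuous b) (hd : Continuous d) :
    Continuous (fun q => Fgam k (α q) (z q) (b q, d q)) := by
  have h1 := cont_dlev k hα hz
  have h2 := cont_dnor hα
  simp only [Fgam]
  exact ((((cont_dbil hd h1 h1 h2).sub ((cont_dbil hd h2 h1 h1).div_const 2)).mul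
    (cont_bil hb h1 h1)).sub (((cont_dbil hd h1 h1 h1).div_const 2).mul (cont_bil hb h2 h1))).sub
    (continuous_const.mul (((cont_bil hb h2 h2).mul (cont_bil hb h1 h1)).sub
      ((cont_bil hb h2 h1).pow 2)))

end

theorem dc4b' : DC4b := fun k =>
  cont_Fgam k (Y := ℝ × E2 × Jet) (α := fun q => q.1) (z := fun q => q.2.1) (b := fun q => q.2.2.1)
    (d := fun q => q.2.2.2) continuous_fst (continuous_fst.comp continuous_snd)
    (continuous_fst.comp (continuous_snd.comp continuous_snd))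
    (continuous_snd.comp (continuous_snd.comp continuous_snd))

lemma bil_add_left (b : Fin 2 → Fin 2 → ℝ) (u v w : E2) :
    bil b (u + v) w = bil b u w + bil b v w := by
  simp only [bil, Fin.sum_univ_two, PiLp.add_apply]; ring

lemma bil_smul_left (b : Fin 2 → Fin 2 → ℝ) (s : ℝ) (v w : E2) :
    bil b (s • v) w = s * bil b v w := by
  simp only [bil, Fin.sum_univ_two, PiLp.smul_apply, smul_eq_mul]; ring

lemma bil_add_right (b : Fin 2 → Fin 2 → ℝ) (u v w : E2) :
    bil b u (v + w) = bil b u v + bil b u w := by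
  simp only [bil, Fin.sum_univ_two, PiLp.add_apply]; ring

lemma bil_smul_right (b : Fin 2 → Fin 2 → ℝ) (s : ℝ) (v w : E2) :
    bil b v (s • w) = s * bil b v w := by
  simp only [bil, Fin.sum_univ_two, PiLp.smul_apply, smul_eq_mul]; ring

lemma gramdet_pos {b : Fin 2 → Fin 2 → ℝ} (hsym : ∀ v w : E2, bil b v w = bil b w v)
    (hpos : ∀ v : E2, v ≠ 0 → 0 < bil b v v) {N X : E2}
    (hNX : ∀ s t : ℝ, s • N + t • X = 0 → s = 0 ∧ t = 0) :
    0 < bil b N N * bil b X X - bil b N X ^ 2 := by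
  have hX : X ≠ 0 := by
    intro h
    have := (hNX 0 1 (by rw [h]; simp)).2
    norm_num at this
  have hXX := hpos X hX
  have hv : bil b X X • N + (-bil b N X) • X ≠ 0 := by
    intro h
    exact hXX.ne' (hNX _ _ h).1
  have h := hpos _ hv
  have e : bil b (bil b X X • N + (-bil b N X) • X) (bil b X X • N + (-bil b N X) • X) =
      bil b X X * (bil b N N * bil b X X - bil b N X ^ 2) := by
    simp only [bil_add_left, bil_add_right, bil_smul_left, bil_smul_right]
    rw [hsym X N]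
    ring
  rw [e] at h
  exact (mul_pos_iff_of_pos_left hXX).mp h

lemma rot_indep (a s t : ℝ) (h : s • rot a (bv 0) + t • rot a (bv 1) = 0) : s = 0 ∧ t = 0 := by
  have h0 := congrArg (fun v : E2 => v 0) h
  have h1 := congrArg (fun v : E2 => v 1) h
  simp only [PiLp.add_apply, PiLp.smul_apply, smul_eq_mul, rot_zero, rot_one, PiLp.zero_apply] at h0 h1
  simp only [bv_apply] at h0 h1
  norm_num at h0 h1
  have hc := Real.sin_sq_add_cos_sq a
  constructor
  · linear_combination Real.cos a * h0 + Real.sin a * h1 - s * hc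
  · linear_combination -Real.sin a * h0 + Real.cos a * h1 - t * hc

lemma dlev_zero (k a : ℝ) : dlev k a 0 = rot (-a) (bv 1) := by
  rw [dlev, rot_one]
  simp

theorem dc4c' : DC4c := by
  intro a K hK hsym hpos
  rcases K.eq_empty_or_nonempty with rfl | hne
  · exact ⟨1, one_pos, fun _ _ _ h => absurd h (notMem_empty _)⟩
  set N : E2 := dnor a with hN
  set X : E2 := rot (-a) (bv 1) with hX
  have hNX : ∀ s t : ℝ, s • N + t • X = 0 → s = 0 ∧ t = 0 := fun s t h => rot_indep (-a) s t h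
  set D : Jet → ℝ := fun J => bil J.1 N N * bil J.1 X X - bil J.1 N X ^ 2 with hD
  set C : Jet → ℝ := fun J => (dbil J.2 X X N - dbil J.2 N X X / 2) * bil J.1 X X
    - dbil J.2 X X X / 2 * bil J.1 N X with hC
  have hcN : Continuous (fun _ : Jet => N) := continuous_const
  have hcX : Continuous (fun _ : Jet => X) := continuous_const
  have hb : ∀ {v w : Jet → E2}, Continuous v → Continuous w →
      Continuous (fun J : Jet => bil J.1 (v J) (w J)) := fun hv hw =>
    cont_bil (Y := Jet) continuous_fst hv hw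
  have hd : ∀ {u v w : Jet → E2}, Continuous u → Continuous v → Continuous w →
      Continuous (fun J : Jet => dbil J.2 (u J) (v J) (w J)) := fun hu hv hw =>
    cont_dbil (Y := Jet) continuous_snd hu hv hw
  have hDc : Continuous D := ((hb hcN hcN).mul (hb hcX hcX)).sub ((hb hcN hcX).pow 2)
  have hCc : Continuous C :=
    (((hd hcX hcX hcN).sub ((hd hcN hcX hcX).div_const 2)).mul (hb hcX hcX)).sub
      (((hd hcX hcX hcX).div_const 2).mul (hb hcN hcX))
  have hF : ∀ k J, Fgam k a 0 J = C J - k * D J := by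
    intro k J
    simp only [Fgam, dlev_zero, hC, hD, hN, hX]
  obtain ⟨J0, hJ0, hmin⟩ := hK.exists_isMinOn hne hDc.continuousOn
  obtain ⟨J1, hJ1, hmax⟩ := hK.exists_isMaxOn hne hCc.continuousOn
  have hD0 : 0 < D J0 := gramdet_pos (hsym J0 hJ0) (hpos J0 hJ0) hNX
  refine ⟨|C J1| / D J0 + 1, by positivity, fun k hk J hJ => ?_⟩
  rw [hF]
  have h1 : D J0 ≤ D J := hmin hJ
  have h2 : C J ≤ C J1 := hmax hJ
  have hkpos : 0 < k := lt_of_lt_of_le (by positivity) hk
  have h3 : (|C J1| / D J0 + 1) * D J0 ≤ k * D J :=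
    mul_le_mul hk h1 hD0.le hkpos.le
  have h4 : (|C J1| / D J0 + 1) * D J0 = |C J1| + D J0 := by
    field_simp
  have h5 := le_abs_self (C J1)
  linarith

end FG

/-- existence of good patches -/
theorem dcL (M : Type*) [TopologicalSpace M] [ChartedSpace E2 M] [IsManifold (𝓡 2) ∞ M] : DCL M :=
  dcL_of dc1a dc1c FG.dc4b' FG.dc4c' M

end Crest.Agent.R216.Dec
end
end

-- ▼ part R216/CoefT
section

/-!
Row 216 (S0335), part (6), module CoefT (owner: helper706): smooth symmetric tensors,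
bilinearity and smoothness of `coef`.
-/

set_option autoImplicit false
set_option linter.unusedSectionVars false
open scoped Manifold ContDiff Topology
open Set

noncomputable section
namespace Crest.Agent.R216.CoefT

variable {M : Type*} [TopologicalSpace M] [ChartedSpace E2 M]

/-- A smooth symmetric bilinear 2-tensor. -/
structure STens (h : Tens M) : Prop where
  add_left : ∀ p v v' w, h p (v + v') w = h p v w + h p v' w
  smul_left : ∀ p (c : ℝ) v w, h p (c • v) w = c * h p v w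
  symm : ∀ p v w, h p v w = h p w v
  smooth : ∀ ψ ∈ IsManifold.maximalAtlas (𝓡 2) ∞ M, ∀ v w : E2,
    ContDiffOn ℝ ∞ (coef h ψ v w) ψ.target

namespace STens
variable {h k : Tens M}

lemma add_right (hh : STens h) (p : M) (v w w' : TangentSpace (𝓡 2) p) :
    h p v (w + w') = h p v w + h p v w' := by
  rw [hh.symm, hh.add_left, hh.symm p w, hh.symm p w']



/-- sums of tensors -/
lemma add (hh : STens h) (hk : STens k) : STens (fun p v w => h p v w + k p v w : Tens M) where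
  add_left p v v' w := by rw [hh.add_left, hk.add_left]; ring
  smul_left p c v w := by rw [hh.smul_left, hk.smul_left]; ring
  symm p v w := by rw [hh.symm, hk.symm]
  smooth ψ hψ v w := (hh.smooth ψ hψ v w).add (hk.smooth ψ hψ v w)

lemma sub (hh : STens h) (hk : STens k) : STens (fun p v w => h p v w - k p v w : Tens M) where
  add_left p v v' w := by rw [hh.add_left, hk.add_left]; ring
  smul_left p c v w := by rw [hh.smul_left, hk.smul_left]; ring
  symm p v w := by rw [hh.symm, hk.symm]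
  smooth ψ hψ v w := (hh.smooth ψ hψ v w).sub (hk.smooth ψ hψ v w)


lemma zero : STens (fun _ _ _ => 0 : Tens M) where
  add_left p v v' w := by simp
  smul_left p c v w := by simp
  symm p v w := rfl
  smooth ψ hψ v w := contDiffOn_const

lemma sum {ι : Type*} (s : Finset ι) {H : ι → Tens M} (hH : ∀ i ∈ s, STens (H i)) :
    STens (fun p v w => ∑ i ∈ s, H i p v w : Tens M) := by
  classical
  induction s using Finset.induction_on with
  | empty => simpa using (zero : STens (fun _ _ _ => 0 : Tens M))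
  | insert a s ha ih =>
    have h1 := (hH a (Finset.mem_insert_self a s)).add
      (ih fun i hi => hH i (Finset.mem_insert_of_mem hi))
    simpa [Finset.sum_insert ha] using h1

end STens

/-! ### bilinearity of `coef` -/

section coefLin
variable {h : Tens M} (hh : STens h) (ψ : OpenPartialHomeomorph M E2) (y : E2)
include hh








end coefLin

/-! ### the two basic tensors: `pull f` and `g.inner` -/

section basic
variable [IsManifold (𝓡 2) ∞ M]





end basic

end Crest.Agent.R216.CoefT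
end
end

-- ▼ part R216/PartQ
section

/-!
Row 216 (S0335), part (6), module PartQ (owner: helper706): bump functions of discs in charts,
partition of unity from a finite cover by discs.
-/

set_option autoImplicit false
set_option linter.unusedSectionVars false
open scoped Manifold ContDiff Topology
open Set

noncomputable section
namespace Crest.Agent.R216.PartQ

variable {M : Type*} [TopologicalSpace M] [ChartedSpace E2 M]

open Classical in
/-- extension by zero of a planar function through a chart -/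
def ext0 {V : Type*} [Zero V] (w : OpenPartialHomeomorph M E2) (b : E2 → V) (p : M) : V :=
  if p ∈ w.source then b (w p) else 0

lemma ext0_of_mem {V : Type*} [Zero V] {w : OpenPartialHomeomorph M E2} {b : E2 → V} {p : M}
    (hp : p ∈ w.source) : ext0 w b p = b (w p) := by simp [ext0, hp]

lemma ext0_of_notMem {V : Type*} [Zero V] {w : OpenPartialHomeomorph M E2} {b : E2 → V} {p : M}
    (hp : p ∉ w.source) : ext0 w b p = 0 := by simp [ext0, hp]


/-- smoothness of the extension by zero; `b` smooth on the target, zero off a compact set -/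
theorem ext0_contMDiff [IsManifold (𝓡 2) ∞ M] [T2Space M] {E : Type*} [NormedAddCommGroup E]
    [NormedSpace ℝ E] {w : OpenPartialHomeomorph M E2}
    (hw : w ∈ IsManifold.maximalAtlas (𝓡 2) ∞ M) {b : E2 → E}
    (hb : ContDiffOn ℝ ∞ b w.target) {K : Set E2} (hK : IsCompact K) (hKt : K ⊆ w.target)
    (h0 : ∀ y ∈ w.target, y ∉ K → b y = 0) :
    ContMDiff (𝓡 2) 𝓘(ℝ, E) ∞ (ext0 w b) := by
  have h1 : ext0 w b = glue (fun _ : M => (0 : E)) w b := by
    funext p
    by_cases hp : p ∈ w.source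
    · rw [ext0_of_mem hp, glue_of_mem _ _ _ hp]
    · rw [ext0_of_notMem hp, glue_of_notMem _ _ _ hp]
  rw [h1]
  exact glue_contMDiff contMDiff_const hw hb hK hKt (fun y hy hyK => by simpa [rep] using h0 y hy hyK)

/-- the planar bump of the disc of radius `r` -/
def pb (r : ℝ) (y : E2) : ℝ := expNegInvGlue (r ^ 2 - ‖y‖ ^ 2)

lemma pb_contDiff (r : ℝ) : ContDiff ℝ ∞ (pb r) :=
  expNegInvGlue.contDiff.comp (contDiff_const.sub (contDiff_norm_sq ℝ))

lemma pb_nonneg (r : ℝ) (y : E2) : 0 ≤ pb r y := expNegInvGlue.nonneg _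

lemma pb_pos_iff {r : ℝ} (hr : 0 < r) {y : E2} : 0 < pb r y ↔ ‖y‖ < r := by
  rw [pb, ← not_iff_not, not_lt, not_lt]
  constructor
  · intro h
    by_contra h'
    push_neg at h'
    have : 0 < r ^ 2 - ‖y‖ ^ 2 := by
      have := norm_nonneg y
      nlinarith
    exact absurd (expNegInvGlue.pos_of_pos this) (not_lt.2 h)
  · intro h
    rw [expNegInvGlue.zero_of_nonpos]
    nlinarith [norm_nonneg y]

lemma pb_eq_zero {r : ℝ} (hr : 0 < r) {y : E2} (hy : r ≤ ‖y‖) : pb r y = 0 :=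
  le_antisymm (not_lt.1 fun h => absurd ((pb_pos_iff hr).1 h) (not_lt.2 hy)) (pb_nonneg r y)

/-- squared bump of the disc of radius `r` in the chart `w` -/
def bmp (w : OpenPartialHomeomorph M E2) (r : ℝ) : M → ℝ := ext0 w fun y => pb r y ^ 2

lemma bmp_nonneg (w : OpenPartialHomeomorph M E2) (r : ℝ) (p : M) : 0 ≤ bmp w r p := by
  by_cases hp : p ∈ w.source
  · rw [bmp, ext0_of_mem hp]; positivity
  · rw [bmp, ext0_of_notMem hp]

lemma bmp_pos_iff {w : OpenPartialHomeomorph M E2} {r : ℝ} (hr : 0 < r) {p : M} :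
    0 < bmp w r p ↔ p ∈ w.source ∧ ‖w p‖ < r := by
  by_cases hp : p ∈ w.source
  · rw [bmp, ext0_of_mem hp]
    have h1 := pb_nonneg r (w p)
    constructor
    · intro h
      refine ⟨hp, (pb_pos_iff hr).1 ?_⟩
      rcases h1.lt_or_eq with h2 | h2
      · exact h2
      · rw [← h2] at h; simp at h
    · rintro ⟨-, h⟩
      have := (pb_pos_iff hr).2 h
      positivity
  · rw [bmp, ext0_of_notMem hp]
    simp [hp]

theorem bmp_contMDiff [IsManifold (𝓡 2) ∞ M] [T2Space M] {w : OpenPartialHomeomorph M E2}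
    (hw : w ∈ IsManifold.maximalAtlas (𝓡 2) ∞ M) {r : ℝ} (hr : 0 < r)
    (hrt : Metric.closedBall (0 : E2) r ⊆ w.target) :
    ContMDiff (𝓡 2) 𝓘(ℝ, ℝ) ∞ (bmp w r) := by
  refine ext0_contMDiff hw ((pb_contDiff r).pow 2).contDiffOn
    (isCompact_closedBall (0 : E2) r) hrt ?_
  intro y _ hy
  rw [mem_closedBall_zero_iff, not_le] at hy
  rw [pb_eq_zero hr hy.le]
  ring

/-- data of a finite cover by discs -/
structure DiscCover (M : Type*) [TopologicalSpace M] [ChartedSpace E2 M] (Q : ℕ) where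
  w : Fin Q → OpenPartialHomeomorph M E2
  hw : ∀ q, w q ∈ IsManifold.maximalAtlas (𝓡 2) ∞ M
  r : Fin Q → ℝ
  hr : ∀ q, 0 < r q
  hrt : ∀ q, Metric.closedBall (0 : E2) (r q) ⊆ (w q).target
  cover : ∀ p : M, ∃ q, p ∈ (w q).source ∧ ‖w q p‖ < r q

namespace DiscCover
variable {Q : ℕ} (D : DiscCover M Q)

/-- the `q`-th bump -/
def B (q : Fin Q) (p : M) : ℝ := bmp (D.w q) (D.r q) p









section smooth
variable [IsManifold (𝓡 2) ∞ M] [T2Space M]





end smooth

end DiscCover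

end Crest.Agent.R216.PartQ
end
end

-- ▼ part R216/DCP
section

/-!
Row 216 (S0335), part (6), module DCP (owner: helper706).
-/

set_option autoImplicit false
open scoped Manifold ContDiff Topology
open Set

noncomputable section
namespace Crest.Agent.R216.Dec

variable {M : Type*} [TopologicalSpace M] [ChartedSpace E2 M]

lemma bump_eq_bmp (P : Patch M) (r : ℝ) : P.bump r = PartQ.bmp P.w r := by
  funext p
  by_cases hp : p ∈ P.w.source
  · simp [Patch.bump, PartQ.bmp, PartQ.ext0, PartQ.pb, hp]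
  · simp [Patch.bump, PartQ.bmp, PartQ.ext0, hp]

lemma mem_disc_iff (P : Patch M) {r : ℝ} (hr : r < 2 * P.R) (p : M) :
    p ∈ P.disc r ↔ p ∈ P.w.source ∧ ‖P.w p‖ < r := by
  constructor
  · rintro ⟨y, hy, rfl⟩
    rw [mem_ball_zero_iff] at hy
    have hyt : y ∈ P.w.target := P.sub (by
      rw [mem_closedBall_zero_iff]; exact (hy.trans hr).le)
    refine ⟨P.w.map_target hyt, ?_⟩
    rw [P.w.right_inv hyt]; exact hy
  · rintro ⟨h1, h2⟩
    exact ⟨P.w p, by rwa [mem_ball_zero_iff], P.w.left_inv h1⟩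

theorem dcpa (M : Type*) [TopologicalSpace M] [ChartedSpace E2 M] [IsManifold (𝓡 2) ∞ M]
    [T2Space M] : DCPa M := by
  intro P r hr hrR
  rw [bump_eq_bmp]
  refine ⟨PartQ.bmp_contMDiff P.hw hr ?_, PartQ.bmp_nonneg _ _, ?_⟩
  · exact (Metric.closedBall_subset_closedBall hrR.le).trans P.sub
  · intro p
    rw [PartQ.bmp_pos_iff hr, mem_disc_iff P hrR]

end Crest.Agent.R216.Dec
end
end

-- ▼ part R216/ExtPos
section

/-!
Row 216, part (6): extension lemmas for smooth functions.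
-/

set_option autoImplicit false

noncomputable section

open scoped Manifold ContDiff Topology
open Set

namespace Crest.Agent.R216

variable {E : Type*} [NormedAddCommGroup E] [NormedSpace ℝ E] [FiniteDimensional ℝ E]

/-- smooth cut-off function, `0` near the complement of `D`, `1` near `K` -/
theorem exists_cutoff_nhds {K D : Set E} (hK : IsClosed K) (hD : IsOpen D) (hKD : K ⊆ D) :
    ∃ χ : E → ℝ, ContDiff ℝ ∞ χ ∧ (∀ᶠ x in 𝓝ˢ Dᶜ, χ x = 0) ∧ (∀ᶠ x in 𝓝ˢ K, χ x = 1) ∧
      ∀ x, 0 ≤ χ x ∧ χ x ≤ 1 := by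
  obtain ⟨f, h0, h1, h⟩ := exists_contMDiffMap_zero_one_nhds_of_isClosed (n := ⊤) 𝓘(ℝ, E)
    (s := Dᶜ) (t := K) hD.isClosed_compl hK (disjoint_left.mpr fun x hx hxK => hx (hKD hxK))
  exact ⟨f, f.contMDiff.contDiff, h0, h1, fun x => ⟨(h x).1, (h x).2⟩⟩

/-- extension of a smooth function `b` (convexly interpolated with a constant `c`) -/
theorem exists_ext_const {K D : Set E} (hK : IsClosed K) (hD : IsOpen D) (hKD : K ⊆ D)
    {F : Type*} [NormedAddCommGroup F] [NormedSpace ℝ F] {b : E → F}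
    (hb : ContDiffOn ℝ ∞ b D) (c : F) :
    ∃ β : E → F, ContDiff ℝ ∞ β ∧ (∀ᶠ x in 𝓝ˢ K, β x = b x) ∧ (∀ᶠ x in 𝓝ˢ Dᶜ, β x = c) ∧
      (∀ x, ∃ l : ℝ, 0 ≤ l ∧ l ≤ 1 ∧ (x ∉ D → l = 0) ∧ β x = l • b x + (1 - l) • c) := by
  obtain ⟨χ, hχ, h0, h1, h01⟩ := exists_cutoff_nhds hK hD hKD
  have hz : ∀ x, x ∉ D → χ x = 0 := fun x hx => h0.self_of_nhdsSet x hx
  refine ⟨fun x => χ x • b x + (1 - χ x) • c, ?_, ?_, ?_, fun x =>
    ⟨χ x, (h01 x).1, (h01 x).2, hz x, rfl⟩⟩
  · rw [contDiff_iff_contDiffAt]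
    intro x
    by_cases hx : x ∈ D
    · exact (hχ.contDiffAt.smul (hb.contDiffAt (hD.mem_nhds hx))).add
        ((contDiffAt_const.sub hχ.contDiffAt).smul contDiffAt_const)
    · have h2 : (fun x => χ x • b x + (1 - χ x) • c) =ᶠ[𝓝 x] fun _ => c := by
        have h3 : ∀ᶠ y in 𝓝 x, χ y = 0 := h0.filter_mono (nhds_le_nhdsSet hx)
        filter_upwards [h3] with y hy
        rw [hy, zero_smul, sub_zero, one_smul, zero_add]
      exact contDiffAt_const.congr_of_eventuallyEq h2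
  · filter_upwards [h1] with x hx
    rw [hx, one_smul, sub_self, zero_smul, add_zero]
  · filter_upwards [h0] with x hx
    rw [hx, zero_smul, sub_zero, one_smul, zero_add]

/-- extension of a positive smooth function -/
theorem exists_pos_ext' {K D : Set E} (hK : IsClosed K) (hD : IsOpen D) (hKD : K ⊆ D)
    {b : E → ℝ} (hb : ContDiffOn ℝ ∞ b D) (hpos : ∀ x ∈ D, 0 < b x) :
    ∃ β : E → ℝ, ContDiff ℝ ∞ β ∧ (∀ x, 0 < β x) ∧
      ∃ O, IsOpen O ∧ K ⊆ O ∧ O ⊆ D ∧ ∀ x ∈ O, β x = b x := by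
  obtain ⟨β, h1, h2, h3, h4⟩ := exists_ext_const hK hD hKD hb 1
  obtain ⟨O, hO, hKO, hOe⟩ := mem_nhdsSet_iff_exists.mp h2
  refine ⟨β, h1, ?_, O ∩ D, hO.inter hD, subset_inter hKO hKD, inter_subset_right,
    fun x hx => hOe hx.1⟩
  intro x
  obtain ⟨l, hl0, hl1, hl, he⟩ := h4 x
  rw [he]
  by_cases hx : x ∈ D
  · have := hpos x hx
    rcases hl0.eq_or_lt with h | h
    · rw [← h]; simp
    · have h5 : 0 < l • b x := mul_pos h this
      have h6 : 0 ≤ (1 - l) • (1 : ℝ) := mul_nonneg (by linarith) (by norm_num)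
      linarith
  · rw [hl hx]; simp

/-- extension of a positive smooth function near a compact set -/
theorem exists_pos_ext {K D : Set E} (hK : IsCompact K) (hD : IsOpen D) (hKD : K ⊆ D)
    {b : E → ℝ} (hb : ContDiffOn ℝ ∞ b D) (hpos : ∀ x ∈ D, 0 < b x) :
    ∃ β : E → ℝ, ContDiff ℝ ∞ β ∧ (∀ x, 0 < β x) ∧
      ∃ O, IsOpen O ∧ K ⊆ O ∧ O ⊆ D ∧ ∀ x ∈ O, β x = b x :=
  exists_pos_ext' hK.isClosed hD hKD hb hpos


end Crest.Agent.R216
end
end

-- ▼ part R216/DCX

/-!
Row 216 (S0335), part (6), module DCX (owner: helper706).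
-/

set_option autoImplicit false
open scoped Manifold ContDiff Topology
open Set

noncomputable section
namespace Crest.Agent.R216.Dec

theorem dcx : DCX := by
  intro D K b0 hD hK hKD hb hpos
  obtain ⟨β, h1, h2, O, -, hKO, -, hOe⟩ := exists_pos_ext hK hD hKD hb hpos
  exact ⟨β, h1, h2, fun y hy => hOe y (hKO hy)⟩

end Crest.Agent.R216.Dec
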