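import Mathlib
import Crest.Agent.R216.Prof2
import Crest.Agent.R216.EngDefs

-- ▼ part R216/Iter
section

/-!
# R216 / Theorem E: the abstract Nash-Moser type iteration (module ITER)

All scales are powers of one number `L`; the next stage has `L' = L ^ (2 * q)`.
`St k L f` is an abstract state predicate ("level `k`, scale `L`").
The stage hypothesis produces a correction `v` with `‖D^j v‖ ≤ C_j L^{q(j-k)}` for all `j`.
-/

namespace Crest.Agent.R216.Iter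

open scoped ContDiff Topology
open Filter

variable {X V : Type*} [NormedAddCommGroup X] [NormedSpace ℝ X]
  [NormedAddCommGroup V] [NormedSpace ℝ V]

/-- The one-stage statement (what ITER consumes).
`N`: set on which derivative bounds of `f` are demanded; `W`: set supporting all corrections;
`G`: open condition under which the universal constants exist. -/
def StageHyp (N W : Set X) (St : ℕ → ℝ → (X → V) → Prop) (G : (X → V) → Prop)
    (q : ℕ) (K : ℕ → ℕ) (k₀ : ℕ) : Prop :=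
  ∀ k, k₀ ≤ k → ∃ T : ℝ, ∃ C : ℕ → ℝ, ∀ L : ℝ, T ≤ L → ∀ f : X → V, ContDiff ℝ ∞ f → G f →
    St k L f →
    (∀ j, 1 ≤ j → j ≤ K k → ∀ x ∈ N, ‖iteratedFDeriv ℝ j f x‖ ≤ L ^ j) →
    ∀ k', (k' = k ∨ k' = k + 1) → ∃ v : X → V, ContDiff ℝ ∞ v ∧ (∀ x, x ∉ W → v x = 0) ∧
      (∀ j x, ‖iteratedFDeriv ℝ j v x‖ ≤ C j * L ^ (q * j) / L ^ (q * k)) ∧
      St k' (L ^ (2 * q)) (f + v)

/-- budget form of the open condition. -/
def GB (G : (X → V) → Prop) (L : ℝ) (f : X → V) : Prop :=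
  ∀ w : X → V, ContDiff ℝ ∞ w → (∀ j, j ≤ 2 → ∀ x, ‖iteratedFDeriv ℝ j w x‖ ≤ 2 / L) → G (f + w)

/-- full state. -/
structure S (N : Set X) (St : ℕ → ℝ → (X → V) → Prop) (G : (X → V) → Prop) (K : ℕ → ℕ)
    (T' : ℕ → ℝ) (k : ℕ) (L : ℝ) (f : X → V) : Prop where
  cd : ContDiff ℝ ∞ f
  gb : GB G L f
  st : St k L f
  bd : ∀ j, 1 ≤ j → j ≤ K k → ∀ x ∈ N, ‖iteratedFDeriv ℝ j f x‖ ≤ L ^ j
  le : T' k ≤ L

lemma iter_zero (j : ℕ) (x : X) : iteratedFDeriv ℝ j (0 : X → V) x = 0 := by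
  have := congrFun (iteratedFDeriv_fun_zero (𝕜 := ℝ) (E := X) (F := V) (n := j)) x
  exact this

lemma iter_add {f v : X → V} (hf : ContDiff ℝ ∞ f) (hv : ContDiff ℝ ∞ v) (j : ℕ) (x : X) :
    ‖iteratedFDeriv ℝ j (f + v) x‖ ≤ ‖iteratedFDeriv ℝ j f x‖ + ‖iteratedFDeriv ℝ j v x‖ := by
  rw [iteratedFDeriv_add_apply ((hf.of_le (by exact_mod_cast le_top)).contDiffAt)
    ((hv.of_le (by exact_mod_cast le_top)).contDiffAt)]
  exact norm_add_le _ _

lemma GB.of_add {G : (X → V) → Prop} {L L' : ℝ} {f w : X → V} (h : GB G L f)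
    (hw : ContDiff ℝ ∞ w) (hb : ∀ j, j ≤ 2 → ∀ x, ‖iteratedFDeriv ℝ j w x‖ ≤ 2 / L - 2 / L') :
    GB G L' (f + w) := by
  intro w' hw' hb'
  have := h (w + w') (hw.add hw') (fun j hj x => by
    have := iter_add hw hw' j x
    have h1 := hb j hj x
    have h2 := hb' j hj x
    linarith)
  rwa [← add_assoc] at this

variable {N W : Set X} {St : ℕ → ℝ → (X → V) → Prop} {G : (X → V) → Prop} {q : ℕ} {K : ℕ → ℕ}
  {k₀ : ℕ}

/-- stage hypothesis with normalised constants. -/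
def StageN (N W : Set X) (St : ℕ → ℝ → (X → V) → Prop) (G : (X → V) → Prop)
    (q : ℕ) (K : ℕ → ℕ) (k₀ : ℕ) (T' : ℕ → ℝ) (C : ℕ → ℕ → ℝ) : Prop :=
  (∀ k, 2 ≤ T' k) ∧ (∀ k j, 0 ≤ C k j) ∧ (∀ k j, j ≤ k ∨ j ≤ K k → C k j ≤ T' k) ∧
  ∀ k, k₀ ≤ k → ∀ L : ℝ, T' k ≤ L → ∀ f : X → V, ContDiff ℝ ∞ f → G f → St k L f →
    (∀ j, 1 ≤ j → j ≤ K k → ∀ x ∈ N, ‖iteratedFDeriv ℝ j f x‖ ≤ L ^ j) →
    ∀ k', (k' = k ∨ k' = k + 1) → ∃ v : X → V, ContDiff ℝ ∞ v ∧ (∀ x, x ∉ W → v x = 0) ∧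
      (∀ j x, ‖iteratedFDeriv ℝ j v x‖ ≤ C k j * L ^ (q * j) / L ^ (q * k)) ∧
      St k' (L ^ (2 * q)) (f + v)

lemma exists_stageN (h : StageHyp N W St G q K k₀) :
    ∃ T' C, StageN N W St G q K k₀ T' C := by
  classical
  choose! T C hTC using h
  refine ⟨fun k => max (max 2 (T k)) (∑ j ∈ Finset.range (k + K k + 1), |C k j|),
    fun k j => |C k j|, fun k => ?_, fun k j => abs_nonneg _, fun k j hj => ?_, ?_⟩
  · exact le_trans (le_max_left _ _) (le_max_left _ _)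
  · refine le_trans ?_ (le_max_right _ _)
    exact Finset.single_le_sum (f := fun j => |C k j|) (fun i _ => abs_nonneg _)
      (Finset.mem_range.2 (by omega))
  · intro k hk L hL f hf hG hSt hb k' hk'
    have hTL : T k ≤ L := le_trans (le_trans (le_max_right _ _) (le_max_left _ _)) hL
    have h2L : 2 ≤ L := le_trans (le_trans (le_max_left _ _) (le_max_left _ _)) hL
    obtain ⟨v, hv, hv0, hvb, hst⟩ := hTC k hk L hTL f hf hG hSt hb k' hk'
    refine ⟨v, hv, hv0, fun j x => (hvb j x).trans ?_, hst⟩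
    have hLpos : 0 < L := by linarith
    gcongr
    exact le_abs_self _

lemma step (hq : 2 ≤ q) (hk₀ : 3 ≤ k₀) {T' : ℕ → ℝ} {C : ℕ → ℕ → ℝ}
    (h : StageN N W St G q K k₀ T' C) {k : ℕ} (hk : k₀ ≤ k) {L : ℝ} {f : X → V}
    (hs : S N St G K T' k L f) {k' : ℕ} (hk' : k' = k ∨ k' = k + 1) :
    ∃ v : X → V, ContDiff ℝ ∞ v ∧ (∀ x, x ∉ W → v x = 0) ∧
      (∀ j, j < k → ∀ x, ‖iteratedFDeriv ℝ j v x‖ ≤ 1 / L) ∧
      (∀ j x, ‖iteratedFDeriv ℝ j v x‖ ≤ C k j * L ^ (q * j)) ∧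
      ContDiff ℝ ∞ (f + v) ∧ GB G (L ^ (2 * q)) (f + v) ∧ St k' (L ^ (2 * q)) (f + v) := by
  obtain ⟨hT2, hC0, hCT, hst⟩ := h
  have hL2 : 2 ≤ L := (hT2 k).trans hs.le
  have hL0 : 0 < L := by linarith
  have hL1 : 1 ≤ L := by linarith
  have hGf : G f := by
    have := hs.gb 0 contDiff_const (fun j _ x => by
      rw [iter_zero, norm_zero]; positivity)
    simpa using this
  obtain ⟨v, hv, hv0, hvb, hstv⟩ := hst k hk L hs.le f hs.cd hGf hs.st hs.bd k' hk'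
  have hsmall : ∀ j, j < k → ∀ x, ‖iteratedFDeriv ℝ j v x‖ ≤ 1 / L := by
    intro j hj x
    refine (hvb j x).trans ?_
    rw [div_le_div_iff₀ (by positivity) hL0, one_mul]
    have h1 : C k j ≤ L := (hCT k j (Or.inl hj.le)).trans hs.le
    calc C k j * L ^ (q * j) * L ≤ L * L ^ (q * j) * L := by gcongr
      _ = L ^ (q * j + 2) := by ring
      _ ≤ L ^ (q * k) := by
          apply pow_le_pow_right₀ hL1
          calc q * j + 2 ≤ q * j + q := by omega
            _ = q * (j + 1) := by ring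
            _ ≤ q * k := Nat.mul_le_mul_left _ hj
  refine ⟨v, hv, hv0, hsmall, fun j x => (hvb j x).trans ?_, hs.cd.add hv, ?_, hstv⟩
  · apply div_le_self (mul_nonneg (hC0 k j) (by positivity))
    exact one_le_pow₀ hL1
  · refine hs.gb.of_add hv (fun j hj x => (hsmall j (by omega) x).trans ?_)
    have hLL : 2 * L ≤ L ^ (2 * q) := by
      calc 2 * L ≤ L * L := by gcongr
        _ = L ^ 2 := by ring
        _ ≤ L ^ (2 * q) := pow_le_pow_right₀ hL1 (by omega)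
    have : 2 / L ^ (2 * q) ≤ 1 / L := by
      rw [div_le_div_iff₀ (by positivity) hL0]; linarith
    have e : (2:ℝ) / L = 1 / L + 1 / L := by ring
    linarith

/-- inner iteration at a fixed level. -/
lemma inner (hq : 2 ≤ q) (hk₀ : 3 ≤ k₀) {T' : ℕ → ℝ} {C : ℕ → ℕ → ℝ}
    (h : StageN N W St G q K k₀ T' C) {k : ℕ} (hk : k₀ ≤ k) {L : ℝ} {f : X → V}
    (hs : S N St G K T' k L f) (n : ℕ) :
    ∃ w : X → V, ContDiff ℝ ∞ w ∧ (∀ x, x ∉ W → w x = 0) ∧
      (∀ j, j < k → ∀ x, ‖iteratedFDeriv ℝ j w x‖ ≤ 2 / L - 2 / L ^ ((2 * q) ^ n)) ∧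
      (∀ j x, ‖iteratedFDeriv ℝ j (f + w) x‖ ≤ ‖iteratedFDeriv ℝ j f x‖ +
        n * C k j * (L ^ ((2 * q) ^ n)) ^ (q * j)) ∧
      S N St G K T' k (L ^ ((2 * q) ^ n)) (f + w) := by
  have hT2 := h.1
  have hC0 := h.2.1
  have hCT := h.2.2.1
  have hL2 : 2 ≤ L := (hT2 k).trans hs.le
  have hL0 : 0 < L := by linarith
  have hL1 : 1 ≤ L := by linarith
  induction n with
  | zero =>
    refine ⟨0, contDiff_const, fun x _ => rfl, fun j _ x => ?_, fun j x => ?_, ?_⟩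
    · rw [iter_zero, norm_zero]; simp
    · simp
    · simpa using hs
  | succ n ih =>
    obtain ⟨w, hw, hw0, hwb, hwB, hS⟩ := ih
    set M : ℝ := L ^ ((2 * q) ^ n) with hM
    have hM2 : 2 ≤ M := (hT2 k).trans hS.le
    have hM0 : 0 < M := by linarith
    have hM1 : 1 ≤ M := by linarith
    have hMM : L ^ ((2 * q) ^ (n + 1)) = M ^ (2 * q) := by
      rw [hM, ← pow_mul, pow_succ]
    obtain ⟨v, hv, hv0, hvs, hvB, hcd, hgb, hst⟩ := step hq hk₀ h hk hS (k' := k) (Or.inl rfl)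
    have hMle : M ≤ M ^ (2 * q) := le_self_pow₀ hM1 (by omega)
    have h2M : 2 / M ^ (2 * q) ≤ 1 / M := by
      have hLL : 2 * M ≤ M ^ (2 * q) := by
        calc 2 * M ≤ M * M := by gcongr
          _ = M ^ 2 := by ring
          _ ≤ M ^ (2 * q) := pow_le_pow_right₀ hM1 (by omega)
      rw [div_le_div_iff₀ (by positivity) hM0]; linarith
    refine ⟨w + v, hw.add hv, fun x hx => by simp [hw0 x hx, hv0 x hx], fun j hj x => ?_,
      fun j x => ?_, ?_⟩
    · rw [hMM]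
      have h1 := iter_add hw hv j x
      have h2 := hwb j hj x
      have h3 := hvs j hj x
      have e : (2:ℝ) / M = 1 / M + 1 / M := by ring
      linarith
    · rw [hMM, ← add_assoc]
      have h1 := iter_add hS.cd hv j x
      have h2 := hwB j x
      have h3 := hvB j x
      have h4 : (M:ℝ) ^ (q * j) ≤ (M ^ (2 * q)) ^ (q * j) := by gcongr
      have h5 : (n : ℝ) * C k j * M ^ (q * j) ≤ n * C k j * (M ^ (2 * q)) ^ (q * j) := by
        have := hC0 k j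
        gcongr
      have h6 : C k j * M ^ (q * j) ≤ C k j * (M ^ (2 * q)) ^ (q * j) := by
        have := hC0 k j
        gcongr
      push_cast
      linarith
    · rw [hMM, ← add_assoc]
      refine ⟨hcd, hgb, hst, fun j hj1 hjK x hx => ?_, hS.le.trans hMle⟩
      have h1 := iter_add hS.cd hv j x
      have h2 := hS.bd j hj1 hjK x hx
      have h3 := hvB j x
      have hC : C k j ≤ M := (hCT k j (Or.inr hjK)).trans hS.le
      calc ‖iteratedFDeriv ℝ j (f + w + v) x‖ ≤ M ^ j + C k j * M ^ (q * j) := by linarith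
        _ ≤ M ^ (q * j) + M * M ^ (q * j) := by
            gcongr
            calc j = 1 * j := by ring
              _ ≤ q * j := Nat.mul_le_mul_right _ (by omega)
        _ = (1 + M) * M ^ (q * j) := by ring
        _ ≤ M ^ 2 * M ^ (q * j) := by
            gcongr
            nlinarith
        _ = M ^ (2 + q * j) := by ring
        _ ≤ M ^ (2 * q * j) := by
            apply pow_le_pow_right₀ hM1
            have : 2 ≤ q * j := by
              calc 2 = 2 * 1 := by ring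
                _ ≤ q * j := Nat.mul_le_mul hq hj1
            calc 2 + q * j ≤ q * j + q * j := by omega
              _ = 2 * q * j := by ring
        _ = (M ^ (2 * q)) ^ j := by rw [pow_mul]

/-- reach the next level. -/
lemma super (hN : IsCompact N) (hq : 2 ≤ q) (hk₀ : 3 ≤ k₀) {T' : ℕ → ℝ} {C : ℕ → ℕ → ℝ}
    (h : StageN N W St G q K k₀ T' C) {k : ℕ} (hk : k₀ ≤ k) {L : ℝ} {f : X → V}
    (hs : S N St G K T' k L f) :
    ∃ (L' : ℝ) (w : X → V), ContDiff ℝ ∞ w ∧ (∀ x, x ∉ W → w x = 0) ∧ 2 * L ≤ L' ∧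
      (∀ j, j < k → ∀ x, ‖iteratedFDeriv ℝ j w x‖ ≤ 2 / L - 2 / L') ∧
      S N St G K T' (k + 1) L' (f + w) := by
  have hT2 := h.1
  have hC0 := h.2.1
  have hCT := h.2.2.1
  have hL2 : 2 ≤ L := (hT2 k).trans hs.le
  have hL0 : 0 < L := by linarith
  have hL1 : 1 ≤ L := by linarith
  -- bounds for the derivatives of `f` on `N`
  have hb : ∀ j, ∃ A : ℝ, 0 ≤ A ∧ ∀ x ∈ N, ‖iteratedFDeriv ℝ j f x‖ ≤ A := by
    intro j
    have hc : Continuous (fun x => iteratedFDeriv ℝ j f x) :=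
      hs.cd.continuous_iteratedFDeriv (by exact_mod_cast le_top)
    obtain ⟨A, hA⟩ := hN.exists_bound_of_continuousOn hc.continuousOn
    exact ⟨max A 0, le_max_right _ _, fun x hx => (hA x hx).trans (le_max_left _ _)⟩
  choose A hA0 hA using hb
  set B : ℝ := T' (k + 1) + ∑ j ∈ Finset.range (K (k + 1) + 1), (A j + C k j) with hB
  obtain ⟨n, hn⟩ := pow_unbounded_of_one_lt B (one_lt_two : (1:ℝ) < 2)
  obtain ⟨w, hw, hw0, hwb, hwB, hS⟩ := inner hq hk₀ h hk hs n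
  set M : ℝ := L ^ ((2 * q) ^ n) with hM
  have hM2 : 2 ≤ M := (hT2 k).trans hS.le
  have hM0 : 0 < M := by linarith
  have hM1 : 1 ≤ M := by linarith
  have hnM : (n + 1) * B ≤ M := by
    have h1 : ((n:ℝ) + 1) ≤ 2 ^ n := by
      have := Nat.lt_two_pow_self (n := n)
      have h2 : n + 1 ≤ 2 ^ n := this
      exact_mod_cast h2
    have hB0 : 0 ≤ B := by
      have : 0 ≤ ∑ j ∈ Finset.range (K (k + 1) + 1), (A j + C k j) :=
        Finset.sum_nonneg (fun j _ => add_nonneg (hA0 j) (hC0 k j))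
      have := hT2 (k + 1)
      linarith
    calc ((n:ℝ) + 1) * B ≤ 2 ^ n * 2 ^ n := by gcongr
      _ = 2 ^ (n + n) := by rw [pow_add]
      _ ≤ 2 ^ ((2 * q) ^ n) := by
          apply pow_le_pow_right₀ (by norm_num)
          have h3 : n < 2 ^ n := Nat.lt_two_pow_self
          calc n + n = 2 * n := by ring
            _ ≤ 2 ^ n * 2 ^ n := by
              rcases Nat.eq_zero_or_pos n with h0 | h0
              · simp [h0]
              · have : 2 ≤ 2 ^ n := by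
                  calc 2 = 2 ^ 1 := by norm_num
                    _ ≤ 2 ^ n := Nat.pow_le_pow_right (by norm_num) h0
                exact Nat.mul_le_mul this h3.le
            _ = 4 ^ n := by rw [← mul_pow]; norm_num
            _ ≤ (2 * q) ^ n := Nat.pow_le_pow_left (by omega) n
      _ ≤ M := by rw [hM]; gcongr
  obtain ⟨v, hv, hv0, hvs, hvB, hcd, hgb, hst⟩ :=
    step hq hk₀ h hk hS (k' := k + 1) (Or.inr rfl)
  have hMM2 : M ^ 2 ≤ M ^ (2 * q) := pow_le_pow_right₀ hM1 (by omega)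
  have hLL : 2 * M ≤ M ^ (2 * q) := by nlinarith
  have h2M : 2 / M ^ (2 * q) ≤ 1 / M := by
    rw [div_le_div_iff₀ (by positivity) hM0]; linarith
  have hLM : L ≤ M := by
    rw [hM]; exact le_self_pow₀ hL1 (by positivity)
  refine ⟨M ^ (2 * q), w + v, hw.add hv, fun x hx => by simp [hw0 x hx, hv0 x hx], by linarith,
    fun j hj x => ?_, ?_⟩
  · have h1 := iter_add hw hv j x
    have h2 := hwb j hj x
    have h3 := hvs j hj x
    have e : (2:ℝ) / M = 1 / M + 1 / M := by ring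
    linarith
  · rw [← add_assoc]
    have hBn : ∀ j, j ≤ K (k + 1) → A j + (n + 1) * C k j ≤ M := by
      intro j hj
      have h1 : A j + C k j ≤ ∑ j ∈ Finset.range (K (k + 1) + 1), (A j + C k j) :=
        Finset.single_le_sum (f := fun j => A j + C k j)
          (fun i _ => add_nonneg (hA0 i) (hC0 k i)) (Finset.mem_range.2 (by omega))
      have h2 := hT2 (k + 1)
      have h3 : A j + C k j ≤ B := by linarith
      have h4 : A j + (n + 1) * C k j ≤ (n + 1) * (A j + C k j) := by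
        have : 0 ≤ (n:ℝ) * A j := mul_nonneg (by positivity) (hA0 j)
        nlinarith
      calc A j + (n + 1) * C k j ≤ (n + 1) * (A j + C k j) := h4
        _ ≤ (n + 1) * B := by gcongr
        _ ≤ M := hnM
    refine ⟨hcd, hgb, hst, fun j hj1 hjK x hx => ?_, ?_⟩
    · have h1 := iter_add hS.cd hv j x
      have h2 := hwB j x
      have h3 := hvB j x
      have h4 := hA j x hx
      have h5 := hBn j hjK
      have h6 : (1:ℝ) ≤ M ^ (q * j) := one_le_pow₀ hM1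
      calc ‖iteratedFDeriv ℝ j (f + w + v) x‖
          ≤ A j + n * C k j * M ^ (q * j) + C k j * M ^ (q * j) := by linarith
        _ ≤ A j * M ^ (q * j) + n * C k j * M ^ (q * j) + C k j * M ^ (q * j) := by
            have := hA0 j
            have : A j * 1 ≤ A j * M ^ (q * j) := by gcongr
            linarith
        _ = (A j + (n + 1) * C k j) * M ^ (q * j) := by ring
        _ ≤ M * M ^ (q * j) := by gcongr
        _ = M ^ (1 + q * j) := by ring
        _ ≤ M ^ (2 * q * j) := by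
            apply pow_le_pow_right₀ hM1
            have : 2 ≤ q * j := by
              calc 2 = 2 * 1 := by ring
                _ ≤ q * j := Nat.mul_le_mul hq hj1
            calc 1 + q * j ≤ q * j + q * j := by omega
              _ = 2 * q * j := by ring
        _ = (M ^ (2 * q)) ^ j := by rw [pow_mul]
    · have h0 : 0 ≤ ∑ j ∈ Finset.range (K (k + 1) + 1), (A j + C k j) :=
        Finset.sum_nonneg (fun j _ => add_nonneg (hA0 j) (hC0 k j))
      have h2 := hT2 (k + 1)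
      have h3 : T' (k + 1) ≤ B := by linarith
      have h4 : B ≤ (n + 1) * B := by
        have : 0 ≤ (n:ℝ) * B := mul_nonneg (by positivity) (by linarith)
        linarith
      linarith

/-- **Abstract Nash-Moser iteration** (module ITER of Theorem E). -/
theorem iterate [CompleteSpace V] (hN : IsCompact N) (hq : 2 ≤ q) (hk₀ : 3 ≤ k₀)
    (hstage : StageHyp N W St G q K k₀) :
    ∃ T₀ : ℝ, 2 ≤ T₀ ∧ ∀ L₀ : ℝ, T₀ ≤ L₀ → ∀ f₀ : X → V, ContDiff ℝ ∞ f₀ → St k₀ L₀ f₀ →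
      (∀ j, 1 ≤ j → j ≤ K k₀ → ∀ x ∈ N, ‖iteratedFDeriv ℝ j f₀ x‖ ≤ L₀ ^ j) →
      (∀ w : X → V, ContDiff ℝ ∞ w → (∀ j, j ≤ 2 → ∀ x, ‖iteratedFDeriv ℝ j w x‖ ≤ 2 / L₀) →
        G (f₀ + w)) →
      ∃ F : X → V, ContDiff ℝ ∞ F ∧ (∀ x, x ∉ W → F x = f₀ x) ∧
        (∀ j, j < k₀ → ∀ x, ‖iteratedFDeriv ℝ j (F - f₀) x‖ ≤ 4 / L₀) ∧
        ∃ (L : ℕ → ℝ) (f : ℕ → X → V), Tendsto L atTop atTop ∧ (∀ i, L₀ ≤ L i) ∧
          (∀ i, ContDiff ℝ ∞ (f i)) ∧ (∀ i, St (k₀ + i) (L i) (f i)) ∧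
          (∀ x, Tendsto (fun i => f i x) atTop (𝓝 (F x))) ∧
          (∀ x, Tendsto (fun i => fderiv ℝ (f i) x) atTop (𝓝 (fderiv ℝ F x))) ∧
          (∀ j x, Tendsto (fun i => iteratedFDeriv ℝ j (f i) x) atTop
            (𝓝 (iteratedFDeriv ℝ j F x))) := by
  obtain ⟨T', C, hSN⟩ := exists_stageN hstage
  have hT2 := hSN.1
  refine ⟨T' k₀, hT2 k₀, fun L₀ hL₀ f₀ hf₀ hst₀ hbd₀ hG₀ => ?_⟩
  have hL2 : 2 ≤ L₀ := (hT2 k₀).trans hL₀
  have hL0 : 0 < L₀ := by linarith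
  -- sequence of states
  let Sta := {p : ℕ × ℝ × (X → V) // k₀ ≤ p.1 ∧ S N St G K T' p.1 p.2.1 p.2.2}
  have hnext : ∀ s : Sta, ∃ (L' : ℝ) (w : X → V), ContDiff ℝ ∞ w ∧ (∀ x, x ∉ W → w x = 0) ∧
      2 * s.1.2.1 ≤ L' ∧
      (∀ j, j < s.1.1 → ∀ x, ‖iteratedFDeriv ℝ j w x‖ ≤ 2 / s.1.2.1 - 2 / L') ∧
      S N St G K T' (s.1.1 + 1) L' (s.1.2.2 + w) := fun s =>
    super hN hq hk₀ hSN s.2.1 s.2.2
  choose nL nw hnw hnw0 hnL hnb hnS using hnext
  let nxt : Sta → Sta := fun s => ⟨(s.1.1 + 1, nL s, s.1.2.2 + nw s), s.2.1.trans (Nat.le_succ _),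
    hnS s⟩
  let s₀ : Sta := ⟨(k₀, L₀, f₀), le_rfl, ⟨hf₀, hG₀, hst₀, hbd₀, hL₀⟩⟩
  let sq : ℕ → Sta := fun n => nxt^[n] s₀
  have hsq : ∀ n, sq (n + 1) = nxt (sq n) := fun n => Function.iterate_succ_apply' nxt n s₀
  let L : ℕ → ℝ := fun n => (sq n).1.2.1
  let f : ℕ → X → V := fun n => (sq n).1.2.2
  let w : ℕ → X → V := fun n => nw (sq n)
  have hk : ∀ n, (sq n).1.1 = k₀ + n := by
    intro n
    induction n with
    | zero => rfl
    | succ n ih => rw [hsq]; show (sq n).1.1 + 1 = _; rw [ih]; ring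
  have hLs : ∀ n, L (n + 1) = nL (sq n) := fun n => by
    show (sq (n + 1)).1.2.1 = _; rw [hsq]
  have hfs : ∀ n, f (n + 1) = f n + w n := fun n => by
    show (sq (n + 1)).1.2.2 = _; rw [hsq]
  have hL20 : ∀ n, 2 ≤ L n := fun n => (hT2 _).trans (sq n).2.2.le
  have hLstep : ∀ n, 2 * L n ≤ L (n + 1) := fun n => by rw [hLs]; exact hnL (sq n)
  have hLge : ∀ n, 2 ^ n * L₀ ≤ L n := by
    intro n
    induction n with
    | zero => simp [L, sq, s₀]
    | succ n ih =>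
      calc 2 ^ (n + 1) * L₀ = 2 * (2 ^ n * L₀) := by ring
        _ ≤ 2 * L n := by gcongr
        _ ≤ L (n + 1) := hLstep n
  have hL₀n : ∀ n, L₀ ≤ L n := by
    intro n
    have h1 : (1:ℝ) ≤ 2 ^ n := one_le_pow₀ (by norm_num)
    calc L₀ = 1 * L₀ := by ring
      _ ≤ 2 ^ n * L₀ := by gcongr
      _ ≤ L n := hLge n
  have hw : ∀ n, ContDiff ℝ ∞ (w n) := fun n => hnw _
  have hw0 : ∀ n x, x ∉ W → w n x = 0 := fun n x hx => hnw0 _ x hx
  have hwb : ∀ n j, j < k₀ + n → ∀ x, ‖iteratedFDeriv ℝ j (w n) x‖ ≤ 2 / L n - 2 / L (n + 1) := by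
    intro n j hj x
    rw [hLs]
    exact hnb (sq n) j (by rw [hk]; exact hj) x
  have hwb' : ∀ n j, j < k₀ + n → ∀ x, ‖iteratedFDeriv ℝ j (w n) x‖ ≤ 2 / L₀ * (1 / 2) ^ n := by
    intro n j hj x
    have h1 := hwb n j hj x
    have h2 : 0 ≤ 2 / L (n + 1) := by have := hL20 (n + 1); positivity
    have h3 : 2 / L n ≤ 2 / L₀ * (1 / 2) ^ n := by
      have h4 := hL20 n
      rw [one_div, inv_pow, ← div_eq_mul_inv, div_div, div_le_div_iff₀ (by linarith) (by positivity)]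
      have := hLge n
      nlinarith
    linarith
  have hf0 : f 0 = f₀ := rfl
  have hfsum : ∀ n, f n = f₀ + ∑ i ∈ Finset.range n, w i := by
    intro n
    induction n with
    | zero => simp [hf0]
    | succ n ih => rw [hfs, ih, Finset.sum_range_succ, add_assoc]
  have hsummable : Summable (fun n : ℕ => 2 / L₀ * (1 / 2 : ℝ) ^ n) :=
    (summable_geometric_of_lt_one (by norm_num) (by norm_num)).mul_left _
  have htsum : ∑' n : ℕ, 2 / L₀ * (1 / 2 : ℝ) ^ n = 4 / L₀ := by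
    rw [tsum_mul_left, tsum_geometric_of_lt_one (by norm_num) (by norm_num)]
    norm_num; ring
  let Wf : X → V := fun x => ∑' n, w n x
  have hWf : ContDiff ℝ ∞ Wf := by
    apply contDiff_tsum_of_eventually (𝕜 := ℝ) (N := (⊤ : ℕ∞)) (v := fun _ n => 2 / L₀ * (1 / 2 : ℝ) ^ n)
      (fun n => hw n) (fun _ _ => hsummable)
    intro j _
    rw [Nat.cofinite_eq_atTop]
    filter_upwards [eventually_ge_atTop j] with n hn x
    exact hwb' n j (by omega) x
  have hWfj : ∀ j, j < k₀ → ∀ x, ‖iteratedFDeriv ℝ j Wf x‖ ≤ 4 / L₀ := by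
    intro j hj x
    have h1 := iteratedFDeriv_tsum_apply (𝕜 := ℝ) (f := w) (N := (j : ℕ∞))
      (v := fun _ n => 2 / L₀ * (1 / 2 : ℝ) ^ n)
      (fun n => (hw n).of_le (by exact_mod_cast le_top)) (fun _ _ => hsummable)
      (fun i n x hi => hwb' n i (by have : i ≤ j := by exact_mod_cast hi
                                    omega) x) (k := j) le_rfl x
    show ‖iteratedFDeriv ℝ j (fun y => ∑' n, w n y) x‖ ≤ _
    rw [h1, ← htsum]
    exact tsum_of_norm_bounded hsummable.hasSum (fun n => hwb' n j (by omega) x)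
  have hsx : ∀ x, Summable (fun n => w n x) := by
    intro x
    refine Summable.of_norm_bounded hsummable (fun n => ?_)
    have := hwb' n 0 (by omega) x
    rwa [norm_iteratedFDeriv_zero] at this
  have hfd : ∀ n x, ‖fderiv ℝ (w n) x‖ ≤ 2 / L₀ * (1 / 2) ^ n := by
    intro n x
    have := hwb' n 1 (by omega) x
    rwa [← norm_iteratedFDeriv_fderiv, norm_iteratedFDeriv_zero] at this
  have hsfd : ∀ x, Summable (fun n => fderiv ℝ (w n) x) := fun x =>
    Summable.of_norm_bounded hsummable (fun n => hfd n x)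
  have hdiff : ∀ n, Differentiable ℝ (w n) := fun n => (hw n).differentiable (by simp)
  have hfdW : ∀ x, fderiv ℝ Wf x = ∑' n, fderiv ℝ (w n) x := by
    intro x
    exact congrFun (fderiv_tsum (𝕜 := ℝ) hsummable hdiff hfd (hsx 0)) x
  refine ⟨f₀ + Wf, hf₀.add hWf, fun x hx => ?_, fun j hj x => ?_, L, f, ?_, hL₀n, fun i => ?_,
    fun i => ?_, fun x => ?_, fun x => ?_, fun j x => ?_⟩
  · simp only [Pi.add_apply, Wf]
    have : ∀ n, w n x = 0 := fun n => hw0 n x hx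
    simp [this]
  · have : f₀ + Wf - f₀ = Wf := by abel
    rw [this]; exact hWfj j hj x
  · refine tendsto_atTop_mono hLge ?_
    exact (tendsto_pow_atTop_atTop_of_one_lt (by norm_num)).atTop_mul_const hL0
  · exact (sq i).2.2.cd
  · have := (sq i).2.2.st
    rwa [hk i] at this
  · have h1 := (hsx x).hasSum.tendsto_sum_nat
    have h2 := h1.const_add (f₀ x)
    refine h2.congr (fun n => ?_)
    rw [hfsum]; simp
  · have h1 := (hsfd x).hasSum.tendsto_sum_nat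
    have h2 := h1.const_add (fderiv ℝ f₀ x)
    have hf₀d : DifferentiableAt ℝ f₀ x := (hf₀.differentiable (by simp)).differentiableAt
    have e1 : fderiv ℝ (f₀ + Wf) x = fderiv ℝ f₀ x + ∑' n, fderiv ℝ (w n) x := by
      rw [fderiv_add hf₀d ((hWf.differentiable (by simp)).differentiableAt), hfdW]
    rw [e1]
    refine h2.congr (fun n => ?_)
    rw [hfsum, fderiv_add hf₀d, fderiv_sum]
    · intro i _; exact (hdiff i).differentiableAt
    · apply DifferentiableAt.sum; intro i _; exact (hdiff i).differentiableAt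
  · -- all derivatives converge
    have hshift : ∀ i, f (i + j) = f j + ∑ l ∈ Finset.range i, w (l + j) := by
      intro i
      induction i with
      | zero => simp
      | succ i ih =>
        rw [show i + 1 + j = (i + j) + 1 by ring, hfs, ih, Finset.sum_range_succ, add_assoc]
    have hFeq : f₀ + Wf = f j + fun y => ∑' i, w (i + j) y := by
      rw [hfsum j]
      funext y
      have h1 := (hsx y).sum_add_tsum_nat_add j
      simp only [Pi.add_apply, Finset.sum_apply, Wf]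
      rw [← h1, add_assoc]
    have hs' : Summable (fun n : ℕ => 2 / L₀ * (1 / 2 : ℝ) ^ (n + j)) :=
      (summable_nat_add_iff j).2 hsummable
    have hbj : ∀ (i n : ℕ) (x : X), (i : ℕ∞) ≤ (j : ℕ∞) →
        ‖iteratedFDeriv ℝ i (w (n + j)) x‖ ≤ 2 / L₀ * (1 / 2 : ℝ) ^ (n + j) := by
      intro i n x hi
      refine hwb' (n + j) i ?_ x
      have : i ≤ j := by exact_mod_cast hi
      omega
    have h1 := iteratedFDeriv_tsum_apply (𝕜 := ℝ) (f := fun n => w (n + j)) (N := (j : ℕ∞))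
      (v := fun _ n => 2 / L₀ * (1 / 2 : ℝ) ^ (n + j))
      (fun n => (hw (n + j)).of_le (by exact_mod_cast le_top)) (fun _ _ => hs') hbj
      (k := j) le_rfl x
    have hWj : ContDiff ℝ (j : ℕ∞) (fun y => ∑' i, w (i + j) y) :=
      contDiff_tsum (𝕜 := ℝ) (fun n => (hw (n + j)).of_le (by exact_mod_cast le_top))
        (v := fun _ n => 2 / L₀ * (1 / 2 : ℝ) ^ (n + j)) (fun _ _ => hs') hbj
    have hfj : ContDiff ℝ ∞ (f j) := (sq j).2.2.cd
    have h2 : iteratedFDeriv ℝ j (f₀ + Wf) x = iteratedFDeriv ℝ j (f j) x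
        + ∑' n, iteratedFDeriv ℝ j (w (n + j)) x := by
      rw [hFeq, iteratedFDeriv_add_apply ((hfj.of_le (by exact_mod_cast le_top)).contDiffAt)
        hWj.contDiffAt, h1]
    rw [h2, ← tendsto_add_atTop_iff_nat j]
    have hsj : Summable (fun n => iteratedFDeriv ℝ j (w (n + j)) x) :=
      Summable.of_norm_bounded hs' (fun n => hbj j n x le_rfl)
    refine (hsj.hasSum.tendsto_sum_nat.const_add (iteratedFDeriv ℝ j (f j) x)).congr (fun n => ?_)
    have hcs : ContDiff ℝ ∞ (∑ l ∈ Finset.range n, w (l + j)) := by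
      have e : (∑ l ∈ Finset.range n, w (l + j)) = fun y => ∑ l ∈ Finset.range n, w (l + j) y := by
        funext y; simp
      rw [e]
      exact ContDiff.sum (fun i _ => hw (i + j))
    rw [hshift n, iteratedFDeriv_add_apply ((hfj.of_le (by exact_mod_cast le_top)).contDiffAt)
      ((hcs.of_le (by exact_mod_cast le_top)).contDiffAt),
      iteratedFDeriv_sum_apply (fun i _ => ((hw (i + j)).of_le (by exact_mod_cast le_top)).contDiffAt)]

end Crest.Agent.R216.Iter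
end

-- ▼ part R216/IterFin
section

/-!
# R216 / Theorem E: the concrete state and exactness of the limit (module ITER, part 2)
-/

namespace Crest.Agent.R216.TE

open scoped ContDiff Topology
open Filter Real

/-- `log (1/δ)` for `δ = L^{-(q k)}`. -/
noncomputable def lam (q k : ℕ) (L : ℝ) : ℝ := ((q * k : ℕ) : ℝ) * Real.log L

/-- The concrete state of the micro iteration at level `k`, scale `L`:
`f` is `f₀` where `2 λ u ≤ 1` (`λ = log (1/δ)`), and its metric is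
`f₀^*e + A² (1 - κ_λ(u)) dx₁²` up to an error `≤ δ^m` in `C⁰`. -/
structure StC (q m : ℕ) (f₀ : X2 → E4) (u A : X2 → ℝ) (k : ℕ) (L : ℝ) (f : X2 → E4) : Prop where
  eq0 : ∀ x, 2 * lam q k L * u x ≤ 1 → f x = f₀ x
  e11 : ∀ x, |inner ℝ (d1 f x) (d1 f x)
      - (inner ℝ (d1 f₀ x) (d1 f₀ x) + A x ^ 2 * (1 - Prof.kap (lam q k L) (u x)))|
      ≤ exp (-(m * lam q k L))
  e12 : ∀ x, |inner ℝ (d1 f x) (d2 f x) - inner ℝ (d1 f₀ x) (d2 f₀ x)|
      ≤ exp (-(m * lam q k L))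
  e22 : ∀ x, |inner ℝ (d2 f x) (d2 f x) - inner ℝ (d2 f₀ x) (d2 f₀ x)|
      ≤ exp (-(m * lam q k L))

lemma lam_nonneg (q k : ℕ) {L : ℝ} (hL : 1 ≤ L) : 0 ≤ lam q k L :=
  mul_nonneg (Nat.cast_nonneg _) (Real.log_nonneg hL)

lemma tendsto_lam {q : ℕ} (hq : 1 ≤ q) {k₀ : ℕ} (hk₀ : 1 ≤ k₀) {L : ℕ → ℝ}
    (hL : Tendsto L atTop atTop) : Tendsto (fun i => lam q (k₀ + i) (L i)) atTop atTop := by
  have h1 : Tendsto (fun i => Real.log (L i)) atTop atTop := tendsto_log_atTop.comp hL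
  refine tendsto_atTop_mono' _ ?_ h1
  filter_upwards [h1.eventually_ge_atTop 0] with i hi
  have h2 : (1:ℝ) ≤ ((q * (k₀ + i) : ℕ) : ℝ) := by
    have : 1 ≤ q * (k₀ + i) := Nat.mul_pos hq (by omega)
    exact_mod_cast this
  calc Real.log (L i) = 1 * Real.log (L i) := by ring
    _ ≤ _ := by unfold lam; gcongr

/-- exactness of the limit and jets outside `{u > 0}` -/
theorem exact_limit {q m k₀ : ℕ} (hq : 1 ≤ q) (hm : 1 ≤ m) (hk₀ : 1 ≤ k₀) {f₀ F : X2 → E4}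
    {u A : X2 → ℝ} (hu : Continuous u) (hA : ∀ x, u x ≤ 0 → A x = 0)
    {L : ℕ → ℝ} {f : ℕ → X2 → E4} (hL : Tendsto L atTop atTop) (hL1 : ∀ i, 1 ≤ L i)
    (hst : ∀ i, StC q m f₀ u A (k₀ + i) (L i) (f i))
    (hfd : ∀ x, Tendsto (fun i => fderiv ℝ (f i) x) atTop (𝓝 (fderiv ℝ F x)))
    (hj : ∀ j x, Tendsto (fun i => iteratedFDeriv ℝ j (f i) x) atTop
            (𝓝 (iteratedFDeriv ℝ j F x))) :
    (∀ x, (inner ℝ (d1 F x) (d1 F x) : ℝ) = inner ℝ (d1 f₀ x) (d1 f₀ x) + A x ^ 2) ∧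
    (∀ x, (inner ℝ (d1 F x) (d2 F x) : ℝ) = inner ℝ (d1 f₀ x) (d2 f₀ x)) ∧
    (∀ x, (inner ℝ (d2 F x) (d2 F x) : ℝ) = inner ℝ (d2 f₀ x) (d2 f₀ x)) ∧
    (∀ x, u x ≤ 0 → ∀ j, iteratedFDeriv ℝ j F x = iteratedFDeriv ℝ j f₀ x) := by
  have hlam := tendsto_lam hq hk₀ hL
  have hexp : Tendsto (fun i => exp (-(m * lam q (k₀ + i) (L i)))) atTop (𝓝 0) := by
    refine tendsto_exp_neg_atTop_nhds_zero.comp ?_
    have h1 : (0:ℝ) < m := by exact_mod_cast hm
    exact hlam.const_mul_atTop h1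
  have hd1 : ∀ x, Tendsto (fun i => d1 (f i) x) atTop (𝓝 (d1 F x)) := fun x =>
    (((ContinuousLinearMap.apply ℝ E4 ((1, 0) : X2)).continuous.tendsto _).comp (hfd x))
  have hd2 : ∀ x, Tendsto (fun i => d2 (f i) x) atTop (𝓝 (d2 F x)) := fun x =>
    (((ContinuousLinearMap.apply ℝ E4 ((0, 1) : X2)).continuous.tendsto _).comp (hfd x))
  have hkap : ∀ x, Tendsto (fun i => A x ^ 2 * (1 - Prof.kap (lam q (k₀ + i) (L i)) (u x)))
      atTop (𝓝 (A x ^ 2)) := by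
    intro x
    rcases le_or_gt (u x) 0 with h | h
    · rw [hA x h]; simp
    · have h1 : Tendsto (fun i => A x ^ 2 * (1 - exp (-(2 * lam q (k₀ + i) (L i))))) atTop
          (𝓝 (A x ^ 2 * (1 - 0))) := by
        refine Tendsto.const_mul _ (Tendsto.const_sub _ ?_)
        exact tendsto_exp_neg_atTop_nhds_zero.comp (hlam.const_mul_atTop (by norm_num))
      rw [sub_zero, mul_one] at h1
      refine h1.congr' ?_
      filter_upwards [hlam.eventually_ge_atTop (1 / u x)] with i hi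
      rw [Prof.kap_eq_exp]
      rw [div_le_iff₀ h] at hi
      exact hi
  refine ⟨fun x => ?_, fun x => ?_, fun x => ?_, fun x hx j => ?_⟩
  · have h1 : Tendsto (fun i => (inner ℝ (d1 (f i) x) (d1 (f i) x) : ℝ)
        - (inner ℝ (d1 f₀ x) (d1 f₀ x) + A x ^ 2 * (1 - Prof.kap (lam q (k₀ + i) (L i)) (u x))))
        atTop (𝓝 ((inner ℝ (d1 F x) (d1 F x) : ℝ) - (inner ℝ (d1 f₀ x) (d1 f₀ x) + A x ^ 2))) :=
      ((hd1 x).inner (hd1 x)).sub ((hkap x).const_add _)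
    have h2 := squeeze_zero_norm (fun i => (Real.norm_eq_abs _).le.trans ((hst i).e11 x)) hexp
    have := tendsto_nhds_unique h1 h2
    linarith
  · have h1 : Tendsto (fun i => (inner ℝ (d1 (f i) x) (d2 (f i) x) : ℝ)
        - inner ℝ (d1 f₀ x) (d2 f₀ x))
        atTop (𝓝 ((inner ℝ (d1 F x) (d2 F x) : ℝ) - inner ℝ (d1 f₀ x) (d2 f₀ x))) :=
      ((hd1 x).inner (hd2 x)).sub_const _
    have h2 := squeeze_zero_norm (fun i => (Real.norm_eq_abs _).le.trans ((hst i).e12 x)) hexp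
    have := tendsto_nhds_unique h1 h2
    linarith
  · have h1 : Tendsto (fun i => (inner ℝ (d2 (f i) x) (d2 (f i) x) : ℝ)
        - inner ℝ (d2 f₀ x) (d2 f₀ x))
        atTop (𝓝 ((inner ℝ (d2 F x) (d2 F x) : ℝ) - inner ℝ (d2 f₀ x) (d2 f₀ x))) :=
      ((hd2 x).inner (hd2 x)).sub_const _
    have h2 := squeeze_zero_norm (fun i => (Real.norm_eq_abs _).le.trans ((hst i).e22 x)) hexp
    have := tendsto_nhds_unique h1 h2
    linarith
  · have h1 : ∀ i, iteratedFDeriv ℝ j (f i) x = iteratedFDeriv ℝ j f₀ x := by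
      intro i
      have h2 : f i =ᶠ[𝓝 x] f₀ := by
        have h3 : ∀ᶠ y in 𝓝 x, 2 * lam q (k₀ + i) (L i) * u y ≤ 1 := by
          have h0 := lam_nonneg q (k₀ + i) (hL1 i)
          have hc : Tendsto (fun y => 2 * lam q (k₀ + i) (L i) * u y) (𝓝 x)
            (𝓝 (2 * lam q (k₀ + i) (L i) * u x)) := (hu.tendsto x).const_mul _
          have : 2 * lam q (k₀ + i) (L i) * u x < 1 := by
            have : 2 * lam q (k₀ + i) (L i) * u x ≤ 0 :=
              mul_nonpos_of_nonneg_of_nonpos (by linarith) hx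
            linarith
          exact (hc.eventually_lt_const this).mono (fun y hy => hy.le)
        filter_upwards [h3] with y hy using (hst i).eq0 y hy
      exact h2.iteratedFDeriv ℝ j |>.self_of_nhds
    have h2 := hj j x
    simp only [h1] at h2
    exact (tendsto_nhds_unique h2 tendsto_const_nhds)

end Crest.Agent.R216.TE
end

-- ▼ part R216/EFinDefs

/-!
# R216 / Theorem E: interfaces STAGE and MACRO (on `X2 = ℝ × ℝ`) consumed by the final assembly
`EFin.lean` (helper918).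
-/

namespace Crest.Agent.R216.TE

open scoped ContDiff Topology
open Set Filter

/-- the amplitude -/
noncomputable def ampX (u β : X2 → ℝ) (x : X2) : ℝ := expNegInvGlue (u x) * β x

/-- hypotheses on the support function `u` and the factor `β` of the amplitude -/
structure AmpHyp (u β : X2 → ℝ) : Prop where
  hu : ContDiff ℝ ∞ u
  hβ : ContDiff ℝ ∞ β
  pos : ∀ x, 0 < β x
  cpt : IsCompact (closure {x : X2 | 0 < u x})
  star : ∀ s : ℝ, 0 ≤ s → ∀ x : X2, s < u x → ∀ l ∈ Icc (0 : ℝ) 1, s < u (x.1, l * x.2)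

/-- The open condition `G` of the iteration: bounds `B` on `N` for `f₁,f₂,f₁₂,f₂₂` and
quantitative independence of `f₁,f₂,f₂₂` on `Ub = closure {u > 0}`. -/
def GC (c B : ℝ) (N Ub : Set X2) (f : X2 → E4) : Prop :=
  (∀ x ∈ N, ‖d1 f x‖ ≤ B ∧ ‖d2 f x‖ ≤ B ∧ ‖d1 (d2 f) x‖ ≤ B ∧ ‖d2 (d2 f) x‖ ≤ B) ∧
  (∀ x ∈ Ub, c ≤ gram (d2 f x) (d2 (d2 f) x) ∧
    c ≤ ‖ppr (d1 f x) (d2 f x) (d2 (d2 f) x)‖ ^ 2)

/-- **STAGE** (helper934): the one-stage statement with the concrete state `StC`.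
`ε = L^{-q}`, `δ = ε^k = L^{-qk}`, next scale `L' = L^{2q}`. -/
def StageThm (q m k₀ : ℕ) (K : ℕ → ℕ) : Prop :=
  ∀ (f₀ : X2 → E4) (u β : X2 → ℝ), ContDiff ℝ ∞ f₀ → AmpHyp u β →
    ∀ N : Set X2, IsCompact N → closure {x | 0 < u x} ⊆ interior N →
    ∀ c B : ℝ, 0 < c →
      Iter.StageHyp N {x | 0 < u x} (StC q m f₀ u (ampX u β))
        (GC c B N (closure {x | 0 < u x})) q K k₀

/-- Loop families on `X2` (same as `LoopFam` of `PSLDefs`). -/
structure LoopX (f : X2 → E4) (a : X2 → ℝ) (K : Set X2) (O : Set (X2 × ℝ))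
    (W : X2 × ℝ → ℝ → E4) : Prop where
  isOpen : IsOpen O
  mem : ∀ x ∈ K, (x, a x) ∈ O
  smooth : ContDiffOn ℝ ∞ (fun z : (X2 × ℝ) × ℝ => W z.1 z.2) (O ×ˢ univ)
  per : ∀ z ∈ O, ∀ t, W z (t + 2 * Real.pi) = W z t
  even : ∀ z ∈ O, ∀ t, W z (-t) = W z t
  mean : ∀ z ∈ O, ∫ t in (0:ℝ)..(2 * Real.pi), W z t = (2 * Real.pi) • d1 f z.1
  perp2 : ∀ z ∈ O, ∀ t, (inner ℝ (W z t) (d2 f z.1) : ℝ) = inner ℝ (d1 f z.1) (d2 f z.1)
  perp22 : ∀ z ∈ O, ∀ t,
    (inner ℝ (W z t) (d2 (d2 f) z.1) : ℝ) = inner ℝ (d1 f z.1) (d2 (d2 f) z.1)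
  norm : ∀ z ∈ O, ∀ t, (inner ℝ (W z t) (W z t) : ℝ) = inner ℝ (d1 f z.1) (d1 f z.1) + z.2 ^ 2

/-- closeness of `F` to the corrugation of `f` with loops `W`, frequency `1/ε`, offset `t0` -/
def CloseX (f : X2 → E4) (u β : X2 → ℝ) (W : X2 × ℝ → ℝ → E4) (ε t0 η : ℝ)
    (F : X2 → E4) : Prop :=
  ∀ x ∈ closure {x : X2 | 0 < u x},
    ‖d1 F x - W (x, ampX u β x) (x.1 / ε + t0)‖ ≤ η ∧
    ‖d2 F x - d2 f x‖ ≤ η ∧
    ‖d2 (d2 F) x - d2 (d2 f) x‖ ≤ η ∧
    ‖d1 (d2 F) x - d2 (fun y => W (y, ampX u β y) (x.1 / ε + t0)) x‖ ≤ η ∧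
    ‖ε • d1 (d1 F) x - deriv (fun t => W (x, ampX u β x) t) (x.1 / ε + t0)‖ ≤ η

/-- **MACRO** (helper323): the first, macroscopic, step. Amplitude
`a_mac = A √(1 - κ_λ(u))`, `λ = lam q k₀ L₀`; for arbitrarily large `L₀` (e.g. `L₀ = ε^{-2}`). -/
def MacroThm (q m k₀ K₀ : ℕ) : Prop :=
  ∀ (f₀ : X2 → E4) (u β : X2 → ℝ) (O : Set (X2 × ℝ)) (W : X2 × ℝ → ℝ → E4),
    ContDiff ℝ ∞ f₀ → AmpHyp u β →
    (∀ x ∈ closure {x | 0 < u x}, LinearIndependent ℝ ![d2 f₀ x, d2 (d2 f₀) x]) →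
    (∀ x ∈ frontier {x | 0 < u x}, LinearIndependent ℝ ![d1 f₀ x, d2 f₀ x, d2 (d2 f₀) x]) →
    LoopX f₀ (ampX u β) (closure {x | 0 < u x}) O W →
    ∀ N : Set X2, IsCompact N → ∀ η : ℝ, 0 < η → ∀ T : ℝ,
      ∃ ε : ℝ, 0 < ε ∧ ε < η ∧ ∃ L₀ : ℝ, T ≤ L₀ ∧ ∀ t0 : ℝ, ∃ f : X2 → E4,
        ContDiff ℝ ∞ f ∧ StC q m f₀ u (ampX u β) k₀ L₀ f ∧
        (∀ j, 1 ≤ j → j ≤ K₀ → ∀ x ∈ N, ‖iteratedFDeriv ℝ j f x‖ ≤ L₀ ^ j) ∧
        CloseX f₀ u β W ε t0 η f

end Crest.Agent.R216.TE
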