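import Crest.Agent.R216.EFinDefs
import Crest.Agent.R216.AlgP

/-!
# R216 / Theorem E on `X2`: final assembly from STAGE, MACRO and the iteration (helper918)
-/

namespace Crest.Agent.R216.TE

open scoped ContDiff Topology
open Set Filter

/-- Theorem E on `X2`. -/
def TheoremEX : Prop :=
  ∀ (f₀ : X2 → E4) (u β : X2 → ℝ) (O : Set (X2 × ℝ)) (W : X2 × ℝ → ℝ → E4),
    ContDiff ℝ ∞ f₀ → AmpHyp u β →
    (∀ x ∈ closure {x | 0 < u x}, LinearIndependent ℝ ![d2 f₀ x, d2 (d2 f₀) x]) →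
    (∀ x ∈ frontier {x | 0 < u x}, LinearIndependent ℝ ![d1 f₀ x, d2 f₀ x, d2 (d2 f₀) x]) →
    LoopX f₀ (ampX u β) (closure {x | 0 < u x}) O W →
    ∀ η : ℝ, 0 < η → ∃ ε : ℝ, 0 < ε ∧ ε < η ∧ ∀ t0 : ℝ, ∃ F : X2 → E4,
      ContDiff ℝ ∞ F ∧
      (∀ x, u x ≤ 0 → ∀ j, iteratedFDeriv ℝ j F x = iteratedFDeriv ℝ j f₀ x) ∧
      (∀ x, (inner ℝ (d1 F x) (d1 F x) : ℝ) = inner ℝ (d1 f₀ x) (d1 f₀ x) + ampX u β x ^ 2) ∧
      (∀ x, (inner ℝ (d1 F x) (d2 F x) : ℝ) = inner ℝ (d1 f₀ x) (d2 f₀ x)) ∧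
      (∀ x, (inner ℝ (d2 F x) (d2 F x) : ℝ) = inner ℝ (d2 f₀ x) (d2 f₀ x)) ∧
      CloseX f₀ u β W ε t0 η F

section calcu
variable {V : Type*} [NormedAddCommGroup V] [NormedSpace ℝ V]

lemma d1_smooth {f : X2 → V} (hf : ContDiff ℝ ∞ f) : ContDiff ℝ ∞ (d1 f) :=
  (hf.fderiv_right (m := ∞) (by simp)).clm_apply contDiff_const

lemma d2_smooth {f : X2 → V} (hf : ContDiff ℝ ∞ f) : ContDiff ℝ ∞ (d2 f) :=
  (hf.fderiv_right (m := ∞) (by simp)).clm_apply contDiff_const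

lemma cd_diff {f : X2 → V} (hf : ContDiff ℝ ∞ f) : Differentiable ℝ f :=
  hf.differentiable (by simp)

lemma d1_add {f g : X2 → V} (hf : ContDiff ℝ ∞ f) (hg : ContDiff ℝ ∞ g) :
    d1 (f + g) = d1 f + d1 g := by
  funext x
  simp only [d1, Pi.add_apply]
  rw [fderiv_add (cd_diff hf x) (cd_diff hg x)]; rfl

lemma d2_add {f g : X2 → V} (hf : ContDiff ℝ ∞ f) (hg : ContDiff ℝ ∞ g) :
    d2 (f + g) = d2 f + d2 g := by
  funext x
  simp only [d2, Pi.add_apply]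
  rw [fderiv_add (cd_diff hf x) (cd_diff hg x)]; rfl

lemma norm_fderiv_le {w : X2 → V} {x : X2} {b : ℝ} (h : ‖iteratedFDeriv ℝ 1 w x‖ ≤ b) :
    ‖fderiv ℝ w x‖ ≤ b := by
  rwa [← norm_iteratedFDeriv_fderiv, norm_iteratedFDeriv_zero] at h

lemma norm_fderiv2_le {w : X2 → V} {x : X2} {b : ℝ} (h : ‖iteratedFDeriv ℝ 2 w x‖ ≤ b) :
    ‖fderiv ℝ (fderiv ℝ w) x‖ ≤ b := by
  have h1 : ‖iteratedFDeriv ℝ 2 w x‖ = ‖iteratedFDeriv ℝ 1 (fderiv ℝ w) x‖ :=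
    (norm_iteratedFDeriv_fderiv).symm
  rw [h1] at h
  exact norm_fderiv_le h

lemma norm_e1 : ‖((1, 0) : X2)‖ ≤ 1 := by simp
lemma norm_e2 : ‖((0, 1) : X2)‖ ≤ 1 := by simp

lemma fderiv_apply_const {w : X2 → V} (hw : ContDiff ℝ ∞ w) (v v' : X2) (x : X2) :
    fderiv ℝ (fun y => fderiv ℝ w y v) x v' = fderiv ℝ (fderiv ℝ w) x v' v := by
  have h : DifferentiableAt ℝ (fderiv ℝ w) x :=
    ((hw.fderiv_right (m := ∞) (by simp)).differentiable (by simp)) x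
  rw [fderiv_clm_apply h (differentiableAt_const v)]
  simp

lemma norm_dd_le {w : X2 → V} (hw : ContDiff ℝ ∞ w) {x : X2} {b : ℝ}
    (h : ‖iteratedFDeriv ℝ 2 w x‖ ≤ b) (v v' : X2) (hv : ‖v‖ ≤ 1) (hv' : ‖v'‖ ≤ 1) :
    ‖fderiv ℝ (fun y => fderiv ℝ w y v) x v'‖ ≤ b := by
  rw [fderiv_apply_const hw]
  have hb := norm_fderiv2_le h
  have hb0 : 0 ≤ b := (norm_nonneg (iteratedFDeriv ℝ 2 w x)).trans h
  calc ‖fderiv ℝ (fderiv ℝ w) x v' v‖ ≤ ‖fderiv ℝ (fderiv ℝ w) x v'‖ * ‖v‖ :=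
        ContinuousLinearMap.le_opNorm _ _
    _ ≤ (‖fderiv ℝ (fderiv ℝ w) x‖ * ‖v'‖) * ‖v‖ := by
        gcongr; exact ContinuousLinearMap.le_opNorm _ _
    _ ≤ (b * 1) * 1 := by gcongr
    _ = b := by ring

lemma norm_d_le {w : X2 → V} {x : X2} {b : ℝ}
    (h : ‖iteratedFDeriv ℝ 1 w x‖ ≤ b) (v : X2) (hv : ‖v‖ ≤ 1) :
    ‖fderiv ℝ w x v‖ ≤ b := by
  have hb := norm_fderiv_le h
  have hb0 : 0 ≤ b := (norm_nonneg (iteratedFDeriv ℝ 1 w x)).trans h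
  calc ‖fderiv ℝ w x v‖ ≤ ‖fderiv ℝ w x‖ * ‖v‖ := ContinuousLinearMap.le_opNorm _ _
    _ ≤ b * 1 := by gcongr
    _ = b := by ring

end calcu

/-- perturbing a close map by a `C²`-small map. -/
lemma CloseX.add {f₀ : X2 → E4} {u β : X2 → ℝ} {W : X2 × ℝ → ℝ → E4} {ε t0 η b : ℝ}
    {f w : X2 → E4} (hf : ContDiff ℝ ∞ f) (hw : ContDiff ℝ ∞ w) (hε : 0 < ε) (hε1 : ε ≤ 1)
    (h : CloseX f₀ u β W ε t0 η f)
    (hb : ∀ j, j ≤ 2 → ∀ x, ‖iteratedFDeriv ℝ j w x‖ ≤ b) :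
    CloseX f₀ u β W ε t0 (η + b) (f + w) := by
  intro x hx
  obtain ⟨h1, h2, h3, h4, h5⟩ := h x hx
  have b1 := hb 1 (by norm_num) x
  have b2 := hb 2 (by norm_num) x
  have hb0 : 0 ≤ b := (norm_nonneg _).trans b1
  have w1 : ‖d1 w x‖ ≤ b := norm_d_le b1 _ norm_e1
  have w2 : ‖d2 w x‖ ≤ b := norm_d_le b1 _ norm_e2
  have w22 : ‖d2 (d2 w) x‖ ≤ b := norm_dd_le hw b2 _ _ norm_e2 norm_e2
  have w12 : ‖d1 (d2 w) x‖ ≤ b := norm_dd_le hw b2 _ _ norm_e2 norm_e1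
  have w11 : ‖d1 (d1 w) x‖ ≤ b := norm_dd_le hw b2 _ _ norm_e1 norm_e1
  refine ⟨?_, ?_, ?_, ?_, ?_⟩
  · rw [d1_add hf hw, Pi.add_apply]
    calc ‖d1 f x + d1 w x - W (x, ampX u β x) (x.1 / ε + t0)‖
        = ‖(d1 f x - W (x, ampX u β x) (x.1 / ε + t0)) + d1 w x‖ := by congr 1; abel
      _ ≤ _ := norm_add_le_of_le h1 w1
  · rw [d2_add hf hw, Pi.add_apply]
    calc ‖d2 f x + d2 w x - d2 f₀ x‖ = ‖(d2 f x - d2 f₀ x) + d2 w x‖ := by congr 1; abel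
      _ ≤ _ := norm_add_le_of_le h2 w2
  · rw [d2_add hf hw, d2_add (d2_smooth hf) (d2_smooth hw), Pi.add_apply]
    calc ‖d2 (d2 f) x + d2 (d2 w) x - d2 (d2 f₀) x‖
        = ‖(d2 (d2 f) x - d2 (d2 f₀) x) + d2 (d2 w) x‖ := by congr 1; abel
      _ ≤ _ := norm_add_le_of_le h3 w22
  · rw [d2_add hf hw, d1_add (d2_smooth hf) (d2_smooth hw), Pi.add_apply]
    calc ‖d1 (d2 f) x + d1 (d2 w) x - d2 (fun y => W (y, ampX u β y) (x.1 / ε + t0)) x‖
        = ‖(d1 (d2 f) x - d2 (fun y => W (y, ampX u β y) (x.1 / ε + t0)) x) + d1 (d2 w) x‖ := by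
          congr 1; abel
      _ ≤ _ := norm_add_le_of_le h4 w12
  · rw [d1_add hf hw, d1_add (d1_smooth hf) (d1_smooth hw), Pi.add_apply, smul_add]
    have h6 : ‖ε • d1 (d1 w) x‖ ≤ b := by
      rw [norm_smul, Real.norm_of_nonneg hε.le]
      calc ε * ‖d1 (d1 w) x‖ ≤ 1 * b := by gcongr
        _ = b := one_mul b
    calc ‖ε • d1 (d1 f) x + ε • d1 (d1 w) x
          - deriv (fun t => W (x, ampX u β x) t) (x.1 / ε + t0)‖
        = ‖(ε • d1 (d1 f) x - deriv (fun t => W (x, ampX u β x) t) (x.1 / ε + t0))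
          + ε • d1 (d1 w) x‖ := by congr 1; abel
      _ ≤ _ := norm_add_le_of_le h5 h6

lemma CloseX.mono {f₀ : X2 → E4} {u β : X2 → ℝ} {W : X2 × ℝ → ℝ → E4} {ε t0 η η' : ℝ}
    {f : X2 → E4} (h : CloseX f₀ u β W ε t0 η f) (hη : η ≤ η') : CloseX f₀ u β W ε t0 η' f := by
  intro x hx
  obtain ⟨h1, h2, h3, h4, h5⟩ := h x hx
  exact ⟨h1.trans hη, h2.trans hη, h3.trans hη, h4.trans hη, h5.trans hη⟩

/-! ### the quantities `gram` and `|ppr|²` -/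

/-- triples `(A,B,C)` with `gram B C > c`, `|ppr A B C|² > c` -/
def Og (c : ℝ) : Set (E4 × E4 × E4) :=
  {z | c < gram z.2.1 z.2.2 ∧ c < ‖ppr z.1 z.2.1 z.2.2‖ ^ 2}

lemma continuous_gram : Continuous (fun z : E4 × E4 × E4 => gram z.2.1 z.2.2) := by
  unfold gram; fun_prop

lemma continuousOn_ppr : ContinuousOn (fun z : E4 × E4 × E4 => ‖ppr z.1 z.2.1 z.2.2‖ ^ 2)
    {z | gram z.2.1 z.2.2 ≠ 0} := by
  have h1 : ContinuousOn (fun z : E4 × E4 × E4 => (gram z.2.1 z.2.2)⁻¹)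
      {z | gram z.2.1 z.2.2 ≠ 0} := continuous_gram.continuousOn.inv₀ (fun z hz => hz)
  unfold ppr cpr xiB xiC
  fun_prop

lemma isOpen_Og {c : ℝ} (hc : 0 ≤ c) : IsOpen (Og c) := by
  have h1 : IsOpen {z : E4 × E4 × E4 | c < gram z.2.1 z.2.2} :=
    isOpen_lt continuous_const continuous_gram
  have h2 : ContinuousOn (fun z : E4 × E4 × E4 => ‖ppr z.1 z.2.1 z.2.2‖ ^ 2)
      {z : E4 × E4 × E4 | c < gram z.2.1 z.2.2} :=
    continuousOn_ppr.mono (fun z hz => (lt_of_le_of_lt hc hz).ne')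
  have := h2.isOpen_inter_preimage h1 (isOpen_Ioi (a := c))
  exact this

lemma normsq_ppr (A B C : E4) (h : gram B C ≠ 0) :
    ‖ppr A B C‖ ^ 2 = ‖A‖ ^ 2 - ‖cpr A B C‖ ^ 2 := by
  obtain ⟨hB, hC⟩ := ppr_perp A B C h
  have h1 : (inner ℝ (ppr A B C) (cpr A B C) : ℝ) = 0 := inner_cpr_of_orth A hB hC
  have h2 : A = ppr A B C + cpr A B C := by simp [ppr]
  have h3 : ‖A‖ ^ 2 = ‖ppr A B C‖ ^ 2 + ‖cpr A B C‖ ^ 2 := by
    conv_lhs => rw [h2]
    rw [norm_add_sq_real, h1]; ring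
  linarith

lemma normsq_ppr_eq {A A' B C : E4} {s : ℝ} (h : gram B C ≠ 0)
    (hB : (inner ℝ A B : ℝ) = inner ℝ A' B) (hC : (inner ℝ A C : ℝ) = inner ℝ A' C)
    (hn : (inner ℝ A A : ℝ) = inner ℝ A' A' + s) :
    ‖ppr A B C‖ ^ 2 = ‖ppr A' B C‖ ^ 2 + s := by
  rw [normsq_ppr A B C h, normsq_ppr A' B C h]
  have h1 : cpr A B C = cpr A' B C := by simp only [cpr, hB, hC]
  rw [h1, ← real_inner_self_eq_norm_sq A, ← real_inner_self_eq_norm_sq A', hn]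
  ring

lemma ppr_ne_zero {A B C : E4} (h : LinearIndependent ℝ ![A, B, C]) : ppr A B C ≠ 0 := by
  intro h0
  have h1 : A = cpr A B C := by
    have : A - cpr A B C = 0 := h0
    exact sub_eq_zero.1 this
  -- A is in the span of B, C
  have h2 : ∃ x y : ℝ, A = x • B + y • C := by
    refine ⟨(gram B C)⁻¹ * (inner ℝ A B * inner ℝ C C - inner ℝ A C * inner ℝ B C),
      (gram B C)⁻¹ * (inner ℝ A C * inner ℝ B B - inner ℝ A B * inner ℝ B C), ?_⟩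
    conv_lhs => rw [h1]
    simp only [cpr, xiB, xiC]
    module
  obtain ⟨x, y, hxy⟩ := h2
  rw [Fintype.linearIndependent_iff] at h
  have := h ![1, -x, -y] (by
    simp only [Fin.sum_univ_three, Matrix.cons_val_zero, Matrix.cons_val_one, Matrix.cons_val]
    rw [hxy]; module) 0
  simp at this

/-- all points of `(f₁-loop, f₂, f₂₂)` over the support -/
noncomputable def tri (f₀ : X2 → E4) (u β : X2 → ℝ) (W : X2 × ℝ → ℝ → E4) (z : X2 × ℝ) : E4 × E4 × E4 :=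
  (W (z.1, ampX u β z.1) z.2, d2 f₀ z.1, d2 (d2 f₀) z.1)

lemma ampX_smooth {u β : X2 → ℝ} (h : AmpHyp u β) : ContDiff ℝ ∞ (ampX u β) :=
  (expNegInvGlue.contDiff.comp h.hu).mul h.hβ

lemma ampX_pos {u β : X2 → ℝ} (h : AmpHyp u β) {x : X2} (hx : 0 < u x) : 0 < ampX u β x :=
  mul_pos (expNegInvGlue.pos_of_pos hx) (h.pos x)

lemma ampX_zero {u β : X2 → ℝ} {x : X2} (hx : u x ≤ 0) : ampX u β x = 0 := by
  simp [ampX, expNegInvGlue.zero_of_nonpos hx]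

lemma frontier_of {u : X2 → ℝ} (hu : Continuous u) {x : X2} (hx : x ∈ closure {x | 0 < u x})
    (h0 : u x ≤ 0) : x ∈ frontier {x | 0 < u x} := by
  rw [frontier, (isOpen_lt continuous_const hu).interior_eq]
  exact ⟨hx, by simpa using h0⟩

section consts

variable {f₀ : X2 → E4} {u β : X2 → ℝ} {O : Set (X2 × ℝ)} {W : X2 × ℝ → ℝ → E4}

lemma tri_mem (hA : AmpHyp u β)
    (h2 : ∀ x ∈ closure {x | 0 < u x}, LinearIndependent ℝ ![d2 f₀ x, d2 (d2 f₀) x])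
    (h3 : ∀ x ∈ frontier {x | 0 < u x}, LinearIndependent ℝ ![d1 f₀ x, d2 f₀ x, d2 (d2 f₀) x])
    (hL : LoopX f₀ (ampX u β) (closure {x | 0 < u x}) O W)
    {x : X2} (hx : x ∈ closure {x | 0 < u x}) (t : ℝ) :
    0 < gram (d2 f₀ x) (d2 (d2 f₀) x) ∧
    0 < ‖ppr (W (x, ampX u β x) t) (d2 f₀ x) (d2 (d2 f₀) x)‖ ^ 2 := by
  have hg : 0 < gram (d2 f₀ x) (d2 (d2 f₀) x) := (gram_pos_iff _ _).2 (h2 x hx)
  refine ⟨hg, ?_⟩
  have hO := hL.mem x hx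
  have e := normsq_ppr_eq (s := ampX u β x ^ 2) hg.ne' (hL.perp2 _ hO t) (hL.perp22 _ hO t)
    (hL.norm _ hO t)
  rw [e]
  rcases le_or_gt (u x) 0 with h0 | h0
  · have h4 : ppr (d1 f₀ x) (d2 f₀ x) (d2 (d2 f₀) x) ≠ 0 :=
      ppr_ne_zero (h3 x (frontier_of hA.hu.continuous hx h0))
    have : 0 < ‖ppr (d1 f₀ x) (d2 f₀ x) (d2 (d2 f₀) x)‖ := norm_pos_iff.2 h4
    positivity
  · have := ampX_pos hA h0
    positivity

/-- reduction of the phase to one period -/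
lemma W_red (hL : LoopX f₀ (ampX u β) (closure {x | 0 < u x}) O W) (s : ℝ) :
    ∃ s' ∈ Icc (0:ℝ) (2 * Real.pi), ∀ z ∈ O, W z s = W z s' := by
  have h0 : (0:ℝ) < 2 * Real.pi := by positivity
  refine ⟨toIcoMod h0 0 s, ?_, fun z hz => ?_⟩
  · have := toIcoMod_mem_Ico h0 0 s
    rw [zero_add] at this
    exact ⟨this.1, this.2.le⟩
  · have hper : Function.Periodic (W z) (2 * Real.pi) := hL.per z hz
    have e : s = toIcoMod h0 0 s + (toIcoDiv h0 0 s) • (2 * Real.pi) := by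
      rw [toIcoMod]; abel
    conv_lhs => rw [e]
    exact hper.zsmul _ _

lemma continuousOn_tri (hf : ContDiff ℝ ∞ f₀) (hA : AmpHyp u β)
    (hL : LoopX f₀ (ampX u β) (closure {x | 0 < u x}) O W) :
    ContinuousOn (tri f₀ u β W) (closure {x | 0 < u x} ×ˢ univ) := by
  have h1 : ContinuousOn (fun z : X2 × ℝ => W (z.1, ampX u β z.1) z.2)
      (closure {x | 0 < u x} ×ˢ univ) := by
    have hc := hL.smooth.continuousOn
    have hg : Continuous (fun z : X2 × ℝ => (((z.1, ampX u β z.1), z.2) : (X2 × ℝ) × ℝ)) := by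
      have := (ampX_smooth hA).continuous
      fun_prop
    exact hc.comp hg.continuousOn (fun z hz => ⟨hL.mem z.1 hz.1, mem_univ _⟩)
  have h2 : Continuous (d2 f₀) := (d2_smooth hf).continuous
  have h3 : Continuous (d2 (d2 f₀)) := (d2_smooth (d2_smooth hf)).continuous
  exact h1.prodMk ((h2.comp continuous_fst).prodMk (h3.comp continuous_fst)).continuousOn

lemma mixed_bound (hA : AmpHyp u β)
    (hL : LoopX f₀ (ampX u β) (closure {x | 0 < u x}) O W) :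
    ∃ M : ℝ, ∀ x ∈ closure {x | 0 < u x}, ∀ s : ℝ,
      ‖d2 (fun y => W (y, ampX u β y) s) x‖ ≤ M := by
  have hac : Continuous (fun y : X2 => (y, ampX u β y)) :=
    continuous_id.prodMk (ampX_smooth hA).continuous
  set O1 : Set X2 := {y | (y, ampX u β y) ∈ O} with hO1
  have hO1o : IsOpen O1 := hL.isOpen.preimage hac
  set G : X2 × ℝ → E4 := fun z => W (z.1, ampX u β z.1) z.2 with hG
  have hGs : ContDiffOn ℝ ∞ G (O1 ×ˢ univ) := by
    have hg : ContDiff ℝ ∞ (fun z : X2 × ℝ => (((z.1, ampX u β z.1), z.2) : (X2 × ℝ) × ℝ)) := by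
      have h1 := (ampX_smooth hA).comp (contDiff_fst (𝕜 := ℝ) (E := X2) (F := ℝ) (n := ∞))
      exact (contDiff_fst.prodMk h1).prodMk contDiff_snd
    exact hL.smooth.comp hg.contDiffOn (fun z hz => ⟨hz.1, mem_univ _⟩)
  have hopen : IsOpen (O1 ×ˢ (univ : Set ℝ)) := hO1o.prod isOpen_univ
  have hfd : ContinuousOn (fderiv ℝ G) (O1 ×ˢ univ) :=
    (hGs.fderiv_of_isOpen hopen (m := ∞) (by simp)).continuousOn
  have hval : ∀ x ∈ O1, ∀ s : ℝ, d2 (fun y => G (y, s)) x = fderiv ℝ G (x, s) ((0, 1), 0) := by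
    intro x hx s
    have h1 : DifferentiableAt ℝ G (x, s) :=
      (hGs.contDiffAt (hopen.mem_nhds ⟨hx, mem_univ _⟩)).differentiableAt (by simp)
    have h2 : HasFDerivAt (fun y : X2 => ((y, s) : X2 × ℝ)) (ContinuousLinearMap.inl ℝ X2 ℝ) x :=
      hasFDerivAt_prodMk_left x s
    have h3 := h1.hasFDerivAt.comp x h2
    have h4 : fderiv ℝ (fun y => G (y, s)) x = (fderiv ℝ G (x, s)).comp
      (ContinuousLinearMap.inl ℝ X2 ℝ) := h3.fderiv
    rw [d2, h4]; rfl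
  have hsub : closure {x | 0 < u x} ⊆ O1 := fun x hx => hL.mem x hx
  have hcomp : IsCompact (closure {x | 0 < u x} ×ˢ Icc (0:ℝ) (2 * Real.pi)) :=
    hA.cpt.prod isCompact_Icc
  have hc : ContinuousOn (fun z : X2 × ℝ => fderiv ℝ G z ((0, 1), 0))
      (closure {x | 0 < u x} ×ˢ Icc (0:ℝ) (2 * Real.pi)) :=
    (hfd.clm_apply continuousOn_const).mono (prod_mono hsub (subset_univ _))
  obtain ⟨M, hM⟩ := hcomp.exists_bound_of_continuousOn hc
  refine ⟨M, fun x hx s => ?_⟩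
  obtain ⟨s', hs', hred⟩ := W_red hL s
  have h1 : (fun y => W (y, ampX u β y) s) =ᶠ[𝓝 x] fun y => G (y, s') := by
    filter_upwards [hO1o.mem_nhds (hsub hx)] with y hy
    exact hred _ hy
  have h2 : d2 (fun y => W (y, ampX u β y) s) x = d2 (fun y => G (y, s')) x := by
    unfold d2; rw [h1.fderiv_eq]
  rw [h2, hval x (hsub hx) s']
  exact hM (x, s') ⟨hx, hs'⟩

/-- constants of the open condition from the loops. -/
lemma exists_consts (hf : ContDiff ℝ ∞ f₀) (hA : AmpHyp u β)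
    (h2 : ∀ x ∈ closure {x | 0 < u x}, LinearIndependent ℝ ![d2 f₀ x, d2 (d2 f₀) x])
    (h3 : ∀ x ∈ frontier {x | 0 < u x}, LinearIndependent ℝ ![d1 f₀ x, d2 f₀ x, d2 (d2 f₀) x])
    (hL : LoopX f₀ (ampX u β) (closure {x | 0 < u x}) O W) {N : Set X2} (hN : IsCompact N) :
    ∃ c B η₁ : ℝ, 0 < c ∧ 0 < η₁ ∧ ∀ (ε t0 : ℝ) (F : X2 → E4),
      CloseX f₀ u β W ε t0 η₁ F → (∀ x, x ∉ closure {x | 0 < u x} →
        ‖d1 F x - d1 f₀ x‖ ≤ 1 ∧ ‖d2 F x - d2 f₀ x‖ ≤ 1 ∧ ‖d1 (d2 F) x - d1 (d2 f₀) x‖ ≤ 1 ∧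
        ‖d2 (d2 F) x - d2 (d2 f₀) x‖ ≤ 1) →
      GC c B N (closure {x | 0 < u x}) F := by
  set Kc := closure {x | 0 < u x} with hKc
  have hcomp : IsCompact (Kc ×ˢ Icc (0:ℝ) (2 * Real.pi)) := hA.cpt.prod isCompact_Icc
  have hct : ContinuousOn (tri f₀ u β W) (Kc ×ˢ Icc (0:ℝ) (2 * Real.pi)) :=
    (continuousOn_tri hf hA hL).mono (prod_mono le_rfl (subset_univ _))
  have hT : IsCompact (tri f₀ u β W '' (Kc ×ˢ Icc (0:ℝ) (2 * Real.pi))) := hcomp.image_of_continuousOn hct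
  -- the positive lower bound
  have hlow : ∃ c : ℝ, 0 < c ∧ tri f₀ u β W '' (Kc ×ˢ Icc (0:ℝ) (2 * Real.pi)) ⊆ Og c := by
    have hg : ContinuousOn (fun z : E4 × E4 × E4 => min (gram z.2.1 z.2.2)
        (‖ppr z.1 z.2.1 z.2.2‖ ^ 2)) (tri f₀ u β W '' (Kc ×ˢ Icc (0:ℝ) (2 * Real.pi))) := by
      refine ContinuousOn.inf continuous_gram.continuousOn (continuousOn_ppr.mono ?_)
      rintro z ⟨⟨x, t⟩, ⟨hx, ht⟩, rfl⟩
      exact (tri_mem hA h2 h3 hL hx t).1.ne'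
    rcases (tri f₀ u β W '' (Kc ×ˢ Icc (0:ℝ) (2 * Real.pi))).eq_empty_or_nonempty with he | hne
    · exact ⟨1, one_pos, by rw [he]; exact empty_subset _⟩
    · obtain ⟨z₀, hz₀, hmin⟩ := hT.exists_isMinOn hne hg
      have hpos : 0 < min (gram z₀.2.1 z₀.2.2) (‖ppr z₀.1 z₀.2.1 z₀.2.2‖ ^ 2) := by
        obtain ⟨⟨x, t⟩, ⟨hx, ht⟩, rfl⟩ := hz₀
        exact lt_min (tri_mem hA h2 h3 hL hx t).1 (tri_mem hA h2 h3 hL hx t).2
      refine ⟨min (gram z₀.2.1 z₀.2.2) (‖ppr z₀.1 z₀.2.1 z₀.2.2‖ ^ 2) / 2, by positivity,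
        fun z hz => ?_⟩
      have h4 : min (gram z₀.2.1 z₀.2.2) (‖ppr z₀.1 z₀.2.1 z₀.2.2‖ ^ 2)
        ≤ min (gram z.2.1 z.2.2) (‖ppr z.1 z.2.1 z.2.2‖ ^ 2) := hmin hz
      have h5 := h4.trans (min_le_left _ _)
      have h6 := h4.trans (min_le_right _ _)
      exact ⟨by linarith, by linarith⟩
  obtain ⟨c, hc, hsub⟩ := hlow
  obtain ⟨η₂, hη₂, hthick⟩ := hT.exists_thickening_subset_open (isOpen_Og hc.le) hsub
  obtain ⟨M₁, hM₁⟩ := hcomp.exists_bound_of_continuousOn hct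
  obtain ⟨M₂, hM₂⟩ := mixed_bound hA hL
  have hd1 : Continuous (d1 f₀) := (d1_smooth hf).continuous
  have hd2 : Continuous (d2 f₀) := (d2_smooth hf).continuous
  have hd12 : Continuous (d1 (d2 f₀)) := (d1_smooth (d2_smooth hf)).continuous
  have hd22 : Continuous (d2 (d2 f₀)) := (d2_smooth (d2_smooth hf)).continuous
  obtain ⟨N₁, hN₁⟩ := hN.exists_bound_of_continuousOn hd1.continuousOn
  obtain ⟨N₂, hN₂⟩ := hN.exists_bound_of_continuousOn hd2.continuousOn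
  obtain ⟨N₃, hN₃⟩ := hN.exists_bound_of_continuousOn hd12.continuousOn
  obtain ⟨N₄, hN₄⟩ := hN.exists_bound_of_continuousOn hd22.continuousOn
  set η₁ : ℝ := min (η₂ / 2) 1 with hη₁
  have hη₁0 : 0 < η₁ := by positivity
  have hη₁1 : η₁ ≤ 1 := min_le_right _ _
  have hη₁2 : η₁ < η₂ := lt_of_le_of_lt (min_le_left _ _) (by linarith)
  refine ⟨c, |M₁| + |M₂| + |N₁| + |N₂| + |N₃| + |N₄| + 1, η₁, hc, hη₁0, fun ε t0 F hclose hout => ?_⟩
  have habs1 := le_abs_self M₁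
  have habs2 := le_abs_self M₂
  have habs3 := le_abs_self N₁
  have habs4 := le_abs_self N₂
  have habs5 := le_abs_self N₃
  have habs6 := le_abs_self N₄
  have p1 := abs_nonneg M₁
  have p2 := abs_nonneg M₂
  have p3 := abs_nonneg N₁
  have p4 := abs_nonneg N₂
  have p5 := abs_nonneg N₃
  have p6 := abs_nonneg N₄
  have key : ∀ x ∈ Kc, ∃ z ∈ Kc ×ˢ Icc (0:ℝ) (2 * Real.pi),
      dist ((d1 F x, d2 F x, d2 (d2 F) x) : E4 × E4 × E4) (tri f₀ u β W z) ≤ η₁ := by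
    intro x hx
    obtain ⟨k1, k2, k3, -, -⟩ := hclose x hx
    obtain ⟨s', hs', hred⟩ := W_red hL (x.1 / ε + t0)
    refine ⟨(x, s'), ⟨hx, hs'⟩, ?_⟩
    rw [hred _ (hL.mem x hx)] at k1
    simp only [tri, dist_eq_norm]
    exact max_le k1 (max_le k2 k3)
  refine ⟨fun x hx => ?_, fun x hx => ?_⟩
  · by_cases hxK : x ∈ Kc
    · obtain ⟨z, hz, hd⟩ := key x hxK
      obtain ⟨k1, k2, k3, k4, -⟩ := hclose x hxK
      have hb := hM₁ z hz
      have hb1 : ‖(tri f₀ u β W z).1‖ ≤ M₁ := (norm_fst_le _).trans hb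
      have hb2 : ‖(tri f₀ u β W z).2.1‖ ≤ M₁ := (norm_fst_le _).trans ((norm_snd_le _).trans hb)
      have hb3 : ‖(tri f₀ u β W z).2.2‖ ≤ M₁ := (norm_snd_le _).trans ((norm_snd_le _).trans hb)
      rw [Prod.dist_eq, Prod.dist_eq] at hd
      have e1 : dist (d1 F x) (tri f₀ u β W z).1 ≤ η₁ := (le_max_left _ _).trans hd
      have e2 : dist (d2 F x) (tri f₀ u β W z).2.1 ≤ η₁ :=
        (le_max_left _ _).trans ((le_max_right _ _).trans hd)
      have e3 : dist (d2 (d2 F) x) (tri f₀ u β W z).2.2 ≤ η₁ :=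
        (le_max_right _ _).trans ((le_max_right _ _).trans hd)
      rw [dist_eq_norm] at e1 e2 e3
      have f1 := norm_sub_norm_le (d1 F x) (tri f₀ u β W z).1
      have f2 := norm_sub_norm_le (d2 F x) (tri f₀ u β W z).2.1
      have f3 := norm_sub_norm_le (d2 (d2 F) x) (tri f₀ u β W z).2.2
      have f4 := norm_sub_norm_le (d1 (d2 F) x)
        (d2 (fun y => W (y, ampX u β y) (x.1 / ε + t0)) x)
      have f5 := hM₂ x hxK (x.1 / ε + t0)
      exact ⟨by linarith, by linarith, by linarith, by linarith⟩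
    · obtain ⟨g1, g2, g3, g4⟩ := hout x hxK
      have f1 := norm_sub_norm_le (d1 F x) (d1 f₀ x)
      have f2 := norm_sub_norm_le (d2 F x) (d2 f₀ x)
      have f3 := norm_sub_norm_le (d1 (d2 F) x) (d1 (d2 f₀) x)
      have f4 := norm_sub_norm_le (d2 (d2 F) x) (d2 (d2 f₀) x)
      have := hN₁ x hx
      have := hN₂ x hx
      have := hN₃ x hx
      have := hN₄ x hx
      exact ⟨by linarith, by linarith, by linarith, by linarith⟩
  · obtain ⟨z, hz, hd⟩ := key x hx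
    have hmem : ((d1 F x, d2 F x, d2 (d2 F) x) : E4 × E4 × E4) ∈ Og c := by
      apply hthick
      rw [Metric.mem_thickening_iff]
      exact ⟨_, mem_image_of_mem _ hz, lt_of_le_of_lt hd hη₁2⟩
    exact ⟨hmem.1.le, hmem.2.le⟩

end consts

/-- **Theorem E on `X2`** from one instance of STAGE + MACRO. -/
theorem theoremEX_of_pair {q m k₀ : ℕ} {K : ℕ → ℕ} (hq : 2 ≤ q) (hm : 1 ≤ m) (hk₀ : 3 ≤ k₀)
    (hStage : StageThm q m k₀ K) (hM : MacroThm q m k₀ (K k₀)) : TheoremEX := by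
  intro f₀ u β O W hf hA h2 h3 hL η hη
  -- a compact neighbourhood
  obtain ⟨N, hN, hKN⟩ := exists_compact_superset hA.cpt
  obtain ⟨c, B, η₁, hc, hη₁, hconst⟩ := exists_consts hf hA h2 h3 hL hN
  have hst := hStage f₀ u β hf hA N hN hKN c B hc
  obtain ⟨T₀, hT₀, hiter⟩ := Iter.iterate hN hq hk₀ hst
  set η' : ℝ := min (min (η / 2) (η₁ / 2)) 1 with hη'
  have hη'0 : 0 < η' := by positivity
  have hη'1 : η' ≤ η / 2 := (min_le_left _ _).trans (min_le_left _ _)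
  have hη'2 : η' ≤ η₁ / 2 := (min_le_left _ _).trans (min_le_right _ _)
  have hη'3 : η' ≤ 1 := min_le_right _ _
  obtain ⟨ε, hε, hεη, L₀, hL₀, hmac⟩ := hM f₀ u β O W hf hA h2 h3 hL N hN
    η' hη'0 (max T₀ (max (8 / η) (8 / η₁)))
  have hL₀1 : T₀ ≤ L₀ := (le_max_left _ _).trans hL₀
  have hL₀2 : 8 / η ≤ L₀ := (le_max_left _ _).trans ((le_max_right _ _).trans hL₀)
  have hL₀3 : 8 / η₁ ≤ L₀ := (le_max_right _ _).trans ((le_max_right _ _).trans hL₀)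
  have hL2 : 2 ≤ L₀ := hT₀.trans hL₀1
  have hL0 : 0 < L₀ := by linarith
  refine ⟨ε, hε, by linarith, fun t0 => ?_⟩
  obtain ⟨f, hfs, hStC, hbd, hclose⟩ := hmac t0
  have hL4 : 4 / L₀ ≤ η / 2 := by
    rw [div_le_iff₀ hη] at hL₀2
    rw [div_le_iff₀ hL0]; linarith
  have hL4' : 4 / L₀ ≤ η₁ / 2 := by
    rw [div_le_iff₀ hη₁] at hL₀3
    rw [div_le_iff₀ hL0]; linarith
  have hL24 : 2 / L₀ ≤ 4 / L₀ := by gcongr; norm_num
  have hlam0 : 0 ≤ lam q k₀ L₀ := lam_nonneg q k₀ (by linarith)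
  -- `f = f₀` near points outside the closure
  have hout : ∀ x, x ∉ closure {x | 0 < u x} → ∀ y, 0 ≥ u y → f y = f₀ y := by
    intro x _ y hy
    apply hStC.eq0
    have : 2 * lam q k₀ L₀ * u y ≤ 0 := mul_nonpos_of_nonneg_of_nonpos (by linarith) hy
    linarith
  have hfe : ∀ x, x ∉ closure {x | 0 < u x} → f =ᶠ[𝓝 x] f₀ := by
    intro x hx
    filter_upwards [isClosed_closure.isOpen_compl.mem_nhds hx] with y hy
    exact hout x hx y (not_lt.1 (fun h => hy (subset_closure h)))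
  obtain ⟨F, hFs, hFout, hFf, L, fi, hLinf, hLge, hfis, hfiSt, -, hfid, hfij⟩ :=
    hiter L₀ hL₀1 f hfs hStC hbd (fun w hw hwb => by
      refine hconst ε t0 (f + w) ?_ ?_
      · have h5 := hclose.add hfs hw hε (by linarith) hwb
        exact h5.mono (by linarith)
      · intro x hx
        have he := hfe x hx
        have g1 : d1 f x = d1 f₀ x := by unfold d1; rw [he.fderiv_eq]
        have g2 : d2 f x = d2 f₀ x := by unfold d2; rw [he.fderiv_eq]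
        have he2 : d2 f =ᶠ[𝓝 x] d2 f₀ := by
          filter_upwards [he.fderiv (𝕜 := ℝ)] with y hy
          unfold d2; rw [hy]
        have g3 : d1 (d2 f) x = d1 (d2 f₀) x := by
          show fderiv ℝ (d2 f) x _ = fderiv ℝ (d2 f₀) x _
          rw [he2.fderiv_eq]
        have g4 : d2 (d2 f) x = d2 (d2 f₀) x := by
          show fderiv ℝ (d2 f) x _ = fderiv ℝ (d2 f₀) x _
          rw [he2.fderiv_eq]
        have b1 := hwb 1 (by norm_num) x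
        have b2 := hwb 2 (by norm_num) x
        have hb1 : 2 / L₀ ≤ 1 := by rw [div_le_iff₀ hL0]; linarith
        have w1 : ‖d1 w x‖ ≤ 2 / L₀ := norm_d_le b1 _ norm_e1
        have w2 : ‖d2 w x‖ ≤ 2 / L₀ := norm_d_le b1 _ norm_e2
        have w22 : ‖d2 (d2 w) x‖ ≤ 2 / L₀ := norm_dd_le hw b2 _ _ norm_e2 norm_e2
        have w12 : ‖d1 (d2 w) x‖ ≤ 2 / L₀ := norm_dd_le hw b2 _ _ norm_e2 norm_e1
        refine ⟨?_, ?_, ?_, ?_⟩
        · rw [d1_add hfs hw, Pi.add_apply, g1, add_sub_cancel_left]; linarith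
        · rw [d2_add hfs hw, Pi.add_apply, g2, add_sub_cancel_left]; linarith
        · rw [d2_add hfs hw, d1_add (d2_smooth hfs) (d2_smooth hw), Pi.add_apply, g3,
            add_sub_cancel_left]; linarith
        · rw [d2_add hfs hw, d2_add (d2_smooth hfs) (d2_smooth hw), Pi.add_apply, g4,
            add_sub_cancel_left]; linarith)
  obtain ⟨m1, m2, m3, m4⟩ := exact_limit (q := q) (m := m) (k₀ := k₀) (by omega) hm (by omega)
    hA.hu.continuous (fun x hx => ampX_zero hx) hLinf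
    (fun i => by have := hLge i; linarith) hfiSt hfid hfij
  refine ⟨F, hFs, m4, m1, m2, m3, ?_⟩
  have hsub : ContDiff ℝ ∞ (F - f) := hFs.sub hfs
  have h6 : CloseX f₀ u β W ε t0 (η' + 4 / L₀) (f + (F - f)) :=
    hclose.add hfs hsub hε (by linarith) (fun j hj x => hFf j (by omega) x)
  rw [add_sub_cancel] at h6
  exact h6.mono (by linarith)


end Crest.Agent.R216.TE
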