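import Crest.Agent.R216.PSLAux
import Crest.Agent.R216.PSLDefs

-- ▼ part R216/PSLRot
section

/-!
Row 216, PSL: facts on rotated loop families (helper920).
-/

set_option autoImplicit false

noncomputable section

open scoped Manifold ContDiff Topology
open Set MeasureTheory

namespace Crest.Agent.R216.PSL.Asm

lemma cd2 {f : P2 → P4} (hf : ContDiff ℝ ∞ f) (x : P2) : ContDiffAt ℝ 2 f x :=
  (hf.of_le (WithTop.coe_le_coe.2 le_top)).contDiffAt

/-! ### two facts on curves -/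

lemma inner_deriv_zero {g : ℝ → P4} {s : ℝ} {V : P4} {c : ℝ} (hg : DifferentiableAt ℝ g s)
    (h : ∀ᶠ s' in 𝓝 s, inner ℝ (g s') V = c) : inner ℝ (deriv g s) V = 0 := by
  have h1 : HasDerivAt (fun s' => inner ℝ (g s') V) (inner ℝ (g s) (0 : P4) + inner ℝ (deriv g s) V) s :=
    hg.hasDerivAt.inner ℝ (hasDerivAt_const s V)
  have h2 : HasDerivAt (fun s' => inner ℝ (g s') V) 0 s :=
    (hasDerivAt_const s c).congr_of_eventuallyEq h
  have := h1.unique h2
  simpa using this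

lemma inner_deriv_self_zero {g : ℝ → P4} {s : ℝ} {c : ℝ} (hg : DifferentiableAt ℝ g s)
    (h : ∀ᶠ s' in 𝓝 s, inner ℝ (g s') (g s') = c) : inner ℝ (deriv g s) (g s) = 0 := by
  have h1 : HasDerivAt (fun s' => inner ℝ (g s') (g s'))
      (inner ℝ (g s) (deriv g s) + inner ℝ (deriv g s) (g s)) s :=
    hg.hasDerivAt.inner ℝ hg.hasDerivAt
  have h2 : HasDerivAt (fun s' => inner ℝ (g s') (g s')) 0 s :=
    (hasDerivAt_const s c).congr_of_eventuallyEq h
  have h3 := h1.unique h2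
  rw [real_inner_comm (deriv g s) (g s)] at h3
  linarith

/-- a continuous loop on the sphere of radius `|m|` whose mean is `m` is constant -/
lemma loop_const {g : ℝ → P4} {m : P4} (hg : Continuous g)
    (hper : ∀ t, g (t + 2 * Real.pi) = g t)
    (hmean : ∫ t in (0:ℝ)..(2 * Real.pi), g t = (2 * Real.pi) • m)
    (hnorm : ∀ t, inner ℝ (g t) (g t) = inner ℝ m m) (t : ℝ) : g t = m := by
  have hpi := Real.pi_pos
  have h2pi : (0:ℝ) < 2 * Real.pi := by positivity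
  have hint : ∫ t in (0:ℝ)..(2 * Real.pi), inner ℝ m (g t) = ∫ t in (0:ℝ)..(2 * Real.pi), inner ℝ m m := by
    have h1 : ∫ t in (0:ℝ)..(2 * Real.pi), inner ℝ m (g t) =
        inner ℝ m (∫ t in (0:ℝ)..(2 * Real.pi), g t) := by
      have := (innerSL ℝ m).intervalIntegral_comp_comm (hg.intervalIntegrable (μ := volume) 0 (2 * Real.pi))
      simpa using this
    rw [h1, hmean, inner_smul_right, intervalIntegral.integral_const]
    simp
  have hle : ∀ t, inner ℝ m (g t) ≤ inner ℝ m m := by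
    intro t
    have h := real_inner_le_norm m (g t)
    have h' : ‖g t‖ = ‖m‖ := by
      have := hnorm t
      rw [real_inner_self_eq_norm_sq, real_inner_self_eq_norm_sq] at this
      exact (sq_eq_sq₀ (norm_nonneg _) (norm_nonneg _)).1 this
    rw [h'] at h
    rw [real_inner_self_eq_norm_sq]
    linarith [sq (‖m‖)]
  have hkey : ∀ t ∈ Icc (0:ℝ) (2 * Real.pi), g t = m := by
    intro t ht
    by_contra hne
    have hlt : inner ℝ m (g t) < inner ℝ m m := by
      have h1 : 0 < ‖g t - m‖ ^ 2 := by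
        have := norm_pos_iff.2 (sub_ne_zero.2 hne)
        positivity
      have h2 : ‖g t - m‖ ^ 2 = inner ℝ (g t) (g t) - 2 * inner ℝ m (g t) + inner ℝ m m := by
        rw [← real_inner_self_eq_norm_sq, inner_sub_left, inner_sub_right, inner_sub_right,
          real_inner_comm m (g t)]
        ring
      rw [h2, hnorm t] at h1
      linarith
    have := intervalIntegral.integral_lt_integral_of_continuousOn_of_le_of_exists_lt
      (f := fun t => inner ℝ m (g t)) (g := fun _ => inner ℝ m m) h2pi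
      (by fun_prop) (by fun_prop) (fun x _ => hle x) ⟨t, ht, hlt⟩
    rw [hint] at this
    exact lt_irrefl _ this
  have hper' : Function.Periodic g (2 * Real.pi) := hper
  obtain ⟨s, hs, hgs⟩ := hper'.exists_mem_Ico₀ h2pi t
  rw [hgs]
  exact hkey s ⟨hs.1, hs.2.le⟩

/-! ### linear algebra -/

/-- on the loops, `w`, `f₂`, `f₂₂` are independent -/
lemma indep_of_circle {w A B C : P4} {s : ℝ} (hBC : LinearIndependent ℝ ![B, C])
    (h2 : inner ℝ w B = inner ℝ A B) (h22 : inner ℝ w C = inner ℝ A C)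
    (hn : inner ℝ w w = inner ℝ A A + s ^ 2)
    (h0 : s = 0 → LinearIndependent ℝ ![A, B, C]) : LinearIndependent ℝ ![w, B, C] := by
  rw [show (![w, B, C] : Fin 3 → P4) = Fin.cons w ![B, C] from rfl, linearIndependent_finCons]
  refine ⟨hBC, ?_⟩
  intro hw
  have hspan : Submodule.span ℝ (Set.range ![B, C]) = Submodule.span ℝ {B, C} := by
    congr 1
    ext x
    simp [Matrix.range_cons, Matrix.range_empty, or_comm]
  rw [hspan] at hw
  obtain ⟨p, q, hpq⟩ := Submodule.mem_span_pair.1 hw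
  have h3 : inner ℝ (A - w) w = 0 := by
    rw [← hpq, inner_add_right, inner_smul_right, inner_smul_right, inner_sub_left,
      inner_sub_left, hpq, h2, h22]
    ring
  have h4 : inner ℝ (A - w) (A - w) = - s ^ 2 := by
    have e1 : inner ℝ (A - w) (A - w) = inner ℝ A A - inner ℝ w w - 2 * inner ℝ (A - w) w := by
      simp only [inner_sub_left, inner_sub_right, real_inner_comm w A]
      ring
    rw [e1, h3, hn]
    ring
  have h5 : 0 ≤ inner ℝ (A - w) (A - w) := real_inner_self_nonneg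
  have hs : s = 0 := by nlinarith
  have h6 : A - w = 0 := by
    apply inner_self_eq_zero (𝕜 := ℝ).1
    rw [h4, hs]
    ring
  have h7 : A = w := sub_eq_zero.1 h6
  have h8 := h0 hs
  rw [show (![A, B, C] : Fin 3 → P4) = Fin.cons A ![B, C] from rfl,
    linearIndependent_finCons] at h8
  apply h8.2
  rw [hspan, h7]
  exact hw

lemma indep_f2_f22 {A B C : P4} (hAB : LinearIndependent ℝ ![A, B])
    (hg : inner ℝ C A * inner ℝ B B - inner ℝ C B * inner ℝ A B ≠ 0) :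
    LinearIndependent ℝ ![B, C] := by
  rw [LinearIndependent.pair_iff]
  intro s t hst
  have hB : B ≠ 0 := by
    intro h
    have := hAB.ne_zero 1
    simp [h] at this
  by_cases ht : t = 0
  · subst ht
    simp only [zero_smul, add_zero] at hst
    exact ⟨(smul_eq_zero.1 hst).resolve_right hB, rfl⟩
  · exfalso
    apply hg
    have hC : C = (-(t⁻¹ * s)) • B := by
      have : t • C = -(s • B) := by
        rw [eq_neg_iff_add_eq_zero, add_comm]
        exact hst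
      calc C = t⁻¹ • (t • C) := by rw [smul_smul, inv_mul_cancel₀ ht, one_smul]
        _ = _ := by rw [this]; module
    rw [hC, real_inner_smul_left, real_inner_smul_left, real_inner_comm A B]
    ring


/-! ### calculus of a rotated loop family along the amplitude -/

section rot
variable {f : P2 → P4} {a : P2 → ℝ} {K : Set P2} {O : Set (P2 × ℝ × ℝ)}
  {W : P2 × ℝ × ℝ → ℝ → P4}

/-- the loop family evaluated along the amplitude `a` -/
def Phi (a : P2 → ℝ) (W : P2 × ℝ × ℝ → ℝ → P4) : P2 × ℝ × ℝ → P4 :=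
  fun z => W (z.1, a z.1, z.2.1) z.2.2

/-- its domain -/
def domPhi (a : P2 → ℝ) (O : Set (P2 × ℝ × ℝ)) : Set (P2 × ℝ × ℝ) :=
  {z | (z.1, a z.1, z.2.1) ∈ O}

lemma isOpen_domPhi (hO : IsOpen O) (ha : ContDiff ℝ ∞ a) : IsOpen (domPhi a O) := by
  have : Continuous fun z : P2 × ℝ × ℝ => (z.1, a z.1, z.2.1) := by
    have := ha.continuous
    fun_prop
  exact hO.preimage this

lemma contDiffOn_Phi (h : RLoop f a K O W) (ha : ContDiff ℝ ∞ a) :
    ContDiffOn ℝ ∞ (Phi a W) (domPhi a O) := by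
  have h1 : ContDiff ℝ ∞ (fun z : P2 × ℝ × ℝ => (((z.1, a z.1, z.2.1) : P2 × ℝ × ℝ), z.2.2)) := by
    fun_prop
  exact h.smooth.comp h1.contDiffOn (fun z hz => ⟨hz, mem_univ _⟩)

lemma hasFDerivAt_Phi (h : RLoop f a K O W) (ha : ContDiff ℝ ∞ a) {z : P2 × ℝ × ℝ}
    (hz : z ∈ domPhi a O) : HasFDerivAt (Phi a W) (fderiv ℝ (Phi a W) z) z := by
  have h1 := (contDiffOn_Phi h ha).contDiffAt ((isOpen_domPhi h.isOpen ha).mem_nhds hz)
  exact (h1.differentiableAt (by simp)).hasFDerivAt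

/-- partial derivative in `x₂` at fixed `ϑ` -/
def Phi2 (a : P2 → ℝ) (W : P2 × ℝ × ℝ → ℝ → P4) : P2 × ℝ × ℝ → P4 :=
  fun z => fderiv ℝ (Phi a W) z (e2, 0, 0)
/-- partial derivative in `ϑ` -/
def PhiT (a : P2 → ℝ) (W : P2 × ℝ × ℝ → ℝ → P4) : P2 × ℝ × ℝ → P4 :=
  fun z => fderiv ℝ (Phi a W) z (0, 1, 0)
/-- partial derivative in `t` -/
def Phit (a : P2 → ℝ) (W : P2 × ℝ × ℝ → ℝ → P4) : P2 × ℝ × ℝ → P4 :=
  fun z => fderiv ℝ (Phi a W) z (0, 0, 1)

lemma continuousOn_fderiv_Phi (h : RLoop f a K O W) (ha : ContDiff ℝ ∞ a) (v : P2 × ℝ × ℝ) :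
    ContinuousOn (fun z => fderiv ℝ (Phi a W) z v) (domPhi a O) := by
  have h1 := (contDiffOn_Phi h ha).continuousOn_fderiv_of_isOpen (isOpen_domPhi h.isOpen ha)
    (by simp)
  exact h1.clm_apply continuousOn_const

lemma deriv_theta (h : RLoop f a K O W) (ha : ContDiff ℝ ∞ a) {x : P2} {ϑ t : ℝ}
    (hz : (x, ϑ, t) ∈ domPhi a O) :
    HasDerivAt (fun s : ℝ => W (x, a x, s) t) (PhiT a W (x, ϑ, t)) ϑ := by
  have h1 := hasFDerivAt_Phi h ha hz
  have h2 : HasDerivAt (fun s : ℝ => ((x, s, t) : P2 × ℝ × ℝ)) (0, 1, 0) ϑ :=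
    (hasDerivAt_const ϑ x).prodMk ((hasDerivAt_id ϑ).prodMk (hasDerivAt_const ϑ t))
  exact h1.comp_hasDerivAt ϑ h2

lemma deriv_time (h : RLoop f a K O W) (ha : ContDiff ℝ ∞ a) {x : P2} {ϑ t : ℝ}
    (hz : (x, ϑ, t) ∈ domPhi a O) :
    HasDerivAt (fun s : ℝ => W (x, a x, ϑ) s) (Phit a W (x, ϑ, t)) t := by
  have h1 := hasFDerivAt_Phi h ha hz
  have h2 : HasDerivAt (fun s : ℝ => ((x, ϑ, s) : P2 × ℝ × ℝ)) (0, 0, 1) t :=
    (hasDerivAt_const t x).prodMk ((hasDerivAt_const t ϑ).prodMk (hasDerivAt_id t))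
  exact h1.comp_hasDerivAt t h2

/-- derivative along a rotation function `θ` -/
lemma fderiv_along (h : RLoop f a K O W) (ha : ContDiff ℝ ∞ a) {θ : P2 → ℝ}
    (hθ : ContDiff ℝ ∞ θ) {x : P2} {t : ℝ} (hz : (x, θ x, t) ∈ domPhi a O) :
    fderiv ℝ (fun y => W (y, a y, θ y) t) x e2 =
      Phi2 a W (x, θ x, t) + (fderiv ℝ θ x e2) • PhiT a W (x, θ x, t) := by
  have h1 := hasFDerivAt_Phi h ha hz
  have hθx : HasFDerivAt θ (fderiv ℝ θ x) x :=
    (hθ.differentiable (by simp) x).hasFDerivAt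
  have h2 : HasFDerivAt (fun y : P2 => ((y, θ y, t) : P2 × ℝ × ℝ))
      ((ContinuousLinearMap.id ℝ P2).prod ((fderiv ℝ θ x).prod 0)) x :=
    (hasFDerivAt_id x).prodMk (hθx.prodMk (hasFDerivAt_const t x))
  have h3 := (h1.comp x h2).fderiv
  have h4 : (Phi a W ∘ fun y : P2 => ((y, θ y, t) : P2 × ℝ × ℝ)) =
      fun y => W (y, a y, θ y) t := rfl
  rw [h4] at h3
  rw [h3]
  simp only [ContinuousLinearMap.comp_apply, ContinuousLinearMap.prod_apply,
    ContinuousLinearMap.id_apply, _root_.zero_apply, Phi2, PhiT]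
  have h5 : ((e2, (fderiv ℝ θ x) e2, (0:ℝ)) : P2 × ℝ × ℝ) =
      (e2, 0, 0) + (fderiv ℝ θ x e2) • ((0, 1, 0) : P2 × ℝ × ℝ) := by
    ext <;> simp
  rw [h5, map_add, map_smul]

/-- where `a = 0` the loops are constant -/
lemma W_const (h : RLoop f a K O W) {z : P2 × ℝ × ℝ} (hz : z ∈ O) (h0 : z.2.1 = 0) (t : ℝ) :
    W z t = d1 f z.1 e1 := by
  have hc : Continuous (W z) := by
    have h1 : ContinuousOn (fun y : (P2 × ℝ × ℝ) × ℝ => W y.1 y.2) (O ×ˢ univ) :=
      h.smooth.continuousOn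
    have h2 : ContinuousOn (fun s : ℝ => W z s) univ :=
      h1.comp (f := fun s : ℝ => ((z, s) : (P2 × ℝ × ℝ) × ℝ)) (by fun_prop)
        (fun s _ => ⟨hz, mem_univ _⟩)
    simpa [continuousOn_univ] using h2
  refine loop_const hc (h.per z hz) (h.mean z hz) ?_ t
  intro s
  rw [h.norm z hz s, h0]
  ring

/-- the `x₂` derivative of the loops where `a = 0` -/
lemma Phi2_bd (h : RLoop f a K O W) (hf : ContDiff ℝ ∞ f) (ha : ContDiff ℝ ∞ a) {x : P2} {t : ℝ}
    (hz : (x, (0:ℝ), t) ∈ domPhi a O) (h0 : a x = 0) (hda : fderiv ℝ a x = 0) :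
    Phi2 a W (x, 0, t) = d2 f x e2 e1 := by
  have hzO : (x, (0:ℝ), (0:ℝ)) ∈ O := by
    have := hz
    simp only [domPhi, mem_ofPred_eq, h0] at this
    exact this
  -- the map `g (y, α) = W (y, α, 0) t`
  have hg : HasFDerivAt (fun q : (P2 × ℝ × ℝ) × ℝ => W q.1 q.2)
      (fderiv ℝ (fun q : (P2 × ℝ × ℝ) × ℝ => W q.1 q.2) ((x, 0, 0), t)) ((x, 0, 0), t) := by
    have h1 := h.smooth.contDiffAt
      ((h.isOpen.prod isOpen_univ).mem_nhds (⟨hzO, mem_univ _⟩ : (((x, (0:ℝ), (0:ℝ)), t) :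
        (P2 × ℝ × ℝ) × ℝ) ∈ O ×ˢ univ))
    exact (h1.differentiableAt (by simp)).hasFDerivAt
  set L := fderiv ℝ (fun q : (P2 × ℝ × ℝ) × ℝ => W q.1 q.2) ((x, 0, 0), t) with hL
  -- along `a`
  have hax : HasFDerivAt a (0 : P2 →L[ℝ] ℝ) x := by
    have := (ha.differentiable (by simp) x).hasFDerivAt
    rwa [hda] at this
  have h2 : HasFDerivAt (fun y : P2 => (((y, a y, (0:ℝ)), t) : (P2 × ℝ × ℝ) × ℝ))
      (((ContinuousLinearMap.id ℝ P2).prod ((0 : P2 →L[ℝ] ℝ).prod 0)).prod 0) x :=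
    ((hasFDerivAt_id x).prodMk (hax.prodMk (hasFDerivAt_const 0 x))).prodMk (hasFDerivAt_const t x)
  have hg' : HasFDerivAt (fun q : (P2 × ℝ × ℝ) × ℝ => W q.1 q.2) L
      ((fun y : P2 => (((y, a y, (0:ℝ)), t) : (P2 × ℝ × ℝ) × ℝ)) x) := by
    simpa [h0] using hg
  have h3 := hg'.comp x h2
  -- along `0`
  have h4 : HasFDerivAt (fun y : P2 => (((y, (0:ℝ), (0:ℝ)), t) : (P2 × ℝ × ℝ) × ℝ))
      (((ContinuousLinearMap.id ℝ P2).prod ((0 : P2 →L[ℝ] ℝ).prod 0)).prod 0) x :=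
    ((hasFDerivAt_id x).prodMk ((hasFDerivAt_const 0 x).prodMk (hasFDerivAt_const 0 x))).prodMk
      (hasFDerivAt_const t x)
  have h5 := hg.comp x h4
  -- near `x` the second function is `f₁`
  have h6 : ((fun q : (P2 × ℝ × ℝ) × ℝ => W q.1 q.2) ∘
      (fun y : P2 => (((y, (0:ℝ), (0:ℝ)), t) : (P2 × ℝ × ℝ) × ℝ))) =ᶠ[𝓝 x]
      fun y => d1 f y e1 := by
    have : ∀ᶠ y in 𝓝 x, ((y, (0:ℝ), (0:ℝ)) : P2 × ℝ × ℝ) ∈ O := by
      have hcont : Continuous fun y : P2 => ((y, (0:ℝ), (0:ℝ)) : P2 × ℝ × ℝ) := by fun_prop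
      exact hcont.continuousAt.preimage_mem_nhds (h.isOpen.mem_nhds hzO)
    filter_upwards [this] with y hy
    exact W_const h hy rfl t
  have h7 : HasFDerivAt (fun y => d1 f y e1)
      (L.comp (((ContinuousLinearMap.id ℝ P2).prod ((0 : P2 →L[ℝ] ℝ).prod 0)).prod 0)) x :=
    h5.congr_of_eventuallyEq h6.symm
  have h8 : HasFDerivAt (fun y => d1 f y e1) ((fderiv ℝ (fderiv ℝ f) x).flip e1) x := by
    have hdf : DifferentiableAt ℝ (fderiv ℝ f) x :=
      ((cd2 hf x).fderiv_right (m := 1) (by norm_num)).differentiableAt (by norm_num)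
    have := hdf.hasFDerivAt.clm_apply (hasFDerivAt_const e1 x)
    simpa [d1] using this
  have h9 := h7.unique h8
  -- assemble
  have h10 : fderiv ℝ (fun y => W (y, a y, 0) t) x e2 = Phi2 a W (x, 0, t) := by
    have := fderiv_along h ha (θ := fun _ => 0) contDiff_const (x := x) (t := t) hz
    simpa using this
  rw [← h10]
  have h11 : fderiv ℝ (fun y => W (y, a y, 0) t) x =
      L.comp (((ContinuousLinearMap.id ℝ P2).prod ((0 : P2 →L[ℝ] ℝ).prod 0)).prod 0) := h3.fderiv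
  rw [h11, h9]
  simp [d2]

end rot

end Crest.Agent.R216.PSL.Asm
end
end

-- ▼ part R216/PSLLim0
section

/-!
Row 216, PSL (helper621): the compactness lemma `LL0` (choice of the speed).
-/

set_option autoImplicit false

noncomputable section

open scoped Manifold ContDiff Topology
open Set MeasureTheory Filter

namespace Crest.Agent.R216.PSL

namespace Lim0

lemma grpos {A B : P4} (h : LinearIndependent ℝ ![A, B]) : 0 < gr A B := by
  have hA : A ≠ 0 := by simpa using h.ne_zero 0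
  have hB : B ≠ 0 := by simpa using h.ne_zero 1
  unfold gr
  have h1 : inner ℝ A B ^ 2 ≤ inner ℝ A A * inner ℝ B B := by
    have := real_inner_mul_inner_self_le A B
    nlinarith [this]
  rcases lt_or_eq_of_le h1 with h2 | h2
  · linarith
  · exfalso
    -- equality in Cauchy-Schwarz
    have h3 : inner ℝ B B • A - inner ℝ A B • B = 0 := by
      have : inner ℝ (inner ℝ B B • A - inner ℝ A B • B) (inner ℝ B B • A - inner ℝ A B • B)
          = (0 : ℝ) := by
        simp only [inner_sub_left, inner_sub_right, real_inner_smul_left, real_inner_smul_right,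
          real_inner_comm A B]
        rw [real_inner_comm B A] at *
        linear_combination (-(inner ℝ B B)) * h2
      exact inner_self_eq_zero.mp this
    have h4 := (LinearIndependent.pair_iff.mp h) (inner ℝ B B) (-(inner ℝ A B)) (by
      rw [neg_smul, ← sub_eq_add_neg]; exact h3)
    exact hB (inner_self_eq_zero.mp h4.1)

lemma ind12 {A B C : P4} (h : LinearIndependent ℝ ![A, B, C]) : LinearIndependent ℝ ![A, B] := by
  have := h.comp (![0, 1] : Fin 2 → Fin 3) (by decide)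
  convert this using 1
  ext i
  fin_cases i <;> rfl

lemma nor_add (A B X Y : P4) : nor A B (X + Y) = nor A B X + nor A B Y := by
  unfold nor
  simp only [inner_add_left, add_mul, smul_sub, smul_add, add_smul, sub_smul, mul_smul]
  module

lemma nor_smul (A B X : P4) (c : ℝ) : nor A B (c • X) = c • nor A B X := by
  unfold nor
  simp only [real_inner_smul_left, smul_sub, smul_add, smul_smul]
  module

lemma inner_nor_of_perp {A B X Y : P4} (hA : inner ℝ Y A = 0) (hB : inner ℝ Y B = 0) :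
    inner ℝ (nor A B X) Y = inner ℝ X Y := by
  unfold nor
  rw [inner_sub_left, real_inner_smul_left, inner_add_left, real_inner_smul_left,
    real_inner_smul_left, real_inner_comm Y A, real_inner_comm Y B, hA, hB]
  ring

lemma nor_perp {A B X : P4} (h : gr A B ≠ 0) :
    inner ℝ (nor A B X) A = 0 ∧ inner ℝ (nor A B X) B = 0 := by
  have hg : inner ℝ A A * inner ℝ B B - inner ℝ A B ^ 2 ≠ 0 := h
  constructor
  · unfold nor gr
    rw [inner_sub_left, real_inner_smul_left, inner_add_left, real_inner_smul_left,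
      real_inner_smul_left, real_inner_comm A B]
    field_simp
    ring
  · unfold nor gr
    rw [inner_sub_left, real_inner_smul_left, inner_add_left, real_inner_smul_left,
      real_inner_smul_left]
    field_simp
    ring

lemma nor_ne_zero {A B C : P4} (h : LinearIndependent ℝ ![A, B, C]) : nor A B C ≠ 0 := by
  intro h0
  unfold nor at h0
  set p : ℝ := (gr A B)⁻¹ * (inner ℝ C A * inner ℝ B B - inner ℝ C B * inner ℝ A B) with hp
  set q : ℝ := (gr A B)⁻¹ * (inner ℝ C B * inner ℝ A A - inner ℝ C A * inner ℝ A B) with hq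
  have h1 : (-p) • A + (-q) • B + (1 : ℝ) • C = 0 := by
    rw [← h0, hp, hq]
    module
  have h2 := Fintype.linearIndependent_iff.mp h ![-p, -q, 1] (by
    simp only [Fin.sum_univ_three, Matrix.cons_val_zero, Matrix.cons_val_one, Matrix.cons_val]
    exact h1)
  have := h2 2
  simp at this

lemma tendsto_nor {ι : Type*} {l : Filter ι} {A B X : ι → P4} {a b x : P4}
    (hA : Tendsto A l (𝓝 a)) (hB : Tendsto B l (𝓝 b)) (hX : Tendsto X l (𝓝 x))
    (h : gr a b ≠ 0) : Tendsto (fun i => nor (A i) (B i) (X i)) l (𝓝 (nor a b x)) := by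
  unfold nor
  have hgr : Tendsto (fun i => gr (A i) (B i)) l (𝓝 (gr a b)) := by
    unfold gr
    exact ((hA.inner hA).mul (hB.inner hB)).sub ((hA.inner hB).pow 2)
  exact hX.sub ((hgr.inv₀ h).smul
    (((((hX.inner hA).mul (hB.inner hB)).sub ((hX.inner hB).mul (hA.inner hB))).smul hA).add
      ((((hX.inner hB).mul (hA.inner hA)).sub ((hX.inner hA).mul (hA.inner hB))).smul hB)))

end Lim0

open Lim0

/-- LL0: choice of the speed `L`. -/
theorem LL0 {K : Set P2} (hK : IsCompact K) {G : Set (P2 × P2)} (hG : IsCompact G)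
    (hGK : ∀ z ∈ G, z.1 ∈ K) (hGv : ∀ z ∈ G, z.2 ≠ 0) {δ : ℝ} (hδ : 0 < δ)
    {f2 f22 : P2 → P4} (hf2 : ContinuousOn f2 K) (hf22 : ContinuousOn f22 K)
    {W W2 Wϑ : P2 × ℝ × ℝ → P4}
    (hW : ContinuousOn W (K ×ˢ Icc 0 δ ×ˢ univ)) (hW2 : ContinuousOn W2 (K ×ˢ Icc 0 δ ×ˢ univ))
    (hWϑ : ContinuousOn Wϑ (K ×ˢ Icc 0 δ ×ˢ univ))
    (hper : ∀ x ∈ K, ∀ ϑ ∈ Icc 0 δ, ∀ t, W (x, ϑ, t + 2 * Real.pi) = W (x, ϑ, t) ∧
      W2 (x, ϑ, t + 2 * Real.pi) = W2 (x, ϑ, t) ∧ Wϑ (x, ϑ, t + 2 * Real.pi) = Wϑ (x, ϑ, t))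
    {κ a : P2 → ℝ} (hκ : ContinuousOn κ K) (ha : ContinuousOn a K)
    (hind : ∀ x ∈ K, ∀ ϑ ∈ Icc 0 δ, ∀ t, LinearIndependent ℝ ![W (x, ϑ, t), f2 x, f22 x])
    (hperp : ∀ x ∈ K, ∀ ϑ ∈ Icc 0 δ, ∀ t, inner ℝ (Wϑ (x, ϑ, t)) (W (x, ϑ, t)) = 0 ∧
      inner ℝ (Wϑ (x, ϑ, t)) (f2 x) = 0 ∧ inner ℝ (Wϑ (x, ϑ, t)) (f22 x) = 0)
    (hfast : ∀ x ∈ K, a x ≠ 0 → ∀ t, Real.sin t = 0 → Wϑ (x, 0, t) ≠ 0)
    (hbd : ∀ z ∈ G, a z.1 = 0 → ∀ t,
      0 < κ z.1 * (z.2 0) ^ 2 * ‖nor (W (z.1, 0, t)) (f2 z.1) (f22 z.1)‖ ^ 2 +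
        inner ℝ (nor (W (z.1, 0, t)) (f2 z.1) (z.2 0 • W2 (z.1, 0, t) + z.2 1 • f22 z.1))
          (nor (W (z.1, 0, t)) (f2 z.1) (f22 z.1)) ^ 2) :
    ∃ L0 : ℝ, 0 < L0 ∧ ∀ z ∈ G, ∀ t, (a z.1 = 0 ∨ Real.sin t = 0) →
      ∀ ϑ ∈ Icc 0 δ, ϑ ≤ 1 / L0 → ∀ s, L0 ≤ s →
      0 < κ z.1 * (z.2 0) ^ 2 + ‖nor (W (z.1, ϑ, t)) (f2 z.1)
        (z.2 0 • (W2 (z.1, ϑ, t) + s • Wϑ (z.1, ϑ, t)) + z.2 1 • f22 z.1)‖ ^ 2 := by
  by_contra hcon
  push Not at hcon
  -- bad sequence, with phases reduced to `[0, 2π]`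
  have hbad : ∀ n : ℕ, ∃ (z : P2 × P2) (t ϑ s : ℝ), z ∈ G ∧ t ∈ Icc 0 (2 * Real.pi) ∧
      (a z.1 = 0 ∨ Real.sin t = 0) ∧ ϑ ∈ Icc 0 δ ∧ ϑ ≤ 1 / ((n : ℝ) + 1) ∧ (n : ℝ) + 1 ≤ s ∧
      κ z.1 * (z.2 0) ^ 2 + ‖nor (W (z.1, ϑ, t)) (f2 z.1)
        (z.2 0 • (W2 (z.1, ϑ, t) + s • Wϑ (z.1, ϑ, t)) + z.2 1 • f22 z.1)‖ ^ 2 ≤ 0 := by
    intro n
    obtain ⟨z, hz, t, ht, ϑ, hϑ, hϑn, s, hs, hle⟩ := hcon ((n : ℝ) + 1) (by positivity)
    have hpi : (0 : ℝ) < 2 * Real.pi := by positivity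
    obtain ⟨m, hm⟩ : ∃ m : ℤ, t = toIcoMod hpi 0 t + m * (2 * Real.pi) := by
      refine ⟨toIcoDiv hpi 0 t, ?_⟩
      have := toIcoMod_add_toIcoDiv_zsmul hpi 0 t
      rw [zsmul_eq_mul] at this
      exact this.symm
    set t' := toIcoMod hpi 0 t with ht'
    have hmem : t' ∈ Ico 0 (0 + 2 * Real.pi) := toIcoMod_mem_Ico hpi 0 t
    have hx := hGK z hz
    have hP : Function.Periodic (fun t => (W (z.1, ϑ, t), W2 (z.1, ϑ, t), Wϑ (z.1, ϑ, t)))
        (2 * Real.pi) := by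
      intro t
      obtain ⟨h1, h2, h3⟩ := hper z.1 hx ϑ hϑ t
      simp only [h1, h2, h3]
    have hval := hP.int_mul m t'
    simp only [← hm, Prod.mk.injEq] at hval
    refine ⟨z, t', ϑ, s, hz, ⟨hmem.1, by linarith [hmem.2]⟩, ?_, hϑ, hϑn, hs, ?_⟩
    · rcases ht with h | h
      · exact Or.inl h
      · right
        have := Real.sin_periodic.int_mul m t'
        rw [← this, ← hm]; exact h
    · rw [← hval.1, ← hval.2.1, ← hval.2.2]; exact hle
  choose z t ϑ s hz ht hor hϑ hϑn hs hle using hbad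
  obtain ⟨p, hp, φ, hφ, hlim⟩ := (hG.prod (isCompact_Icc (a := (0:ℝ)) (b := 2 * Real.pi))
    ).tendsto_subseq (x := fun n => (z n, t n)) (fun n => ⟨hz n, ht n⟩)
  obtain ⟨⟨x0, v0⟩, t0⟩ := p
  have hzG : (x0, v0) ∈ G := hp.1
  have hxK : x0 ∈ K := hGK _ hzG
  have hzl : Tendsto (fun n => z (φ n)) atTop (𝓝 (x0, v0)) := by
    have := (continuous_fst.tendsto _).comp hlim
    exact this
  have htl : Tendsto (fun n => t (φ n)) atTop (𝓝 t0) := by
    have := (continuous_snd.tendsto _).comp hlim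
    exact this
  have hxl : Tendsto (fun n => (z (φ n)).1) atTop (𝓝 x0) := (continuous_fst.tendsto _).comp hzl
  have hvl : Tendsto (fun n => (z (φ n)).2) atTop (𝓝 v0) := (continuous_snd.tendsto _).comp hzl
  have hφn : Tendsto (fun n => ((φ n : ℕ) : ℝ) + 1) atTop atTop :=
    tendsto_atTop_add_const_right _ _ (tendsto_natCast_atTop_atTop.comp hφ.tendsto_atTop)
  have hϑl : Tendsto (fun n => ϑ (φ n)) atTop (𝓝 0) := by
    refine squeeze_zero (fun n => (hϑ (φ n)).1) (fun n => hϑn (φ n)) ?_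
    simp only [one_div]
    exact tendsto_inv_atTop_zero.comp hφn
  have hsl : Tendsto (fun n => s (φ n)) atTop atTop :=
    tendsto_atTop_mono (fun n => hs (φ n)) hφn
  have hv0l : Tendsto (fun n => (z (φ n)).2 0) atTop (𝓝 (v0 0)) :=
    ((EuclideanSpace.proj (𝕜 := ℝ) (0 : Fin 2)).continuous.tendsto v0).comp hvl
  have hv1l : Tendsto (fun n => (z (φ n)).2 1) atTop (𝓝 (v0 1)) :=
    ((EuclideanSpace.proj (𝕜 := ℝ) (1 : Fin 2)).continuous.tendsto v0).comp hvl
  -- limits of the continuous data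
  have hxK' : Tendsto (fun n => (z (φ n)).1) atTop (𝓝[K] x0) :=
    tendsto_nhdsWithin_iff.mpr ⟨hxl, Eventually.of_forall fun n => hGK _ (hz (φ n))⟩
  have h0δ : (0 : ℝ) ∈ Icc 0 δ := ⟨le_rfl, hδ.le⟩
  have hal : Tendsto (fun n => a (z (φ n)).1) atTop (𝓝 (a x0)) := (ha x0 hxK).tendsto.comp hxK'
  have hκl : Tendsto (fun n => κ (z (φ n)).1) atTop (𝓝 (κ x0)) := (hκ x0 hxK).tendsto.comp hxK'
  have hf2l : Tendsto (fun n => f2 (z (φ n)).1) atTop (𝓝 (f2 x0)) :=
    (hf2 x0 hxK).tendsto.comp hxK'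
  have hf22l : Tendsto (fun n => f22 (z (φ n)).1) atTop (𝓝 (f22 x0)) :=
    (hf22 x0 hxK).tendsto.comp hxK'
  have hcomp : Tendsto (fun n => ((z (φ n)).1, ϑ (φ n), t (φ n))) atTop
      (𝓝[K ×ˢ Icc 0 δ ×ˢ univ] (x0, 0, t0)) :=
    tendsto_nhdsWithin_iff.mpr ⟨hxl.prodMk_nhds (hϑl.prodMk_nhds htl),
      Eventually.of_forall fun n => ⟨hGK _ (hz (φ n)), hϑ (φ n), mem_univ _⟩⟩
  have hm0 : ((x0, 0, t0) : P2 × ℝ × ℝ) ∈ K ×ˢ Icc (0:ℝ) δ ×ˢ (univ : Set ℝ) :=
    ⟨hxK, h0δ, mem_univ _⟩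
  have hWl : Tendsto (fun n => W ((z (φ n)).1, ϑ (φ n), t (φ n))) atTop (𝓝 (W (x0, 0, t0))) :=
    (hW _ hm0).tendsto.comp hcomp
  have hW2l : Tendsto (fun n => W2 ((z (φ n)).1, ϑ (φ n), t (φ n))) atTop
      (𝓝 (W2 (x0, 0, t0))) := (hW2 _ hm0).tendsto.comp hcomp
  have hWϑl : Tendsto (fun n => Wϑ ((z (φ n)).1, ϑ (φ n), t (φ n))) atTop
      (𝓝 (Wϑ (x0, 0, t0))) := (hWϑ _ hm0).tendsto.comp hcomp
  have hgr0 : gr (W (x0, 0, t0)) (f2 x0) ≠ 0 := (grpos (ind12 (hind x0 hxK 0 h0δ t0))).ne'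
  have hgrn : ∀ n, gr (W ((z n).1, ϑ n, t n)) (f2 (z n).1) ≠ 0 := fun n =>
    (grpos (ind12 (hind _ (hGK _ (hz n)) _ (hϑ n) _))).ne'
  by_cases hax : a x0 = 0
  · -- boundary case
    have hnl : Tendsto (fun n => nor (W ((z (φ n)).1, ϑ (φ n), t (φ n))) (f2 (z (φ n)).1)
        (f22 (z (φ n)).1)) atTop (𝓝 (nor (W (x0, 0, t0)) (f2 x0) (f22 x0))) :=
      tendsto_nor hWl hf2l hf22l hgr0
    have hml : Tendsto (fun n => nor (W ((z (φ n)).1, ϑ (φ n), t (φ n))) (f2 (z (φ n)).1)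
        ((z (φ n)).2 0 • W2 ((z (φ n)).1, ϑ (φ n), t (φ n)) + (z (φ n)).2 1 • f22 (z (φ n)).1))
        atTop (𝓝 (nor (W (x0, 0, t0)) (f2 x0) (v0 0 • W2 (x0, 0, t0) + v0 1 • f22 x0))) :=
      tendsto_nor hWl hf2l ((hv0l.smul hW2l).add (hv1l.smul hf22l)) hgr0
    have hlimE := (((hκl.mul (hv0l.pow 2)).mul (hnl.norm.pow 2)).add ((hml.inner hnl).pow 2))
    have hpos := hbd (x0, v0) hzG hax t0
    have hev := hlimE.eventually (lt_mem_nhds hpos)
    obtain ⟨n, hn⟩ := hev.exists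
    set m := φ n with hmdef
    have hperpn := hperp _ (hGK _ (hz m)) _ (hϑ m) (t m)
    set A := W ((z m).1, ϑ m, t m)
    set B := f2 (z m).1
    set C := f22 (z m).1
    set D2 := W2 ((z m).1, ϑ m, t m)
    set T := Wϑ ((z m).1, ϑ m, t m)
    have hgr : gr A B ≠ 0 := hgrn m
    have hnp := nor_perp (X := C) hgr
    -- `⟪nor T, nor C⟫ = 0`
    have hTC : inner ℝ (nor A B T) (nor A B C) = 0 := by
      rw [inner_nor_of_perp hnp.1 hnp.2, real_inner_comm,
        inner_nor_of_perp (Y := T) hperpn.1 hperpn.2.1, real_inner_comm]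
      exact hperpn.2.2
    have hX : inner ℝ (nor A B ((z m).2 0 • (D2 + s m • T) + (z m).2 1 • C)) (nor A B C)
        = inner ℝ (nor A B ((z m).2 0 • D2 + (z m).2 1 • C)) (nor A B C) := by
      have : (z m).2 0 • (D2 + s m • T) + (z m).2 1 • C
          = ((z m).2 0 • D2 + (z m).2 1 • C) + ((z m).2 0 * s m) • T := by
        module
      rw [this, nor_add, nor_smul, inner_add_left, real_inner_smul_left, hTC]
      ring
    have hCS := abs_real_inner_le_norm
      (nor A B ((z m).2 0 • (D2 + s m • T) + (z m).2 1 • C)) (nor A B C)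
    rw [hX] at hCS
    have hCS2 : inner ℝ (nor A B ((z m).2 0 • D2 + (z m).2 1 • C)) (nor A B C) ^ 2 ≤
        ‖nor A B ((z m).2 0 • (D2 + s m • T) + (z m).2 1 • C)‖ ^ 2 * ‖nor A B C‖ ^ 2 := by
      rw [← mul_pow, ← sq_abs (inner ℝ _ _)]
      exact pow_le_pow_left₀ (abs_nonneg _) hCS 2
    have hlem := hle m
    have hsq : 0 ≤ ‖nor A B C‖ ^ 2 := by positivity
    nlinarith [mul_nonneg hsq (neg_nonneg.mpr hlem)]
  · -- interior case
    have hsin : ∀ᶠ n in atTop, Real.sin (t (φ n)) = 0 := by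
      have : ∀ᶠ n in atTop, a (z (φ n)).1 ≠ 0 := hal.eventually_ne hax
      filter_upwards [this] with n hn
      exact (hor (φ n)).resolve_left hn
    have hsin0 : Real.sin t0 = 0 := by
      have h1 : Tendsto (fun n => Real.sin (t (φ n))) atTop (𝓝 (Real.sin t0)) :=
        (Real.continuous_sin.tendsto t0).comp htl
      have h2 : Tendsto (fun n => Real.sin (t (φ n))) atTop (𝓝 0) :=
        (tendsto_const_nhds (x := (0:ℝ))).congr' (hsin.mono fun n hn => hn.symm)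
      exact tendsto_nhds_unique h1 h2
    have hT0 : Wϑ (x0, 0, t0) ≠ 0 := hfast x0 hxK hax t0 hsin0
    -- `(s |T|² + ⟨W2,T⟩)² > (|κ| + 1) |T|²` eventually
    have hTn : Tendsto (fun n => ‖Wϑ ((z (φ n)).1, ϑ (φ n), t (φ n))‖ ^ 2) atTop
        (𝓝 (‖Wϑ (x0, 0, t0)‖ ^ 2)) := hWϑl.norm.pow 2
    have hT2pos : 0 < ‖Wϑ (x0, 0, t0)‖ ^ 2 := by positivity
    have hbig : Tendsto (fun n => s (φ n) * ‖Wϑ ((z (φ n)).1, ϑ (φ n), t (φ n))‖ ^ 2 +
        inner ℝ (W2 ((z (φ n)).1, ϑ (φ n), t (φ n))) (Wϑ ((z (φ n)).1, ϑ (φ n), t (φ n))))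
        atTop atTop :=
      (hsl.atTop_mul_pos hT2pos hTn).atTop_add (hW2l.inner hWϑl)
    have hrhs : Tendsto (fun n => -κ (z (φ n)).1 * ‖Wϑ ((z (φ n)).1, ϑ (φ n), t (φ n))‖ ^ 2)
        atTop (𝓝 (-κ x0 * ‖Wϑ (x0, 0, t0)‖ ^ 2)) := hκl.neg.mul hTn
    have hev1 : ∀ᶠ n in atTop, -κ (z (φ n)).1 * ‖Wϑ ((z (φ n)).1, ϑ (φ n), t (φ n))‖ ^ 2 <
        (s (φ n) * ‖Wϑ ((z (φ n)).1, ϑ (φ n), t (φ n))‖ ^ 2 +
        inner ℝ (W2 ((z (φ n)).1, ϑ (φ n), t (φ n)))
          (Wϑ ((z (φ n)).1, ϑ (φ n), t (φ n)))) ^ 2 := by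
      have h1 := hrhs.eventually (gt_mem_nhds (lt_add_one _))
      have h2 := hbig.eventually (eventually_ge_atTop
        (1 + |(-κ x0 * ‖Wϑ (x0, 0, t0)‖ ^ 2 + 1)|))
      filter_upwards [h1, h2] with n hn1 hn2
      have h3 := le_abs_self (-κ x0 * ‖Wϑ (x0, 0, t0)‖ ^ 2 + 1)
      have h4 := abs_nonneg (-κ x0 * ‖Wϑ (x0, 0, t0)‖ ^ 2 + 1)
      nlinarith
    obtain ⟨n, hn⟩ := hev1.exists
    set m := φ n with hmdef
    have hxm := hGK _ (hz m)
    have hperpn := hperp _ hxm _ (hϑ m) (t m)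
    have hindn := hind _ hxm _ (hϑ m) (t m)
    have hlem := hle m
    have hgr := hgrn m
    have hne := hGv _ (hz m)
    set A := W ((z m).1, ϑ m, t m)
    set B := f2 (z m).1
    set C := f22 (z m).1
    set D2 := W2 ((z m).1, ϑ m, t m)
    set T := Wϑ ((z m).1, ϑ m, t m)
    set X := (z m).2 0 • (D2 + s m • T) + (z m).2 1 • C with hXdef
    by_cases hv : (z m).2 0 = 0
    · -- the direction is `e₂`
      have hv1 : (z m).2 1 ≠ 0 := by
        intro h1
        apply hne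
        ext i
        fin_cases i
        · exact hv
        · exact h1
      have hXC : X = (z m).2 1 • C := by rw [hXdef, hv]; module
      rw [hXC, hv, nor_smul] at hlem
      have h4 : (z m).2 1 • nor A B C ≠ 0 := smul_ne_zero hv1 (nor_ne_zero hindn)
      have h5 : 0 < ‖(z m).2 1 • nor A B C‖ ^ 2 := by positivity
      linarith
    · have hXT : inner ℝ (nor A B X) T = (z m).2 0 * (s m * ‖T‖ ^ 2 + inner ℝ D2 T) := by
        rw [inner_nor_of_perp hperpn.1 hperpn.2.1, hXdef, inner_add_left, real_inner_smul_left,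
          inner_add_left, real_inner_smul_left, real_inner_smul_left, real_inner_comm T C,
          hperpn.2.2, real_inner_self_eq_norm_sq]
        ring
      have hCS := abs_real_inner_le_norm (nor A B X) T
      have hCS2 : inner ℝ (nor A B X) T ^ 2 ≤ ‖nor A B X‖ ^ 2 * ‖T‖ ^ 2 := by
        rw [← mul_pow, ← sq_abs (inner ℝ _ _)]
        exact pow_le_pow_left₀ (abs_nonneg _) hCS 2
      rw [hXT, mul_pow] at hCS2
      have hv2 : 0 < ((z m).2 0) ^ 2 := by positivity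
      have h6 := mul_lt_mul_of_pos_left hn hv2
      have h7 : ‖nor A B X‖ ^ 2 * ‖T‖ ^ 2 ≤ -(κ (z m).1 * (z m).2 0 ^ 2) * ‖T‖ ^ 2 :=
        mul_le_mul_of_nonneg_right (by linarith) (by positivity)
      nlinarith

end Crest.Agent.R216.PSL
end
end

-- ▼ part R216/PSLLim1
section

/-!
Row 216, PSL-4: `LL1` (after the speed is chosen, closeness suffices) and `LLind`.
-/

set_option autoImplicit false

noncomputable section

open scoped Manifold ContDiff Topology
open Set MeasureTheory Filter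

namespace Crest.Agent.R216.PSL

namespace Lim1

/-! ### algebra of `nor` -/

lemma nor_add (A B X Y : P4) : nor A B (X + Y) = nor A B X + nor A B Y := by
  unfold nor
  simp only [inner_add_left]
  module

lemma nor_smul (A B X : P4) (c : ℝ) : nor A B (c • X) = c • nor A B X := by
  unfold nor
  simp only [real_inner_smul_left]
  module

lemma inner_nor_A {A B : P4} (h : gr A B ≠ 0) (X : P4) : inner ℝ (nor A B X) A = 0 := by
  unfold nor
  simp only [inner_sub_left, real_inner_smul_left, inner_add_left]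
  have hc : inner ℝ B A = inner ℝ A B := real_inner_comm _ _
  rw [hc]
  have h' : inner ℝ A A * inner ℝ B B - inner ℝ A B ^ 2 ≠ 0 := h
  unfold gr
  field_simp
  ring

lemma inner_nor_B {A B : P4} (h : gr A B ≠ 0) (X : P4) : inner ℝ (nor A B X) B = 0 := by
  unfold nor
  simp only [inner_sub_left, real_inner_smul_left, inner_add_left]
  have h' : inner ℝ A A * inner ℝ B B - inner ℝ A B ^ 2 ≠ 0 := h
  unfold gr
  field_simp
  ring

/-- pairing of normal parts -/
lemma inner_nor_left {A B : P4} (Y X : P4) (hA : inner ℝ Y A = 0) (hB : inner ℝ Y B = 0) :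
    inner ℝ Y (nor A B X) = inner ℝ Y X := by
  unfold nor
  simp only [inner_sub_right, real_inner_smul_right, inner_add_right, hA, hB]
  ring

lemma nor_of_perp {A B X : P4} (hA : inner ℝ X A = 0) (hB : inner ℝ X B = 0) :
    nor A B X = X := by
  unfold nor
  rw [hA, hB]
  simp

lemma nor_quad (A B X11 X12 X22 : P4) (v : P2) :
    nor A B (quad X11 X12 X22 v) =
      (v 0 ^ 2) • nor A B X11 + (2 * v 0 * v 1) • nor A B X12 + (v 1 ^ 2) • nor A B X22 := by
  unfold quad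
  rw [nor_add, nor_add, nor_smul, nor_smul, nor_smul]

lemma nor_ne_zero {A B X : P4} (h : LinearIndependent ℝ ![A, B, X]) : nor A B X ≠ 0 := by
  intro h0
  unfold nor at h0
  rw [sub_eq_zero] at h0
  obtain ⟨a, b, hX⟩ : ∃ a b : ℝ, X = a • A + b • B :=
    ⟨_, _, h0.trans (by rw [smul_add, smul_smul, smul_smul])⟩
  rw [Fintype.linearIndependent_iff] at h
  have := h ![-a, -b, 1] (by
      simp only [Fin.sum_univ_three, Matrix.cons_val_zero, Matrix.cons_val_one,
        Matrix.cons_val_two, Matrix.head_cons, Matrix.tail_cons]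
      rw [hX]
      module) 2
  simp at this

lemma gr_pos' {A B X : P4} (h : LinearIndependent ℝ ![A, B, X]) : 0 < gr A B := by
  by_contra hneg
  have h1 : inner ℝ (inner ℝ B B • A - inner ℝ A B • B) (inner ℝ B B • A - inner ℝ A B • B) =
      inner ℝ B B * gr A B := by
    simp only [inner_sub_left, inner_sub_right, real_inner_smul_left, real_inner_smul_right, gr,
      real_inner_comm A B]
    ring
  have hB : (0 : ℝ) ≤ inner ℝ B B := real_inner_self_nonneg
  have h2 : inner ℝ B B • A - inner ℝ A B • B = (0 : P4) := by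
    rw [← inner_self_eq_zero (𝕜 := ℝ)]
    refine le_antisymm ?_ real_inner_self_nonneg
    rw [h1]
    exact mul_nonpos_of_nonneg_of_nonpos hB (not_lt.1 hneg)
  rw [Fintype.linearIndependent_iff] at h
  have h3 := h ![inner ℝ B B, -inner ℝ A B, 0] (by
      simp only [Fin.sum_univ_three, Matrix.cons_val_zero, Matrix.cons_val_one,
        Matrix.cons_val_two, Matrix.head_cons, Matrix.tail_cons]
      rw [neg_smul, zero_smul, add_zero, ← sub_eq_add_neg, h2]) 0
  have h4 : inner ℝ B B = 0 := by simpa using h3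
  have hB0 : B = 0 := inner_self_eq_zero.1 h4
  have h5 := h ![0, 1, 0] (by
      simp only [Fin.sum_univ_three, Matrix.cons_val_zero, Matrix.cons_val_one,
        Matrix.cons_val_two, Matrix.head_cons, Matrix.tail_cons]
      rw [hB0]; simp) 1
  simp at h5

/-- continuity of `gr` along sequences -/
lemma tendsto_gr {ι : Type*} {l : Filter ι} {A B : ι → P4} {A0 B0 : P4}
    (hA : Tendsto A l (𝓝 A0)) (hB : Tendsto B l (𝓝 B0)) :
    Tendsto (fun n => gr (A n) (B n)) l (𝓝 (gr A0 B0)) := by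
  unfold gr
  exact ((hA.inner hA).mul (hB.inner hB)).sub ((hA.inner hB).pow 2)

/-- continuity of `nor` along sequences -/
lemma tendsto_nor {ι : Type*} {l : Filter ι} {A B X : ι → P4} {A0 B0 X0 : P4}
    (hA : Tendsto A l (𝓝 A0)) (hB : Tendsto B l (𝓝 B0)) (hX : Tendsto X l (𝓝 X0))
    (h0 : gr A0 B0 ≠ 0) :
    Tendsto (fun n => nor (A n) (B n) (X n)) l (𝓝 (nor A0 B0 X0)) := by
  unfold nor
  have hg := (tendsto_gr hA hB).inv₀ h0
  have hAA := hA.inner (𝕜 := ℝ) hA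
  have hBB := hB.inner (𝕜 := ℝ) hB
  have hAB := hA.inner (𝕜 := ℝ) hB
  have hXA := hX.inner (𝕜 := ℝ) hA
  have hXB := hX.inner (𝕜 := ℝ) hB
  exact hX.sub (hg.smul ((((hXA.mul hBB).sub (hXB.mul hAB)).smul hA).add
    (((hXB.mul hAA).sub (hXA.mul hAB)).smul hB)))

lemma tendsto_of_close {E : Type*} [SeminormedAddCommGroup E] {ι : Type*} {l : Filter ι}
    {A B : ι → E} {δ : ι → ℝ} {b : E} (hδ : Tendsto δ l (𝓝 0)) (h : ∀ n, ‖A n - B n‖ ≤ δ n)
    (hB : Tendsto B l (𝓝 b)) : Tendsto A l (𝓝 b) := by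
  have h1 : Tendsto (fun n => A n - B n) l (𝓝 0) := squeeze_zero_norm h hδ
  simpa using h1.add hB

/-- the Gauss identity for the quadratic form -/
lemma gauss_quad {A B X11 X12 X22 : P4} {κ : ℝ} (v : P2)
    (hG : inner ℝ (nor A B X11) (nor A B X22) - inner ℝ (nor A B X12) (nor A B X12) = κ) :
    inner ℝ (nor A B (quad X11 X12 X22 v)) (nor A B X22) =
      κ * v 0 ^ 2 + ‖nor A B (v 0 • X12 + v 1 • X22)‖ ^ 2 := by
  rw [nor_quad, nor_add, nor_smul, nor_smul, ← hG, ← real_inner_self_eq_norm_sq]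
  simp only [inner_add_left, inner_add_right, real_inner_smul_left, real_inner_smul_right,
    real_inner_comm (nor A B X22) (nor A B X12)]
  ring

end Lim1

open Lim1

/-- LL1': the perturbed vectors stay independent. -/
theorem LLind {K : Set P2} (hK : IsCompact K)
    {f2 f22 : P2 → P4} (hf2 : ContinuousOn f2 K) (hf22 : ContinuousOn f22 K)
    {w : P2 × ℝ → P4} (hw : ContinuousOn w (K ×ˢ univ))
    (hper : ∀ x ∈ K, ∀ t, w (x, t + 2 * Real.pi) = w (x, t))
    (hind : ∀ x ∈ K, ∀ t, LinearIndependent ℝ ![w (x, t), f2 x, f22 x]) :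
    ∃ η : ℝ, 0 < η ∧ ∀ x ∈ K, ∀ t, ∀ A B X22 : P4,
      ‖A - w (x, t)‖ ≤ η → ‖B - f2 x‖ ≤ η → ‖X22 - f22 x‖ ≤ η →
      LinearIndependent ℝ ![A, B, X22] ∧ nor A B X22 ≠ 0 := by
  set U : Set (P4 × P4 × P4) := {p | LinearIndependent ℝ ![p.1, p.2.1, p.2.2]} with hU
  have hUo : IsOpen U := by
    have h1 : IsOpen {f : Fin 3 → P4 | LinearIndependent ℝ f} := isOpen_setOfPred_linearIndependent
    refine h1.preimage (f := fun p : P4 × P4 × P4 => ![p.1, p.2.1, p.2.2]) ?_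
    refine continuous_pi fun i => ?_
    fin_cases i
    · exact continuous_fst
    · exact continuous_fst.comp continuous_snd
    · exact continuous_snd.comp continuous_snd
  set S : Set (P4 × P4 × P4) :=
    (fun z : P2 × ℝ => (w z, f2 z.1, f22 z.1)) '' (K ×ˢ Icc 0 (2 * Real.pi)) with hS
  have hScomp : IsCompact S := by
    refine (hK.prod isCompact_Icc).image_of_continuousOn ?_
    have hmaps : MapsTo (Prod.fst : P2 × ℝ → P2) (K ×ˢ Icc 0 (2 * Real.pi)) K := fun z hz => hz.1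
    exact (hw.mono (prod_mono subset_rfl (subset_univ _))).prodMk
      ((hf2.comp continuousOn_fst hmaps).prodMk (hf22.comp continuousOn_fst hmaps))
  have hSU : S ⊆ U := by
    rintro _ ⟨z, hz, rfl⟩
    exact hind z.1 hz.1 z.2
  obtain ⟨δ, hδ, hδU⟩ := hScomp.exists_cthickening_subset_open hUo hSU
  refine ⟨δ, hδ, fun x hx t A B X22 hA hB hX => ?_⟩
  have hli : LinearIndependent ℝ ![A, B, X22] := by
    obtain ⟨s, hs, hst⟩ := (show Function.Periodic (fun t => w (x, t)) (2 * Real.pi) from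
      fun t => hper x hx t).exists_mem_Ico₀ Real.two_pi_pos t
    have hmem : (A, B, X22) ∈ Metric.cthickening δ S := by
      refine Metric.mem_cthickening_of_dist_le (A, B, X22) (w (x, s), f2 x, f22 x) δ S
        ⟨(x, s), ⟨hx, hs.1, hs.2.le⟩, rfl⟩ ?_
      rw [Prod.dist_eq, Prod.dist_eq]
      simp only [dist_eq_norm]
      have hA' : ‖A - w (x, s)‖ ≤ δ := by rw [← hst]; exact hA
      exact max_le hA' (max_le hB hX)
    have h3 := hδU hmem
    rw [hU, mem_setOf_eq] at h3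
    exact h3
  exact ⟨hli, nor_ne_zero hli⟩

/-- LL1: after `L` is chosen, closeness `η` suffices. -/
theorem LL1 {K : Set P2} (hK : IsCompact K) {G : Set (P2 × P2)} (hG : IsCompact G)
    (hGK : ∀ z ∈ G, z.1 ∈ K)
    {f2 f22 : P2 → P4} (hf2 : ContinuousOn f2 K) (hf22 : ContinuousOn f22 K)
    {w w2 wt : P2 × ℝ → P4} (hw : ContinuousOn w (K ×ˢ univ)) (hw2 : ContinuousOn w2 (K ×ˢ univ))
    (hwt : ContinuousOn wt (K ×ˢ univ))
    (hper : ∀ x ∈ K, ∀ t, w (x, t + 2 * Real.pi) = w (x, t) ∧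
      w2 (x, t + 2 * Real.pi) = w2 (x, t) ∧ wt (x, t + 2 * Real.pi) = wt (x, t))
    {κ : P2 → ℝ} (hκ : ContinuousOn κ K)
    (hind : ∀ x ∈ K, ∀ t, LinearIndependent ℝ ![w (x, t), f2 x, f22 x])
    (hperp : ∀ x ∈ K, ∀ t, inner ℝ (wt (x, t)) (w (x, t)) = 0 ∧
      inner ℝ (wt (x, t)) (f2 x) = 0 ∧ inner ℝ (wt (x, t)) (f22 x) = 0)
    (hnd : ∀ z ∈ G, ∀ t, (z.2 0 = 0 ∨ wt (z.1, t) = 0) →
      0 < κ z.1 * (z.2 0) ^ 2 +
        ‖nor (w (z.1, t)) (f2 z.1) (z.2 0 • w2 (z.1, t) + z.2 1 • f22 z.1)‖ ^ 2) :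
    ∃ η : ℝ, 0 < η ∧ ∀ z ∈ G, ∀ t, ∀ A B X11 X12 X22 : P4, ∀ ε, 0 < ε → ε < η →
      ‖A - w (z.1, t)‖ ≤ η → ‖B - f2 z.1‖ ≤ η → ‖X12 - w2 (z.1, t)‖ ≤ η →
      ‖X22 - f22 z.1‖ ≤ η → ‖ε • X11 - wt (z.1, t)‖ ≤ η →
      inner ℝ (nor A B X11) (nor A B X22) - inner ℝ (nor A B X12) (nor A B X12) = κ z.1 →
      ∀ c : ℝ, 0 ≤ c → nor A B (quad X11 X12 X22 z.2) ≠ -(c • nor A B X22) := by
  by_contra hcon
  push Not at hcon
  have hex : ∀ n : ℕ, ∃ z ∈ G, ∃ t ∈ Icc 0 (2 * Real.pi), ∃ A B X11 X12 X22 : P4, ∃ ε : ℝ,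
      0 < ε ∧ ε < 1 / ((n : ℝ) + 1) ∧
      ‖A - w (z.1, t)‖ ≤ 1 / ((n : ℝ) + 1) ∧ ‖B - f2 z.1‖ ≤ 1 / ((n : ℝ) + 1) ∧
      ‖X12 - w2 (z.1, t)‖ ≤ 1 / ((n : ℝ) + 1) ∧ ‖X22 - f22 z.1‖ ≤ 1 / ((n : ℝ) + 1) ∧
      ‖ε • X11 - wt (z.1, t)‖ ≤ 1 / ((n : ℝ) + 1) ∧
      inner ℝ (nor A B X11) (nor A B X22) - inner ℝ (nor A B X12) (nor A B X12) = κ z.1 ∧
      ∃ c : ℝ, 0 ≤ c ∧ nor A B (quad X11 X12 X22 z.2) = -(c • nor A B X22) := by
    intro n
    obtain ⟨z, hz, t, A, B, X11, X12, X22, ε, h1, h2, h3, h4, h5, h6, h7, h8, c, h9, h10⟩ :=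
      hcon (1 / ((n : ℝ) + 1)) (by positivity)
    obtain ⟨s, hs, hst⟩ := (show Function.Periodic
      (fun t => (w (z.1, t), w2 (z.1, t), wt (z.1, t))) (2 * Real.pi) from fun t => by
        obtain ⟨a, b, c⟩ := hper z.1 (hGK z hz) t
        simp only [a, b, c]).exists_mem_Ico₀ Real.two_pi_pos t
    simp only [Prod.mk.injEq] at hst
    obtain ⟨e1, e2, e3⟩ := hst
    rw [e1] at h3
    rw [e2] at h5
    rw [e3] at h7
    exact ⟨z, hz, s, ⟨hs.1, hs.2.le⟩, A, B, X11, X12, X22, ε, h1, h2, h3, h4, h5, h6, h7, h8, c,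
      h9, h10⟩
  choose z hz t ht A B X11 X12 X22 ε hε0 hε1 hA hB h12 h22 h11 hgs c hc0 hc using hex
  obtain ⟨p, hp, φ, hφ, hlim⟩ := (hG.prod (isCompact_Icc (a := (0 : ℝ)) (b := 2 * Real.pi))).tendsto_subseq
    (x := fun n => (z n, t n)) (fun n => ⟨hz n, ht n⟩)
  have hzl : Tendsto (fun n => z (φ n)) atTop (𝓝 p.1) :=
    (continuous_fst.tendsto p).comp hlim
  have htl : Tendsto (fun n => t (φ n)) atTop (𝓝 p.2) :=
    (continuous_snd.tendsto p).comp hlim
  have hxl : Tendsto (fun n => (z (φ n)).1) atTop (𝓝 p.1.1) :=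
    (continuous_fst.tendsto p.1).comp hzl
  have hvl : Tendsto (fun n => (z (φ n)).2) atTop (𝓝 p.1.2) :=
    (continuous_snd.tendsto p.1).comp hzl
  have hv0 : Tendsto (fun n => (z (φ n)).2 0) atTop (𝓝 (p.1.2 0)) :=
    ((EuclideanSpace.proj (𝕜 := ℝ) (0 : Fin 2)).continuous.tendsto p.1.2).comp hvl
  have hv1 : Tendsto (fun n => (z (φ n)).2 1) atTop (𝓝 (p.1.2 1)) :=
    ((EuclideanSpace.proj (𝕜 := ℝ) (1 : Fin 2)).continuous.tendsto p.1.2).comp hvl
  have hxK : ∀ n, (z (φ n)).1 ∈ K := fun n => hGK _ (hz _)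
  have hpK : p.1.1 ∈ K := hGK _ hp.1
  have hxlK : Tendsto (fun n => (z (φ n)).1) atTop (𝓝[K] p.1.1) :=
    tendsto_nhdsWithin_iff.2 ⟨hxl, Eventually.of_forall hxK⟩
  have hxtl : Tendsto (fun n => ((z (φ n)).1, t (φ n))) atTop (𝓝[K ×ˢ univ] (p.1.1, p.2)) :=
    tendsto_nhdsWithin_iff.2 ⟨hxl.prodMk_nhds htl, Eventually.of_forall fun n => ⟨hxK n, mem_univ _⟩⟩
  have hδ : Tendsto (fun n => 1 / (((φ n : ℕ) : ℝ) + 1)) atTop (𝓝 0) :=
    tendsto_one_div_add_atTop_nhds_zero_nat.comp hφ.tendsto_atTop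
  have hAl : Tendsto (fun n => A (φ n)) atTop (𝓝 (w (p.1.1, p.2))) :=
    tendsto_of_close hδ (fun n => hA (φ n)) ((hw (p.1.1, p.2) ⟨hpK, mem_univ _⟩).tendsto.comp hxtl)
  have hBl : Tendsto (fun n => B (φ n)) atTop (𝓝 (f2 p.1.1)) :=
    tendsto_of_close hδ (fun n => hB (φ n)) ((hf2 p.1.1 hpK).tendsto.comp hxlK)
  have h12l : Tendsto (fun n => X12 (φ n)) atTop (𝓝 (w2 (p.1.1, p.2))) :=
    tendsto_of_close hδ (fun n => h12 (φ n)) ((hw2 (p.1.1, p.2) ⟨hpK, mem_univ _⟩).tendsto.comp hxtl)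
  have h22l : Tendsto (fun n => X22 (φ n)) atTop (𝓝 (f22 p.1.1)) :=
    tendsto_of_close hδ (fun n => h22 (φ n)) ((hf22 p.1.1 hpK).tendsto.comp hxlK)
  have h11l : Tendsto (fun n => ε (φ n) • X11 (φ n)) atTop (𝓝 (wt (p.1.1, p.2))) :=
    tendsto_of_close hδ (fun n => h11 (φ n)) ((hwt (p.1.1, p.2) ⟨hpK, mem_univ _⟩).tendsto.comp hxtl)
  have hκl : Tendsto (fun n => κ (z (φ n)).1) atTop (𝓝 (κ p.1.1)) :=
    (hκ p.1.1 hpK).tendsto.comp hxlK
  have hεl : Tendsto (fun n => ε (φ n)) atTop (𝓝 0) :=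
    squeeze_zero (fun n => (hε0 _).le) (fun n => (hε1 _).le) hδ
  have hli := hind p.1.1 hpK p.2
  have hg0 : gr (w (p.1.1, p.2)) (f2 p.1.1) ≠ 0 := (gr_pos' hli).ne'
  obtain ⟨hp1, hp2, hp3⟩ := hperp p.1.1 hpK p.2
  -- the limit of the Gauss identity
  have hlim1 : κ p.1.1 * (p.1.2 0) ^ 2 + ‖nor (w (p.1.1, p.2)) (f2 p.1.1)
      (p.1.2 0 • w2 (p.1.1, p.2) + p.1.2 1 • f22 p.1.1)‖ ^ 2 ≤ 0 := by
    have h1 : Tendsto (fun n => κ (z (φ n)).1 * ((z (φ n)).2 0) ^ 2 +
        ‖nor (A (φ n)) (B (φ n)) ((z (φ n)).2 0 • X12 (φ n) + (z (φ n)).2 1 • X22 (φ n))‖ ^ 2)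
        atTop (𝓝 (κ p.1.1 * (p.1.2 0) ^ 2 + ‖nor (w (p.1.1, p.2)) (f2 p.1.1)
          (p.1.2 0 • w2 (p.1.1, p.2) + p.1.2 1 • f22 p.1.1)‖ ^ 2)) :=
      (hκl.mul (hv0.pow 2)).add
        ((tendsto_nor hAl hBl ((hv0.smul h12l).add (hv1.smul h22l)) hg0).norm.pow 2)
    refine le_of_tendsto h1 (Eventually.of_forall fun n => ?_)
    have h2 := gauss_quad (z (φ n)).2 (hgs (φ n))
    rw [hc (φ n), inner_neg_left, real_inner_smul_left] at h2
    have h3 : 0 ≤ inner ℝ (nor (A (φ n)) (B (φ n)) (X22 (φ n)))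
      (nor (A (φ n)) (B (φ n)) (X22 (φ n))) := real_inner_self_nonneg
    have h4 := mul_nonneg (hc0 (φ n)) h3
    rw [← h2]
    linarith
  -- the test vectors
  set T : ℕ → P4 := fun n =>
    nor (A (φ n)) (B (φ n)) (wt (p.1.1, p.2)) -
      (inner ℝ (nor (A (φ n)) (B (φ n)) (wt (p.1.1, p.2))) (nor (A (φ n)) (B (φ n)) (X22 (φ n))) /
        inner ℝ (nor (A (φ n)) (B (φ n)) (X22 (φ n))) (nor (A (φ n)) (B (φ n)) (X22 (φ n)))) •
      nor (A (φ n)) (B (φ n)) (X22 (φ n)) with hT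
  have hn0 : nor (w (p.1.1, p.2)) (f2 p.1.1) (f22 p.1.1) ≠ 0 := nor_ne_zero hli
  have hTl : Tendsto T atTop (𝓝 (wt (p.1.1, p.2))) := by
    have h1 := tendsto_nor hAl hBl (tendsto_const_nhds (x := wt (p.1.1, p.2))) hg0
    have h2 := tendsto_nor hAl hBl h22l hg0
    have h3 := h1.sub (((h1.inner (𝕜 := ℝ) h2).div (h2.inner (𝕜 := ℝ) h2)
      (inner_self_ne_zero.2 hn0)).smul h2)
    rw [nor_of_perp hp1 hp2, inner_nor_left _ _ hp1 hp2, hp3, zero_div, zero_smul, sub_zero] at h3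
    exact h3
  have hprod : Tendsto (fun n => (z (φ n)).2 0 ^ 2 * inner ℝ (ε (φ n) • X11 (φ n)) (T n) +
      ε (φ n) * (2 * (z (φ n)).2 0 * (z (φ n)).2 1 * inner ℝ (X12 (φ n)) (T n))) atTop
      (𝓝 ((p.1.2 0) ^ 2 * inner ℝ (wt (p.1.1, p.2)) (wt (p.1.1, p.2)) +
        0 * (2 * p.1.2 0 * p.1.2 1 * inner ℝ (w2 (p.1.1, p.2)) (wt (p.1.1, p.2))))) :=
    ((hv0.pow 2).mul (h11l.inner hTl)).add
      (hεl.mul (((hv0.const_mul 2).mul hv1).mul (h12l.inner hTl)))
  have hzero : ∀ᶠ n in atTop, (z (φ n)).2 0 ^ 2 * inner ℝ (ε (φ n) • X11 (φ n)) (T n) +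
      ε (φ n) * (2 * (z (φ n)).2 0 * (z (φ n)).2 1 * inner ℝ (X12 (φ n)) (T n)) = 0 := by
    have hgr := (tendsto_gr hAl hBl).eventually_ne hg0
    have hnor := ((tendsto_nor hAl hBl h22l hg0)).eventually_ne hn0
    filter_upwards [hgr, hnor] with n hn hn'
    have hTA : inner ℝ (T n) (A (φ n)) = 0 := by
      simp only [hT, inner_sub_left, real_inner_smul_left, inner_nor_A hn]
      ring
    have hTB : inner ℝ (T n) (B (φ n)) = 0 := by
      simp only [hT, inner_sub_left, real_inner_smul_left, inner_nor_B hn]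
      ring
    have hTn : inner ℝ (T n) (nor (A (φ n)) (B (φ n)) (X22 (φ n))) = 0 := by
      simp only [hT, inner_sub_left, real_inner_smul_left]
      rw [div_mul_cancel₀ _ (inner_self_ne_zero.2 hn'), sub_self]
    have hq : inner ℝ (T n) (nor (A (φ n)) (B (φ n)) (quad (X11 (φ n)) (X12 (φ n)) (X22 (φ n))
        (z (φ n)).2)) = 0 := by
      rw [hc (φ n), inner_neg_right, real_inner_smul_right, hTn]
      simp
    rw [inner_nor_left _ _ hTA hTB] at hq hTn
    unfold quad at hq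
    simp only [inner_add_right, real_inner_smul_right, hTn, mul_zero, add_zero] at hq
    rw [real_inner_smul_left, real_inner_comm (T n) (X11 (φ n)), real_inner_comm (T n) (X12 (φ n))]
    have : (z (φ n)).2 0 ^ 2 * (ε (φ n) * inner ℝ (T n) (X11 (φ n))) +
      ε (φ n) * (2 * (z (φ n)).2 0 * (z (φ n)).2 1 * inner ℝ (T n) (X12 (φ n))) =
      ε (φ n) * ((z (φ n)).2 0 ^ 2 * inner ℝ (T n) (X11 (φ n)) +
        2 * (z (φ n)).2 0 * (z (φ n)).2 1 * inner ℝ (T n) (X12 (φ n))) := by ring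
    rw [this, hq, mul_zero]
  have hfin : (p.1.2 0) ^ 2 * inner ℝ (wt (p.1.1, p.2)) (wt (p.1.1, p.2)) +
      0 * (2 * p.1.2 0 * p.1.2 1 * inner ℝ (w2 (p.1.1, p.2)) (wt (p.1.1, p.2))) = 0 :=
    tendsto_nhds_unique_of_eventuallyEq hprod tendsto_const_nhds hzero
  have hor : p.1.2 0 = 0 ∨ wt (p.1.1, p.2) = 0 := by
    rw [zero_mul, add_zero, mul_eq_zero] at hfin
    rcases hfin with h | h
    · exact Or.inl (pow_eq_zero_iff (two_ne_zero)|>.1 h)
    · exact Or.inr (inner_self_eq_zero.1 h)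
  exact absurd (hnd p.1 hp.1 p.2 hor) (not_lt.2 hlim1)

end Crest.Agent.R216.PSL
end
end

-- ▼ part R216/PSLLin
section

/-!
Row 216, PSL-1: linear algebra in `ℝ⁴`.
-/

set_option autoImplicit false

noncomputable section

open scoped Manifold ContDiff Topology
open Set MeasureTheory

namespace Crest.Agent.R216.PSL

lemma gr_nonneg (A B : P4) : 0 ≤ gr A B := by
  have := real_inner_mul_inner_self_le A B
  rw [gr]; nlinarith

lemma gr_pos {A B : P4} (h : LinearIndependent ℝ ![A, B]) : 0 < gr A B := by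
  have hA : A ≠ 0 := h.ne_zero 0
  have hB : B ≠ 0 := h.ne_zero 1
  refine lt_of_le_of_ne (gr_nonneg A B) ?_
  intro h0
  rw [LinearIndependent.pair_iff' hA] at h
  apply h (inner ℝ A B / inner ℝ A A)
  have hAA : inner ℝ A A ≠ (0 : ℝ) := inner_self_ne_zero.mpr hA
  rw [← sub_eq_zero, ← inner_self_eq_zero (𝕜 := ℝ)]
  simp only [inner_sub_left, inner_sub_right, inner_smul_left, inner_smul_right, RCLike.conj_to_real]
  rw [real_inner_comm A B]
  field_simp
  rw [gr] at h0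
  linarith

lemma inner_nor_left {A B : P4} (h : gr A B ≠ 0) (X : P4) : inner ℝ (nor A B X) A = (0 : ℝ) := by
  rw [nor]
  simp only [inner_sub_left, inner_add_left, inner_smul_left, RCLike.conj_to_real]
  rw [real_inner_comm A B]
  field_simp
  rw [gr]; ring

lemma inner_nor_right {A B : P4} (h : gr A B ≠ 0) (X : P4) : inner ℝ (nor A B X) B = (0 : ℝ) := by
  rw [nor]
  simp only [inner_sub_left, inner_add_left, inner_smul_left, RCLike.conj_to_real]
  field_simp
  rw [gr]; ring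

lemma sub_nor_mem (A B X : P4) : X - nor A B X ∈ Submodule.span ℝ {A, B} := by
  rw [nor, sub_sub_cancel]
  refine Submodule.smul_mem _ _ (Submodule.add_mem _ (Submodule.smul_mem _ _ ?_)
    (Submodule.smul_mem _ _ ?_))
  · exact Submodule.subset_span (by simp)
  · exact Submodule.subset_span (by simp)

lemma orthP_eq_nor {A B : P4} (h : gr A B ≠ 0) (X : P4) :
    orthP (Submodule.span ℝ {A, B}) X = nor A B X := by
  refine orthP_eq ?_ (sub_nor_mem A B X)
  rw [Submodule.mem_orthogonal']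
  intro u hu
  rw [Submodule.mem_span_pair] at hu
  obtain ⟨a, b, rfl⟩ := hu
  rw [inner_add_right, inner_smul_right, inner_smul_right, inner_nor_left h, inner_nor_right h]
  ring

lemma P2_decomp (v : P2) : v = v 0 • e1 + v 1 • e2 := by
  ext i
  fin_cases i <;> simp [e1, e2]

lemma d1_eq (F : P2 → P4) (x v : P2) : d1 F x v = v 0 • d1 F x e1 + v 1 • d1 F x e2 := by
  unfold d1
  conv_lhs => rw [P2_decomp v]
  rw [map_add, map_smul, map_smul]

lemma e_indep : LinearIndependent ℝ ![e1, e2] := by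
  rw [LinearIndependent.pair_iff]
  intro s t h
  constructor
  · have := congrArg (fun v : P2 => v 0) h
    simpa [e1, e2] using this
  · have := congrArg (fun v : P2 => v 1) h
    simpa [e1, e2] using this

lemma d1_indep {F : P2 → P4} {x : P2} (hinj : Function.Injective (fderiv ℝ F x)) :
    LinearIndependent ℝ ![d1 F x e1, d1 F x e2] := by
  rw [LinearIndependent.pair_iff]
  intro s t h
  have h1 : fderiv ℝ F x (s • e1 + t • e2) = 0 := by
    rw [map_add, map_smul, map_smul]; exact h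
  have h2 : s • e1 + t • e2 = 0 := hinj (by rw [h1, map_zero])
  exact (LinearIndependent.pair_iff.mp e_indep) s t h2

lemma gr_d1_pos {F : P2 → P4} {x : P2} (hinj : Function.Injective (fderiv ℝ F x)) :
    0 < gr (d1 F x e1) (d1 F x e2) := gr_pos (d1_indep hinj)

lemma tanSp_eq (F : P2 → P4) (x : P2) :
    tanSp F x = Submodule.span ℝ {d1 F x e1, d1 F x e2} := by
  ext z
  rw [tanSp, LinearMap.mem_range, Submodule.mem_span_pair]
  constructor
  · rintro ⟨v, rfl⟩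
    exact ⟨v 0, v 1, (d1_eq F x v).symm⟩
  · rintro ⟨a, b, rfl⟩
    refine ⟨a • e1 + b • e2, ?_⟩
    rw [map_add, map_smul, map_smul]; rfl

lemma hN_eq_nor {F : P2 → P4} {x : P2} (hinj : Function.Injective (fderiv ℝ F x)) (v w : P2) :
    hN F x v w = nor (d1 F x e1) (d1 F x e2) (d2 F x v w) := by
  rw [hN, tanSp_eq, orthP_eq_nor (gr_d1_pos hinj).ne']


end Crest.Agent.R216.PSL
end
end

-- ▼ part R216/PSLNu
section

/-!
Row 216, PSL: the new normal field (helper920).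
-/

set_option autoImplicit false

noncomputable section

open scoped Manifold ContDiff Topology
open Set MeasureTheory

namespace Crest.Agent.R216.PSL.Asm

namespace Nu

/-- a property which holds near the zero level on a compact set holds on a small level set -/
lemma exists_level {X : Type*} [TopologicalSpace X] [T2Space X] {G : Set X} (hG : IsCompact G)
    {u : X → ℝ} (hu : Continuous u) {P : X → Prop}
    (hP : ∀ z ∈ G, ¬ 0 < u z → ∀ᶠ z' in 𝓝[G] z, P z') :
    ∃ s : ℝ, 0 < s ∧ ∀ z ∈ G, u z ≤ s → P z := by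
  set B : Set X := {z | z ∈ G ∧ ¬ P z} with hB
  have hBG : closure B ⊆ G := closure_minimal (fun z hz => hz.1) hG.isClosed
  have hBc : IsCompact (closure B) := hG.of_isClosed_subset isClosed_closure hBG
  have hpos : ∀ z ∈ closure B, 0 < u z := by
    intro z hz
    by_contra h0
    have h1 := hP z (hBG hz) h0
    have h2 : ∃ᶠ z' in 𝓝 z, z' ∈ B := mem_closure_iff_frequently.1 hz
    rw [eventually_nhdsWithin_iff] at h1
    obtain ⟨z', hz', h3⟩ := (h2.and_eventually h1).exists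
    exact hz'.2 (h3 hz'.1)
  rcases (closure B).eq_empty_or_nonempty with he | hne
  · refine ⟨1, one_pos, fun z hz _ => ?_⟩
    by_contra hPz
    have : z ∈ closure B := subset_closure ⟨hz, hPz⟩
    rw [he] at this
    exact this
  · obtain ⟨z0, hz0, hmin⟩ := hBc.exists_isMinOn hne hu.continuousOn
    refine ⟨u z0 / 2, half_pos (hpos z0 hz0), fun z hz hle => ?_⟩
    by_contra hPz
    have h1 : u z0 ≤ u z := hmin (subset_closure (⟨hz, hPz⟩ : z ∈ B))
    have h2 := hpos z0 hz0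
    linarith

lemma contDiffOn_nor {s : Set P2} {A B Y : P2 → P4} (hA : ContDiffOn ℝ ∞ A s)
    (hB : ContDiffOn ℝ ∞ B s) (hY : ContDiffOn ℝ ∞ Y s) (h : ∀ x ∈ s, gr (A x) (B x) ≠ 0) :
    ContDiffOn ℝ ∞ (fun x => nor (A x) (B x) (Y x)) s := by
  have h0 : ContDiffOn ℝ ∞ (fun x => gr (A x) (B x)) s := by
    unfold gr
    exact ((hA.inner ℝ hA).mul (hB.inner ℝ hB)).sub ((hA.inner ℝ hB).pow 2)
  have h1 : ContDiffOn ℝ ∞ (fun x => (gr (A x) (B x))⁻¹) s := h0.inv h
  unfold nor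
  refine hY.sub (h1.smul ?_)
  refine ContDiffOn.add ?_ ?_
  · exact (((hY.inner ℝ hA).mul (hB.inner ℝ hB)).sub ((hY.inner ℝ hB).mul (hA.inner ℝ hB))).smul hA
  · exact (((hY.inner ℝ hB).mul (hA.inner ℝ hA)).sub ((hY.inner ℝ hA).mul (hA.inner ℝ hB))).smul hB

lemma nor_eq_self {A B X : P4} (h1 : inner ℝ X A = 0) (h2 : inner ℝ X B = 0) :
    nor A B X = X := by
  simp [nor, h1, h2]

lemma exists_pos_pairing {ν n : P4} (hν : ‖ν‖ = 1) (h : ∀ c : ℝ, 0 ≤ c → n ≠ -(c • ν)) :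
    ∃ ζ : P4, 0 < inner ℝ ζ ν ∧ 0 < inner ℝ ζ n := by
  have hn : n ≠ 0 := by simpa using h 0 le_rfl
  have hn' : 0 < ‖n‖ := norm_pos_iff.2 hn
  have hνν : inner ℝ ν ν = 1 := by rw [real_inner_self_eq_norm_sq, hν]; norm_num
  have hnn : inner ℝ n n = ‖n‖ ^ 2 := real_inner_self_eq_norm_sq n
  have hkey : 0 < ‖n‖ + inner ℝ ν n := by
    by_contra hcon
    push Not at hcon
    apply h ‖n‖ hn'.le
    have h2 : ‖n + ‖n‖ • ν‖ ^ 2 ≤ 0 := by
      rw [← real_inner_self_eq_norm_sq, inner_add_left, inner_add_right, inner_add_right,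
        real_inner_smul_left, real_inner_smul_left, inner_smul_right, inner_smul_right, hνν, hnn,
        real_inner_comm ν n]
      nlinarith
    have h3 : ‖n + ‖n‖ • ν‖ = 0 := by
      have := sq_nonneg ‖n + ‖n‖ • ν‖
      exact pow_eq_zero_iff (two_ne_zero) |>.1 (le_antisymm h2 this)
    rw [eq_neg_iff_add_eq_zero]
    exact norm_eq_zero.1 h3
  refine ⟨‖n‖ • ν + n, ?_, ?_⟩
  · rw [inner_add_left, real_inner_smul_left, hνν, real_inner_comm ν n]
    linarith
  · rw [inner_add_left, real_inner_smul_left, hnn]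
    nlinarith

end Nu

open Nu

theorem exists_nuF {D : Set P2} {f ν F : P2 → P4} {u : P2 → ℝ} (hD : IsOpen D)
    (hf : ContDiffOn ℝ ∞ f D) (hF : ContDiffOn ℝ ∞ F D) (hν : ContDiffOn ℝ ∞ ν D)
    (hun : IsUNormal f ν D) (hu : ContDiff ℝ ∞ u) (hc : IsCompact (closure {x : P2 | 0 < u x}))
    (hKD : closure {x : P2 | 0 < u x} ⊆ D)
    (hFi : ∀ x ∈ D, Function.Injective (fderiv ℝ F x))
    (hjet : ∀ x ∈ D, ¬ 0 < u x → fderiv ℝ F x = fderiv ℝ f x ∧
        fderiv ℝ (fderiv ℝ F) x = fderiv ℝ (fderiv ℝ f) x)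
    (h22 : ∀ x, 0 < u x → hN F x e2 e2 ≠ 0)
    (hQ1 : ∀ x ∈ frontier {x : P2 | 0 < u x}, Q1 (hN f x) (ν x) e2)
    {G : Set (P2 × P2)} (hG : IsCompact G) (hGK : ∀ z ∈ G, z.1 ∈ closure {x : P2 | 0 < u x})
    (hQ3 : ∀ z ∈ G, ¬ 0 < u z.1 → Q3 (hN f z.1) (ν z.1) z.2 e2)
    (hGF : ∀ z ∈ G, 0 < u z.1 → ∀ c : ℝ, 0 ≤ c →
      hN F z.1 z.2 z.2 ≠ -(c • hN F z.1 e2 e2))
    (T : Finset P2) (hT : ∀ x ∈ T, 0 < u x) :
    ∃ νF : P2 → P4, ContDiffOn ℝ ∞ νF D ∧ IsUNormal F νF D ∧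
      (∀ x ∈ D, ¬ 0 < u x → νF x = ν x) ∧
      (∀ z ∈ G, Q1 (hN F z.1) (νF z.1) z.2) ∧
      (∀ x ∈ T, νF x = ‖hN F x e2 e2‖⁻¹ • hN F x e2 e2) := by
  classical
  set K : Set P2 := closure {x : P2 | 0 < u x} with hKdef
  have hopenU : IsOpen {x : P2 | 0 < u x} := isOpen_lt continuous_const hu.continuous
  have hUK : ∀ x, 0 < u x → x ∈ K := fun x hx => subset_closure hx
  have hfront : ∀ x ∈ K, ¬ 0 < u x → x ∈ frontier {x : P2 | 0 < u x} := by
    intro x hx hx0
    rw [hopenU.frontier_eq]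
    exact ⟨hx, hx0⟩
  have hgr : ∀ x ∈ D, gr (d1 F x e1) (d1 F x e2) ≠ 0 := by
    intro x hx
    have h : LinearIndependent ℝ ![d1 F x e1, d1 F x e2] := by
      rw [LinearIndependent.pair_iff]
      intro s t hst
      have h1 : fderiv ℝ F x (s • e1 + t • e2) = 0 := by simpa [d1] using hst
      have h2 : s • e1 + t • e2 = 0 := by
        apply hFi x hx
        rw [h1, map_zero]
      constructor
      · have := congrArg (fun v : P2 => v 0) h2
        simpa [e1, e2] using this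
      · have := congrArg (fun v : P2 => v 1) h2
        simpa [e1, e2] using this
    exact (gr_pos h).ne'
  -- derivatives are smooth
  have hdF : ContDiffOn ℝ ∞ (fderiv ℝ F) D := hF.fderiv_of_isOpen hD (by simp)
  have hddF : ContDiffOn ℝ ∞ (fderiv ℝ (fderiv ℝ F)) D := hdF.fderiv_of_isOpen hD (by simp)
  have hd1 : ∀ v, ContDiffOn ℝ ∞ (fun x => d1 F x v) D := fun v => hdF.clm_apply contDiffOn_const
  have hd2 : ∀ v w, ContDiffOn ℝ ∞ (fun x => d2 F x v w) D :=
    fun v w => (hddF.clm_apply contDiffOn_const).clm_apply contDiffOn_const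
  set m : P2 → P4 := fun x => nor (d1 F x e1) (d1 F x e2) (ν x) with hm
  set n : P2 → P4 := fun x => nor (d1 F x e1) (d1 F x e2) (d2 F x e2 e2) with hn
  have hms : ContDiffOn ℝ ∞ m D := contDiffOn_nor (hd1 e1) (hd1 e2) hν hgr
  have hns : ContDiffOn ℝ ∞ n D := contDiffOn_nor (hd1 e1) (hd1 e2) (hd2 e2 e2) hgr
  have hnN : ∀ x ∈ D, n x = hN F x e2 e2 := fun x hx => (hN_eq_nor (hFi x hx) _ _).symm
  have hmν : ∀ x ∈ D, ¬ 0 < u x → m x = ν x := by
    intro x hx h0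
    have h1 := (hjet x hx h0).1
    apply nor_eq_self
    · simp only [d1, h1]; exact hun.orth x hx e1
    · simp only [d1, h1]; exact hun.orth x hx e2
  have hNf : ∀ x ∈ D, ¬ 0 < u x → ∀ p q, hN F x p q = hN f x p q := by
    intro x hx h0 p q
    obtain ⟨h1, h2⟩ := hjet x hx h0
    simp only [hN, tanSp, d2, h1, h2]
  -- zone 1
  obtain ⟨s1, hs1, hz1⟩ := exists_level hc hu.continuous
    (P := fun x => ∀ l : ℝ, 0 ≤ l → l ≤ 1 → (1 - l) • m x + l • n x ≠ 0) (by
      intro x hx h0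
      have hxD := hKD hx
      obtain ⟨ζ, hζ1, hζ2⟩ := exists_pos_pairing (hun.unit x hxD) (hQ1 x (hfront x hx h0))
      rw [← hNf x hxD h0, ← hnN x hxD] at hζ2
      rw [← hmν x hxD h0] at hζ1
      have c1 : ∀ᶠ y in 𝓝 x, 0 < inner ℝ ζ (m y) := by
        have : ContinuousAt (fun y => inner ℝ ζ (m y)) x :=
          continuousAt_const.inner (hms.continuousOn.continuousAt (hD.mem_nhds hxD))
        exact this.eventually (lt_mem_nhds hζ1)
      have c2 : ∀ᶠ y in 𝓝 x, 0 < inner ℝ ζ (n y) := by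
        have : ContinuousAt (fun y => inner ℝ ζ (n y)) x :=
          continuousAt_const.inner (hns.continuousOn.continuousAt (hD.mem_nhds hxD))
        exact this.eventually (lt_mem_nhds hζ2)
      refine Filter.Eventually.filter_mono nhdsWithin_le_nhds ?_
      filter_upwards [c1, c2] with y h1 h2 l hl0 hl1 heq
      have h3 : inner ℝ ζ ((1 - l) • m y + l • n y) = 0 := by rw [heq, inner_zero_right]
      rw [inner_add_right, inner_smul_right, inner_smul_right] at h3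
      rcases eq_or_lt_of_le hl0 with h | h
      · subst h; linarith
      · have := mul_pos h h2
        have := mul_nonneg (sub_nonneg.2 hl1) h1.le
        linarith)
  -- zone 2
  have hFN2 : ContinuousOn (fun z : P2 × P2 => hN F z.1 z.2 z.2) (D ×ˢ univ) := by
    have h1 : ContinuousOn (fun z : P2 × P2 => nor (d1 F z.1 e1) (d1 F z.1 e2) (d2 F z.1 z.2 z.2))
        (D ×ˢ univ) := by
      have hfst : MapsTo (Prod.fst : P2 × P2 → P2) (D ×ˢ univ) D := fun z hz => hz.1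
      refine continuousOn_nor ?_ ?_ ?_ ?_
      · exact (hd1 e1).continuousOn.comp continuousOn_fst hfst
      · exact (hd1 e2).continuousOn.comp continuousOn_fst hfst
      · exact ((hddF.continuousOn.comp continuousOn_fst hfst).clm_apply continuousOn_snd).clm_apply
          continuousOn_snd
      · exact fun z hz => hgr z.1 hz.1
    refine h1.congr ?_
    intro z hz
    exact hN_eq_nor (hFi z.1 hz.1) _ _
  obtain ⟨s2, hs2, hz2⟩ := exists_level hG (u := fun z : P2 × P2 => u z.1)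
    (hu.continuous.comp continuous_fst)
    (P := fun z => ∀ l : ℝ, 0 ≤ l → l ≤ 1 → ∀ c : ℝ, 0 ≤ c →
      hN F z.1 z.2 z.2 ≠ -(c • ((1 - l) • m z.1 + l • n z.1))) (by
      intro z hz h0
      have hx := hGK z hz
      have hxD := hKD hx
      obtain ⟨ζ, hζ1, hζ2, hζ3⟩ := hQ3 z hz h0
      rw [← hNf z.1 hxD h0] at hζ2 hζ3
      rw [← hnN z.1 hxD] at hζ3
      rw [← hmν z.1 hxD h0] at hζ1
      have c1 : ∀ᶠ y in 𝓝 z, 0 < inner ℝ ζ (m y.1) := by
        have : ContinuousAt (fun y : P2 × P2 => inner ℝ ζ (m y.1)) z :=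
          continuousAt_const.inner
            (ContinuousAt.comp (g := m) (hms.continuousOn.continuousAt (hD.mem_nhds hxD))
              continuousAt_fst)
        exact this.eventually (lt_mem_nhds hζ1)
      have c2 : ∀ᶠ y in 𝓝 z, 0 < inner ℝ ζ (n y.1) := by
        have : ContinuousAt (fun y : P2 × P2 => inner ℝ ζ (n y.1)) z :=
          continuousAt_const.inner
            (ContinuousAt.comp (g := n) (hns.continuousOn.continuousAt (hD.mem_nhds hxD))
              continuousAt_fst)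
        exact this.eventually (lt_mem_nhds hζ3)
      have c3 : ∀ᶠ y in 𝓝 z, 0 < inner ℝ ζ (hN F y.1 y.2 y.2) := by
        have : ContinuousAt (fun y : P2 × P2 => inner ℝ ζ (hN F y.1 y.2 y.2)) z :=
          continuousAt_const.inner (hFN2.continuousAt
            ((hD.prod isOpen_univ).mem_nhds ⟨hxD, mem_univ _⟩))
        exact this.eventually (lt_mem_nhds hζ2)
      refine Filter.Eventually.filter_mono nhdsWithin_le_nhds ?_
      filter_upwards [c1, c2, c3] with y h1 h2 h3 l hl0 hl1 c hc0 heq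
      rw [heq, inner_neg_right, inner_smul_right, inner_add_right, inner_smul_right,
        inner_smul_right] at h3
      have h4 := mul_nonneg hl0 h2.le
      have h5 := mul_nonneg (sub_nonneg.2 hl1) h1.le
      have h6 := mul_nonneg hc0 (add_nonneg h5 h4)
      linarith)
  -- level below T
  obtain ⟨s3, hs3, hz3⟩ : ∃ s : ℝ, 0 < s ∧ ∀ x ∈ T, s < u x := by
    by_cases hne : T.Nonempty
    · obtain ⟨x0, hx0, hmin⟩ := Finset.exists_min_image T u hne
      refine ⟨u x0 / 2, half_pos (hT x0 hx0), fun x hx => ?_⟩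
      have h1 := hmin x hx
      have h2 := hT x0 hx0
      linarith
    · refine ⟨1, one_pos, fun x hx => absurd ⟨x, hx⟩ hne⟩
  set s := min (min s1 s2) s3 with hs
  have hspos : 0 < s := lt_min (lt_min hs1 hs2) hs3
  have hss1 : s ≤ s1 := (min_le_left _ _).trans (min_le_left _ _)
  have hss2 : s ≤ s2 := (min_le_left _ _).trans (min_le_right _ _)
  have hss3 : s ≤ s3 := min_le_right _ _
  set χ : P2 → ℝ := fun x => Real.smoothTransition (2 * u x / s - 1) with hχ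
  have hχs : ContDiff ℝ ∞ χ := by
    have h1 : ContDiff ℝ ∞ (fun x => 2 * u x / s - 1) := by fun_prop
    exact (Real.smoothTransition.contDiff (n := ⊤)).comp h1
  have hχ01 : ∀ x, 0 ≤ χ x ∧ χ x ≤ 1 := fun x =>
    ⟨Real.smoothTransition.nonneg _, Real.smoothTransition.le_one _⟩
  have hχ0 : ∀ x, ¬ 0 < u x → χ x = 0 := by
    intro x hx
    apply Real.smoothTransition.zero_of_nonpos
    have : 2 * u x / s ≤ 0 := div_nonpos_of_nonpos_of_nonneg (by linarith [not_lt.1 hx]) hspos.le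
    linarith
  have hχ1 : ∀ x, s ≤ u x → χ x = 1 := by
    intro x hx
    apply Real.smoothTransition.one_of_one_le
    have : 2 ≤ 2 * u x / s := by
      rw [le_div_iff₀ hspos]
      linarith
    linarith
  set g : P2 → P4 := fun x => (1 - χ x) • m x + χ x • n x with hg
  have hgs : ContDiffOn ℝ ∞ g D :=
    ((contDiff_const.sub hχs).contDiffOn.smul hms).add (hχs.contDiffOn.smul hns)
  have hg0 : ∀ x ∈ D, ¬ 0 < u x → g x = ν x := by
    intro x hx h0
    simp only [hg, hχ0 x h0, sub_zero, one_smul, zero_smul, add_zero]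
    exact hmν x hx h0
  have hg1 : ∀ x ∈ D, s ≤ u x → g x = hN F x e2 e2 := by
    intro x hx h1
    simp only [hg, hχ1 x h1, sub_self, one_smul, zero_smul, zero_add]
    exact hnN x hx
  have hgne : ∀ x ∈ D, g x ≠ 0 := by
    intro x hx
    by_cases h0 : 0 < u x
    · by_cases h1 : u x ≤ s
      · exact hz1 x (hUK x h0) (h1.trans hss1) (χ x) (hχ01 x).1 (hχ01 x).2
      · rw [hg1 x hx (not_le.1 h1).le]
        exact h22 x h0
    · rw [hg0 x hx h0]
      intro h
      have := hun.unit x hx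
      rw [h, norm_zero] at this
      norm_num at this
  refine ⟨fun x => ‖g x‖⁻¹ • g x, ?_, ?_, ?_, ?_, ?_⟩
  · have h1 : ContDiffOn ℝ ∞ (fun x => ‖g x‖) D := hgs.norm ℝ hgne
    exact (h1.inv (fun x hx => norm_ne_zero_iff.2 (hgne x hx))).smul hgs
  · refine ⟨fun x hx => ?_, fun x hx v => ?_⟩
    · rw [norm_smul, norm_inv, norm_norm, inv_mul_cancel₀ (norm_ne_zero_iff.2 (hgne x hx))]
    · have hA : inner ℝ (g x) (d1 F x e1) = 0 := by
        simp only [hg, inner_add_left, real_inner_smul_left, hm, hn]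
        rw [inner_nor_A (hgr x hx), inner_nor_A (hgr x hx)]
        ring
      have hB : inner ℝ (g x) (d1 F x e2) = 0 := by
        simp only [hg, inner_add_left, real_inner_smul_left, hm, hn]
        rw [inner_nor_B (hgr x hx), inner_nor_B (hgr x hx)]
        ring
      rw [d1_eq F x v, real_inner_smul_left, inner_add_right, inner_smul_right, inner_smul_right,
        hA, hB]
      ring
  · intro x hx h0
    simp only [hg0 x hx h0, hun.unit x hx, inv_one, one_smul]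
  · intro z hz c hc0
    have hx := hGK z hz
    have hxD := hKD hx
    have hpos : 0 < ‖g z.1‖ := norm_pos_iff.2 (hgne _ hxD)
    rw [show -(c • (‖g z.1‖⁻¹ • g z.1)) = -((c * ‖g z.1‖⁻¹) • g z.1) by rw [smul_smul]]
    have hc' : 0 ≤ c * ‖g z.1‖⁻¹ := by positivity
    by_cases h0 : 0 < u z.1
    · by_cases h1 : u z.1 ≤ s
      · exact hz2 z hz (h1.trans hss2) (χ z.1) (hχ01 _).1 (hχ01 _).2 _ hc'
      · rw [hg1 z.1 hxD (not_le.1 h1).le] at hc' ⊢
        exact hGF z hz h0 _ hc'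
    · have h2 := hz2 z hz ((not_lt.1 h0).trans hs2.le) 0 le_rfl zero_le_one _ hc'
      rw [hg0 _ hxD h0] at h2 ⊢
      simpa [hmν _ hxD h0] using h2
  · intro x hx
    have hxD := hKD (hUK x (hT x hx))
    simp only [hg1 x hxD (hss3.trans (hz3 x hx).le)]

end Crest.Agent.R216.PSL.Asm
end
end

-- ▼ part R216/PSLGauss
section

/-!
Row 216, PSL-2: theorema egregium.
-/

set_option autoImplicit false

noncomputable section

open scoped Manifold ContDiff Topology
open Set MeasureTheory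

namespace Crest.Agent.R216.PSL

lemma inner_nor_nor {A B : P4} (h : gr A B ≠ 0) (X Y : P4) :
    inner ℝ (nor A B X) (nor A B Y) = inner ℝ X Y - (gr A B)⁻¹ *
      (inner ℝ X A * inner ℝ Y A * inner ℝ B B
        - (inner ℝ X A * inner ℝ Y B + inner ℝ X B * inner ℝ Y A) * inner ℝ A B
        + inner ℝ X B * inner ℝ Y B * inner ℝ A A) := by
  have h1 : inner ℝ (nor A B X) (nor A B Y) = inner ℝ (nor A B X) Y := by
    conv_lhs => rw [nor.eq_def A B Y]
    rw [inner_sub_right, inner_smul_right, inner_add_right, inner_smul_right, inner_smul_right,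
      inner_nor_left h, inner_nor_right h]
    ring
  rw [h1, nor]
  simp only [inner_sub_left, inner_add_left, inner_smul_left, RCLike.conj_to_real]
  rw [real_inner_comm Y A, real_inner_comm Y B]
  ring

lemma two_le_inf : (2 : WithTop ℕ∞) ≤ ∞ := WithTop.coe_le_coe.mpr le_top
lemma oneone_le_inf : (1 + 1 : WithTop ℕ∞) ≤ ∞ := WithTop.coe_le_coe.mpr le_top
lemma inf_add_one_le_inf : (∞ + 1 : WithTop ℕ∞) ≤ ∞ := le_rfl

/-- `⟪D²F(v,w), DF(z)⟫` -/
def ch (F : P2 → P4) (x v w z : P2) : ℝ := inner ℝ (d2 F x v w) (d1 F x z)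

lemma d2_symm {F : P2 → P4} {x : P2} (hF : ContDiffAt ℝ ∞ F x) (v w : P2) :
    d2 F x v w = d2 F x w v := by
  have h : IsSymmSndFDerivAt ℝ F x := hF.isSymmSndFDerivAt (by rw [minSmoothness_of_isRCLikeNormedField]; exact two_le_inf)
  exact h v w

lemma hasFDerivAt_d1 {F : P2 → P4} {x : P2} (hF : ContDiffAt ℝ ∞ F x) (v : P2) :
    HasFDerivAt (fun y => d1 F y v)
      ((ContinuousLinearMap.apply ℝ P4 v).comp (fderiv ℝ (fderiv ℝ F) x)) x := by
  have h1 : DifferentiableAt ℝ (fderiv ℝ F) x :=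
    (hF.fderiv_right (m := 1) oneone_le_inf).differentiableAt (by norm_num)
  exact (ContinuousLinearMap.apply ℝ P4 v).hasFDerivAt.comp x h1.hasFDerivAt

lemma fderiv_d1 {F : P2 → P4} {x : P2} (hF : ContDiffAt ℝ ∞ F x) (v z : P2) :
    fderiv ℝ (fun y => d1 F y v) x z = d2 F x z v := by
  rw [(hasFDerivAt_d1 hF v).fderiv]; rfl

lemma fderiv_met {F : P2 → P4} {x : P2} (hF : ContDiffAt ℝ ∞ F x) (v w z : P2) :
    fderiv ℝ (fun y => met F y v w) x z = ch F x z v w + ch F x z w v := by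
  have h := (hasFDerivAt_d1 hF v).inner ℝ (hasFDerivAt_d1 hF w)
  have h2 : fderiv ℝ (fun y => met F y v w) x = _ := h.fderiv
  rw [h2]
  simp only [ContinuousLinearMap.comp_apply, ContinuousLinearMap.prod_apply,
    fderivInnerCLM_apply, ContinuousLinearMap.apply_apply]
  rw [ch, ch, d2, d2, real_inner_comm (d1 F x v)]
  ring

lemma fderiv_inner_d1 {F H : P2 → P4} {x : P2} (hF : ContDiffAt ℝ ∞ F x)
    (hH : ContDiffAt ℝ ∞ H x) (v w z : P2) :
    fderiv ℝ (fun y => (inner ℝ (d1 F y v) (d1 H y w) : ℝ)) x z =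
      inner ℝ (d2 F x z v) (d1 H x w) + inner ℝ (d1 F x v) (d2 H x z w) := by
  have h := (hasFDerivAt_d1 hF v).inner ℝ (hasFDerivAt_d1 hH w)
  have h2 : fderiv ℝ (fun y => (inner ℝ (d1 F y v) (d1 H y w) : ℝ)) x = _ := h.fderiv
  rw [h2]
  simp only [ContinuousLinearMap.comp_apply, ContinuousLinearMap.prod_apply,
    fderivInnerCLM_apply, ContinuousLinearMap.apply_apply]
  rw [d2, d2]
  ring


lemma two_ch {F : P2 → P4} {x : P2} (hF : ContDiffAt ℝ ∞ F x) (v w z : P2) :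
    2 * ch F x v w z = fderiv ℝ (fun y => met F y w z) x v + fderiv ℝ (fun y => met F y v z) x w
      - fderiv ℝ (fun y => met F y v w) x z := by
  rw [fderiv_met hF, fderiv_met hF, fderiv_met hF]
  simp only [ch]
  rw [d2_symm hF w v, d2_symm hF z v, d2_symm hF z w]
  ring

lemma ch_eq_of_met {F G : P2 → P4} {D : Set P2} (hD : IsOpen D) (hF : ContDiffOn ℝ ∞ F D)
    (hG : ContDiffOn ℝ ∞ G D) (hmet : ∀ x ∈ D, ∀ v w : P2, met F x v w = met G x v w)
    {x : P2} (hx : x ∈ D) (v w z : P2) : ch F x v w z = ch G x v w z := by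
  have hFx : ContDiffAt ℝ ∞ F x := hF.contDiffAt (hD.mem_nhds hx)
  have hGx : ContDiffAt ℝ ∞ G x := hG.contDiffAt (hD.mem_nhds hx)
  have key : ∀ v w : P2, fderiv ℝ (fun y => met F y v w) x = fderiv ℝ (fun y => met G y v w) x := by
    intro v w
    apply Filter.EventuallyEq.fderiv_eq
    filter_upwards [hD.mem_nhds hx] with y hy
    exact hmet y hy v w
  have h1 := two_ch hFx v w z
  have h2 := two_ch hGx v w z
  rw [key, key, key] at h1
  linarith

lemma contDiffAt_d1 {F : P2 → P4} {x : P2} (hF : ContDiffAt ℝ ∞ F x) (v : P2) :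
    ContDiffAt ℝ ∞ (fun y => d1 F y v) x :=
  (hF.fderiv_right (m := ∞) inf_add_one_le_inf).clm_apply contDiffAt_const

/-- the Gauss identity -/
lemma fderiv_ch_sub {F : P2 → P4} {D : Set P2} (hD : IsOpen D) (hF : ContDiffOn ℝ ∞ F D)
    {x : P2} (hx : x ∈ D) :
    fderiv ℝ (fun y => ch F y e2 e2 e1) x e1 - fderiv ℝ (fun y => ch F y e1 e2 e1) x e2 =
      inner ℝ (d2 F x e1 e1) (d2 F x e2 e2) - inner ℝ (d2 F x e1 e2) (d2 F x e1 e2) := by
  have hFx : ContDiffAt ℝ ∞ F x := hF.contDiffAt (hD.mem_nhds hx)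
  set H : P2 → P4 := fun y => d1 F y e2 with hH
  have hHx : ContDiffAt ℝ ∞ H x := contDiffAt_d1 hFx e2
  have hd : ∀ y ∈ D, ∀ v, d1 H y v = d2 F y v e2 := by
    intro y hy v
    exact fderiv_d1 (hF.contDiffAt (hD.mem_nhds hy)) e2 v
  have hc : ∀ v : P2, fderiv ℝ (fun y => ch F y v e2 e1) x =
      fderiv ℝ (fun y => (inner ℝ (d1 H y v) (d1 F y e1) : ℝ)) x := by
    intro v
    apply Filter.EventuallyEq.fderiv_eq
    filter_upwards [hD.mem_nhds hx] with y hy
    rw [hd y hy v]; rfl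
  rw [hc, hc, fderiv_inner_d1 hHx hFx, fderiv_inner_d1 hHx hFx, hd x hx, hd x hx,
    d2_symm hHx e2 e1, d2_symm hFx e2 e1, real_inner_comm (d2 F x e1 e1)]
  ring

/-- `KK` as a function of the Christoffel symbols and the metric -/
lemma KK_eq {F : P2 → P4} {x : P2} (hinj : Function.Injective (fderiv ℝ F x)) :
    KK F x = (inner ℝ (d2 F x e1 e1) (d2 F x e2 e2) - inner ℝ (d2 F x e1 e2) (d2 F x e1 e2))
      - (met F x e1 e1 * met F x e2 e2 - met F x e1 e2 ^ 2)⁻¹ *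
        ((ch F x e1 e1 e1 * ch F x e2 e2 e1 * met F x e2 e2
          - (ch F x e1 e1 e1 * ch F x e2 e2 e2 + ch F x e1 e1 e2 * ch F x e2 e2 e1) * met F x e1 e2
          + ch F x e1 e1 e2 * ch F x e2 e2 e2 * met F x e1 e1)
        - (ch F x e1 e2 e1 * ch F x e1 e2 e1 * met F x e2 e2
          - (ch F x e1 e2 e1 * ch F x e1 e2 e2 + ch F x e1 e2 e2 * ch F x e1 e2 e1) * met F x e1 e2
          + ch F x e1 e2 e2 * ch F x e1 e2 e2 * met F x e1 e1)) := by
  have hg := (gr_d1_pos hinj).ne'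
  rw [KK, hN_eq_nor hinj, hN_eq_nor hinj, hN_eq_nor hinj, inner_nor_nor hg, inner_nor_nor hg]
  simp only [ch, met, gr]
  ring

/-- Theorema egregium: `KK` depends only on the metric. -/
theorem KK_eq_of_met {F G : P2 → P4} {D : Set P2} (hD : IsOpen D) (hF : ContDiffOn ℝ ∞ F D)
    (hG : ContDiffOn ℝ ∞ G D) (hFi : ∀ x ∈ D, Function.Injective (fderiv ℝ F x))
    (hGi : ∀ x ∈ D, Function.Injective (fderiv ℝ G x))
    (hmet : ∀ x ∈ D, ∀ v w : P2, met F x v w = met G x v w) :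
    ∀ x ∈ D, KK F x = KK G x := by
  intro x hx
  have hch : ∀ y ∈ D, ∀ v w z, ch F y v w z = ch G y v w z := fun y hy v w z =>
    ch_eq_of_met hD hF hG hmet hy v w z
  have hfd : ∀ v w z : P2, fderiv ℝ (fun y => ch F y v w z) x = fderiv ℝ (fun y => ch G y v w z) x := by
    intro v w z
    apply Filter.EventuallyEq.fderiv_eq
    filter_upwards [hD.mem_nhds hx] with y hy
    exact hch y hy v w z
  rw [KK_eq (hFi x hx), KK_eq (hGi x hx), ← fderiv_ch_sub hD hF hx, ← fderiv_ch_sub hD hG hx]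
  simp only [hch x hx, hmet x hx, hfd]

end Crest.Agent.R216.PSL
end
end

-- ▼ part R216/PSLLim2

/-!
Row 216, PSL: lemma `LL2` of the frozen interface `PSLIface.lean` (helper107).
One crossing point with two directions, in the open support of the stage.
-/

set_option autoImplicit false

noncomputable section

open scoped Manifold ContDiff Topology
open Set MeasureTheory

namespace Crest.Agent.R216.PSL
namespace LL2P

lemma nor_add (A B X Y : P4) : nor A B (X + Y) = nor A B X + nor A B Y := by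
  simp only [nor, inner_add_left]; module

lemma nor_smul (A B X : P4) (c : ℝ) : nor A B (c • X) = c • nor A B X := by
  simp only [nor, real_inner_smul_left]; module

lemma inner_nor_of_perp {A B X Y : P4} (h1 : inner ℝ Y A = 0) (h2 : inner ℝ Y B = 0) :
    inner ℝ Y (nor A B X) = inner ℝ Y X := by
  simp only [nor, inner_sub_right, inner_smul_right, inner_add_right, h1, h2]; ring

lemma nor_of_perp {A B X : P4} (h1 : inner ℝ X A = 0) (h2 : inner ℝ X B = 0) :
    nor A B X = X := by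
  simp [nor, h1, h2]

lemma gr_pos3 {A B C : P4} (h : LinearIndependent ℝ ![A, B, C]) : 0 < gr A B := by
  rw [Fintype.linearIndependent_iff] at h
  have hB : B ≠ 0 := by
    intro hB
    have := h ![0, 1, 0] (by simp [Fin.sum_univ_three, hB]) 1
    simp at this
  have hBB : 0 < inner ℝ B B := real_inner_self_pos.2 hB
  have hZ : (inner ℝ B B : ℝ) • A - (inner ℝ A B : ℝ) • B ≠ 0 := by
    intro hZ
    have := h ![inner ℝ B B, -inner ℝ A B, 0] (by
      simp only [Fin.sum_univ_three, Matrix.cons_val_zero, Matrix.cons_val_one,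
        Matrix.cons_val_two, Matrix.head_cons, Matrix.tail_cons, zero_smul, add_zero]
      simpa [neg_smul, sub_eq_add_neg] using hZ) 0
    simp only [Matrix.cons_val_zero] at this
    exact hBB.ne' this
  have h2 := real_inner_self_pos.2 hZ
  have h3 : inner ℝ ((inner ℝ B B : ℝ) • A - (inner ℝ A B : ℝ) • B)
      ((inner ℝ B B : ℝ) • A - (inner ℝ A B : ℝ) • B) = inner ℝ B B * gr A B := by
    simp only [gr, inner_sub_left, inner_sub_right, real_inner_smul_left, real_inner_smul_right,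
      real_inner_comm A B]
    ring
  rw [h3] at h2
  exact (pos_iff_pos_of_mul_pos h2).1 hBB

lemma nor_ne_zero {A B C : P4} (h : LinearIndependent ℝ ![A, B, C]) : nor A B C ≠ 0 := by
  rw [Fintype.linearIndependent_iff] at h
  intro h0
  have := h ![-((gr A B)⁻¹ * (inner ℝ C A * inner ℝ B B - inner ℝ C B * inner ℝ A B)),
    -((gr A B)⁻¹ * (inner ℝ C B * inner ℝ A A - inner ℝ C A * inner ℝ A B)), 1] (by
      simp only [Fin.sum_univ_three, Matrix.cons_val_zero, Matrix.cons_val_one,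
        Matrix.cons_val_two, Matrix.head_cons, Matrix.tail_cons]
      rw [← h0, nor]
      module) 2
  simp at this

lemma cinner {α : Type*} [TopologicalSpace α] {a b : α → P4} {z0 : α}
    (ha : ContinuousAt a z0) (hb : ContinuousAt b z0) :
    ContinuousAt (fun z => inner ℝ (a z) (b z)) z0 := ContinuousAt.inner (𝕜 := ℝ) ha hb

lemma continuousAt_nor {α : Type*} [TopologicalSpace α] {a b x : α → P4} {z0 : α}
    (ha : ContinuousAt a z0) (hb : ContinuousAt b z0) (hx : ContinuousAt x z0)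
    (h : gr (a z0) (b z0) ≠ 0) : ContinuousAt (fun z => nor (a z) (b z) (x z)) z0 := by
  have hg : ContinuousAt (fun z => gr (a z) (b z)) z0 :=
    ((cinner ha ha).mul (cinner hb hb)).sub ((cinner ha hb).pow 2)
  have hg' : ContinuousAt (fun z => (gr (a z) (b z))⁻¹) z0 := hg.inv₀ h
  have h1 : ContinuousAt (fun z => inner ℝ (x z) (a z) * inner ℝ (b z) (b z) -
      inner ℝ (x z) (b z) * inner ℝ (a z) (b z)) z0 :=
    ((cinner hx ha).mul (cinner hb hb)).sub ((cinner hx hb).mul (cinner ha hb))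
  have h2 : ContinuousAt (fun z => inner ℝ (x z) (b z) * inner ℝ (a z) (a z) -
      inner ℝ (x z) (a z) * inner ℝ (a z) (b z)) z0 :=
    ((cinner hx hb).mul (cinner ha ha)).sub ((cinner hx ha).mul (cinner ha hb))
  exact ContinuousAt.sub hx (ContinuousAt.smul hg' (ContinuousAt.add (ContinuousAt.smul h1 ha)
    (ContinuousAt.smul h2 hb)))

/-- the parameter space: `A, B, Y = ε X11, X12, X22, ε` -/
abbrev Z := P4 × P4 × P4 × P4 × P4 × ℝ

def NY (z : Z) : P4 := nor z.1 z.2.1 z.2.2.1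
def N12 (z : Z) : P4 := nor z.1 z.2.1 z.2.2.2.1
def N22 (z : Z) : P4 := nor z.1 z.2.1 z.2.2.2.2.1

def Hq (p q : P2) (z : Z) : P4 :=
  (p 0 * q 0) • NY z + (z.2.2.2.2.2 * (p 0 * q 1 + p 1 * q 0)) • N12 z
    + (z.2.2.2.2.2 * (p 1 * q 1)) • N22 z

lemma continuousAt_NY {z : Z} (h : gr z.1 z.2.1 ≠ 0) : ContinuousAt NY z :=
  continuousAt_nor (by fun_prop) (by fun_prop) (by fun_prop) h

lemma continuousAt_N12 {z : Z} (h : gr z.1 z.2.1 ≠ 0) : ContinuousAt N12 z :=
  continuousAt_nor (by fun_prop) (by fun_prop) (by fun_prop) h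

lemma continuousAt_N22 {z : Z} (h : gr z.1 z.2.1 ≠ 0) : ContinuousAt N22 z :=
  continuousAt_nor (by fun_prop) (by fun_prop) (by fun_prop) h

lemma continuousAt_Hq (p q : P2) {z : Z} (h : gr z.1 z.2.1 ≠ 0) : ContinuousAt (Hq p q) z := by
  have h1 := continuousAt_NY h
  have h2 := continuousAt_N12 h
  have h3 := continuousAt_N22 h
  have he : ContinuousAt (fun z : Z => z.2.2.2.2.2) z := by fun_prop
  have k1 : ContinuousAt (fun z : Z => z.2.2.2.2.2 * (p 0 * q 1 + p 1 * q 0)) z :=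
    he.mul continuousAt_const
  have k2 : ContinuousAt (fun z : Z => z.2.2.2.2.2 * (p 1 * q 1)) z :=
    he.mul continuousAt_const
  have k0 : ContinuousAt (fun _ : Z => (p 0 * q 0 : ℝ)) z := continuousAt_const
  exact ContinuousAt.add (ContinuousAt.add (ContinuousAt.smul k0 h1)
    (ContinuousAt.smul k1 h2)) (ContinuousAt.smul k2 h3)

def gb (κ : ℝ) (v v' : P2) (z : Z) : ℝ :=
  z.2.2.2.2.2 ^ 2 * (κ * (v 0 * v' 1 - v 1 * v' 0) ^ 2) *
      inner ℝ (Hq v' v' z) (Hq v' v' z) + inner ℝ (Hq v v' z) (Hq v' v' z) ^ 2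
def gc (z : Z) : ℝ := inner ℝ (NY z + N22 z) (N22 z)
def gd (v : P2) (z : Z) : ℝ := inner ℝ (NY z + N22 z) (Hq v v z)

/-- the four open conditions -/
def Good (κ : ℝ) (v v' : P2) (z : Z) : Prop :=
  0 < gb κ v v' z ∧ 0 < gc z ∧ 0 < gd v z ∧ 0 < gd v' z

lemma good_nhds {κ : ℝ} {v v' : P2} {z : Z} (hg : gr z.1 z.2.1 ≠ 0) (h : Good κ v v' z) :
    ∀ᶠ z' in 𝓝 z, Good κ v v' z' := by
  have h1 := continuousAt_NY hg
  have h3 := continuousAt_N22 hg
  have he : ContinuousAt (fun z : Z => z.2.2.2.2.2) z := by fun_prop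
  have hvv := continuousAt_Hq v v hg
  have hvw := continuousAt_Hq v v' hg
  have hww := continuousAt_Hq v' v' hg
  have hb : ContinuousAt (gb κ v v') z :=
    (((he.pow 2).mul continuousAt_const).mul (cinner hww hww)).add ((cinner hvw hww).pow 2)
  have hc : ContinuousAt gc z :=
    cinner (h1.add h3) h3
  have hd : ContinuousAt (gd v) z :=
    cinner (h1.add h3) hvv
  have hee : ContinuousAt (gd v') z :=
    cinner (h1.add h3) hww
  filter_upwards [hb.eventually (lt_mem_nhds h.1), hc.eventually (lt_mem_nhds h.2.1),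
    hd.eventually (lt_mem_nhds h.2.2.1), hee.eventually (lt_mem_nhds h.2.2.2)] with y a1 a2 a3 a4
  exact ⟨a1, a2, a3, a4⟩

lemma good_base {κ : ℝ} {v v' : P2} (hv : v 0 ≠ 0) (hv' : v' 0 ≠ 0) {A B C Y X : P4}
    (hind : LinearIndependent ℝ ![A, B, C])
    (hp : inner ℝ Y A = 0 ∧ inner ℝ Y B = 0 ∧ inner ℝ Y C = 0) (hY : Y ≠ 0) :
    Good κ v v' (A, B, Y, X, C, 0) := by
  have hNY : NY (A, B, Y, X, C, 0) = Y := nor_of_perp hp.1 hp.2.1
  have hYY : 0 < inner ℝ Y Y := real_inner_self_pos.2 hY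
  have hYm : inner ℝ Y (N22 (A, B, Y, X, C, 0)) = 0 := by
    rw [N22, inner_nor_of_perp hp.1 hp.2.1, hp.2.2]
  have hm : N22 (A, B, Y, X, C, 0) ≠ 0 := nor_ne_zero hind
  have hmm := real_inner_self_pos.2 hm
  have hH : ∀ p q : P2, Hq p q (A, B, Y, X, C, 0) = (p 0 * q 0) • Y := by
    intro p q
    simp [Hq, hNY]
  refine ⟨?_, ?_, ?_, ?_⟩
  · simp only [gb, hH, real_inner_smul_left, real_inner_smul_right]
    have : 0 < ((v 0 * v' 0) * ((v' 0 * v' 0) * inner ℝ Y Y)) ^ 2 := by positivity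
    nlinarith [this]
  · rw [gc, hNY, inner_add_left, hYm]; linarith
  · rw [gd, hNY, hH, inner_add_left, real_inner_smul_right, real_inner_smul_right,
      real_inner_comm Y (N22 _), hYm]
    have : 0 < v 0 * v 0 := mul_self_pos.2 hv
    nlinarith [mul_pos this hYY]
  · rw [gd, hNY, hH, inner_add_left, real_inner_smul_right, real_inner_smul_right,
      real_inner_comm Y (N22 _), hYm]
    have : 0 < v' 0 * v' 0 := mul_self_pos.2 hv'
    nlinarith [mul_pos this hYY]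

/-- Gauss identity for a symmetric bilinear form with values in an inner product space -/
lemma gauss_bilin (a b c : P4) (κ : ℝ) (hκ : inner ℝ a c - inner ℝ b b = κ) (p q : P2) :
    inner ℝ ((p 0 * p 0) • a + (p 0 * p 1 + p 1 * p 0) • b + (p 1 * p 1) • c)
      ((q 0 * q 0) • a + (q 0 * q 1 + q 1 * q 0) • b + (q 1 * q 1) • c) =
    κ * (p 0 * q 1 - p 1 * q 0) ^ 2 +
      inner ℝ ((p 0 * q 0) • a + (p 0 * q 1 + p 1 * q 0) • b + (p 1 * q 1) • c)
        ((p 0 * q 0) • a + (p 0 * q 1 + p 1 * q 0) • b + (p 1 * q 1) • c) := by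
  subst hκ
  simp only [inner_add_left, inner_add_right, real_inner_smul_left, real_inner_smul_right]
  rw [real_inner_comm b a, real_inner_comm c a, real_inner_comm c b]
  ring

lemma good_final {κ : ℝ} {v v' : P2} {A B X11 X12 X22 : P4} {ε : ℝ} (hε : 0 < ε)
    (hg : Good κ v v' (A, B, ε • X11, X12, X22, ε))
    (hG : inner ℝ (nor A B X11) (nor A B X22) - inner ℝ (nor A B X12) (nor A B X12) = κ)
    {h : P2 → P2 → P4}
    (hh : ∀ p q : P2, h p q = nor A B ((p 0 * q 0) • X11 + (p 0 * q 1 + p 1 * q 0) • X12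
          + (p 1 * q 1) • X22)) :
    Q2 h v v' ∧ Q3 h (‖nor A B X22‖⁻¹ • nor A B X22) v v' := by
  have hh' : ∀ p q : P2, h p q = (p 0 * q 0) • nor A B X11 +
      (p 0 * q 1 + p 1 * q 0) • nor A B X12 + (p 1 * q 1) • nor A B X22 := by
    intro p q
    rw [hh, nor_add, nor_add, nor_smul, nor_smul, nor_smul]
  have hH : ∀ p q : P2, Hq p q (A, B, ε • X11, X12, X22, ε) = ε • h p q := by
    intro p q
    rw [hh', Hq, NY, N12, N22, nor_smul]
    module
  have hb := hg.1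
  have hc := hg.2.1
  have hd := hg.2.2.1
  have he := hg.2.2.2
  rw [gb] at hb
  rw [gc] at hc
  rw [gd] at hd he
  rw [hH, hH] at hb
  rw [hH] at hd he
  simp only [real_inner_smul_left, real_inner_smul_right] at hb
  have hgauss : inner ℝ (h v v) (h v' v') = κ * (v 0 * v' 1 - v 1 * v' 0) ^ 2 +
      inner ℝ (h v v') (h v v') := by
    rw [hh', hh', hh']
    exact gauss_bilin _ _ _ κ hG v v'
  constructor
  · rw [Q2, hgauss]
    have h4 : 0 < ε ^ 4 := by positivity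
    have : 0 < ε ^ 4 * (κ * (v 0 * v' 1 - v 1 * v' 0) ^ 2 * inner ℝ (h v' v') (h v' v') +
        inner ℝ (h v v') (h v' v') ^ 2) := by
      calc (0:ℝ) < _ := hb
        _ = _ := by ring
    have := pos_of_mul_pos_right this h4.le
    nlinarith [this]
  · refine ⟨NY (A, B, ε • X11, X12, X22, ε) + N22 (A, B, ε • X11, X12, X22, ε), ?_, ?_, ?_⟩
    · have hne : nor A B X22 ≠ 0 := by
        intro h0
        have : N22 (A, B, ε • X11, X12, X22, ε) = 0 := h0
        rw [this, inner_zero_right] at hc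
        exact lt_irrefl _ hc
      rw [real_inner_smul_right]
      exact mul_pos (inv_pos.2 (norm_pos_iff.2 hne)) hc
    · rw [real_inner_smul_right] at hd; exact pos_of_mul_pos_right hd hε.le
    · rw [real_inner_smul_right] at he; exact pos_of_mul_pos_right he hε.le

end LL2P

open LL2P in
/-- LL2: one crossing point with two directions. -/
theorem LL2 {f2 f22 : P4} {w w2 wt : ℝ → P4} (hw : Continuous w) (hw2 : Continuous w2)
    (hwt : Continuous wt)
    (hper : ∀ t, w (t + 2 * Real.pi) = w t ∧ w2 (t + 2 * Real.pi) = w2 t ∧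
      wt (t + 2 * Real.pi) = wt t) (κ : ℝ)
    (hind : ∀ t, LinearIndependent ℝ ![w t, f2, f22])
    (hperp : ∀ t, inner ℝ (wt t) (w t) = 0 ∧ inner ℝ (wt t) f2 = 0 ∧ inner ℝ (wt t) f22 = 0)
    {c3 : ℝ} (hc3 : 0 < c3) (hne : ∀ t, c3 ≤ |Real.sin t| → wt t ≠ 0)
    {v v' : P2} (hv : v 0 ≠ 0) (hv' : v' 0 ≠ 0) :
    ∃ η : ℝ, 0 < η ∧ ∀ t, c3 ≤ |Real.sin t| → ∀ A B X11 X12 X22 : P4, ∀ ε, 0 < ε → ε < η →
      ‖A - w t‖ ≤ η → ‖B - f2‖ ≤ η → ‖X12 - w2 t‖ ≤ η →
      ‖X22 - f22‖ ≤ η → ‖ε • X11 - wt t‖ ≤ η →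
      inner ℝ (nor A B X11) (nor A B X22) - inner ℝ (nor A B X12) (nor A B X12) = κ →
      ∀ h : P2 → P2 → P4,
        (∀ p q : P2, h p q = nor A B ((p 0 * q 0) • X11 + (p 0 * q 1 + p 1 * q 0) • X12
          + (p 1 * q 1) • X22)) →
        Q2 h v v' ∧ Q3 h (‖nor A B X22‖⁻¹ • nor A B X22) v v' := by
  set φ : ℝ → Z := fun t => (w t, f2, wt t, w2 t, f22, 0) with hφ
  have hφc : Continuous φ := by fun_prop
  set T : Set ℝ := {t | t ∈ Icc 0 (2 * Real.pi) ∧ c3 ≤ |Real.sin t|} with hT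
  have hTc : IsCompact T := by
    apply isCompact_Icc.inter_right (s := Icc 0 (2 * Real.pi)) (t := {t | c3 ≤ |Real.sin t|})
    exact isClosed_le continuous_const (Real.continuous_sin.abs)
  have hK : IsCompact (φ '' T) := hTc.image hφc
  have hsub : φ '' T ⊆ interior {z | Good κ v v' z} := by
    rintro _ ⟨t, ht, rfl⟩
    rw [mem_interior_iff_mem_nhds]
    exact good_nhds (gr_pos3 (hind t)).ne' (good_base hv hv' (hind t) (hperp t) (hne t ht.2))
  obtain ⟨δ, hδ, hδs⟩ := hK.exists_cthickening_subset_open isOpen_interior hsub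
  refine ⟨δ, hδ, ?_⟩
  intro t ht A B X11 X12 X22 ε hε hεδ hA hB h12 h22 hY hG h hh
  -- reduce `t` to `[0, 2π]`
  have hP : Function.Periodic (fun t => (w t, w2 t, wt t, Real.sin t)) (2 * Real.pi) := by
    intro t
    simp [(hper t).1, (hper t).2.1, (hper t).2.2]
  obtain ⟨s, hs, hst⟩ := hP.exists_mem_Ico₀ (by positivity) t
  simp only [Prod.mk.injEq] at hst
  obtain ⟨hsw, hsw2, hswt, hsin⟩ := hst
  have hmem : φ s ∈ φ '' T := ⟨s, ⟨Ico_subset_Icc_self hs, by rw [← hsin]; exact ht⟩, rfl⟩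
  have hgood : Good κ v v' (A, B, ε • X11, X12, X22, ε) := by
    have : (A, B, ε • X11, X12, X22, ε) ∈ {z | Good κ v v' z} := by
     apply interior_subset
     apply hδs
     refine Metric.mem_cthickening_of_dist_le _ (φ s) δ _ hmem ?_
     simp only [hφ, ← hsw, ← hsw2, ← hswt]
     simp only [Prod.dist_eq, max_le_iff]
     simp only [dist_eq_norm]
     refine ⟨hA, hB, hY, h12, h22, ?_⟩
     rw [sub_zero, Real.norm_of_nonneg hε.le]; exact hεδ.le
    exact this
  exact good_final hε hgood hG hh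

end Crest.Agent.R216.PSL
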