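import Crest.Agent.R216.LoopFam
import Crest.Agent.R216.PSLDefs
import Crest.Agent.R216.AlgP
import Mathlib
import Crest.Agent.R216.ParamInt
import Crest.Agent.R216.GlobDefs
import Crest.Agent.R216.PSLLim2_Mg
import Crest.Agent.R216.EFinX

-- ▼ part R216/LoopExt
section

/-!
Row 216 (S0335), LOOPS: the matrix `T`, the rotation of the reference direction and the speed of the
extreme points of the loops.
-/

set_option autoImplicit false

open Complex MeasureTheory Real Metric Set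
open scoped Real Interval ContDiff

namespace Crest.Agent.R216.Loop

/-! ### the matrix `T = ⟨τ_θ ⊗ τ_θ⟩` -/






/-! ### rotation of the reference direction -/

/-- coordinates of the mean in the rotated frame -/
noncomputable def rX (X Y θ : ℝ) : ℝ := X * Real.cos θ + Y * Real.sin θ
noncomputable def rY (X Y θ : ℝ) : ℝ := -(X * Real.sin θ) + Y * Real.cos θ

lemma rX_sq_add (X Y θ : ℝ) : rX X Y θ ^ 2 + rY X Y θ ^ 2 = X ^ 2 + Y ^ 2 := by
  unfold rX rY
  have := Real.sin_sq_add_cos_sq θ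
  linear_combination (X ^ 2 + Y ^ 2) * this

@[simp] lemma rX_zero (X Y : ℝ) : rX X Y 0 = X := by simp [rX]
@[simp] lemma rY_zero (X Y : ℝ) : rY X Y 0 = Y := by simp [rY]

lemma hasDerivAt_rX (X Y θ : ℝ) : HasDerivAt (fun θ => rX X Y θ) (rY X Y θ) θ := by
  unfold rX rY
  have h1 := (Real.hasDerivAt_cos θ).const_mul X
  have h2 := (Real.hasDerivAt_sin θ).const_mul Y
  exact (h1.add h2).congr_deriv (by ring)

lemma hasDerivAt_rY (X Y θ : ℝ) : HasDerivAt (fun θ => rY X Y θ) (-rX X Y θ) θ := by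
  unfold rX rY
  have h1 := ((Real.hasDerivAt_sin θ).const_mul X).neg
  have h2 := (Real.hasDerivAt_cos θ).const_mul Y
  exact (h1.add h2).congr_deriv (by ring)

/-- tangent of the half angle of the extreme points: `σ = 1` is `t = 0`, `σ = -1` is `t = π` -/
noncomputable def pe (σ X Y s : ℝ) : ℝ := -(qx X Y * qy X Y) + σ * (s * gl X Y)


/-- angle of the extreme point after rotating the reference direction by `θ` -/
noncomputable def ang (σ X Y s θ : ℝ) : ℝ :=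
  θ + 2 * Real.arctan (pe σ (rX X Y θ) (rY X Y θ) s)

/-- the derivative of `ang` in `θ`, as a function of the rotated mean -/
noncomputable def kp (σ X Y : ℝ) : ℝ :=
  (qx X Y - 1) * (√(1 + qy X Y ^ 2) - σ * qy X Y * √(qx X Y ^ 2 - 1) / (qx X Y + 1) +
    (qx X Y - 1) / √(1 + qy X Y ^ 2)) /
    (qx X Y * √(1 + qy X Y ^ 2) - σ * √(qx X Y ^ 2 - 1) * qy X Y)

lemma hasDerivAt_qx {X Y θ : ℝ} (h : -1 < rX X Y θ) :
    HasDerivAt (fun θ => qx (rX X Y θ) (rY X Y θ))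
      (qy (rX X Y θ) (rY X Y θ) * (qx (rX X Y θ) (rY X Y θ) - 1)) θ := by
  have hN := n2_pos (Y := rY X Y θ) h
  have h1 := hasDerivAt_rX X Y θ
  have h2 := hasDerivAt_rY X Y θ
  have hn : HasDerivAt (fun θ => n2 (rX X Y θ) (rY X Y θ)) (2 * rY X Y θ) θ := by
    unfold n2
    exact (((h1.const_add 1).pow 2).add (h2.pow 2)).congr_deriv (by push_cast; ring)
  have h3 := ((h1.const_add 1).const_mul 2).div hn hN.ne'
  refine HasDerivAt.congr_deriv h3 ?_
  try simp only [Pi.neg_apply]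
  unfold qx qy
  field_simp
  unfold n2
  ring

lemma hasDerivAt_qy {X Y θ : ℝ} (h : -1 < rX X Y θ) :
    HasDerivAt (fun θ => qy (rX X Y θ) (rY X Y θ))
      ((1 + qy (rX X Y θ) (rY X Y θ) ^ 2 - (qx (rX X Y θ) (rY X Y θ) - 1) ^ 2) / 2) θ := by
  have hN := n2_pos (Y := rY X Y θ) h
  have h1 := hasDerivAt_rX X Y θ
  have h2 := hasDerivAt_rY X Y θ
  have hn : HasDerivAt (fun θ => n2 (rX X Y θ) (rY X Y θ)) (2 * rY X Y θ) θ := by
    unfold n2
    exact (((h1.const_add 1).pow 2).add (h2.pow 2)).congr_deriv (by push_cast; ring)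
  have h3 := ((h2.const_mul 2).neg).div hn hN.ne'
  refine HasDerivAt.congr_deriv h3 ?_
  try simp only [Pi.neg_apply]
  unfold qx qy
  field_simp
  unfold n2
  ring

lemma D_ext_pos {σ x y S c : ℝ} (hσ : σ ^ 2 = 1) (hx : 1 < x) (hS : 0 < S) (hc : 0 < c)
    (hSs : S ^ 2 = x ^ 2 - 1) (hcs : c ^ 2 = 1 + y ^ 2) :
    1 / (2 * x * c) ≤ x * c - σ * S * y ∧ x * c - σ * S * y ≤ 2 * x * c := by
  have h1 : (x * c) ^ 2 - (σ * S * y) ^ 2 = x ^ 2 + y ^ 2 := by
    rw [mul_pow, mul_pow, mul_pow, hSs, hcs, hσ]; ring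
  have h2 : 0 < x * c := by positivity
  have h3 : |σ * S * y| ≤ x * c := by
    rw [← abs_of_pos h2]
    apply sq_le_sq.mp
    nlinarith [sq_nonneg x, sq_nonneg y]
  have h4 := abs_le.mp h3
  constructor
  · rw [div_le_iff₀ (by positivity)]
    nlinarith [h4.1, h4.2, sq_nonneg y]
  · linarith [h4.1]

lemma kp_alg {σ x y S c : ℝ} (hσ : σ ^ 2 = 1) (hx : 1 < x) (hS : 0 < S) (hc : 0 < c)
    (hSs : S ^ 2 = x ^ 2 - 1) (hcs : c ^ 2 = 1 + y ^ 2) :
    (x - 1) * (c - σ * y * S / (x + 1) + (x - 1) / c) / (x * c - σ * S * y) =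
    1 + 2 * (1 / (1 + (-(x * y) + σ * (S * c)) ^ 2) *
      (-(y * (x - 1) * y + x * ((1 + y ^ 2 - (x - 1) ^ 2) / 2)) +
        σ * (2 * x * (y * (x - 1)) / (2 * S) * c +
          S * (2 * y * ((1 + y ^ 2 - (x - 1) ^ 2) / 2) / (2 * c))))) := by
  have hD : 0 < x * c - σ * S * y := by
    have := (D_ext_pos hσ hx hS hc hSs hcs).1
    have h2 : 0 < 1 / (2 * x * c) := by positivity
    linarith
  have e1 : 1 + (-(x * y) + σ * (S * c)) ^ 2 = (x * c - σ * S * y) ^ 2 := by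
    linear_combination (S ^ 2 * c ^ 2 - S ^ 2 * y ^ 2) * hσ + (c ^ 2 - y ^ 2) * hSs +
      (-1 : ℝ) * hcs
  have hx1 : 0 < x + 1 := by linarith
  have e2 : 2 * x * (y * (x - 1)) / (2 * S) * c = x * y * c * S / (x + 1) := by
    rw [div_mul_eq_mul_div, div_eq_div_iff (by positivity) (by positivity)]
    linear_combination (-2 * x * y * c) * hSs
  have e3 : (-(y * (x - 1) * y + x * ((1 + y ^ 2 - (x - 1) ^ 2) / 2)) +
        σ * (2 * x * (y * (x - 1)) / (2 * S) * c +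
          S * (2 * y * ((1 + y ^ 2 - (x - 1) ^ 2) / 2) / (2 * c)))) =
      (x * c - σ * S * y) * (σ * y * S / (x + 1) - (c ^ 2 - (x - 1) ^ 2) / 2 / c) := by
    rw [e2, hcs]
    have e4 : S ^ 2 / (x + 1) = x - 1 := by
      rw [hSs, div_eq_iff hx1.ne']; ring
    have e5 : (x * c - σ * S * y) * (σ * y * S / (x + 1) - (1 + y ^ 2 - (x - 1) ^ 2) / 2 / c) =
        σ * (x * y * c * S / (x + 1)) - σ ^ 2 * y ^ 2 * (S ^ 2 / (x + 1)) -
          x * ((1 + y ^ 2 - (x - 1) ^ 2) / 2) +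
          σ * (S * (y * ((1 + y ^ 2 - (x - 1) ^ 2) / 2) / c)) := by
      field_simp
      ring
    rw [e5, e4, hσ]
    field_simp
    ring
  rw [e3, e1]
  have e6 : (x - 1) * (c - σ * y * S / (x + 1) + (x - 1) / c) = (x * c - σ * S * y) +
      2 * (σ * y * S / (x + 1) - (c ^ 2 - (x - 1) ^ 2) / 2 / c) := by
    field_simp
    ring
  rw [e6]
  generalize (σ * y * S / (x + 1) - (c ^ 2 - (x - 1) ^ 2) / 2 / c) = W
  generalize (x * c - σ * S * y) = D at hD
  field_simp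

/-- **speed of the extreme points under rotation of the reference direction** -/
theorem hasDerivAt_ang {σ X Y s θ : ℝ} (hσ : σ ^ 2 = 1) (h : -1 < rX X Y θ) (hs : 0 < s)
    (hXY : X ^ 2 + Y ^ 2 + s ^ 2 = 1) :
    HasDerivAt (fun θ => ang σ X Y s θ) (kp σ (rX X Y θ) (rY X Y θ)) θ := by
  have hN := n2_pos (Y := rY X Y θ) h
  have hr : ∀ θ, rX X Y θ ^ 2 + rY X Y θ ^ 2 + s ^ 2 = 1 := by
    intro θ; rw [rX_sq_add, hXY]
  have hx := qx_sub_one h (hr θ)
  have hx1 : 1 < qx (rX X Y θ) (rY X Y θ) := by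
    have : 0 < s ^ 2 / n2 (rX X Y θ) (rY X Y θ) := by positivity
    linarith
  have hqx := hasDerivAt_qx h
  have hqy := hasDerivAt_qy h
  -- near `θ`, `s * gl = √((x²-1)(1+y²))`
  have hev : (fun θ => s * gl (rX X Y θ) (rY X Y θ)) =ᶠ[nhds θ]
      (fun θ => √(qx (rX X Y θ) (rY X Y θ) ^ 2 - 1) * √(1 + qy (rX X Y θ) (rY X Y θ) ^ 2)) := by
    have hopen : ∀ᶠ η in nhds θ, -1 < rX X Y η := by
      have hc : ContinuousAt (fun η => rX X Y η) θ := (hasDerivAt_rX X Y θ).continuousAt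
      exact hc.eventually (lt_mem_nhds h)
    filter_upwards [hopen] with η hη
    have h1 := alpha_sq hη (hr η)
    have h2 := gl_pos (Y := rY X Y η) hη
    have h3 := one_le_qx hη (hr η)
    rw [← Real.sqrt_mul (by nlinarith), ← h1, Real.sqrt_sq (by positivity)]
  have hS0 : 0 < qx (rX X Y θ) (rY X Y θ) ^ 2 - 1 := by nlinarith
  have hc0 : 0 < 1 + qy (rX X Y θ) (rY X Y θ) ^ 2 := by positivity
  have hS := ((hqx.pow 2).sub_const 1).sqrt hS0.ne'
  have hc := ((hqy.pow 2).const_add 1).sqrt hc0.ne'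
  have hF := (hS.mul hc).congr_of_eventuallyEq hev
  have hp : HasDerivAt (fun θ => pe σ (rX X Y θ) (rY X Y θ) s) _ θ :=
    ((hqx.mul hqy).neg).add (hF.const_mul σ)
  have ha : HasDerivAt (fun θ => ang σ X Y s θ) _ θ :=
    (hasDerivAt_id θ).add (hp.arctan.const_mul 2)
  refine HasDerivAt.congr_deriv ha (Eq.symm ?_)
  have hpe : pe σ (rX X Y θ) (rY X Y θ) s = -(qx (rX X Y θ) (rY X Y θ) * qy (rX X Y θ) (rY X Y θ)) +
      σ * (√(qx (rX X Y θ) (rY X Y θ) ^ 2 - 1) * √(1 + qy (rX X Y θ) (rY X Y θ) ^ 2)) := by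
    have := hev.self_of_nhds
    simp only at this
    unfold pe
    rw [this]
  rw [hpe]
  unfold kp
  have hSs : √(qx (rX X Y θ) (rY X Y θ) ^ 2 - 1) ^ 2 = qx (rX X Y θ) (rY X Y θ) ^ 2 - 1 :=
    Real.sq_sqrt hS0.le
  have hcs : √(1 + qy (rX X Y θ) (rY X Y θ) ^ 2) ^ 2 = 1 + qy (rX X Y θ) (rY X Y θ) ^ 2 :=
    Real.sq_sqrt hc0.le
  have hSp : 0 < √(qx (rX X Y θ) (rY X Y θ) ^ 2 - 1) := Real.sqrt_pos.mpr hS0
  have hcp : 0 < √(1 + qy (rX X Y θ) (rY X Y θ) ^ 2) := Real.sqrt_pos.mpr hc0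
  simp only [Nat.cast_ofNat, Nat.add_one_sub_one, pow_one, Pi.pow_apply]
  generalize √(qx (rX X Y θ) (rY X Y θ) ^ 2 - 1) = S at *
  generalize √(1 + qy (rX X Y θ) (rY X Y θ) ^ 2) = c at *
  generalize qx (rX X Y θ) (rY X Y θ) = x at *
  generalize qy (rX X Y θ) (rY X Y θ) = y at *
  exact kp_alg hσ hx1 hSp hcp hSs hcs

end Crest.Agent.R216.Loop
end

-- ▼ part R216/LoopOm
section

/-!
Row 216 (S0335), LOOPS: the loop `om z s t` on the unit circle of `ℂ` (interface for the step lemma).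
-/

set_option autoImplicit false

open Complex MeasureTheory Real Metric Set
open scoped Real Interval ContDiff

namespace Crest.Agent.R216.Loop

/-- `om = (1+ip)/(1-ip)`, `q = 2/(1+z)`, `p = -q1 q2 + α cos t`,
`α = s √((q1+1)(1+q2²)) / |1+z|` -/
noncomputable def om (z : ℂ) (s t : ℝ) : ℂ := (cl z.re z.im s t : ℂ) + I * sl z.re z.im s t

lemma om_re (z : ℂ) (s t : ℝ) : (om z s t).re = cl z.re z.im s t := by simp [om]
lemma om_im (z : ℂ) (s t : ℝ) : (om z s t).im = sl z.re z.im s t := by simp [om]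

lemma norm_om (z : ℂ) (s t : ℝ) : ‖om z s t‖ = 1 := by
  have h : ‖om z s t‖ ^ 2 = 1 := by
    rw [← Complex.normSq_eq_norm_sq, Complex.normSq_apply, om_re, om_im]
    have := cl_sq_add_sl_sq z.re z.im s t
    linear_combination this
  have h0 := norm_nonneg (om z s t)
  nlinarith

lemma om_neg (z : ℂ) (s t : ℝ) : om z s (-t) = om z s t := by
  simp [om, cl_neg, sl_neg]

lemma om_add_two_pi (z : ℂ) (s t : ℝ) : om z s (t + 2 * π) = om z s t := by
  simp [om, cl_add_two_pi, sl_add_two_pi]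


section
variable {E : Type*} [NormedAddCommGroup E] [NormedSpace ℝ E] {n : ℕ∞ω}
  {f : E → ℂ} {g k : E → ℝ} {x : E}

lemma ContDiffAt.om' (hf : ContDiffAt ℝ n f x) (hg : ContDiffAt ℝ n g x)
    (hk : ContDiffAt ℝ n k x) (h0 : 0 < 1 + (f x).re) :
    ContDiffAt ℝ n (fun x => om (f x) (g x) (k x)) x := by
  have hre : ContDiffAt ℝ n (fun x => (f x).re) x :=
    (Complex.reCLM.contDiff.contDiffAt).comp x hf
  have him : ContDiffAt ℝ n (fun x => (f x).im) x :=
    (Complex.imCLM.contDiff.contDiffAt).comp x hf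
  have h0' : -1 < (f x).re := by linarith
  have h1 := ContDiffAt.cl' hre him hg hk h0'
  have h2 := ContDiffAt.sl' hre him hg hk h0'
  unfold om
  apply ContDiffAt.add
  · exact (Complex.ofRealCLM.contDiff.contDiffAt).comp x h1
  · exact contDiffAt_const.mul ((Complex.ofRealCLM.contDiff.contDiffAt).comp x h2)

end


lemma continuous_om (z : ℂ) (s : ℝ) : Continuous (om z s) := by
  unfold om
  have h1 := continuous_cl z.re z.im s
  have h2 := continuous_sl z.re z.im s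
  fun_prop

/-- **exact mean** -/
theorem integral_om {z : ℂ} {s : ℝ} (hz : 0 < 1 + z.re) (h : ‖z‖ ^ 2 + s ^ 2 = 1) :
    ∫ t in (0 : ℝ)..2 * π, om z s t = 2 * π * z := by
  have h' : z.re ^ 2 + z.im ^ 2 + s ^ 2 = 1 := by
    rw [← h, ← Complex.normSq_eq_norm_sq, Complex.normSq_apply]; ring
  have hm := mean_complex (by linarith : -1 < z.re) h'
  have hpi : (2 * π : ℂ) ≠ 0 := by
    have := Real.pi_ne_zero
    simp [this]
  rw [inv_mul_eq_iff_eq_mul₀ hpi] at hm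
  unfold om
  rw [hm]
  congr 1
  rw [mul_comm I]
  exact Complex.re_add_im z

lemma om_eq (z : ℂ) (s t : ℝ) :
    om z s t = exp (I * ((2 * Real.arctan (pl z.re z.im s t) : ℝ) : ℂ)) := by
  set p := pl z.re z.im s t with hp
  have h1 := one_add_sq_pos p
  have hc : Real.cos (2 * Real.arctan p) = (1 - p ^ 2) / (1 + p ^ 2) := by
    rw [Real.cos_two_mul, Real.cos_sq_arctan]
    field_simp
    ring
  have hs : Real.sin (2 * Real.arctan p) = 2 * p / (1 + p ^ 2) := by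
    rw [Real.sin_two_mul, Real.sin_arctan, Real.cos_arctan]
    have h3 : √(1 + p ^ 2) ^ 2 = 1 + p ^ 2 := Real.sq_sqrt h1.le
    have h4 : 0 < √(1 + p ^ 2) := Real.sqrt_pos.mpr h1
    have h5 : ∀ r : ℝ, 0 < r → 2 * (p / r) * (1 / r) = 2 * p / r ^ 2 := by
      intro r hr
      field_simp
    rw [h5 _ h4, h3]
  unfold om cl sl
  rw [← hp, mul_comm I (((2 * Real.arctan p : ℝ) : ℂ)), Complex.exp_mul_I, ← Complex.ofReal_cos,
    ← Complex.ofReal_sin, hc, hs, mul_comm I]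

/-- `t`-derivative of the loop -/
theorem hasDerivAt_om {z : ℂ} {s : ℝ} (t : ℝ) :
    HasDerivAt (fun t => om z s t)
      (I * ((2 * (-(s * gl z.re z.im * Real.sin t) / (1 + pl z.re z.im s t ^ 2)) : ℝ) : ℂ) *
        om z s t) t := by
  have hp : HasDerivAt (fun t => pl z.re z.im s t) (-(s * gl z.re z.im * Real.sin t)) t := by
    unfold pl
    exact (((Real.hasDerivAt_cos t).const_mul (s * gl z.re z.im)).const_add _).congr_deriv
      (by ring)
  have ha := (hp.arctan.const_mul 2).ofReal_comp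
  have he := ((ha.const_mul I).cexp)
  have e : (fun t => om z s t) =
      (fun t => exp (I * ((2 * Real.arctan (pl z.re z.im s t) : ℝ) : ℂ))) := by
    funext t; exact om_eq z s t
  rw [e]
  refine he.congr_deriv ?_
  rw [om_eq]
  push_cast
  ring

theorem deriv_om_eq_zero_iff {z : ℂ} {s : ℝ} (hz : 0 < 1 + z.re) (t : ℝ) :
    deriv (fun t => om z s t) t = 0 ↔ s = 0 ∨ Real.sin t = 0 := by
  rw [(hasDerivAt_om (z := z) (s := s) t).deriv]
  have h1 : om z s t ≠ 0 := by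
    intro h
    have := norm_om z s t
    rw [h] at this
    simp at this
  have h2 := one_add_sq_pos (pl z.re z.im s t)
  have h3 := gl_pos (X := z.re) (Y := z.im) (by linarith)
  rw [mul_eq_zero, or_iff_left h1, mul_eq_zero, or_iff_right I_ne_zero, Complex.ofReal_eq_zero]
  constructor
  · intro h
    have h4 : s * gl z.re z.im * Real.sin t = 0 := by
      have h5 : -(s * gl z.re z.im * Real.sin t) / (1 + pl z.re z.im s t ^ 2) = 0 := by linarith
      rw [div_eq_zero_iff] at h5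
      rcases h5 with h5 | h5
      · linarith
      · exact absurd h5 h2.ne'
    rcases mul_eq_zero.mp h4 with h5 | h5
    · rcases mul_eq_zero.mp h5 with h6 | h6
      · exact Or.inl h6
      · exact absurd h6 h3.ne'
    · exact Or.inr h5
  · rintro (h | h) <;> simp [h]

/-- rotated argument -/
lemma rot_re (z : ℂ) (θ : ℝ) : (exp (-(I * θ)) * z).re = rX z.re z.im θ := by
  have : -(I * (θ : ℂ)) = ((-θ : ℝ) : ℂ) * I := by push_cast; ring
  rw [this, Complex.exp_mul_I, ← Complex.ofReal_cos, ← Complex.ofReal_sin]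
  simp [rX, Complex.cos_ofReal_re, Complex.sin_ofReal_re]
  ring

lemma rot_im (z : ℂ) (θ : ℝ) : (exp (-(I * θ)) * z).im = rY z.re z.im θ := by
  have : -(I * (θ : ℂ)) = ((-θ : ℝ) : ℂ) * I := by push_cast; ring
  rw [this, Complex.exp_mul_I, ← Complex.ofReal_cos, ← Complex.ofReal_sin]
  simp [rY, Complex.cos_ofReal_re, Complex.sin_ofReal_re]
  ring

lemma kp_alg_low {σ x y S c : ℝ} (hσ : σ ^ 2 = 1) (hx : 1 < x) (hS : 0 < S) (hc : 0 < c)
    (hSs : S ^ 2 = x ^ 2 - 1) (hcs : c ^ 2 = 1 + y ^ 2) :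
    (x - 1) / (4 * x * c ^ 2) ≤
      (x - 1) * (c - σ * y * S / (x + 1) + (x - 1) / c) / (x * c - σ * S * y) := by
  have hD := D_ext_pos hσ hx hS hc hSs hcs
  have hDpos : 0 < x * c - σ * S * y := by
    have h2 : 0 < 1 / (2 * x * c) := by positivity
    linarith [hD.1]
  have hb : 1 / (2 * c) ≤ c - σ * y * S / (x + 1) + (x - 1) / c := by
    have e1 : σ * y * S / (x + 1) ≤ |y| := by
      have h1 : |σ| = 1 := by
        have h0 : |σ| ^ 2 = 1 := by rw [sq_abs, hσ]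
        have h3 : (|σ| - 1) * (|σ| + 1) = 0 := by linear_combination h0
        rcases mul_eq_zero.mp h3 with h | h
        · linarith
        · have := abs_nonneg σ
          linarith
      have h2 : S ≤ x + 1 := by
        refine (abs_le_of_sq_le_sq' ?_ (by linarith)).2
        rw [hSs]; nlinarith
      rw [div_le_iff₀ (by linarith)]
      calc σ * y * S ≤ |σ * y * S| := le_abs_self _
        _ = |y| * S := by rw [abs_mul, abs_mul, h1, abs_of_pos hS]; ring
        _ ≤ |y| * (x + 1) := mul_le_mul_of_nonneg_left h2 (abs_nonneg y)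
    have e2 : 0 < (x - 1) / c := div_pos (by linarith) hc
    have e3 : 1 / (2 * c) ≤ c - |y| := by
      rw [div_le_iff₀ (by positivity)]
      have h4 : c ^ 2 = 1 + |y| ^ 2 := by rw [hcs, sq_abs]
      have h5 : (c - |y|) * (2 * c) = 1 + (c - |y|) ^ 2 := by
        linear_combination h4
      rw [h5]
      have := sq_nonneg (c - |y|)
      linarith
    linarith
  have h1 : 0 < x - 1 := by linarith
  rw [div_le_div_iff₀ (by positivity) hDpos]
  have h2 : (x - 1) * (x * c - σ * S * y) ≤ (x - 1) * (2 * x * c) :=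
    mul_le_mul_of_nonneg_left hD.2 h1.le
  have h3 : (x - 1) * (2 * x * c) = (x - 1) * (1 / (2 * c)) * (4 * x * c ^ 2) := by
    field_simp
    ring
  calc (x - 1) * (x * c - σ * S * y) ≤ (x - 1) * (2 * x * c) := h2
    _ = (x - 1) * (1 / (2 * c)) * (4 * x * c ^ 2) := h3
    _ ≤ _ := by
      apply mul_le_mul_of_nonneg_right _ (by positivity)
      exact mul_le_mul_of_nonneg_left hb h1.le

/-- lower bound for the speed -/
lemma kp_pos {σ X Y s : ℝ} (hσ : σ ^ 2 = 1) (hX : -1 < X) (hs : s ≠ 0)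
    (hXY : X ^ 2 + Y ^ 2 + s ^ 2 = 1) : s ^ 2 * √(n2 X Y) / 48 ≤ kp σ X Y ∧ 0 < kp σ X Y := by
  have hN := n2_pos (Y := Y) hX
  have hx := qx_sub_one hX hXY
  have hs2 : 0 < s ^ 2 := by positivity
  have hx1 : 1 < qx X Y := by
    have : 0 < s ^ 2 / n2 X Y := by positivity
    linarith
  have hq := q_norm (Y := Y) hX
  have hS0 : 0 < qx X Y ^ 2 - 1 := by nlinarith
  have hc0 : 0 < 1 + qy X Y ^ 2 := by positivity
  have hSs : √(qx X Y ^ 2 - 1) ^ 2 = qx X Y ^ 2 - 1 := Real.sq_sqrt hS0.le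
  have hcs : √(1 + qy X Y ^ 2) ^ 2 = 1 + qy X Y ^ 2 := Real.sq_sqrt hc0.le
  have hSp : 0 < √(qx X Y ^ 2 - 1) := Real.sqrt_pos.mpr hS0
  have hcp : 0 < √(1 + qy X Y ^ 2) := Real.sqrt_pos.mpr hc0
  have hN4 : n2 X Y ≤ 4 := by
    unfold n2
    have : X ≤ 1 := by nlinarith [sq_nonneg Y, sq_nonneg s]
    nlinarith [sq_nonneg Y, sq_nonneg s]
  have hlow := kp_alg_low hσ hx1 hSp hcp hSs hcs
  have hNs : √(n2 X Y) ^ 2 = n2 X Y := Real.sq_sqrt hN.le
  have hNp : 0 < √(n2 X Y) := Real.sqrt_pos.mpr hN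
  have hk : kp σ X Y = (qx X Y - 1) * (√(1 + qy X Y ^ 2) -
    σ * qy X Y * √(qx X Y ^ 2 - 1) / (qx X Y + 1) +
    (qx X Y - 1) / √(1 + qy X Y ^ 2)) /
    (qx X Y * √(1 + qy X Y ^ 2) - σ * √(qx X Y ^ 2 - 1) * qy X Y) := rfl
  rw [← hk, hcs] at hlow
  generalize kp σ X Y = K at *
  generalize √(qx X Y ^ 2 - 1) = S at *
  generalize √(1 + qy X Y ^ 2) = c at *
  generalize qx X Y = x at *
  generalize qy X Y = y at *
  generalize √(n2 X Y) = m at *
  generalize n2 X Y = N at *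
  clear hk
  have hw : (x * m) ^ 2 = x ^ 2 * N := by rw [mul_pow, hNs]
  have hc2 : (1 + y ^ 2) * N ≤ 8 - (x * m) ^ 2 := by
    rw [hw]
    linarith
  have hk2 : s ^ 2 * m / 48 ≤ (x - 1) / (4 * x * (1 + y ^ 2)) := by
    rw [hx, div_div, div_le_div_iff₀ (by norm_num) (by positivity)]
    have h1 : m * (N * (4 * x * (1 + y ^ 2))) ≤ 48 := by
      have e : m * (N * (4 * x * (1 + y ^ 2))) = 4 * ((x * m) * ((1 + y ^ 2) * N)) := by ring
      rw [e]
      have h6 : 0 ≤ x * m := by positivity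
      have h8 : (x * m) * ((1 + y ^ 2) * N) ≤ (x * m) * (8 - (x * m) ^ 2) :=
        mul_le_mul_of_nonneg_left hc2 h6
      have h9 : (x * m) * (8 - (x * m) ^ 2) ≤ 12 := by
        generalize x * m = w at h6
        nlinarith [mul_nonneg h6 (sq_nonneg (w - 8 / 5)), sq_nonneg (w - 8 / 5)]
      linarith
    calc s ^ 2 * m * (N * (4 * x * (1 + y ^ 2))) = s ^ 2 * (m * (N * (4 * x * (1 + y ^ 2)))) := by
          ring
      _ ≤ s ^ 2 * 48 := mul_le_mul_of_nonneg_left h1 hs2.le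
  have hk3 : 0 < s ^ 2 * m / 48 := by positivity
  constructor
  · linarith
  · linarith

/-- **rotation of the reference direction moves the extreme points with nonzero speed** -/
theorem hasDerivAt_rot_om {z : ℂ} {s θ t : ℝ} (hz : 0 < 1 + (exp (-(I * θ)) * z).re) (hs : s ≠ 0)
    (h : ‖z‖ ^ 2 + s ^ 2 = 1) (ht : Real.sin t = 0) :
    ∃ κ : ℝ, s ^ 2 * ‖1 + exp (-(I * θ)) * z‖ / 48 ≤ κ ∧ 0 < κ ∧
      HasDerivAt (fun θ : ℝ => exp (I * θ) * om (exp (-(I * θ)) * z) s t)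
        (I * κ * (exp (I * θ) * om (exp (-(I * θ)) * z) s t)) θ := by
  have h' : z.re ^ 2 + z.im ^ 2 + s ^ 2 = 1 := by
    rw [← h, ← Complex.normSq_eq_norm_sq, Complex.normSq_apply]; ring
  have hcos : Real.cos t ^ 2 = 1 := by
    have := Real.sin_sq_add_cos_sq t
    rw [ht] at this
    linarith
  -- `σ = cos t * sign s`
  obtain ⟨σ, hσ, hσs⟩ : ∃ σ : ℝ, σ ^ 2 = 1 ∧ σ * |s| = s * Real.cos t := by
    rcases lt_or_gt_of_ne hs with h1 | h1
    · exact ⟨-Real.cos t, by rw [neg_sq]; exact hcos, by rw [abs_of_neg h1]; ring⟩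
    · exact ⟨Real.cos t, hcos, by rw [abs_of_pos h1]; ring⟩
  have hpe : ∀ X Y : ℝ, pl X Y s t = pe σ X Y |s| := by
    intro X Y
    unfold pl pe
    rw [← mul_assoc σ, hσs]
    ring
  have hX : -1 < rX z.re z.im θ := by
    rw [rot_re] at hz; linarith
  have h2 : z.re ^ 2 + z.im ^ 2 + |s| ^ 2 = 1 := by rw [sq_abs]; exact h'
  have hd := hasDerivAt_ang hσ hX (abs_pos.mpr hs) h2
  have hk := kp_pos hσ hX hs (by rw [rX_sq_add]; exact h')
  refine ⟨kp σ (rX z.re z.im θ) (rY z.re z.im θ), ?_, hk.2, ?_⟩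
  · have hn : ‖1 + exp (-(I * θ)) * z‖ = √(n2 (rX z.re z.im θ) (rY z.re z.im θ)) := by
      rw [Complex.norm_eq_sqrt_sq_add_sq]
      congr 1
      unfold n2
      rw [← rot_re, ← rot_im]
      simp
    rw [hn]
    exact hk.1
  · have e : (fun θ : ℝ => exp (I * θ) * om (exp (-(I * θ)) * z) s t) =
        (fun θ : ℝ => exp (I * ((ang σ z.re z.im |s| θ : ℝ) : ℂ))) := by
      funext η
      rw [om_eq, rot_re, rot_im, hpe, ← Complex.exp_add]
      congr 1
      unfold ang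
      push_cast
      ring
    have e' : exp (I * θ) * om (exp (-(I * θ)) * z) s t =
        exp (I * ((ang σ z.re z.im |s| θ : ℝ) : ℂ)) := congrFun e θ
    rw [e, e']
    refine ((hd.ofReal_comp.const_mul I).cexp).congr_deriv ?_
    ring

end Crest.Agent.R216.Loop
end

-- ▼ part R216/PSLLoop
section

/-!
Row 216 (S0335), PSL-7: loops from the unit normal field (helper342).
-/

set_option autoImplicit false

noncomputable section

open scoped Manifold ContDiff Topology Real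
open Set MeasureTheory Complex

namespace Crest.Agent.R216.PSL

open Crest.Agent.R216.TE (gram xiB xiC cpr ppr cross3 Jrot)

/-! ### the real-linear map `ℂ → ℝ⁴` of a frame -/

/-- `w ↦ r (Re w · b + Im w · b')` -/
def lin (r : ℝ) (b b' : P4) : ℂ →L[ℝ] P4 :=
  r • (Complex.reCLM.smulRight b + Complex.imCLM.smulRight b')

lemma lin_apply (r : ℝ) (b b' : P4) (w : ℂ) : lin r b b' w = r • (w.re • b + w.im • b') := by
  simp [lin]

lemma inner_lin_lin {r : ℝ} {b b' : P4} (h1 : inner ℝ b b = (1:ℝ)) (h2 : inner ℝ b' b' = (1:ℝ))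
    (h12 : inner ℝ b b' = (0:ℝ)) (w : ℂ) :
    inner ℝ (lin r b b' w) (lin r b b' w) = r ^ 2 * ‖w‖ ^ 2 := by
  rw [lin_apply, ← Complex.normSq_eq_norm_sq, Complex.normSq_apply]
  simp only [inner_add_left, inner_add_right, real_inner_smul_left, real_inner_smul_right, h1, h2,
    h12, real_inner_comm b b']
  ring

lemma lin_eq_zero {r : ℝ} {b b' : P4} (hr : r ≠ 0) (h1 : inner ℝ b b = (1:ℝ))
    (h2 : inner ℝ b' b' = (1:ℝ)) (h12 : inner ℝ b b' = (0:ℝ)) {w : ℂ}
    (h : lin r b b' w = 0) : w = 0 := by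
  have := inner_lin_lin (r := r) h1 h2 h12 w
  rw [h, inner_zero_left] at this
  have h3 : ‖w‖ ^ 2 = 0 := by
    have hr2 : r ^ 2 ≠ 0 := pow_ne_zero 2 hr
    rcases mul_eq_zero.mp this.symm with h | h
    · exact absurd h hr2
    · exact h
  exact norm_eq_zero.mp (pow_eq_zero_iff (two_ne_zero) |>.mp h3)

/-! ### linear algebra -/

section alg
variable {A B C N : P4}

/-- `Γ = ⟪C,A⟫⟪B,B⟫ - ⟪C,B⟫⟪A,B⟫` -/
def Gam (A B C : P4) : ℝ := inner ℝ C A * inner ℝ B B - inner ℝ C B * inner ℝ A B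

lemma gram_pos_of_Gam (h : Gam A B C ≠ 0) : 0 < gram B C := by
  rw [TE.gram_pos_iff, LinearIndependent.pair_iff]
  intro s t hst
  have hE : inner ℝ (s • B + t • C) (inner ℝ B B • A - inner ℝ A B • B) = t * Gam A B C := by
    unfold Gam
    simp only [inner_add_left, inner_sub_right, real_inner_smul_left, real_inner_smul_right,
      real_inner_comm B A]
    ring
  rw [hst, inner_zero_left] at hE
  have ht : t = 0 := by
    rcases mul_eq_zero.mp hE.symm with h' | h'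
    · exact h'
    · exact absurd h' h
  refine ⟨?_, ht⟩
  rw [ht, zero_smul, add_zero] at hst
  rcases smul_eq_zero.mp hst with h' | h'
  · exact h'
  · exfalso
    apply h
    unfold Gam
    rw [h']
    simp

lemma ppr_add (X Y B C : P4) : ppr (X + Y) B C = ppr X B C + ppr Y B C := by
  unfold ppr cpr
  simp only [inner_add_left, add_smul]
  abel

lemma ppr_smul (c : ℝ) (X B C : P4) : ppr (c • X) B C = c • ppr X B C := by
  unfold ppr cpr
  simp only [real_inner_smul_left, smul_sub, smul_add, smul_smul]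

lemma ppr_B (h : gram B C ≠ 0) : ppr B B C = 0 := by
  unfold ppr cpr xiB xiC
  have : (gram B C)⁻¹ * gram B C = 1 := inv_mul_cancel₀ h
  have e : B = ((gram B C)⁻¹ * gram B C) • B := by rw [this, one_smul]
  rw [sub_eq_zero]
  conv_lhs => rw [e]
  unfold gram
  module

lemma ppr_C (h : gram B C ≠ 0) : ppr C B C = 0 := by
  unfold ppr cpr xiB xiC
  have : (gram B C)⁻¹ * gram B C = 1 := inv_mul_cancel₀ h
  have e : C = ((gram B C)⁻¹ * gram B C) • C := by rw [this, one_smul]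
  rw [sub_eq_zero]
  conv_lhs => rw [e]
  unfold gram
  rw [real_inner_comm B C]
  module

/-- a normal vector with vanishing `Π`-part vanishes -/
lemma eq_zero_of_normal (h : Gam A B C ≠ 0) (hA : inner ℝ N A = (0:ℝ)) (hB : inner ℝ N B = (0:ℝ))
    (hp : ppr N B C = 0) : N = 0 := by
  have hg := gram_pos_of_Gam h
  have h1 : N = inner ℝ N C • xiC B C := by
    have : N - cpr N B C = 0 := hp
    unfold cpr at this
    rw [hB, zero_smul, zero_add, sub_eq_zero] at this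
    exact this
  have h2 : inner ℝ (xiC B C) A = (gram B C)⁻¹ * Gam A B C := by
    unfold xiC Gam
    simp only [inner_sub_left, real_inner_smul_left, real_inner_comm B C, real_inner_comm B A]
    ring
  have h3 : inner ℝ N C * ((gram B C)⁻¹ * Gam A B C) = 0 := by
    rw [← h2, ← real_inner_smul_left, ← h1, hA]
  have h4 : inner ℝ N C = (0:ℝ) := by
    rcases mul_eq_zero.mp h3 with h' | h'
    · exact h'
    · exact absurd h' (mul_ne_zero (inv_ne_zero hg.ne') h)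
  rw [h1, h4, zero_smul]

/-- direction of the frame before normalisation -/
def b0 (A B C ν : P4) : P4 := -(Gam A B C) • ppr ν B C
/-- first vector of the frame of `Π = {B,C}ᗮ` -/
def bb (A B C ν : P4) : P4 := ‖b0 A B C ν‖⁻¹ • b0 A B C ν
/-- second vector of the frame -/
def bb' (A B C ν : P4) : P4 := Jrot B C (bb A B C ν)
/-- radius -/
def rr (A B C : P4) (α : ℝ) : ℝ := √(‖ppr A B C‖ ^ 2 + α ^ 2)
/-- normalised mean -/
def zz (A B C ν : P4) (α : ℝ) : ℂ :=
  ((inner ℝ A (bb A B C ν) / rr A B C α : ℝ) : ℂ) +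
    I * ((inner ℝ A (bb' A B C ν) / rr A B C α : ℝ) : ℂ)

lemma fr {ν : P4} (hg : 0 < gram B C) (hb : b0 A B C ν ≠ 0) :
    TE.Fr B C (bb A B C ν) (bb' A B C ν) := by
  have hn : ‖bb A B C ν‖ = 1 := by
    unfold bb
    rw [norm_smul, norm_inv, norm_norm, inv_mul_cancel₀ (norm_ne_zero_iff.mpr hb)]
  have hp := TE.ppr_perp ν B C hg.ne'
  have h1 : inner ℝ (bb A B C ν) B = (0:ℝ) := by
    unfold bb b0
    simp only [real_inner_smul_left, hp.1, mul_zero]
  have h2 : inner ℝ (bb A B C ν) C = (0:ℝ) := by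
    unfold bb b0
    simp only [real_inner_smul_left, hp.2, mul_zero]
  obtain ⟨j1, j2, j3⟩ := TE.Jrot_perp B C (bb A B C ν)
  have hn' : ‖bb' A B C ν‖ = 1 := by
    unfold bb'
    rw [TE.norm_Jrot B C _ hg h1 h2, hn]
  exact ⟨hg.ne', by rw [real_inner_self_eq_norm_sq, hn, one_pow],
    by rw [real_inner_self_eq_norm_sq, hn', one_pow], by rw [real_inner_comm]; exact j3,
    h1, h2, j1, j2⟩

lemma inner_ppr_of_orth {v : P4} (hB : inner ℝ v B = (0:ℝ)) (hC : inner ℝ v C = (0:ℝ)) :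
    inner ℝ (ppr A B C) v = (inner ℝ A v : ℝ) := by
  unfold ppr
  rw [inner_sub_left, real_inner_comm v (cpr A B C), TE.inner_cpr_of_orth A hB hC, sub_zero]

lemma norm_ppr_sq {b b' : P4} (F : TE.Fr B C b b') :
    ‖ppr A B C‖ ^ 2 = inner ℝ A b ^ 2 + inner ℝ A b' ^ 2 := by
  obtain ⟨p1, p2⟩ := TE.ppr_perp A B C F.gr
  have h := TE.Fr.decomp_p F p1 p2
  rw [inner_ppr_of_orth F.o1B F.o1C, inner_ppr_of_orth F.o2B F.o2C] at h
  rw [← real_inner_self_eq_norm_sq, h]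
  simp only [inner_add_left, inner_add_right, real_inner_smul_left, real_inner_smul_right,
    F.n1, F.n2, F.n12, real_inner_comm b b']
  ring

lemma rr_sq (A B C : P4) (α : ℝ) : rr A B C α ^ 2 = ‖ppr A B C‖ ^ 2 + α ^ 2 := by
  unfold rr
  rw [Real.sq_sqrt (by positivity)]

lemma zz_re (A B C ν : P4) (α : ℝ) : (zz A B C ν α).re = inner ℝ A (bb A B C ν) / rr A B C α := by
  simp [zz]
lemma zz_im (A B C ν : P4) (α : ℝ) : (zz A B C ν α).im = inner ℝ A (bb' A B C ν) / rr A B C α := by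
  simp [zz]

lemma norm_zz {ν : P4} {α : ℝ} (hg : 0 < gram B C) (hb : b0 A B C ν ≠ 0)
    (hr : 0 < ‖ppr A B C‖ ^ 2 + α ^ 2) :
    ‖zz A B C ν α‖ ^ 2 + (α / rr A B C α) ^ 2 = 1 := by
  rw [← Complex.normSq_eq_norm_sq, Complex.normSq_apply, zz_re, zz_im]
  have h1 := norm_ppr_sq (A := A) (fr hg hb)
  have h2 := rr_sq A B C α
  have h3 : rr A B C α ≠ 0 := by
    intro h
    rw [h] at h2
    linarith
  have h4 : inner ℝ A (bb A B C ν) ^ 2 + inner ℝ A (bb' A B C ν) ^ 2 + α ^ 2 = rr A B C α ^ 2 := by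
    rw [h2, h1]
  field_simp
  linarith

lemma rr_pos {α : ℝ} (hr : 0 < ‖ppr A B C‖ ^ 2 + α ^ 2) : 0 < rr A B C α :=
  Real.sqrt_pos.mpr hr

/-- the point of `K`: the conditions of the domain hold -/
lemma domain_mem {ν n : P4} {α s t : ℝ} (h : Gam A B C ≠ 0)
    (hν : ‖ν‖ = 1) (hνA : inner ℝ ν A = (0:ℝ)) (hνB : inner ℝ ν B = (0:ℝ))
    (hnA : inner ℝ n A = (0:ℝ)) (hnB : inner ℝ n B = (0:ℝ)) (hC : C - n = s • A + t • B)
    (hα : 0 ≤ α) (hQ : α = 0 → ∀ c : ℝ, 0 ≤ c → n ≠ -(c • ν)) :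
    0 < gram B C ∧ b0 A B C ν ≠ 0 ∧ 0 < ‖ppr A B C‖ ^ 2 + α ^ 2 ∧
      0 < 1 + (zz A B C ν α).re := by
  have hg := gram_pos_of_Gam h
  have hpν : ppr ν B C ≠ 0 := by
    intro h0
    have := eq_zero_of_normal h hνA hνB h0
    rw [this] at hν
    simp at hν
  have hb : b0 A B C ν ≠ 0 := by
    unfold b0
    exact smul_ne_zero (neg_ne_zero.mpr h) hpν
  -- `ppr n = -s ppr A`
  have hpn : ppr n B C = -(s • ppr A B C) := by
    have e1 : C = n + (s • A + t • B) := by rw [← hC]; abel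
    have e2 := ppr_C hg.ne'
    have e3 : ppr (n + (s • A + t • B)) B C = 0 := by rw [← e1]; exact e2
    rw [ppr_add, ppr_add, ppr_smul, ppr_smul, ppr_B hg.ne', smul_zero, add_zero] at e3
    exact eq_neg_of_add_eq_zero_left e3
  -- `s * gram(A,B) = Γ`
  have hs : s * gram A B = Gam A B C := by
    have e1 : C = n + (s • A + t • B) := by rw [← hC]; abel
    unfold Gam gram
    conv_rhs => rw [e1]
    simp only [inner_add_left, real_inner_smul_left, hnA, hnB, real_inner_comm B A]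
    rw [real_inner_comm A B]
    ring
  have hgAB : 0 < gram A B := by
    refine lt_of_le_of_ne (TE.gram_nonneg A B) ?_
    intro h0
    rw [← h0, mul_zero] at hs
    exact h hs.symm
  have hrp : 0 < ‖ppr A B C‖ ^ 2 + α ^ 2 := by
    rcases eq_or_lt_of_le hα with h0 | h0
    · have hA0 : ppr A B C ≠ 0 := by
        intro h1
        rw [h1, smul_zero, neg_zero] at hpn
        have := eq_zero_of_normal h hnA hnB hpn
        exact hQ h0.symm 0 le_rfl (by rw [this]; simp)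
      have : 0 < ‖ppr A B C‖ := norm_pos_iff.mpr hA0
      positivity
    · positivity
  refine ⟨hg, hb, hrp, ?_⟩
  have hr := rr_pos hrp
  rw [zz_re]
  have e1 : 1 + inner ℝ A (bb A B C ν) / rr A B C α =
      (rr A B C α + inner ℝ A (bb A B C ν)) / rr A B C α := by
    field_simp
  rw [e1]
  apply div_pos _ hr
  have F := fr hg hb
  have h1 := norm_ppr_sq (A := A) F
  have h2 := rr_sq A B C α
  rcases eq_or_lt_of_le hα with h0 | h0
  · -- `α = 0`
    by_contra hcon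
    push Not at hcon
    have h3 : inner ℝ A (bb' A B C ν) = (0:ℝ) := by
      rw [← h0] at h2
      have h4 : rr A B C α ≤ - inner ℝ A (bb A B C ν) := by linarith
      have h5 : rr A B C α ^ 2 ≤ (inner ℝ A (bb A B C ν)) ^ 2 := by
        rw [← neg_sq (inner ℝ A (bb A B C ν))]
        exact pow_le_pow_left₀ hr.le h4 2
      rw [← h0] at h5
      have h6 : (inner ℝ A (bb' A B C ν)) ^ 2 ≤ 0 := by nlinarith
      exact pow_eq_zero_iff (two_ne_zero) |>.mp (le_antisymm h6 (sq_nonneg _))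
    obtain ⟨p1, p2⟩ := TE.ppr_perp A B C hg.ne'
    have h4 := TE.Fr.decomp_p F p1 p2
    rw [inner_ppr_of_orth F.o1B F.o1C, inner_ppr_of_orth F.o2B F.o2C, h3, zero_smul,
      add_zero] at h4
    set m : ℝ := inner ℝ A (bb A B C ν) with hm
    have hm0 : m < 0 := by linarith
    -- `ppr A = m b = -(m Γ / ‖b0‖) ppr ν`
    have h5 : ppr A B C = (-(m * ‖b0 A B C ν‖⁻¹ * Gam A B C)) • ppr ν B C := by
      rw [h4]
      unfold bb
      rw [b0, smul_smul, smul_smul]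
      congr 1
      ring
    have hk : 0 ≤ -(s * (m * ‖b0 A B C ν‖⁻¹ * Gam A B C)) := by
      rw [← hs]
      have : 0 < ‖b0 A B C ν‖⁻¹ := inv_pos.mpr (norm_pos_iff.mpr hb)
      have e : -(s * (m * ‖b0 A B C ν‖⁻¹ * (s * gram A B))) =
        (-m) * (s ^ 2 * ‖b0 A B C ν‖⁻¹ * gram A B) := by ring
      rw [e]
      have : 0 < -m := by linarith
      positivity
    apply hQ h0.symm _ hk
    -- `n + k ν = 0`
    rw [eq_neg_iff_add_eq_zero]
    apply eq_zero_of_normal h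
    · rw [inner_add_left, real_inner_smul_left, hnA, hνA]; ring
    · rw [inner_add_left, real_inner_smul_left, hnB, hνB]; ring
    · rw [ppr_add, ppr_smul, hpn, h5, smul_smul, ← neg_smul, ← add_smul]
      convert zero_smul ℝ _ using 2
      ring
  · have h3 : (inner ℝ A (bb A B C ν)) ^ 2 < rr A B C α ^ 2 := by
      rw [h2, h1]
      nlinarith [sq_nonneg (inner ℝ A (bb' A B C ν) : ℝ), sq_pos_of_pos h0]
    have := abs_lt_of_sq_lt_sq' h3 hr.le
    linarith [this.1]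

end alg

/-! ### smoothness -/

section smooth
variable {E : Type*} [NormedAddCommGroup E] [NormedSpace ℝ E] {n : ℕ∞ω}
  {A B C ν : E → P4} {α : E → ℝ} {x : E}

lemma cda_inner {F G : E → P4} (hF : ContDiffAt ℝ n F x) (hG : ContDiffAt ℝ n G x) :
    ContDiffAt ℝ n (fun y => (inner ℝ (F y) (G y) : ℝ)) x := hF.inner ℝ hG

lemma cda_gram (hB : ContDiffAt ℝ n B x) (hC : ContDiffAt ℝ n C x) :
    ContDiffAt ℝ n (fun y => gram (B y) (C y)) x := by
  unfold gram
  exact ((cda_inner hB hB).mul (cda_inner hC hC)).sub ((cda_inner hB hC).pow 2)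

lemma cda_xiB (hB : ContDiffAt ℝ n B x) (hC : ContDiffAt ℝ n C x) (h : gram (B x) (C x) ≠ 0) :
    ContDiffAt ℝ n (fun y => xiB (B y) (C y)) x := by
  unfold xiB
  exact ((cda_gram hB hC).inv h).smul
    (((cda_inner hC hC).smul hB).sub ((cda_inner hB hC).smul hC))

lemma cda_xiC (hB : ContDiffAt ℝ n B x) (hC : ContDiffAt ℝ n C x) (h : gram (B x) (C x) ≠ 0) :
    ContDiffAt ℝ n (fun y => xiC (B y) (C y)) x := by
  unfold xiC
  exact ((cda_gram hB hC).inv h).smul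
    (((cda_inner hB hB).smul hC).sub ((cda_inner hB hC).smul hB))

lemma cda_cpr (hA : ContDiffAt ℝ n A x) (hB : ContDiffAt ℝ n B x) (hC : ContDiffAt ℝ n C x)
    (h : gram (B x) (C x) ≠ 0) :
    ContDiffAt ℝ n (fun y => cpr (A y) (B y) (C y)) x := by
  unfold cpr
  exact ((cda_inner hA hB).smul (cda_xiB hB hC h)).add ((cda_inner hA hC).smul (cda_xiC hB hC h))

lemma cda_ppr (hA : ContDiffAt ℝ n A x) (hB : ContDiffAt ℝ n B x) (hC : ContDiffAt ℝ n C x)
    (h : gram (B x) (C x) ≠ 0) :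
    ContDiffAt ℝ n (fun y => ppr (A y) (B y) (C y)) x := by
  unfold ppr
  exact hA.sub (cda_cpr hA hB hC h)

lemma cda_Gam (hA : ContDiffAt ℝ n A x) (hB : ContDiffAt ℝ n B x) (hC : ContDiffAt ℝ n C x) :
    ContDiffAt ℝ n (fun y => Gam (A y) (B y) (C y)) x := by
  unfold Gam
  exact ((cda_inner hC hA).mul (cda_inner hB hB)).sub ((cda_inner hC hB).mul (cda_inner hA hB))

lemma cda_b0 (hA : ContDiffAt ℝ n A x) (hB : ContDiffAt ℝ n B x) (hC : ContDiffAt ℝ n C x)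
    (hν : ContDiffAt ℝ n ν x) (h : gram (B x) (C x) ≠ 0) :
    ContDiffAt ℝ n (fun y => b0 (A y) (B y) (C y) (ν y)) x := by
  unfold b0
  exact (cda_Gam hA hB hC).neg.smul (cda_ppr hν hB hC h)

lemma cda_bb (hA : ContDiffAt ℝ n A x) (hB : ContDiffAt ℝ n B x) (hC : ContDiffAt ℝ n C x)
    (hν : ContDiffAt ℝ n ν x) (h : gram (B x) (C x) ≠ 0)
    (h0 : b0 (A x) (B x) (C x) (ν x) ≠ 0) :
    ContDiffAt ℝ n (fun y => bb (A y) (B y) (C y) (ν y)) x := by
  unfold bb
  have h1 := cda_b0 hA hB hC hν h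
  exact ((h1.norm ℝ h0).inv (norm_ne_zero_iff.mpr h0)).smul h1

lemma cda_coord {F : E → P4} (hF : ContDiffAt ℝ n F x) (i : Fin 4) :
    ContDiffAt ℝ n (fun y => F y i) x := by
  have := (contDiffAt_euclidean (𝕜 := ℝ)).mp hF i
  exact this

lemma cda_cross3 {F G H : E → P4} (hF : ContDiffAt ℝ n F x) (hG : ContDiffAt ℝ n G x)
    (hH : ContDiffAt ℝ n H x) :
    ContDiffAt ℝ n (fun y => cross3 (F y) (G y) (H y)) x := by
  have f := cda_coord hF
  have g := cda_coord hG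
  have h := cda_coord hH
  rw [contDiffAt_euclidean]
  intro i
  unfold cross3
  have f0 := f 0
  have f1 := f 1
  have f2 := f 2
  have f3 := f 3
  have g0 := g 0
  have g1 := g 1
  have g2 := g 2
  have g3 := g 3
  have h0 := h 0
  have h1 := h 1
  have h2 := h 2
  have h3 := h 3
  fin_cases i <;> simp <;> fun_prop

lemma cda_bb' (hA : ContDiffAt ℝ n A x) (hB : ContDiffAt ℝ n B x) (hC : ContDiffAt ℝ n C x)
    (hν : ContDiffAt ℝ n ν x) (h : gram (B x) (C x) ≠ 0)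
    (h0 : b0 (A x) (B x) (C x) (ν x) ≠ 0) :
    ContDiffAt ℝ n (fun y => bb' (A y) (B y) (C y) (ν y)) x := by
  unfold bb' Jrot
  have h1 := cda_bb hA hB hC hν h h0
  have hs : ContDiffAt ℝ n (fun y => √(gram (B y) (C y))) x := (cda_gram hB hC).sqrt h
  have hs0 : √(gram (B x) (C x)) ≠ 0 := by
    rw [Real.sqrt_ne_zero (TE.gram_nonneg _ _)]
    exact h
  exact (hs.inv hs0).smul (cda_cross3 hB hC h1)

lemma cda_rr (hA : ContDiffAt ℝ n A x) (hB : ContDiffAt ℝ n B x) (hC : ContDiffAt ℝ n C x)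
    (hα : ContDiffAt ℝ n α x) (h : gram (B x) (C x) ≠ 0)
    (hr : 0 < ‖ppr (A x) (B x) (C x)‖ ^ 2 + α x ^ 2) :
    ContDiffAt ℝ n (fun y => rr (A y) (B y) (C y) (α y)) x := by
  unfold rr
  exact (((cda_ppr hA hB hC h).norm_sq ℝ).add (hα.pow 2)).sqrt hr.ne'

lemma cda_zz (hA : ContDiffAt ℝ n A x) (hB : ContDiffAt ℝ n B x) (hC : ContDiffAt ℝ n C x)
    (hν : ContDiffAt ℝ n ν x) (hα : ContDiffAt ℝ n α x) (h : gram (B x) (C x) ≠ 0)
    (h0 : b0 (A x) (B x) (C x) (ν x) ≠ 0)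
    (hr : 0 < ‖ppr (A x) (B x) (C x)‖ ^ 2 + α x ^ 2) :
    ContDiffAt ℝ n (fun y => zz (A y) (B y) (C y) (ν y) (α y)) x := by
  unfold zz
  have h1 := cda_bb hA hB hC hν h h0
  have h2 := cda_bb' hA hB hC hν h h0
  have h3 := cda_rr hA hB hC hα h hr
  have h4 := (rr_pos hr).ne'
  apply ContDiffAt.add
  · exact Complex.ofRealCLM.contDiff.contDiffAt.comp x ((cda_inner hA h1).div h3 h4)
  · exact contDiffAt_const.mul
      (Complex.ofRealCLM.contDiff.contDiffAt.comp x ((cda_inner hA h2).div h3 h4))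

end smooth

/-! ### the loop family -/

/-- the loop, pointwise -/
def Wl (A B C ν : P4) (α ϑ t : ℝ) : P4 :=
  cpr A B C + lin (rr A B C α) (bb A B C ν) (bb' A B C ν)
    (exp (I * ϑ) * Loop.om (exp (-(I * ϑ)) * zz A B C ν α) (α / rr A B C α) t)

/-- domain conditions -/
def Dl (A B C ν : P4) (α ϑ : ℝ) : Prop :=
  0 < gram B C ∧ b0 A B C ν ≠ 0 ∧ 0 < ‖ppr A B C‖ ^ 2 + α ^ 2 ∧
    0 < 1 + (exp (-(I * ϑ)) * zz A B C ν α).re

lemma norm_exp_neg (ϑ : ℝ) : ‖exp (-(I * (ϑ : ℂ)))‖ = 1 := by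
  have : -(I * (ϑ : ℂ)) = ((-ϑ : ℝ) : ℂ) * I := by push_cast; ring
  rw [this, Complex.norm_exp_ofReal_mul_I]

lemma norm_exp_pos' (ϑ : ℝ) : ‖exp (I * (ϑ : ℂ))‖ = 1 := by
  rw [mul_comm, Complex.norm_exp_ofReal_mul_I]

section prop
variable {A B C ν : P4} {α ϑ : ℝ}

lemma norm_rot (h : Dl A B C ν α ϑ) :
    ‖exp (-(I * ϑ)) * zz A B C ν α‖ ^ 2 + (α / rr A B C α) ^ 2 = 1 := by
  rw [norm_mul, norm_exp_neg, one_mul]
  exact norm_zz h.1 h.2.1 h.2.2.1

lemma Wl_mean (h : Dl A B C ν α ϑ) :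
    ∫ t in (0:ℝ)..(2 * Real.pi), Wl A B C ν α ϑ t = (2 * Real.pi) • A := by
  have hr := rr_pos h.2.2.1
  have F := fr h.1 h.2.1
  have hc := Loop.continuous_om (exp (-(I * ϑ)) * zz A B C ν α) (α / rr A B C α)
  have hI := Loop.integral_om h.2.2.2 (norm_rot h)
  unfold Wl
  rw [intervalIntegral.integral_add (continuous_const.intervalIntegrable _ _)
    (Continuous.intervalIntegrable (by fun_prop) _ _),
    ContinuousLinearMap.intervalIntegral_comp_comm _
      (Continuous.intervalIntegrable (by fun_prop) _ _),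
    intervalIntegral.integral_const_mul, hI, intervalIntegral.integral_const, sub_zero]
  have e : exp (I * ϑ) * (2 * π * (exp (-(I * ϑ)) * zz A B C ν α)) =
      ((2 * π : ℝ) : ℂ) * zz A B C ν α := by
    have : exp (I * ϑ) * exp (-(I * ϑ)) = 1 := by
      rw [← Complex.exp_add]; simp
    push_cast
    linear_combination (2 * π * zz A B C ν α) * this
  rw [e, ← Complex.real_smul, ContinuousLinearMap.map_smul, ← smul_add]
  congr 1
  rw [lin_apply, zz_re, zz_im, smul_add, smul_smul, smul_smul, mul_div_cancel₀ _ hr.ne',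
    mul_div_cancel₀ _ hr.ne', ← add_assoc]
  exact (F.decomp_c A).symm

lemma Wl_perpB (h : Dl A B C ν α ϑ) (t : ℝ) : inner ℝ (Wl A B C ν α ϑ t) B = inner ℝ A B := by
  have F := fr h.1 h.2.1
  unfold Wl
  rw [inner_add_left, TE.inner_cpr_B A F.gr, lin_apply]
  simp only [real_inner_smul_left, inner_add_left, F.o1B, F.o2B]
  ring

lemma Wl_perpC (h : Dl A B C ν α ϑ) (t : ℝ) : inner ℝ (Wl A B C ν α ϑ t) C = inner ℝ A C := by
  have F := fr h.1 h.2.1
  unfold Wl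
  rw [inner_add_left, TE.inner_cpr_C A F.gr, lin_apply]
  simp only [real_inner_smul_left, inner_add_left, F.o1C, F.o2C]
  ring

lemma Wl_norm (h : Dl A B C ν α ϑ) (t : ℝ) :
    inner ℝ (Wl A B C ν α ϑ t) (Wl A B C ν α ϑ t) = inner ℝ A A + α ^ 2 := by
  have F := fr h.1 h.2.1
  have hl : ∀ w : ℂ, inner ℝ (lin (rr A B C α) (bb A B C ν) (bb' A B C ν) w) (cpr A B C)
      = (0:ℝ) := by
    intro w
    rw [lin_apply, real_inner_smul_left, inner_add_left, real_inner_smul_left,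
      real_inner_smul_left, TE.inner_cpr_of_orth A F.o1B F.o1C,
      TE.inner_cpr_of_orth A F.o2B F.o2C]
    ring
  unfold Wl
  rw [inner_add_left, inner_add_right, inner_add_right,
    real_inner_comm (lin (rr A B C α) (bb A B C ν) (bb' A B C ν) _) (cpr A B C), hl,
    inner_lin_lin F.n1 F.n2 F.n12, norm_mul, norm_exp_pos', Loop.norm_om, rr_sq,
    norm_ppr_sq F, F.normsq A]
  ring

lemma hasDerivAt_Wl (t : ℝ) {d : ℂ}
    (hd : HasDerivAt (fun t => Loop.om (exp (-(I * ϑ)) * zz A B C ν α) (α / rr A B C α) t) d t) :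
    HasDerivAt (fun t => Wl A B C ν α ϑ t)
      (lin (rr A B C α) (bb A B C ν) (bb' A B C ν) (exp (I * ϑ) * d)) t := by
  unfold Wl
  have h1 := hd.const_mul (exp (I * ϑ))
  have h2 := (lin (rr A B C α) (bb A B C ν) (bb' A B C ν)).hasFDerivAt.comp_hasDerivAt t h1
  exact h2.const_add _

lemma Wl_turn (h : Dl A B C ν α ϑ) (t : ℝ) (h0 : deriv (fun s => Wl A B C ν α ϑ s) t = 0) :
    α = 0 ∨ Real.sin t = 0 := by
  have hr := rr_pos h.2.2.1
  have F := fr h.1 h.2.1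
  have hd := Loop.hasDerivAt_om (z := exp (-(I * ϑ)) * zz A B C ν α) (s := α / rr A B C α) t
  rw [(hasDerivAt_Wl t hd).deriv] at h0
  have h1 := lin_eq_zero hr.ne' F.n1 F.n2 F.n12 h0
  have h2 := (mul_eq_zero.mp h1).resolve_left (Complex.exp_ne_zero _)
  have h3 := (Loop.deriv_om_eq_zero_iff h.2.2.2 t).mp (by rw [hd.deriv]; exact h2)
  rcases h3 with h3 | h3
  · left
    rcases div_eq_zero_iff.mp h3 with h4 | h4
    · exact h4
    · exact absurd h4 hr.ne'
  · exact Or.inr h3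

lemma Wl_fast (h : Dl A B C ν α 0) (hα : α ≠ 0) (t : ℝ) (ht : Real.sin t = 0) :
    deriv (fun ϑ : ℝ => Wl A B C ν α ϑ t) 0 ≠ 0 := by
  have hr := rr_pos h.2.2.1
  have F := fr h.1 h.2.1
  have hs : α / rr A B C α ≠ 0 := div_ne_zero hα hr.ne'
  obtain ⟨κ, -, hκ, hd⟩ := Loop.hasDerivAt_rot_om (θ := 0) h.2.2.2 hs
    (norm_zz h.1 h.2.1 h.2.2.1) ht
  have h2 := (lin (rr A B C α) (bb A B C ν) (bb' A B C ν)).hasFDerivAt.comp_hasDerivAt (0:ℝ) hd
  have h3 : HasDerivAt (fun ϑ : ℝ => Wl A B C ν α ϑ t) _ 0 := h2.const_add (cpr A B C)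
  rw [h3.deriv]
  intro h0
  have h1 := lin_eq_zero hr.ne' F.n1 F.n2 F.n12 h0
  have h4 : ‖(I * κ * (exp (I * (0:ℝ)) * Loop.om (exp (-(I * (0:ℝ))) * zz A B C ν α)
      (α / rr A B C α) t) : ℂ)‖ = 0 := by rw [h1]; simp
  rw [norm_mul, norm_mul, norm_mul, norm_exp_pos', Loop.norm_om] at h4
  simp at h4
  exact hκ.ne' h4

end prop

lemma cda_Wl {E : Type*} [NormedAddCommGroup E] [NormedSpace ℝ E] {n : ℕ∞ω}
    {A B C ν : E → P4} {α ϑ t : E → ℝ} {x : E}
    (hA : ContDiffAt ℝ n A x) (hB : ContDiffAt ℝ n B x) (hC : ContDiffAt ℝ n C x)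
    (hν : ContDiffAt ℝ n ν x) (hα : ContDiffAt ℝ n α x) (hϑ : ContDiffAt ℝ n ϑ x)
    (ht : ContDiffAt ℝ n t x) (h : Dl (A x) (B x) (C x) (ν x) (α x) (ϑ x)) :
    ContDiffAt ℝ n (fun y => Wl (A y) (B y) (C y) (ν y) (α y) (ϑ y) (t y)) x := by
  have hg := h.1.ne'
  have h1 := cda_bb hA hB hC hν hg h.2.1
  have h2 := cda_bb' hA hB hC hν hg h.2.1
  have h3 := cda_rr hA hB hC hα hg h.2.2.1
  have h4 := cda_zz hA hB hC hν hα hg h.2.1 h.2.2.1
  have hr := (rr_pos h.2.2.1).ne'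
  have hϑc : ContDiffAt ℝ n (fun y => ((ϑ y : ℝ) : ℂ)) x :=
    Complex.ofRealCLM.contDiff.contDiffAt.comp x hϑ
  have he1 : ContDiffAt ℝ n (fun y => exp (I * ((ϑ y : ℝ) : ℂ))) x :=
    (contDiffAt_const.mul hϑc).cexp
  have he2 : ContDiffAt ℝ n (fun y => exp (-(I * ((ϑ y : ℝ) : ℂ)))) x :=
    ((contDiffAt_const.mul hϑc).neg).cexp
  have hom := Loop.ContDiffAt.om' (he2.mul h4) (hα.div h3 hr) ht h.2.2.2
  have hw := he1.mul hom
  have hre := Complex.reCLM.contDiff.contDiffAt.comp x hw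
  have him := Complex.imCLM.contDiff.contDiffAt.comp x hw
  unfold Wl
  simp only [lin_apply]
  exact (cda_cpr hA hB hC hg).add (h3.smul ((hre.smul h1).add (him.smul h2)))

lemma cda_d1 {f : P2 → P4} (hf : ContDiff ℝ ∞ f) (v : P2) : ContDiff ℝ ∞ (fun x => d1 f x v) := by
  unfold d1
  exact (hf.fderiv_right (m := ∞) (by simp)).clm_apply contDiff_const

lemma cda_d2 {f : P2 → P4} (hf : ContDiff ℝ ∞ f) (v w : P2) :
    ContDiff ℝ ∞ (fun x => d2 f x v w) := by
  unfold d2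
  exact (((hf.fderiv_right (m := ∞) (by simp)).fderiv_right (m := ∞) (by simp)).clm_apply
    contDiff_const).clm_apply contDiff_const

/-- **PSL-7** -/
theorem exists_RLoop {f ν : P2 → P4} {a : P2 → ℝ} {K : Set P2} (hK : IsCompact K)
    (hf : ContDiff ℝ ∞ f) (hν : ContDiff ℝ ∞ ν) (ha : ContDiff ℝ ∞ a) (ha0 : ∀ x ∈ K, 0 ≤ a x)
    (hfi : ∀ x ∈ K, Function.Injective (fderiv ℝ f x))
    (hν1 : ∀ x ∈ K, ‖ν x‖ = 1) (hν2 : ∀ x ∈ K, ∀ v, inner ℝ (ν x) (d1 f x v) = 0)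
    (hgam : ∀ x ∈ K, gamN f x ≠ 0)
    (hQ1 : ∀ x ∈ K, a x = 0 → Q1 (hN f x) (ν x) e2) :
    ∃ (O : Set (P2 × ℝ × ℝ)) (W : P2 × ℝ × ℝ → ℝ → P4), RLoop f a K O W := by
  set A : P2 → P4 := fun x => d1 f x e1 with hAdef
  set B : P2 → P4 := fun x => d1 f x e2 with hBdef
  set C : P2 → P4 := fun x => d2 f x e2 e2 with hCdef
  have hA : ContDiff ℝ ∞ A := cda_d1 hf e1
  have hB : ContDiff ℝ ∞ B := cda_d1 hf e2
  have hC : ContDiff ℝ ∞ C := cda_d2 hf e2 e2
  refine ⟨{v | Dl (A v.1) (B v.1) (C v.1) (ν v.1) v.2.1 v.2.2},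
    fun v t => Wl (A v.1) (B v.1) (C v.1) (ν v.1) v.2.1 v.2.2 t, ?_⟩
  constructor
  · -- open
    rw [isOpen_iff_mem_nhds]
    intro v hv
    have hv' : Dl (A v.1) (B v.1) (C v.1) (ν v.1) v.2.1 v.2.2 := hv
    have a1 : ContDiffAt ℝ (0 : ℕ∞ω) (fun v : P2 × ℝ × ℝ => A v.1) v :=
      ((hA.of_le (by simp)).contDiffAt).comp v contDiffAt_fst
    have b1 : ContDiffAt ℝ (0 : ℕ∞ω) (fun v : P2 × ℝ × ℝ => B v.1) v :=
      ((hB.of_le (by simp)).contDiffAt).comp v contDiffAt_fst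
    have c1 : ContDiffAt ℝ (0 : ℕ∞ω) (fun v : P2 × ℝ × ℝ => C v.1) v :=
      ((hC.of_le (by simp)).contDiffAt).comp v contDiffAt_fst
    have n1 : ContDiffAt ℝ (0 : ℕ∞ω) (fun v : P2 × ℝ × ℝ => ν v.1) v :=
      ((hν.of_le (by simp)).contDiffAt).comp v contDiffAt_fst
    have al : ContDiffAt ℝ (0 : ℕ∞ω) (fun v : P2 × ℝ × ℝ => v.2.1) v := contDiffAt_snd.fst
    have th : ContDiffAt ℝ (0 : ℕ∞ω) (fun v : P2 × ℝ × ℝ => v.2.2) v := contDiffAt_snd.snd
    have thc : ContDiffAt ℝ (0 : ℕ∞ω) (fun v : P2 × ℝ × ℝ => exp (-(I * ((v.2.2 : ℝ) : ℂ)))) v :=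
      ((contDiffAt_const.mul (Complex.ofRealCLM.contDiff.contDiffAt.comp v th)).neg).cexp
    have e1 := (cda_gram b1 c1).continuousAt.eventually (lt_mem_nhds hv'.1)
    have e2 := (cda_b0 a1 b1 c1 n1 hv'.1.ne').continuousAt.eventually_ne hv'.2.1
    have e3 := (((cda_ppr a1 b1 c1 hv'.1.ne').norm_sq ℝ).add (al.pow 2)).continuousAt.eventually
      (lt_mem_nhds hv'.2.2.1)
    have e4 := (contDiffAt_const.add (Complex.reCLM.contDiff.contDiffAt.comp v
      (thc.mul (cda_zz a1 b1 c1 n1 al hv'.1.ne' hv'.2.1 hv'.2.2.1)))).continuousAt.eventually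
      (lt_mem_nhds hv'.2.2.2)
    filter_upwards [e1, e2, e3, e4] with w h1 h2 h3 h4
    exact ⟨h1, h2, h3, h4⟩
  · -- mem
    intro x hx
    have hG : Gam (A x) (B x) (C x) ≠ 0 := hgam x hx
    have hn1 : ∀ v, inner ℝ (hN f x e2 e2) (d1 f x v) = (0:ℝ) := by
      intro v
      have h1 : hN f x e2 e2 ∈ (tanSp f x)ᗮ := orthP_mem _ _
      rw [Submodule.mem_orthogonal] at h1
      rw [real_inner_comm]
      exact h1 _ ⟨v, rfl⟩
    obtain ⟨w, hw⟩ : ∃ w : P2, fderiv ℝ f x w = C x - hN f x e2 e2 := by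
      have h1 : C x - hN f x e2 e2 ∈ tanSp f x := sub_orthP_mem _ _
      obtain ⟨w, hw⟩ := h1
      exact ⟨w, hw⟩
    have hw' : C x - hN f x e2 e2 = w 0 • A x + w 1 • B x := by
      rw [← hw]
      have e : w = w 0 • e1 + w 1 • e2 := by
        ext i
        fin_cases i <;> simp [e1, e2]
      conv_lhs => rw [e]
      rw [map_add, map_smul, map_smul]
      rfl
    have hd := domain_mem (ν := ν x) (n := hN f x e2 e2) (α := a x) hG (hν1 x hx)
      (hν2 x hx e1) (hν2 x hx e2) (hn1 e1) (hn1 e2) hw' (ha0 x hx)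
      (fun h0 => hQ1 x hx h0)
    refine ⟨hd.1, hd.2.1, hd.2.2.1, ?_⟩
    simpa using hd.2.2.2
  · -- smooth
    rintro ⟨v, t⟩ ⟨hv, -⟩
    apply ContDiffAt.contDiffWithinAt
    have f1 : ContDiffAt ℝ ∞ (fun z : (P2 × ℝ × ℝ) × ℝ => z.1.1) (v, t) := contDiffAt_fst.fst
    exact cda_Wl (hA.contDiffAt.comp (v, t) f1) (hB.contDiffAt.comp (v, t) f1)
      (hC.contDiffAt.comp (v, t) f1) (hν.contDiffAt.comp (v, t) f1)
      (contDiffAt_fst.snd.fst) (contDiffAt_fst.snd.snd) contDiffAt_snd hv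
  · intro z _ t
    simp only [Wl, Loop.om_add_two_pi]
  · intro z _ t
    simp only [Wl, Loop.om_neg]
  · intro z hz
    exact Wl_mean hz
  · intro z hz t
    exact Wl_perpB hz t
  · intro z hz t
    exact Wl_perpC hz t
  · intro z hz t
    exact Wl_norm hz t
  · intro z hz t h0
    exact Wl_turn hz t h0
  · intro x α hx hα t ht
    exact Wl_fast hx hα t ht

end Crest.Agent.R216.PSL
end
end

-- ▼ part R216/Thin
section

/-!
# The thinness lemma (row 216, note 6825 (A))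

`Γ ⊂ ℝ × ℝ` compact, all vertical slices null. For all `η, L > 0` there is a smooth
`θ : ℝ × ℝ → ℝ` with `0 ≤ θ ≤ η`, `∂₂ θ ≥ 0`, and `∂₂ θ ≥ L` (even `= L`) on a neighbourhood of `Γ`.
-/

set_option autoImplicit false

open MeasureTheory Set Filter Topology
open scoped ContDiff

namespace Crest.Agent.R216

/-- slices of small thickenings of a compact set with null slices have uniformly small measure -/
theorem exists_thickening_slice_le (Γ : Set (ℝ × ℝ)) (hΓ : IsCompact Γ)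
    (hnull : ∀ x₁ : ℝ, volume {x₂ : ℝ | (x₁, x₂) ∈ Γ} = 0) {δ : ENNReal} (hδ : 0 < δ) :
    ∃ κ : ℝ, 0 < κ ∧ ∀ x₁ : ℝ, volume {x₂ : ℝ | (x₁, x₂) ∈ Metric.cthickening κ Γ} ≤ δ := by
  classical
  set S : ℝ → ℝ → Set ℝ := fun κ x₁ => {x₂ : ℝ | (x₁, x₂) ∈ Metric.cthickening κ Γ} with hS
  have hSmono : ∀ {κ κ' : ℝ} (x₁ : ℝ), κ ≤ κ' → S κ x₁ ⊆ S κ' x₁ := by
    intro κ κ' x₁ h x₂ hx
    exact Metric.cthickening_mono h Γ hx
  have hSclosed : ∀ κ x₁, IsClosed (S κ x₁) := by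
    intro κ x₁
    exact Metric.isClosed_cthickening.preimage (by fun_prop : Continuous fun x₂ : ℝ => (x₁, x₂))
  -- bounded
  have hbdd : ∀ κ x₁, Bornology.IsBounded (S κ x₁) := by
    intro κ x₁
    have h1 : Bornology.IsBounded (Metric.cthickening κ Γ) := hΓ.isBounded.cthickening
    have h2 : Bornology.IsBounded (Prod.snd '' (Metric.cthickening κ Γ)) :=
      (LipschitzWith.prod_snd).isBounded_image h1
    exact h2.subset (fun x₂ hx => ⟨(x₁, x₂), hx, rfl⟩)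
  -- pointwise statement
  have hpt : ∀ x₁ : ℝ, ∃ κ : ℝ, 0 < κ ∧ volume (S κ x₁) ≤ δ := by
    intro x₁
    have hanti : Antitone (fun n : ℕ => S (1 / ((n:ℝ) + 1)) x₁) := by
      intro m n hmn
      exact hSmono x₁ (one_div_le_one_div_of_le (by positivity) (by exact_mod_cast Nat.succ_le_succ hmn))
    have hlim := tendsto_measure_iInter_atTop (μ := (volume : Measure ℝ))
      (s := fun n : ℕ => S (1 / ((n:ℝ) + 1)) x₁)
      (fun n => (hSclosed _ _).measurableSet.nullMeasurableSet) hanti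
      ⟨0, ((hbdd _ _).measure_lt_top).ne⟩
    have hinter : (⋂ n : ℕ, S (1 / ((n:ℝ) + 1)) x₁) ⊆ {x₂ : ℝ | (x₁, x₂) ∈ Γ} := by
      intro x₂ hx
      simp only [mem_iInter] at hx
      have : (x₁, x₂) ∈ closure Γ := by
        rw [Metric.closure_eq_iInter_cthickening]
        simp only [mem_iInter]
        intro ε hε
        obtain ⟨n, hn⟩ := exists_nat_one_div_lt hε
        exact Metric.cthickening_mono hn.le Γ (hx n)
      rwa [hΓ.isClosed.closure_eq] at this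
    rw [measure_mono_null hinter (hnull x₁)] at hlim
    obtain ⟨n, hn⟩ := (hlim.eventually (gt_mem_nhds hδ)).exists
    exact ⟨1 / ((n:ℝ) + 1), by positivity, hn.le⟩
  -- uniform statement on a compact set
  set K : Set ℝ := Prod.fst '' (Metric.cthickening 1 Γ) with hK
  have hKc : IsCompact K := (hΓ.cthickening).image continuous_fst
  have hunif : ∃ κ : ℝ, 0 < κ ∧ ∀ x₁ ∈ K, volume (S κ x₁) ≤ δ := by
    refine hKc.induction_on (p := fun T => ∃ κ : ℝ, 0 < κ ∧ ∀ x₁ ∈ T, volume (S κ x₁) ≤ δ)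
      ⟨1, one_pos, by simp⟩ ?_ ?_ ?_
    · rintro s t hst ⟨κ, hκ, h⟩
      exact ⟨κ, hκ, fun x hx => h x (hst hx)⟩
    · rintro s t ⟨κ, hκ, h⟩ ⟨κ', hκ', h'⟩
      refine ⟨min κ κ', lt_min hκ hκ', ?_⟩
      rintro x (hx | hx)
      · exact (measure_mono (hSmono x (min_le_left _ _))).trans (h x hx)
      · exact (measure_mono (hSmono x (min_le_right _ _))).trans (h' x hx)
    · intro x _
      obtain ⟨κ, hκ, h⟩ := hpt x
      refine ⟨Metric.ball x (κ/2), mem_nhdsWithin_of_mem_nhds (Metric.ball_mem_nhds _ (by positivity)),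
        κ/2, by positivity, ?_⟩
      intro y hy
      refine (measure_mono ?_).trans h
      intro x₂ hx₂
      -- (y, x₂) within κ/2 of Γ, hence (x, x₂) within κ
      have h1 : (x, x₂) ∈ Metric.cthickening (κ/2) (Metric.cthickening (κ/2) Γ) := by
        refine Metric.mem_cthickening_of_dist_le (x, x₂) (y, x₂) _ _ hx₂ ?_
        rw [Prod.dist_eq]
        simp only [dist_self]
        rw [dist_comm]
        exact max_le (Metric.mem_ball.1 hy).le (by positivity)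
      have h2 := Metric.cthickening_cthickening_subset (by positivity : (0:ℝ) ≤ κ/2)
        (by positivity : (0:ℝ) ≤ κ/2) Γ h1
      simpa [hS, add_halves] using h2
  obtain ⟨κ, hκ, h⟩ := hunif
  refine ⟨min κ 1, lt_min hκ one_pos, ?_⟩
  intro x₁
  by_cases hx : x₁ ∈ K
  · exact (measure_mono (hSmono x₁ (min_le_left _ _))).trans (h x₁ hx)
  · have : S (min κ 1) x₁ = ∅ := by
      ext x₂
      simp only [mem_empty_iff_false, iff_false]
      intro hx₂
      exact hx ⟨(x₁, x₂), Metric.cthickening_mono (min_le_right _ _) Γ hx₂, rfl⟩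
    change volume (S (min κ 1) x₁) ≤ δ
    rw [this, measure_empty]
    exact bot_le

/-- **Thinness lemma.** -/
theorem exists_thin (Γ : Set (ℝ × ℝ)) (hΓ : IsCompact Γ)
    (hnull : ∀ x₁ : ℝ, volume {x₂ : ℝ | (x₁, x₂) ∈ Γ} = 0) {η L : ℝ} (hη : 0 < η) (hL : 0 < L) :
    ∃ θ : ℝ × ℝ → ℝ, ContDiff ℝ ∞ θ ∧ (∀ x, 0 ≤ θ x) ∧ (∀ x, θ x ≤ η) ∧
      (∀ x, 0 ≤ fderiv ℝ θ x (0, 1)) ∧ (∀ x, fderiv ℝ θ x (0, 1) ≤ L) ∧
      ∃ U : Set (ℝ × ℝ), IsOpen U ∧ Γ ⊆ U ∧ ∀ x ∈ U, fderiv ℝ θ x (0, 1) = L := by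
  classical
  obtain ⟨κ, hκ, hslice⟩ := exists_thickening_slice_le Γ hΓ hnull
    (δ := ENNReal.ofReal (η / L)) (by rw [ENNReal.ofReal_pos]; positivity)
  -- cut-off
  have hdisj : Disjoint (Metric.thickening κ Γ)ᶜ (Metric.cthickening (κ/2) Γ) := by
    rw [Set.disjoint_left]
    intro x hx hx'
    exact hx (Metric.cthickening_subset_thickening' hκ (by linarith) Γ hx')
  obtain ⟨χ, hχ0, hχ1, hχI⟩ := exists_contMDiffMap_zero_one_of_isClosed (n := (⊤ : ℕ∞))
    (modelWithCornersSelf ℝ (ℝ × ℝ)) (Metric.isOpen_thickening (δ := κ) (E := Γ)).isClosed_compl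
    (Metric.isClosed_cthickening (δ := κ/2) (E := Γ)) hdisj
  have hχs : ContDiff ℝ ∞ (χ : ℝ × ℝ → ℝ) := χ.contMDiff.contDiff
  have hχsupp : ∀ x, x ∉ Metric.cthickening κ Γ → χ x = 0 := by
    intro x hx
    exact hχ0 (fun h => hx (Metric.thickening_subset_cthickening κ Γ h))
  -- bounded support
  obtain ⟨R, hR⟩ : ∃ R : ℝ, Metric.cthickening κ Γ ⊆ Metric.closedBall (0:ℝ × ℝ) R :=
    (hΓ.isBounded.cthickening).subset_closedBall 0
  have hχR : ∀ x₁ s : ℝ, s < -R → χ (x₁, s) = 0 := by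
    intro x₁ s hs
    apply hχsupp
    intro h
    have := hR h
    rw [Metric.mem_closedBall, dist_zero_right, Prod.norm_def] at this
    have h2 : |s| ≤ R := (le_max_right _ _).trans this
    rw [abs_le] at h2
    linarith [h2.1]
  set θ₀ : ℝ × ℝ → ℝ := fun x => ∫ s in (-R)..x.2, χ (x.1, s) with hθ₀
  have hθs : ContDiff ℝ ∞ θ₀ :=
    contDiff_param_primitive (n := (⊤ : ℕ∞)) (h := fun (x:ℝ) (s:ℝ) => χ (x, s)) (-R) (by
      have : (Function.uncurry fun (x:ℝ) (s:ℝ) => χ (x, s)) = (χ : ℝ × ℝ → ℝ) := by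
        funext q; rfl
      rw [this]; exact hχs)
  have hderiv : ∀ x : ℝ × ℝ, fderiv ℝ θ₀ x (0, 1) = χ x := by
    intro x
    have h1 : HasDerivAt (fun s => θ₀ (x.1, s)) (χ (x.1, x.2)) x.2 :=
      hasDerivAt_param_primitive (P := ℝ) (h := fun (x:ℝ) (s:ℝ) => χ (x, s)) (-R)
        (by
          have : (Function.uncurry fun (x:ℝ) (s:ℝ) => χ (x, s)) = (χ : ℝ × ℝ → ℝ) := by
            funext q; rfl
          rw [this]; exact hχs.continuous) x.1 x.2
    have h2 : HasDerivAt (fun s : ℝ => θ₀ (x.1, s)) (fderiv ℝ θ₀ x (0, 1)) x.2 := by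
      have hd : HasFDerivAt θ₀ (fderiv ℝ θ₀ x) (x.1, x.2) :=
        (hθs.differentiable (by simp) x).hasFDerivAt
      have hl : HasDerivAt (fun s : ℝ => (x.1, s)) ((0:ℝ), (1:ℝ)) x.2 :=
        (hasDerivAt_const x.2 x.1).prodMk (hasDerivAt_id x.2)
      exact hd.comp_hasDerivAt x.2 hl
    rw [h2.unique h1]
  -- bounds
  have hnonneg : ∀ x, 0 ≤ χ x := fun x => (hχI x).1
  have hle1 : ∀ x, χ x ≤ 1 := fun x => (hχI x).2
  have hθ0 : ∀ x, 0 ≤ θ₀ x := by
    intro x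
    rcases le_or_gt (-R) x.2 with h | h
    · exact intervalIntegral.integral_nonneg h (fun s _ => hnonneg _)
    · have : θ₀ x = 0 := by
        simp only [hθ₀]
        rw [intervalIntegral.integral_symm]
        rw [neg_eq_zero]
        rw [intervalIntegral.integral_of_le h.le, ← integral_Ico_eq_integral_Ioc]
        rw [setIntegral_congr_fun measurableSet_Ico (g := fun _ => (0:ℝ))
          (fun s hs => hχR x.1 s hs.2)]
        simp
      rw [this]
  have hθη : ∀ x, θ₀ x ≤ η / L := by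
    intro x
    rcases le_or_gt (-R) x.2 with h | h
    · simp only [hθ₀]
      rw [intervalIntegral.integral_of_le h]
      set T : Set ℝ := {x₂ : ℝ | (x.1, x₂) ∈ Metric.cthickening κ Γ} with hT
      have hTm : MeasurableSet T :=
        (Metric.isClosed_cthickening.preimage (by fun_prop : Continuous fun x₂ : ℝ => (x.1, x₂))).measurableSet
      have h1 : ∫ s in Ioc (-R) x.2, χ (x.1, s) ≤ ∫ s in Ioc (-R) x.2, T.indicator (fun _ => (1:ℝ)) s := by
        refine setIntegral_mono_on ?_ ?_ measurableSet_Ioc ?_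
        · have : Continuous fun s : ℝ => χ (x.1, s) := hχs.continuous.comp (by fun_prop)
          exact (this.integrableOn_Icc).mono_set Ioc_subset_Icc_self
        · exact ((integrableOn_const (by simp)).indicator hTm)
        · intro s _
          by_cases hs : s ∈ T
          · rw [indicator_of_mem hs]; exact hle1 _
          · rw [indicator_of_notMem hs, hχsupp _ hs]
      refine h1.trans ?_
      rw [setIntegral_indicator hTm, setIntegral_const, smul_eq_mul, mul_one]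
      have h2 : volume (Ioc (-R) x.2 ∩ T) ≤ ENNReal.ofReal (η / L) :=
        (measure_mono inter_subset_right).trans (hslice x.1)
      exact ENNReal.toReal_le_of_le_ofReal (by positivity) h2
    · have : θ₀ x = 0 := by
        simp only [hθ₀]
        rw [intervalIntegral.integral_symm]
        rw [neg_eq_zero]
        rw [intervalIntegral.integral_of_le h.le, ← integral_Ico_eq_integral_Ioc]
        rw [setIntegral_congr_fun measurableSet_Ico (g := fun _ => (0:ℝ))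
          (fun s hs => hχR x.1 s hs.2)]
        simp
      rw [this]; positivity
  have hfd : ∀ x, fderiv ℝ (fun y => L * θ₀ y) x (0, 1) = L * χ x := by
    intro x
    rw [fderiv_const_mul (hθs.differentiable (by simp) x)]
    simp [hderiv]
  refine ⟨fun x => L * θ₀ x, contDiff_const.mul hθs, fun x => mul_nonneg hL.le (hθ0 x), ?_, ?_, ?_,
    Metric.thickening (κ/2) Γ, Metric.isOpen_thickening, Metric.self_subset_thickening (by positivity) Γ, ?_⟩
  · intro x
    calc L * θ₀ x ≤ L * (η / L) := mul_le_mul_of_nonneg_left (hθη x) hL.le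
      _ = η := by field_simp
  · intro x
    rw [hfd]; exact mul_nonneg hL.le (hnonneg x)
  · intro x
    rw [hfd]
    calc L * χ x ≤ L * 1 := mul_le_mul_of_nonneg_left (hle1 x) hL.le
      _ = L := mul_one L
  · intro x hx
    rw [hfd, hχ1 (Metric.thickening_subset_cthickening _ _ hx)]
    simp

end Crest.Agent.R216
end

-- ▼ part R216/ThinE2
section

/-!
# The thinness lemma in the Euclidean plane (form used by PSL)
-/

set_option autoImplicit false

open MeasureTheory Set Filter Topology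
open scoped ContDiff

namespace Crest.Agent.R216

/-- coordinates as a continuous linear equivalence -/
noncomputable def coordEquiv : EuclideanSpace ℝ (Fin 2) ≃L[ℝ] ℝ × ℝ :=
  LinearEquiv.toContinuousLinearEquiv
    { toFun := fun x => (x 0, x 1)
      invFun := fun y => y.1 • e1 + y.2 • e2
      map_add' := by intro x y; simp
      map_smul' := by intro c x; simp
      left_inv := by
        intro x
        ext i
        fin_cases i <;> simp [e1, e2]
      right_inv := by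
        intro y
        simp [e1, e2] }

@[simp] theorem coordEquiv_apply (x : EuclideanSpace ℝ (Fin 2)) : coordEquiv x = (x 0, x 1) := rfl

@[simp] theorem coordEquiv_symm_apply (y : ℝ × ℝ) : coordEquiv.symm y = y.1 • e1 + y.2 • e2 := rfl

/-- **Thinness lemma** in the Euclidean plane. -/
theorem exists_thin_E2 (Γ : Set (EuclideanSpace ℝ (Fin 2))) (hΓ : IsCompact Γ)
    (hnull : ∀ s : ℝ, volume {t : ℝ | s • e1 + t • e2 ∈ Γ} = 0) {η L : ℝ} (hη : 0 < η)
    (hL : 0 < L) :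
    ∃ θ : EuclideanSpace ℝ (Fin 2) → ℝ, ContDiff ℝ ∞ θ ∧ (∀ x, 0 ≤ θ x) ∧ (∀ x, θ x ≤ η) ∧
      (∀ x, 0 ≤ fderiv ℝ θ x e2) ∧ (∀ x, fderiv ℝ θ x e2 ≤ L) ∧
      ∃ U : Set (EuclideanSpace ℝ (Fin 2)), IsOpen U ∧ Γ ⊆ U ∧ ∀ x ∈ U, fderiv ℝ θ x e2 = L := by
  have hΓ' : IsCompact (coordEquiv '' Γ) := hΓ.image coordEquiv.continuous
  have hnull' : ∀ s : ℝ, volume {t : ℝ | (s, t) ∈ coordEquiv '' Γ} = 0 := by
    intro s
    have : {t : ℝ | (s, t) ∈ coordEquiv '' Γ} = {t : ℝ | s • e1 + t • e2 ∈ Γ} := by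
      ext t
      constructor
      · rintro ⟨x, hx, hxt⟩
        have : coordEquiv.symm (s, t) = x := by rw [← hxt, coordEquiv.symm_apply_apply]
        change s • e1 + t • e2 ∈ Γ
        rw [← coordEquiv_symm_apply (s, t), this]; exact hx
      · intro ht
        refine ⟨s • e1 + t • e2, ht, ?_⟩
        rw [← coordEquiv_symm_apply (s, t), coordEquiv.apply_symm_apply]
    rw [this]; exact hnull s
  obtain ⟨θ, h1, h2, h3, h4, h5, U, hU, hΓU, h6⟩ := exists_thin _ hΓ' hnull' hη hL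
  have hfd : ∀ x, fderiv ℝ (θ ∘ coordEquiv) x e2 = fderiv ℝ θ (coordEquiv x) (0, 1) := by
    intro x
    rw [fderiv_comp x (h1.differentiable (by simp) _) coordEquiv.differentiableAt]
    rw [coordEquiv.fderiv]
    simp [e2]
  refine ⟨θ ∘ coordEquiv, h1.comp coordEquiv.contDiff, fun x => h2 _, fun x => h3 _, ?_, ?_,
    coordEquiv ⁻¹' U, hU.preimage coordEquiv.continuous, ?_, ?_⟩
  · intro x; rw [hfd]; exact h4 _
  · intro x; rw [hfd]; exact h5 _
  · intro x hx; exact hΓU ⟨x, hx, rfl⟩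
  · intro x hx; rw [hfd]; exact h6 _ hx

end Crest.Agent.R216
end

-- ▼ part R216/PSL
section

/-!
Row 216, PSL: the planar step lemma from Theorem E (helper920).
-/

set_option autoImplicit false

noncomputable section

open scoped Manifold ContDiff Topology
open Set MeasureTheory

namespace Crest.Agent.R216.PSL.Asm

lemma sq_pair_pos {A B : P4} (h : LinearIndependent ℝ ![A, B]) : gr A B ≠ 0 := (gr_pos h).ne'

/-- tube: the family is defined for small rotation angles -/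
lemma exists_tube {a : P2 → ℝ} {K : Set P2} {O : Set (P2 × ℝ × ℝ)} (hK : IsCompact K)
    (ha : Continuous a) (hO : IsOpen O) (hmem : ∀ x ∈ K, (x, a x, (0:ℝ)) ∈ O) :
    ∃ δ : ℝ, 0 < δ ∧ ∀ x ∈ K, ∀ ϑ ∈ Icc (0:ℝ) δ, (x, a x, ϑ) ∈ O := by
  have hcont : Continuous fun q : P2 × ℝ => ((q.1, a q.1, q.2) : P2 × ℝ × ℝ) := by fun_prop
  obtain ⟨U, V, hU, hV, hKU, h0V, hUV⟩ := generalized_tube_lemma hK (isCompact_singleton (x := (0:ℝ)))
    (hO.preimage hcont) (by
      rintro ⟨x, s⟩ ⟨hx, hs⟩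
      simp only [mem_singleton_iff] at hs
      subst hs
      exact hmem x hx)
  obtain ⟨δ, hδ, hball⟩ := Metric.isOpen_iff.1 hV 0 (h0V rfl)
  refine ⟨δ / 2, half_pos hδ, fun x hx ϑ hϑ => ?_⟩
  have : ϑ ∈ V := by
    apply hball
    rw [Metric.mem_ball, dist_zero_right, Real.norm_eq_abs, abs_of_nonneg hϑ.1]
    linarith [hϑ.2]
  exact hUV (⟨hKU hx, this⟩ : (x, ϑ) ∈ U ×ˢ V)

/-- induced metrics bounded below by the metric of an immersion give immersions -/
lemma injective_of_met {F f : P2 → P4} {x : P2} {c : ℝ} (hc : 0 ≤ c)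
    (hf : Function.Injective (fderiv ℝ f x))
    (h : ∀ v w : P2, met F x v w = met f x v w + c * (v 0 * w 0)) :
    Function.Injective (fderiv ℝ F x) := by
  rw [injective_iff_map_eq_zero] at hf ⊢
  intro v hv
  apply hf
  have h1 := h v v
  have h2 : met F x v v = 0 := by simp [met, d1, hv]
  have h3 : 0 ≤ met f x v v := real_inner_self_nonneg
  have h4 : 0 ≤ c * (v 0 * v 0) := mul_nonneg hc (mul_self_nonneg _)
  have h5 : met f x v v = 0 := by linarith
  exact inner_self_eq_zero.1 h5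

lemma indep_of_injective {F : P2 → P4} {x : P2} (h : Function.Injective (fderiv ℝ F x)) :
    LinearIndependent ℝ ![d1 F x e1, d1 F x e2] := by
  rw [LinearIndependent.pair_iff]
  intro s t hst
  have h1 : fderiv ℝ F x (s • e1 + t • e2) = 0 := by
    simpa [d1] using hst
  have h2 : s • e1 + t • e2 = 0 := by
    apply h
    rw [h1, map_zero]
  constructor
  · have := congrArg (fun v : P2 => v 0) h2
    simpa [e1, e2] using this
  · have := congrArg (fun v : P2 => v 1) h2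
    simpa [e1, e2] using this

/-- Gauss equation for the pair `(v, e₂)` in terms of the three normal vectors. -/
lemma gauss_alg (h11 h12 h22 : P4) (p q : ℝ) :
    inner ℝ ((p ^ 2) • h11 + (2 * p * q) • h12 + (q ^ 2) • h22) h22 =
      (inner ℝ h11 h22 - inner ℝ h12 h12) * p ^ 2 + ‖p • h12 + q • h22‖ ^ 2 := by
  rw [← real_inner_self_eq_norm_sq]
  simp only [inner_add_left, inner_add_right, real_inner_smul_left, inner_smul_right]
  rw [real_inner_comm h12 h22]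
  simp
  ring

lemma hN_e2 {F : P2 → P4} {x : P2} (hF : ContDiffAt ℝ 2 F x)
    (hi : Function.Injective (fderiv ℝ F x)) (v : P2) :
    hN F x v e2 = v 0 • hN F x e1 e2 + v 1 • hN F x e2 e2 := by
  rw [hN_eq_nor hi, hN_eq_nor hi, hN_eq_nor hi, ← nor_smul, ← nor_smul, ← nor_add, d2_eq hF v e2]
  congr 1
  simp [e2_0, e2_1]

lemma hN_vv {F : P2 → P4} {x : P2} (hF : ContDiffAt ℝ 2 F x)
    (hi : Function.Injective (fderiv ℝ F x)) (v : P2) :
    hN F x v v = (v 0 ^ 2) • hN F x e1 e1 + (2 * v 0 * v 1) • hN F x e1 e2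
      + (v 1 ^ 2) • hN F x e2 e2 := by
  rw [hN_eq_nor hi, hN_eq_nor hi, hN_eq_nor hi, hN_eq_nor hi, ← nor_smul, ← nor_smul, ← nor_smul,
    ← nor_add, ← nor_add, quad_eq hF v, quad]


lemma nor_self_left {A B : P4} (h : gr A B ≠ 0) : nor A B A = 0 := by
  have h' : inner ℝ A A * inner ℝ B B - inner ℝ A B ^ 2 ≠ 0 := h
  have e1 : inner ℝ A A * inner ℝ B B - inner ℝ A B * inner ℝ A B = gr A B := by
    simp only [gr]; ring
  have e2 : inner ℝ A B * inner ℝ A A - inner ℝ A A * inner ℝ A B = 0 := by ring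
  rw [nor, e1, e2, zero_smul, add_zero, smul_smul, inv_mul_cancel₀ h, one_smul, sub_self]

lemma nor_self_right {A B : P4} (h : gr A B ≠ 0) : nor A B B = 0 := by
  have e1 : inner ℝ B A * inner ℝ B B - inner ℝ B B * inner ℝ A B = 0 := by
    rw [real_inner_comm A B]; ring
  have e2 : inner ℝ B B * inner ℝ A A - inner ℝ B A * inner ℝ A B = gr A B := by
    simp only [gr]; rw [real_inner_comm A B]; ring
  rw [nor, e1, e2, zero_smul, zero_add, smul_smul, inv_mul_cancel₀ h, one_smul, sub_self]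

lemma indep3_of_nor {A B C : P4} (h : LinearIndependent ℝ ![A, B]) (hn : nor A B C ≠ 0) :
    LinearIndependent ℝ ![A, B, C] := by
  have hg := sq_pair_pos h
  rw [Fintype.linearIndependent_iff]
  intro c hc
  simp only [Fin.sum_univ_three, Matrix.cons_val_zero, Matrix.cons_val_one, Matrix.cons_val] at hc
  have h1 : nor A B (c 0 • A + c 1 • B + c 2 • C) = 0 := by
    rw [hc]
    have := nor_smul A B 0 0
    simpa using this
  rw [nor_add, nor_add, nor_smul, nor_smul, nor_smul, nor_self_left hg, nor_self_right hg] at h1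
  simp only [smul_zero, zero_add] at h1
  have h2 : c 2 = 0 := (smul_eq_zero.1 h1).resolve_right hn
  rw [h2, zero_smul, add_zero] at hc
  obtain ⟨h3, h4⟩ := LinearIndependent.pair_iff.1 h _ _ hc
  intro i
  fin_cases i
  · exact h3
  · exact h4
  · exact h2

/-- freezing the rotation angle -/
lemma loopFam_of_rot {f : P2 → P4} {a : P2 → ℝ} {K : Set P2} {O : Set (P2 × ℝ × ℝ)}
    {W : P2 × ℝ × ℝ → ℝ → P4} (h : RLoop f a K O W) {θ : P2 → ℝ} (hθ : ContDiff ℝ ∞ θ)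
    (hmem : ∀ x ∈ K, (x, a x, θ x) ∈ O) :
    LoopFam f a K {q : P2 × ℝ | (q.1, q.2, θ q.1) ∈ O} (fun q t => W (q.1, q.2, θ q.1) t) where
  isOpen := by
    have : Continuous fun q : P2 × ℝ => ((q.1, q.2, θ q.1) : P2 × ℝ × ℝ) := by
      have := hθ.continuous
      fun_prop
    exact h.isOpen.preimage this
  mem := hmem
  smooth := by
    have h1 : ContDiff ℝ ∞ (fun z : (P2 × ℝ) × ℝ =>
        (((z.1.1, z.1.2, θ z.1.1) : P2 × ℝ × ℝ), z.2)) := by fun_prop
    exact h.smooth.comp h1.contDiffOn (fun z hz => ⟨hz.1, mem_univ _⟩)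
  per := fun z hz t => h.per _ hz t
  even := fun z hz t => h.even _ hz t
  mean := fun z hz => h.mean _ hz
  perp2 := fun z hz t => h.perp2 _ hz t
  perp22 := fun z hz t => h.perp22 _ hz t
  norm := fun z hz t => h.norm _ hz t

lemma continuous_d1 {f : P2 → P4} (hf : ContDiff ℝ ∞ f) (v : P2) :
    Continuous fun x => d1 f x v :=
  (hf.continuous_fderiv (by simp)).clm_apply continuous_const

lemma continuous_d2 {f : P2 → P4} (hf : ContDiff ℝ ∞ f) (v w : P2) :
    Continuous fun x => d2 f x v w := by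
  have h1 : ContDiff ℝ 1 (fderiv ℝ f) :=
    (hf.of_le (WithTop.coe_le_coe.2 le_top : (2 : WithTop ℕ∞) ≤ ∞)).fderiv_right (by norm_num)
  exact ((h1.continuous_fderiv (by simp)).clm_apply continuous_const).clm_apply continuous_const

/-- finite minimum of thresholds -/
lemma exists_common {α : Type*} (T : Finset α) (P : α → ℝ → Prop)
    (hP : ∀ q ∈ T, ∃ η : ℝ, 0 < η ∧ ∀ η', 0 < η' → η' ≤ η → P q η') :
    ∃ η : ℝ, 0 < η ∧ ∀ q ∈ T, ∀ η', 0 < η' → η' ≤ η → P q η' := by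
  classical
  induction T using Finset.induction_on with
  | empty => exact ⟨1, one_pos, by simp⟩
  | insert q T hq ih =>
    obtain ⟨η1, h1, h1'⟩ := ih (fun r hr => hP r (Finset.mem_insert_of_mem hr))
    obtain ⟨η2, h2, h2'⟩ := hP q (Finset.mem_insert_self q T)
    refine ⟨min η1 η2, lt_min h1 h2, ?_⟩
    intro r hr η' hη' hle
    rcases Finset.mem_insert.1 hr with rfl | hr
    · exact h2' η' hη' (hle.trans (min_le_right _ _))
    · exact h1' r hr η' hη' (hle.trans (min_le_left _ _))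

lemma nor_ne_zero {A B C : P4} (h : LinearIndependent ℝ ![A, B, C]) : nor A B C ≠ 0 := by
  intro h0
  rw [Fintype.linearIndependent_iff] at h
  rw [nor, sub_eq_zero] at h0
  set p := (gr A B)⁻¹ * (inner ℝ C A * inner ℝ B B - inner ℝ C B * inner ℝ A B) with hp
  set q := (gr A B)⁻¹ * (inner ℝ C B * inner ℝ A A - inner ℝ C A * inner ℝ A B) with hq
  have h3 : p • A + q • B + (-1 : ℝ) • C = 0 := by
    have h4 : C = p • A + q • B := by
      conv_lhs => rw [h0]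
      rw [smul_add, smul_smul, smul_smul]
    conv_lhs => rw [h4]
    module
  have h1 := h ![p, q, -1] (by
    simp only [Fin.sum_univ_three, Matrix.cons_val_zero, Matrix.cons_val_one, Matrix.cons_val]
    exact h3) 2
  simp at h1


lemma hN_of_jets {F f : P2 → P4} {x : P2} (h1 : fderiv ℝ F x = fderiv ℝ f x)
    (h2 : fderiv ℝ (fderiv ℝ F) x = fderiv ℝ (fderiv ℝ f) x) (v w : P2) :
    hN F x v w = hN f x v w := by
  simp only [hN, tanSp, d2, h1, h2]

lemma fderiv_Phi_per {f : P2 → P4} {a : P2 → ℝ} {K : Set P2} {O : Set (P2 × ℝ × ℝ)}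
    {W : P2 × ℝ × ℝ → ℝ → P4} (h : RLoop f a K O W) (ha : ContDiff ℝ ∞ a) {x : P2} {ϑ t : ℝ}
    (hz : (x, ϑ, t) ∈ domPhi a O) :
    fderiv ℝ (Phi a W) (x, ϑ, t + 2 * Real.pi) = fderiv ℝ (Phi a W) (x, ϑ, t) := by
  have h1 : (fun z : P2 × ℝ × ℝ => Phi a W (z + ((0 : P2), (0 : ℝ), 2 * Real.pi)))
      =ᶠ[𝓝 (x, ϑ, t)] Phi a W := by
    filter_upwards [(isOpen_domPhi h.isOpen ha).mem_nhds hz] with z hz'
    have := h.per _ hz' z.2.2
    simpa [Phi] using this
  have h2 := h1.fderiv_eq (𝕜 := ℝ)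
  rw [fderiv_comp_add_right] at h2
  simpa using h2

lemma perp_theta {f : P2 → P4} {a : P2 → ℝ} {K : Set P2} {O : Set (P2 × ℝ × ℝ)}
    {W : P2 × ℝ × ℝ → ℝ → P4} (h : RLoop f a K O W) (ha : ContDiff ℝ ∞ a) {x : P2} {ϑ t : ℝ}
    (hz : (x, ϑ, t) ∈ domPhi a O) :
    inner ℝ (PhiT a W (x, ϑ, t)) (Phi a W (x, ϑ, t)) = 0 ∧
      inner ℝ (PhiT a W (x, ϑ, t)) (d1 f x e2) = 0 ∧
      inner ℝ (PhiT a W (x, ϑ, t)) (d2 f x e2 e2) = 0 := by
  have hd := deriv_theta h ha hz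
  have hO : ∀ᶠ s in 𝓝 ϑ, ((x, a x, s) : P2 × ℝ × ℝ) ∈ O := by
    have hcont : Continuous fun s : ℝ => ((x, a x, s) : P2 × ℝ × ℝ) := by fun_prop
    exact hcont.continuousAt.preimage_mem_nhds (h.isOpen.mem_nhds hz)
  rw [← hd.deriv]
  refine ⟨?_, ?_, ?_⟩
  · exact inner_deriv_self_zero (g := fun s : ℝ => W (x, a x, s) t)
      (c := inner ℝ (d1 f x e1) (d1 f x e1) + a x ^ 2) hd.differentiableAt
      (hO.mono fun s hs => h.norm _ hs t)
  · exact inner_deriv_zero (g := fun s : ℝ => W (x, a x, s) t)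
      (c := inner ℝ (d1 f x e1) (d1 f x e2)) hd.differentiableAt
      (hO.mono fun s hs => h.perp2 _ hs t)
  · exact inner_deriv_zero (g := fun s : ℝ => W (x, a x, s) t)
      (c := inner ℝ (d1 f x e1) (d2 f x e2 e2)) hd.differentiableAt
      (hO.mono fun s hs => h.perp22 _ hs t)

lemma perp_time {f : P2 → P4} {a : P2 → ℝ} {K : Set P2} {O : Set (P2 × ℝ × ℝ)}
    {W : P2 × ℝ × ℝ → ℝ → P4} (h : RLoop f a K O W) (ha : ContDiff ℝ ∞ a) {x : P2} {ϑ t : ℝ}
    (hz : (x, ϑ, t) ∈ domPhi a O) :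
    inner ℝ (Phit a W (x, ϑ, t)) (Phi a W (x, ϑ, t)) = 0 ∧
      inner ℝ (Phit a W (x, ϑ, t)) (d1 f x e2) = 0 ∧
      inner ℝ (Phit a W (x, ϑ, t)) (d2 f x e2 e2) = 0 := by
  have hd := deriv_time h ha hz
  rw [← hd.deriv]
  refine ⟨?_, ?_, ?_⟩
  · exact inner_deriv_self_zero (g := fun s : ℝ => W (x, a x, ϑ) s) hd.differentiableAt
      (Filter.Eventually.of_forall fun s => h.norm _ hz s)
  · exact inner_deriv_zero (g := fun s : ℝ => W (x, a x, ϑ) s) hd.differentiableAt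
      (Filter.Eventually.of_forall fun s => h.perp2 _ hz s)
  · exact inner_deriv_zero (g := fun s : ℝ => W (x, a x, ϑ) s) hd.differentiableAt
      (Filter.Eventually.of_forall fun s => h.perp22 _ hz s)

theorem core (hE : TheoremE) {f ν : P2 → P4} {u b : P2 → ℝ} (hf : ContDiff ℝ ∞ f)
    (hν : ContDiff ℝ ∞ ν) (hamp : IsAmp u b) {N : Set P2} (hNo : IsOpen N)
    (hKN : closure {x : P2 | 0 < u x} ⊆ N)
    (hfi : ∀ x ∈ N, Function.Injective (fderiv ℝ f x))
    (hν1 : ∀ x ∈ closure {x : P2 | 0 < u x}, ‖ν x‖ = 1)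
    (hν2 : ∀ x ∈ closure {x : P2 | 0 < u x}, ∀ v, inner ℝ (ν x) (d1 f x v) = 0)
    (hgam : ∀ x ∈ closure {x : P2 | 0 < u x}, gamN f x ≠ 0)
    (hQ1 : ∀ x ∈ frontier {x : P2 | 0 < u x}, Q1 (hN f x) (ν x) e2)
    {G : Set (P2 × P2)} (hG : IsCompact G) (hGK : ∀ z ∈ G, z.1 ∈ closure {x : P2 | 0 < u x})
    (hGv : ∀ z ∈ G, z.2 ≠ 0)
    (hnull : ∀ s : ℝ, volume {t : ℝ | s • e1 + t • e2 ∈ Prod.fst '' G} = 0)
    (hQ2 : ∀ z ∈ G, ¬ 0 < u z.1 → Q2 (hN f z.1) z.2 e2)
    (T : Finset (P2 × P2 × P2)) (hT : ∀ q ∈ T, 0 < u q.1 ∧ q.2.1 0 ≠ 0 ∧ q.2.2 0 ≠ 0) :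
    ∃ F : P2 → P4, ContDiff ℝ ∞ F ∧
      (∀ x, ¬ 0 < u x → F x = f x ∧ fderiv ℝ F x = fderiv ℝ f x ∧
        fderiv ℝ (fderiv ℝ F) x = fderiv ℝ (fderiv ℝ f) x) ∧
      (∀ x, ∀ v w : P2, met F x v w = met f x v w + amp u b x ^ 2 * (v 0 * w 0)) ∧
      (∀ x, 0 < u x → hN F x e2 e2 ≠ 0) ∧
      (∀ z ∈ G, 0 < u z.1 → ∀ c : ℝ, 0 ≤ c →
        hN F z.1 z.2 z.2 ≠ -(c • hN F z.1 e2 e2)) ∧
      (∀ q ∈ T, Q2 (hN F q.1) q.2.1 q.2.2 ∧
        Q3 (hN F q.1)
          (‖hN F q.1 e2 e2‖⁻¹ • hN F q.1 e2 e2)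
          q.2.1 q.2.2) := by
  classical
  set K : Set P2 := closure {x : P2 | 0 < u x} with hKdef
  set a : P2 → ℝ := amp u b with hadef
  have hKc : IsCompact K := hamp.cpt
  have ha : ContDiff ℝ ∞ a := contDiff_amp hamp
  have ha' : Continuous a := ha.continuous
  have hopenU : IsOpen {x : P2 | 0 < u x} := isOpen_lt continuous_const hamp.hu.continuous
  have hUK : ∀ x, 0 < u x → x ∈ K := fun x hx => subset_closure hx
  have hfront : ∀ x ∈ K, ¬ 0 < u x → x ∈ frontier {x : P2 | 0 < u x} := by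
    intro x hx hx0
    rw [hopenU.frontier_eq]
    exact ⟨hx, hx0⟩
  have hfr2 : ∀ x ∈ frontier {x : P2 | 0 < u x}, x ∈ K ∧ ¬ 0 < u x := by
    intro x hx
    rw [hopenU.frontier_eq] at hx
    exact hx
  have ha0 : ∀ x, a x = 0 → ¬ 0 < u x := fun x h => (amp_eq_zero_iff hamp).1 h
  have hfiK : ∀ x ∈ K, Function.Injective (fderiv ℝ f x) := fun x hx => hfi x (hKN hx)
  have h12 : ∀ x ∈ K, LinearIndependent ℝ ![d1 f x e1, d1 f x e2] :=
    fun x hx => indep_of_injective (hfiK x hx)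
  have h2_22 : ∀ x ∈ K, LinearIndependent ℝ ![d1 f x e2, d2 f x e2 e2] :=
    fun x hx => indep_f2_f22 (h12 x hx) (hgam x hx)
  have hh22 : ∀ x ∈ K, ¬ 0 < u x → hN f x e2 e2 ≠ 0 := by
    intro x hx h0
    have := hQ1 x (hfront x hx h0) 0 le_rfl
    simpa using this
  have hind3 : ∀ x ∈ K, ¬ 0 < u x →
      LinearIndependent ℝ ![d1 f x e1, d1 f x e2, d2 f x e2 e2] := by
    intro x hx h0
    refine indep3_of_nor (h12 x hx) ?_
    rw [← hN_eq_nor (hfiK x hx)]
    exact hh22 x hx h0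
  obtain ⟨O, W, hW⟩ := exists_RLoop hKc hf hν ha (fun x _ => amp_nonneg hamp x) hfiK hν1 hν2 hgam
    (fun x hx h0 => hQ1 x (hfront x hx (ha0 x h0)))
  obtain ⟨δ, hδ, htube⟩ := exists_tube hKc ha' hW.isOpen hW.mem
  have hdom : ∀ x ∈ K, ∀ ϑ ∈ Icc (0:ℝ) δ, ∀ t : ℝ, ((x, ϑ, t) : P2 × ℝ × ℝ) ∈ domPhi a O :=
    fun x hx ϑ hϑ t => htube x hx ϑ hϑ
  have h0δ : (0:ℝ) ∈ Icc (0:ℝ) δ := ⟨le_rfl, hδ.le⟩
  have hsub : K ×ˢ Icc (0:ℝ) δ ×ˢ (univ : Set ℝ) ⊆ domPhi a O := by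
    rintro ⟨x, ϑ, t⟩ ⟨hx, hϑ, -⟩
    exact hdom x hx ϑ hϑ t
  have hΦc : ContinuousOn (Phi a W) (domPhi a O) := (contDiffOn_Phi hW ha).continuousOn
  have hΦ2c : ContinuousOn (Phi2 a W) (domPhi a O) := continuousOn_fderiv_Phi hW ha _
  have hΦTc : ContinuousOn (PhiT a W) (domPhi a O) := continuousOn_fderiv_Phi hW ha _
  have hΦtc : ContinuousOn (Phit a W) (domPhi a O) := continuousOn_fderiv_Phi hW ha _
  have hperΦ : ∀ x ϑ t, ((x, ϑ, t) : P2 × ℝ × ℝ) ∈ domPhi a O →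
      Phi a W (x, ϑ, t + 2 * Real.pi) = Phi a W (x, ϑ, t) ∧
      Phi2 a W (x, ϑ, t + 2 * Real.pi) = Phi2 a W (x, ϑ, t) ∧
      PhiT a W (x, ϑ, t + 2 * Real.pi) = PhiT a W (x, ϑ, t) ∧
      Phit a W (x, ϑ, t + 2 * Real.pi) = Phit a W (x, ϑ, t) := by
    intro x ϑ t hz
    have h1 := fderiv_Phi_per hW ha hz
    refine ⟨hW.per _ hz t, ?_, ?_, ?_⟩
    · simp only [Phi2, h1]
    · simp only [PhiT, h1]
    · simp only [Phit, h1]
  have hindΦ : ∀ x ∈ K, ∀ ϑ ∈ Icc (0:ℝ) δ, ∀ t : ℝ,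
      LinearIndependent ℝ ![Phi a W (x, ϑ, t), d1 f x e2, d2 f x e2 e2] := by
    intro x hx ϑ hϑ t
    have hz := htube x hx ϑ hϑ
    exact indep_of_circle (h2_22 x hx) (hW.perp2 _ hz t) (hW.perp22 _ hz t) (hW.norm _ hz t)
      (fun h0 => hind3 x hx (ha0 x h0))
  -- reference immersion and curvature
  have LF0 := loopFam_of_rot hW (θ := fun _ => 0) contDiff_const hW.mem
  obtain ⟨ε0, -, -, hF0⟩ := hE f u b _ _ hf hamp h2_22
    (fun x hx => hind3 x (hfr2 x hx).1 (hfr2 x hx).2) LF0 1 one_pos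
  obtain ⟨F0, hF0s, hF0j, hF0m, -⟩ := hF0 0
  have hinj : ∀ F : P2 → P4, (∀ x, ∀ v w : P2, met F x v w = met f x v w + a x ^ 2 * (v 0 * w 0)) →
      ∀ x ∈ N, Function.Injective (fderiv ℝ F x) := fun F hF x hx =>
    injective_of_met (sq_nonneg (a x)) (hfi x hx) (hF x)
  have hF0i := hinj F0 hF0m
  set κ : P2 → ℝ := KK F0 with hκdef
  have hκc : ContinuousOn κ K := by
    have hg : ∀ x ∈ K, gr (d1 F0 x e1) (d1 F0 x e2) ≠ 0 := fun x hx =>
      sq_pair_pos (indep_of_injective (hF0i x (hKN hx)))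
    have hc : ∀ v w : P2, ContinuousOn (fun x => nor (d1 F0 x e1) (d1 F0 x e2) (d2 F0 x v w)) K :=
      fun v w => continuousOn_nor (continuous_d1 hF0s e1).continuousOn
        (continuous_d1 hF0s e2).continuousOn (continuous_d2 hF0s v w).continuousOn hg
    have h1 : ContinuousOn (fun x =>
        inner ℝ (nor (d1 F0 x e1) (d1 F0 x e2) (d2 F0 x e1 e1))
          (nor (d1 F0 x e1) (d1 F0 x e2) (d2 F0 x e2 e2)) -
        inner ℝ (nor (d1 F0 x e1) (d1 F0 x e2) (d2 F0 x e1 e2))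
          (nor (d1 F0 x e1) (d1 F0 x e2) (d2 F0 x e1 e2))) K :=
      ((hc e1 e1).inner (hc e2 e2)).sub ((hc e1 e2).inner (hc e1 e2))
    refine h1.congr ?_
    intro x hx
    have hi := hF0i x (hKN hx)
    simp only [hκdef, KK, hN_eq_nor hi]
  -- LL0
  obtain ⟨L0, hL0, hLL0⟩ := LL0 hKc hG hGK hGv hδ
    (f2 := fun x => d1 f x e2) (f22 := fun x => d2 f x e2 e2)
    (continuous_d1 hf e2).continuousOn (continuous_d2 hf e2 e2).continuousOn
    (W := Phi a W) (W2 := Phi2 a W) (Wϑ := PhiT a W)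
    (hΦc.mono hsub) (hΦ2c.mono hsub) (hΦTc.mono hsub)
    (fun x hx ϑ hϑ t => by
      obtain ⟨h1, h2, h3, -⟩ := hperΦ x ϑ t (hdom x hx ϑ hϑ t)
      exact ⟨h1, h2, h3⟩)
    hκc ha'.continuousOn hindΦ
    (fun x hx ϑ hϑ t => perp_theta hW ha (hdom x hx ϑ hϑ t))
    (fun x hx hax t hst => by
      have h1 := hW.fast x (a x) (hW.mem x hx) hax t hst
      rwa [(deriv_theta hW ha (hdom x hx 0 h0δ t)).deriv] at h1)
    (by
      intro z hz haz t
      have hx := hGK z hz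
      have hu0 := ha0 _ haz
      have hzO : (z.1, (0:ℝ), t) ∈ domPhi a O := hdom _ hx 0 h0δ t
      have e1' : Phi a W (z.1, 0, t) = d1 f z.1 e1 := W_const hW hzO haz t
      have e2' : Phi2 a W (z.1, 0, t) = d2 f z.1 e1 e2 := by
        rw [Phi2_bd hW hf ha hzO haz (fderiv_amp_zero hamp hu0)]
        exact d2_symm (cd2 hf _) _ _
      have hi := hfiK _ hx
      have hcd := cd2 hf z.1
      have hq := hQ2 z hz hu0
      rw [Q2, hN_e2 hcd hi z.2, hN_vv hcd hi z.2] at hq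
      have hga := gauss_alg (hN f z.1 e1 e1) (hN f z.1 e1 e2) (hN f z.1 e2 e2) (z.2 0) (z.2 1)
      rw [hga] at hq
      have hκz : κ z.1 = inner ℝ (hN f z.1 e1 e1) (hN f z.1 e2 e2)
          - inner ℝ (hN f z.1 e1 e2) (hN f z.1 e1 e2) := by
        obtain ⟨-, j1, j2⟩ := hF0j z.1 hu0
        simp only [hκdef, KK, hN_of_jets j1 j2]
      rw [e1', e2', nor_add, nor_smul, nor_smul, ← hN_eq_nor hi, ← hN_eq_nor hi, hκz]
      rw [real_inner_self_eq_norm_sq (z.2 0 • hN f z.1 e1 e2 + z.2 1 • hN f z.1 e2 e2),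
        real_inner_self_eq_norm_sq (hN f z.1 e2 e2)] at hq
      nlinarith [hq])
  -- thinness
  have hGc : IsCompact (Prod.fst '' G) := hG.image continuous_fst
  obtain ⟨θ, hθs, hθ0, hθη, -, -, U0, -, hGU0, hθL⟩ := exists_thin_E2 (Prod.fst '' G) hGc hnull
    (η := min (1 / L0) δ) (L := L0) (lt_min (by positivity) hδ) hL0
  have hθI : ∀ x, θ x ∈ Icc (0:ℝ) δ := fun x => ⟨hθ0 x, (hθη x).trans (min_le_right _ _)⟩
  have hθL' : ∀ z ∈ G, fderiv ℝ θ z.1 e2 = L0 := fun z hz => hθL _ (hGU0 ⟨z, hz, rfl⟩)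
  have LFθ := loopFam_of_rot hW hθs (fun x hx => htube x hx (θ x) (hθI x))
  set w : P2 × ℝ → P4 := fun q => Phi a W (q.1, θ q.1, q.2) with hwdef
  set w2 : P2 × ℝ → P4 := fun q => Phi2 a W (q.1, θ q.1, q.2)
    + (fderiv ℝ θ q.1 e2) • PhiT a W (q.1, θ q.1, q.2) with hw2def
  set wt : P2 × ℝ → P4 := fun q => Phit a W (q.1, θ q.1, q.2) with hwtdef
  have hmap : ContinuousOn (fun q : P2 × ℝ => ((q.1, θ q.1, q.2) : P2 × ℝ × ℝ)) (K ×ˢ univ) := by
    have := hθs.continuous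
    fun_prop
  have hmaps : MapsTo (fun q : P2 × ℝ => ((q.1, θ q.1, q.2) : P2 × ℝ × ℝ)) (K ×ˢ univ)
      (domPhi a O) := by
    rintro ⟨x, t⟩ ⟨hx, -⟩
    exact hdom x hx _ (hθI x) t
  have hwc : ContinuousOn w (K ×ˢ univ) := hΦc.comp hmap hmaps
  have hw2c : ContinuousOn w2 (K ×ˢ univ) := by
    have h1 : Continuous fun q : P2 × ℝ => fderiv ℝ θ q.1 e2 :=
      ((hθs.continuous_fderiv (by simp)).comp continuous_fst).clm_apply continuous_const
    exact (hΦ2c.comp hmap hmaps).add (h1.continuousOn.smul (hΦTc.comp hmap hmaps))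
  have hwtc : ContinuousOn wt (K ×ˢ univ) := hΦtc.comp hmap hmaps
  have hperw : ∀ x ∈ K, ∀ t, w (x, t + 2 * Real.pi) = w (x, t) ∧
      w2 (x, t + 2 * Real.pi) = w2 (x, t) ∧ wt (x, t + 2 * Real.pi) = wt (x, t) := by
    intro x hx t
    obtain ⟨h1, h2, h3, h4⟩ := hperΦ x (θ x) t (hdom x hx _ (hθI x) t)
    refine ⟨h1, ?_, h4⟩
    simp only [hw2def, h2, h3]
  have hindw : ∀ x ∈ K, ∀ t, LinearIndependent ℝ ![w (x, t), d1 f x e2, d2 f x e2 e2] :=
    fun x hx t => hindΦ x hx _ (hθI x) t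
  have hperpw : ∀ x ∈ K, ∀ t, inner ℝ (wt (x, t)) (w (x, t)) = 0 ∧
      inner ℝ (wt (x, t)) (d1 f x e2) = 0 ∧ inner ℝ (wt (x, t)) (d2 f x e2 e2) = 0 :=
    fun x hx t => perp_time hW ha (hdom x hx _ (hθI x) t)
  have hturn : ∀ x ∈ K, ∀ t, wt (x, t) = 0 → a x = 0 ∨ Real.sin t = 0 := by
    intro x hx t h0
    have hz := hdom x hx _ (hθI x) t
    apply hW.turn (x, a x, θ x) hz t
    rw [(deriv_time hW ha hz).deriv]
    exact h0
  have hnd : ∀ z ∈ G, ∀ t, (z.2 0 = 0 ∨ wt (z.1, t) = 0) →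
      0 < κ z.1 * (z.2 0) ^ 2 + ‖nor (w (z.1, t)) (d1 f z.1 e2)
        (z.2 0 • w2 (z.1, t) + z.2 1 • d2 f z.1 e2 e2)‖ ^ 2 := by
    intro z hz t hcase
    rcases hcase with h0 | h0
    · rw [h0]
      have h1 : z.2 1 ≠ 0 := by
        intro h1
        apply hGv z hz
        rw [P2_eq z.2, h0, h1]
        simp
      have h2 := nor_ne_zero (hindw z.1 (hGK z hz) t)
      rw [nor_add, nor_smul, nor_smul, zero_smul, zero_add]
      have h3 : 0 < ‖z.2 1 • nor (w (z.1, t)) (d1 f z.1 e2) (d2 f z.1 e2 e2)‖ :=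
        norm_pos_iff.2 (smul_ne_zero h1 h2)
      have h4 : κ z.1 * (0:ℝ) ^ 2 = 0 := by ring
      rw [h4, zero_add]
      positivity
    · have h1 := hturn z.1 (hGK z hz) t h0
      have h2 := hLL0 z hz t h1 (θ z.1) (hθI z.1) ((hθη z.1).trans (min_le_left _ _)) L0 le_rfl
      have h3 : w2 (z.1, t) = Phi2 a W (z.1, θ z.1, t) + L0 • PhiT a W (z.1, θ z.1, t) := by
        simp only [hw2def, hθL' z hz]
      rw [h3]
      exact h2
  obtain ⟨η1, hη1, hLL1⟩ := LL1 hKc hG hGK (f2 := fun x => d1 f x e2)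
    (f22 := fun x => d2 f x e2 e2) (continuous_d1 hf e2).continuousOn
    (continuous_d2 hf e2 e2).continuousOn hwc hw2c hwtc hperw hκc hindw hperpw hnd
  obtain ⟨η2, hη2, hLLi⟩ := LLind hKc (f2 := fun x => d1 f x e2)
    (f22 := fun x => d2 f x e2 e2) (continuous_d1 hf e2).continuousOn
    (continuous_d2 hf e2 e2).continuousOn hwc (fun x hx t => (hperw x hx t).1) hindw
  obtain ⟨c3, hc3, hphase⟩ := exists_phase T.card
  obtain ⟨η3, hη3, hLL2⟩ := exists_common T (fun q η => ∀ t, c3 ≤ |Real.sin t| →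
      ∀ A B X11 X12 X22 : P4, ∀ ε, 0 < ε → ε < η →
      ‖A - w (q.1, t)‖ ≤ η → ‖B - d1 f q.1 e2‖ ≤ η → ‖X12 - w2 (q.1, t)‖ ≤ η →
      ‖X22 - d2 f q.1 e2 e2‖ ≤ η → ‖ε • X11 - wt (q.1, t)‖ ≤ η →
      inner ℝ (nor A B X11) (nor A B X22) - inner ℝ (nor A B X12) (nor A B X12) = κ q.1 →
      ∀ h : P2 → P2 → P4,
        (∀ p q : P2, h p q = nor A B ((p 0 * q 0) • X11 + (p 0 * q 1 + p 1 * q 0) • X12
          + (p 1 * q 1) • X22)) →
        Q2 h q.2.1 q.2.2 ∧ Q3 h (‖nor A B X22‖⁻¹ • nor A B X22) q.2.1 q.2.2) (by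
      intro q hq
      obtain ⟨hq0, hq1, hq2⟩ := hT q hq
      have hqK := hUK _ hq0
      have hcw : ∀ {g : P2 × ℝ → P4}, ContinuousOn g (K ×ˢ univ) → Continuous fun t => g (q.1, t) := by
        intro g hg
        have h2 : ContinuousOn (fun s : ℝ => g (q.1, s)) univ :=
          hg.comp (f := fun s : ℝ => ((q.1, s) : P2 × ℝ)) (by fun_prop)
            (fun s _ => ⟨hqK, mem_univ _⟩)
        simpa [continuousOn_univ] using h2
      obtain ⟨η, hη, h⟩ := LL2 (hcw hwc) (hcw hw2c) (hcw hwtc) (hperw q.1 hqK) (κ q.1)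
        (hindw q.1 hqK) (hperpw q.1 hqK) hc3 (by
          intro t ht h0
          rcases hturn q.1 hqK t h0 with h1 | h1
          · exact ha0 _ h1 hq0
          · rw [h1, abs_zero] at ht
            linarith) hq1 hq2
      refine ⟨η, hη, ?_⟩
      intro η' hη' hle t ht A B X11 X12 X22 ε hε hεη c1 c2 c4 c5 c6 hκ' h' hh'
      exact h t ht A B X11 X12 X22 ε hε (hεη.trans_le hle) (c1.trans hle) (c2.trans hle)
        (c4.trans hle) (c5.trans hle) (c6.trans hle) hκ' h' hh')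
  -- apply Theorem E
  set η := min (min η1 η2) η3 with hηdef
  have hηpos : 0 < η := lt_min (lt_min hη1 hη2) hη3
  have hηη1 : η ≤ η1 := (min_le_left _ _).trans (min_le_left _ _)
  have hηη2 : η ≤ η2 := (min_le_left _ _).trans (min_le_right _ _)
  have hηη3 : η ≤ η3 := min_le_right _ _
  obtain ⟨ε, hε, hεη, hFex⟩ := hE f u b _ _ hf hamp h2_22
    (fun x hx => hind3 x (hfr2 x hx).1 (hfr2 x hx).2) LFθ η hηpos
  obtain ⟨t0, ht0⟩ := hphase (fun i => (T.equivFin.symm i).1.1 0 / ε)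
  obtain ⟨F, hFs, hFj, hFm, hFc⟩ := hFex t0
  have hFi := hinj F hFm
  have hKKF : ∀ x ∈ K, KK F x = κ x := by
    intro x hx
    exact KK_eq_of_met hNo hFs.contDiffOn hF0s.contDiffOn hFi hF0i
      (fun y _ v w' => by rw [hFm y v w', hF0m y v w']) x (hKN hx)
  have hgauss : ∀ x ∈ K, inner ℝ (nor (d1 F x e1) (d1 F x e2) (d2 F x e1 e1))
      (nor (d1 F x e1) (d1 F x e2) (d2 F x e2 e2)) -
      inner ℝ (nor (d1 F x e1) (d1 F x e2) (d2 F x e1 e2))
        (nor (d1 F x e1) (d1 F x e2) (d2 F x e1 e2)) = κ x := by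
    intro x hx
    have hi := hFi x (hKN hx)
    rw [← hKKF x hx]
    simp only [KK, hN_eq_nor hi]
  have hclose : ∀ x ∈ K, ‖d1 F x e1 - w (x, x 0 / ε + t0)‖ ≤ η ∧ ‖d1 F x e2 - d1 f x e2‖ ≤ η ∧
      ‖d2 F x e2 e2 - d2 f x e2 e2‖ ≤ η ∧ ‖d2 F x e1 e2 - w2 (x, x 0 / ε + t0)‖ ≤ η ∧
      ‖ε • d2 F x e1 e1 - wt (x, x 0 / ε + t0)‖ ≤ η := by
    intro x hx
    obtain ⟨c1, c2, c3', c4, c5⟩ := hFc x hx
    have hz := hdom x hx _ (hθI x) (x 0 / ε + t0)
    refine ⟨c1, c2, c3', ?_, ?_⟩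
    · rw [show w2 (x, x 0 / ε + t0) =
        fderiv ℝ (fun y => W (y, a y, θ y) (x 0 / ε + t0)) x e2 from
          (fderiv_along hW ha hθs hz).symm]
      exact c4
    · rw [show wt (x, x 0 / ε + t0) = deriv (fun t => W (x, a x, θ x) t) (x 0 / ε + t0) from
          (deriv_time hW ha hz).deriv.symm]
      exact c5
  refine ⟨F, hFs, hFj, hFm, ?_, ?_, ?_⟩
  · intro x hx
    have hxK := hUK x hx
    obtain ⟨c1, c2, c3', -, -⟩ := hclose x hxK
    have h1 := (hLLi x hxK _ _ _ _ (c1.trans hηη2) (c2.trans hηη2) (c3'.trans hηη2)).2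
    rw [hN_eq_nor (hFi x (hKN hxK))]
    exact h1
  · intro z hz hzu c hc
    have hxK := hGK z hz
    obtain ⟨c1, c2, c3', c4, c5⟩ := hclose z.1 hxK
    have hi := hFi z.1 (hKN hxK)
    rw [hN_eq_nor hi, hN_eq_nor hi, quad_eq (cd2 hFs _)]
    exact hLL1 z hz _ _ _ _ _ _ ε hε (hεη.trans_le hηη1) (c1.trans hηη1) (c2.trans hηη1)
      (c4.trans hηη1) (c3'.trans hηη1) (c5.trans hηη1) (hgauss z.1 hxK) c hc
  · intro q hq
    have hxK := hUK _ (hT q hq).1
    obtain ⟨c1, c2, c3', c4, c5⟩ := hclose q.1 hxK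
    have hi := hFi q.1 (hKN hxK)
    have hs : c3 ≤ |Real.sin (q.1 0 / ε + t0)| := by
      have := ht0 (T.equivFin ⟨q, hq⟩)
      simpa using this
    have h1 := hLL2 q hq η hηpos hηη3 (q.1 0 / ε + t0) hs _ _ _ _ _ ε hε hεη c1 c2 c4 c3' c5
      (hgauss q.1 hxK) (hN F q.1) (by
        intro p p'
        rw [hN_eq_nor hi, d2_eq (cd2 hFs _)])
    rw [← hN_eq_nor hi] at h1
    exact h1

theorem planarStep_of_theoremE' (hE : TheoremE) : PlanarStep := by
  intro D f ν u b hD hf hν hfi hun hamp hKD hgam hQ1 ι _ G v hGc hGK hGn hv hv0 hG1 hG2 hG3 T hT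
  classical
  set K : Set P2 := closure {x : P2 | 0 < u x} with hKdef
  have hKc : IsCompact K := hamp.cpt
  have hopenU : IsOpen {x : P2 | 0 < u x} := isOpen_lt continuous_const hamp.hu.continuous
  have hUK : ∀ x, 0 < u x → x ∈ K := fun x hx => subset_closure hx
  have hfront : ∀ x ∈ K, ¬ 0 < u x → x ∈ frontier {x : P2 | 0 < u x} := by
    intro x hx hx0
    rw [hopenU.frontier_eq]
    exact ⟨hx, hx0⟩
  have hfr2 : ∀ x ∈ frontier {x : P2 | 0 < u x}, x ∈ K ∧ ¬ 0 < u x := by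
    intro x hx
    rw [hopenU.frontier_eq] at hx
    exact hx
  -- global extensions
  obtain ⟨N, g, hN, hKN, hND, hg, hgf⟩ := exists_global hD hKc hKD hf
  obtain ⟨N', ν', hN', hKN', hND', hν', hνν⟩ := exists_global hD hKc hKD hν
  have germ : ∀ x ∈ N, g =ᶠ[𝓝 x] f := fun x hx => by
    filter_upwards [hN.mem_nhds hx] with y hy
    exact hgf y hy
  have hd : ∀ x ∈ N, fderiv ℝ g x = fderiv ℝ f x := fun x hx => (germ x hx).fderiv_eq
  have hdd : ∀ x ∈ N, fderiv ℝ (fderiv ℝ g) x = fderiv ℝ (fderiv ℝ f) x :=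
    fun x hx => (germ x hx).fderiv.fderiv_eq
  have hgN : ∀ x ∈ K, ∀ p q, Crest.Agent.R216.hN g x p q = Crest.Agent.R216.hN f x p q :=
    fun x hx p q => hN_of_jets (hd x (hKN hx)) (hdd x (hKN hx)) p q
  -- the set of pairs
  set GG : Set (P2 × P2) := ⋃ j, (fun x => (x, v j x)) '' G j with hGG
  have hGGc : IsCompact GG := isCompact_iUnion fun j =>
    (hGc j).image_of_continuousOn (continuousOn_id.prodMk (hv j))
  have hGGm : ∀ z ∈ GG, ∃ j, z.1 ∈ G j ∧ z.2 = v j z.1 := by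
    intro z hz
    obtain ⟨j, x, hx, rfl⟩ := mem_iUnion.1 hz
    exact ⟨j, hx, rfl⟩
  have hGGK : ∀ z ∈ GG, z.1 ∈ K := by
    intro z hz
    obtain ⟨j, hj, -⟩ := hGGm z hz
    exact hGK j hj
  have hGGv : ∀ z ∈ GG, z.2 ≠ 0 := by
    intro z hz
    obtain ⟨j, hj, h2⟩ := hGGm z hz
    rw [h2]
    exact hv0 j _ hj
  have hnull : ∀ s : ℝ, volume {t : ℝ | s • e1 + t • e2 ∈ Prod.fst '' GG} = 0 := by
    intro s
    refine measure_mono_null (t := ⋃ j, {t : ℝ | s • e1 + t • e2 ∈ G j}) ?_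
      (measure_iUnion_null fun j => hGn j s)
    rintro t ⟨z, hz, hzt⟩
    obtain ⟨j, hj, -⟩ := hGGm z hz
    rw [hzt] at hj
    exact mem_iUnion.2 ⟨j, hj⟩
  obtain ⟨F1, hF1s, hF1j, hF1m, hF1h, hF1G, hF1T⟩ := core hE hg hν' hamp hN hKN
    (fun x hx => by rw [hd x hx]; exact hfi x (hND hx))
    (fun x hx => by rw [hνν x (hKN' hx)]; exact hun.unit x (hKD hx))
    (fun x hx w => by
      rw [hνν x (hKN' hx), d1, hd x (hKN hx)]
      exact hun.orth x (hKD hx) w)
    (fun x hx => by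
      have h1 := hgam x hx
      simp only [gamN, d1, d2] at h1 ⊢
      rw [hd x (hKN hx), hdd x (hKN hx)]
      exact h1)
    (fun x hx => by
      have hxK := (hfr2 x hx).1
      intro c hc
      rw [hgN x hxK, hνν x (hKN' hxK)]
      exact hQ1 x hx c hc)
    hGGc hGGK hGGv hnull
    (fun z hz hu0 => by
      obtain ⟨j, hj, h2⟩ := hGGm z hz
      have hxK := hGGK z hz
      have h1 := hG2 j z.1 ⟨hj, hfront _ hxK hu0⟩
      rw [← h2] at h1
      simp only [Q2] at h1 ⊢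
      simp only [hgN z.1 hxK]
      exact h1)
    T hT
  -- the new map
  set F : P2 → P4 := fun x => f x + (F1 x - g x) with hFdef
  have hF1g : ∀ x, ¬ 0 < u x → F1 x - g x = 0 := fun x hx => by rw [(hF1j x hx).1, sub_self]
  have hFs : ContDiffOn ℝ ∞ F D := hf.add (hF1s.sub hg).contDiffOn
  have germF : ∀ x ∈ N, F =ᶠ[𝓝 x] F1 := fun x hx => by
    filter_upwards [hN.mem_nhds hx] with y hy
    simp only [hFdef, hgf y hy]
    abel
  have germF' : ∀ x, x ∉ K → F =ᶠ[𝓝 x] f := fun x hx => by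
    filter_upwards [hKc.isClosed.isOpen_compl.mem_nhds hx] with y hy
    have : ¬ 0 < u y := fun h => hy (hUK y h)
    simp only [hFdef, hF1g y this, add_zero]
  have hFmet : ∀ x ∈ D, ∀ v w : P2, met F x v w = met f x v w + amp u b x ^ 2 * (v 0 * w 0) := by
    intro x hx p q
    by_cases hxK : x ∈ K
    · rw [met_congr (germF x (hKN hxK)), hF1m x p q, met_congr (germ x (hKN hxK))]
    · have h0 : ¬ 0 < u x := fun h => hxK (hUK x h)
      rw [met_congr (germF' x hxK), amp_zero h0]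
      ring
  have hFi : ∀ x ∈ D, Function.Injective (fderiv ℝ F x) := fun x hx =>
    injective_of_met (sq_nonneg (amp u b x)) (hfi x hx) (hFmet x hx)
  have hjet : ∀ x ∈ D, ¬ 0 < u x → fderiv ℝ F x = fderiv ℝ f x ∧
      fderiv ℝ (fderiv ℝ F) x = fderiv ℝ (fderiv ℝ f) x := by
    intro x hx h0
    by_cases hxK : x ∈ K
    · have h1 := germF x (hKN hxK)
      obtain ⟨-, j1, j2⟩ := hF1j x h0
      refine ⟨?_, ?_⟩
      · rw [h1.fderiv_eq, j1, hd x (hKN hxK)]
      · rw [h1.fderiv.fderiv_eq, j2, hdd x (hKN hxK)]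
    · have h1 := germF' x hxK
      exact ⟨h1.fderiv_eq, h1.fderiv.fderiv_eq⟩
  have hFN : ∀ x ∈ K, ∀ p q, Crest.Agent.R216.hN F x p q = Crest.Agent.R216.hN F1 x p q :=
    fun x hx p q => hN_congr (germF x (hKN hx)) p q
  obtain ⟨νF, hνFs, hνFu, hνFe, hνFG, hνFT⟩ := exists_nuF (f := f) (ν := ν) (F := F) (u := u) hD hf
    hFs hν hun hamp.hu hKc hKD hFi hjet
    (fun x hx => by rw [hFN x (hUK x hx)]; exact hF1h x hx)
    hQ1 hGGc hGGK
    (fun z hz h0 => by
      obtain ⟨j, hj, h2⟩ := hGGm z hz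
      have := hG3 j z.1 ⟨hj, hfront _ (hGGK z hz) h0⟩
      rwa [← h2] at this)
    (fun z hz hz0 c hc => by
      rw [hFN _ (hGGK z hz), hFN _ (hGGK z hz)]
      exact hF1G z hz hz0 c hc)
    (T.image Prod.fst) (fun x hx => by
      obtain ⟨q, hq, rfl⟩ := Finset.mem_image.1 hx
      exact (hT q hq).1)
  refine ⟨F, νF, hFs, hνFs, hνFu, ?_, hFmet, ?_, ?_⟩
  · intro x hx h0
    obtain ⟨j1, j2⟩ := hjet x hx h0
    exact ⟨by simp only [hFdef, hF1g x h0, add_zero], j1, j2, hνFe x hx h0⟩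
  · intro j x hx
    exact hνFG (x, v j x) (mem_iUnion.2 ⟨j, x, hx, rfl⟩)
  · intro q hq
    have hxK := hUK _ (hT q hq).1
    have h1 := hF1T q hq
    have e : Crest.Agent.R216.hN F q.1 = Crest.Agent.R216.hN F1 q.1 := by
      funext p p'
      exact hFN q.1 hxK p p'
    rw [hνFT q.1 (Finset.mem_image.2 ⟨q, hq, rfl⟩), e]
    exact h1

end Crest.Agent.R216.PSL.Asm

namespace Crest.Agent.R216.PSL

/-- the planar step lemma follows from Theorem E -/
theorem planarStep_of_theoremE (hE : TheoremE) : PlanarStep := Asm.planarStep_of_theoremE' hE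

end Crest.Agent.R216.PSL
end
end

-- ▼ part R216/EFin

/-!
# R216 / Theorem E: transfer from `X2 = ℝ × ℝ` to `P2 = EuclideanSpace ℝ (Fin 2)` (helper918)
-/

set_option autoImplicit false

namespace Crest.Agent.R216.TE

open scoped ContDiff Topology
open Set Filter

namespace Tr

/-- the linear equivalence `P2 ≃ X2` -/
noncomputable def e : P2 ≃L[ℝ] X2 :=
  (EuclideanSpace.equiv (Fin 2) ℝ).trans (ContinuousLinearEquiv.finTwoArrow ℝ ℝ)

@[simp] lemma e_apply (x : P2) : e x = (x 0, x 1) := rfl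

lemma e_e1 : e e1 = (1, 0) := by simp [e1]
lemma e_e2 : e e2 = (0, 1) := by simp [e2]
lemma es_10 : e.symm (1, 0) = e1 := by rw [← e_e1, e.symm_apply_apply]
lemma es_01 : e.symm (0, 1) = e2 := by rw [← e_e2, e.symm_apply_apply]

@[simp] lemma es_zero (y : X2) : (e.symm y) 0 = y.1 := by
  exact congrArg Prod.fst (e.apply_symm_apply y)
@[simp] lemma es_one (y : X2) : (e.symm y) 1 = y.2 := by
  exact congrArg Prod.snd (e.apply_symm_apply y)

lemma es_mk (a b : ℝ) : e.symm (a, b) = a • e1 + b • e2 := by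
  rw [← es_10, ← es_01, ← map_smul, ← map_smul, ← map_add]
  simp

section
variable {V : Type*} [NormedAddCommGroup V] [NormedSpace ℝ V]

lemma fderiv_comp_es (g : P2 → V) (y v : X2) :
    fderiv ℝ (g ∘ e.symm) y v = fderiv ℝ g (e.symm y) (e.symm v) := by
  rw [e.symm.comp_right_fderiv]; rfl

lemma fderiv_comp_e (g : X2 → V) (x v : P2) :
    fderiv ℝ (g ∘ e) x v = fderiv ℝ g (e x) (e v) := by
  rw [e.comp_right_fderiv]; rfl

lemma fderiv2_comp_es {g : P2 → V} (hg : ContDiff ℝ ∞ g) (y v w : X2) :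
    fderiv ℝ (fun z => fderiv ℝ (g ∘ e.symm) z w) y v
      = fderiv ℝ (fderiv ℝ g) (e.symm y) (e.symm v) (e.symm w) := by
  have h1 : (fun z => fderiv ℝ (g ∘ e.symm) z w)
      = (fun x => fderiv ℝ g x (e.symm w)) ∘ e.symm := by
    funext z; exact fderiv_comp_es g z w
  rw [h1, fderiv_comp_es]
  have h : DifferentiableAt ℝ (fderiv ℝ g) (e.symm y) :=
    ((hg.fderiv_right (m := ∞) (by simp)).differentiable (by simp)) _
  rw [fderiv_clm_apply h (differentiableAt_const _)]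
  simp

lemma fderiv2_comp_e {g : X2 → V} (hg : ContDiff ℝ ∞ g) (x v w : P2) :
    fderiv ℝ (fderiv ℝ (g ∘ e)) x v w = fderiv ℝ (fderiv ℝ g) (e x) (e v) (e w) := by
  have hge : ContDiff ℝ ∞ (g ∘ e) := hg.comp e.contDiff
  have h0 : DifferentiableAt ℝ (fderiv ℝ (g ∘ e)) x :=
    ((hge.fderiv_right (m := ∞) (by simp)).differentiable (by simp)) _
  have h1 : fderiv ℝ (fun z => fderiv ℝ (g ∘ e) z w) x v
      = fderiv ℝ (fderiv ℝ (g ∘ e)) x v w := by
    rw [fderiv_clm_apply h0 (differentiableAt_const _)]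
    simp
  have h2 : (fun z => fderiv ℝ (g ∘ e) z w) = (fun x => fderiv ℝ g x (e w)) ∘ e := by
    funext z; exact fderiv_comp_e g z w
  rw [← h1, h2, fderiv_comp_e]
  have h : DifferentiableAt ℝ (fderiv ℝ g) (e x) :=
    ((hg.fderiv_right (m := ∞) (by simp)).differentiable (by simp)) _
  rw [fderiv_clm_apply h (differentiableAt_const _)]
  simp

end

/-! derivatives of `fX = f ∘ e.symm` -/

lemma d1X (f : P2 → P4) (y : X2) : d1 (f ∘ e.symm) y = R216.d1 f (e.symm y) e1 := by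
  show fderiv ℝ (f ∘ e.symm) y (1, 0) = _
  rw [fderiv_comp_es, es_10]; rfl

lemma d2X (f : P2 → P4) (y : X2) : d2 (f ∘ e.symm) y = R216.d1 f (e.symm y) e2 := by
  show fderiv ℝ (f ∘ e.symm) y (0, 1) = _
  rw [fderiv_comp_es, es_01]; rfl

lemma d22X {f : P2 → P4} (hf : ContDiff ℝ ∞ f) (y : X2) :
    d2 (d2 (f ∘ e.symm)) y = R216.d2 f (e.symm y) e2 e2 := by
  show fderiv ℝ (fun z => fderiv ℝ (f ∘ e.symm) z (0, 1)) y (0, 1) = _
  rw [fderiv2_comp_es hf, es_01]; rfl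

lemma d12X {f : P2 → P4} (hf : ContDiff ℝ ∞ f) (y : X2) :
    d1 (d2 (f ∘ e.symm)) y = R216.d2 f (e.symm y) e1 e2 := by
  show fderiv ℝ (fun z => fderiv ℝ (f ∘ e.symm) z (0, 1)) y (1, 0) = _
  rw [fderiv2_comp_es hf, es_01, es_10]; rfl

lemma d11X {f : P2 → P4} (hf : ContDiff ℝ ∞ f) (y : X2) :
    d1 (d1 (f ∘ e.symm)) y = R216.d2 f (e.symm y) e1 e1 := by
  show fderiv ℝ (fun z => fderiv ℝ (f ∘ e.symm) z (1, 0)) y (1, 0) = _
  rw [fderiv2_comp_es hf, es_10]; rfl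

lemma closureX (u : P2 → ℝ) : closure {y : X2 | 0 < (u ∘ e.symm) y}
    = e.symm ⁻¹' (closure {x | 0 < u x}) :=
  (e.symm.toHomeomorph.preimage_closure {x : P2 | 0 < u x}).symm

lemma frontierX (u : P2 → ℝ) : frontier {y : X2 | 0 < (u ∘ e.symm) y}
    = e.symm ⁻¹' (frontier {x | 0 < u x}) :=
  (e.symm.toHomeomorph.preimage_frontier {x : P2 | 0 < u x}).symm

lemma ampHyp {u b : P2 → ℝ} (h : IsAmp u b) : AmpHyp (u ∘ e.symm) (b ∘ e.symm) where
  hu := h.hu.comp e.symm.contDiff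
  hβ := h.hb.comp e.symm.contDiff
  pos := fun _ => h.pos _
  cpt := by
    rw [closureX]
    exact e.symm.toHomeomorph.isCompact_preimage.2 h.cpt
  star := by
    intro s hs y hy l hl
    have := h.star s hs (e.symm y) hy l hl
    rw [es_zero, es_one, ← es_mk] at this
    exact this

lemma loopX {f : P2 → P4} (hf : ContDiff ℝ ∞ f) {u b : P2 → ℝ} {O : Set (P2 × ℝ)}
    {W : P2 × ℝ → ℝ → P4} (h : LoopFam f (amp u b) (closure {x : P2 | 0 < u x}) O W) :
    LoopX (f ∘ e.symm) (ampX (u ∘ e.symm) (b ∘ e.symm))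
      (closure {y : X2 | 0 < (u ∘ e.symm) y}) {z | (e.symm z.1, z.2) ∈ O}
      (fun z t => W (e.symm z.1, z.2) t) where
  isOpen := by
    have hc : Continuous (fun z : X2 × ℝ => ((e.symm z.1, z.2) : P2 × ℝ)) :=
      (e.symm.continuous.comp continuous_fst).prodMk continuous_snd
    exact h.isOpen.preimage hc
  mem := by
    intro x hx
    rw [closureX] at hx
    exact h.mem _ hx
  smooth := by
    have hc : ContDiff ℝ ∞ (fun z : (X2 × ℝ) × ℝ => (((e.symm z.1.1, z.1.2), z.2) : (P2 × ℝ) × ℝ)) :=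
      ((e.symm.contDiff.comp (contDiff_fst.comp contDiff_fst)).prodMk
        (contDiff_snd.comp contDiff_fst)).prodMk contDiff_snd
    exact h.smooth.comp hc.contDiffOn (fun z hz => ⟨hz.1, mem_univ _⟩)
  per := fun z hz t => h.per _ hz t
  even := fun z hz t => h.even _ hz t
  mean := fun z hz => by rw [d1X]; exact h.mean _ hz
  perp2 := fun z hz t => by rw [d1X, d2X]; exact h.perp2 _ hz t
  perp22 := fun z hz t => by rw [d1X, d22X hf]; exact h.perp22 _ hz t
  norm := fun z hz t => by rw [d1X]; exact h.norm _ hz t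

end Tr

open Tr in
/-- transfer of Theorem E -/
theorem theoremE_of_theoremEX (H : TheoremEX) : TheoremE := by
  intro f u b O W hf hA h2 h3 hL η hη
  have hfX : ContDiff ℝ ∞ (f ∘ e.symm) := hf.comp e.symm.contDiff
  obtain ⟨ε, hε, hεη, hH⟩ := H (f ∘ e.symm) (u ∘ e.symm) (b ∘ e.symm) _ _ hfX (ampHyp hA)
    (by
      intro y hy
      rw [closureX] at hy
      rw [d2X, d22X hf]
      exact h2 _ hy)
    (by
      intro y hy
      rw [frontierX] at hy
      rw [d1X, d2X, d22X hf]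
      exact h3 _ hy)
    (loopX hf hL) η hη
  refine ⟨ε, hε, hεη, fun t0 => ?_⟩
  obtain ⟨FX, hFs, hjet, m1, m2, m3, hclose⟩ := hH t0
  have hFe : FX = (FX ∘ e) ∘ e.symm := by funext y; simp
  have hfe : f = (f ∘ e.symm) ∘ e := by funext y; simp only [Function.comp, e.symm_apply_apply]
  have hFs' : ContDiff ℝ ∞ (FX ∘ e) := hFs.comp e.contDiff
  refine ⟨FX ∘ e, hFs', fun x hx => ?_, fun x v w => ?_, fun x hx => ?_⟩
  · have hx' : (u ∘ e.symm) (e x) ≤ 0 := by
      simp only [Function.comp, e.symm_apply_apply]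
      exact not_lt.1 hx
    have j0 := hjet (e x) hx' 0
    have j1 := hjet (e x) hx' 1
    have j2 := hjet (e x) hx' 2
    have k0 : FX (e x) = (f ∘ e.symm) (e x) := by
      have := congrArg (fun T => T ![]) j0
      simpa using this
    have k1 : fderiv ℝ FX (e x) = fderiv ℝ (f ∘ e.symm) (e x) := by
      refine ContinuousLinearMap.ext (fun v => ?_)
      have := congrArg (fun T => T ![v]) j1
      simpa [iteratedFDeriv_one_apply] using this
    have k2 : ∀ v w, fderiv ℝ (fderiv ℝ FX) (e x) v w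
        = fderiv ℝ (fderiv ℝ (f ∘ e.symm)) (e x) v w := by
      intro v w
      have := congrArg (fun T => T ![v, w]) j2
      simpa [iteratedFDeriv_two_apply] using this
    refine ⟨?_, ?_, ?_⟩
    · show FX (e x) = f x
      rw [k0]; simp only [Function.comp, e.symm_apply_apply]
    · ext1 v
      rw [fderiv_comp_e, k1]
      conv_rhs => rw [hfe]
      rw [fderiv_comp_e]
    · ext1 v
      ext1 w
      rw [fderiv2_comp_e hFs, k2]
      conv_rhs => rw [hfe]
      rw [fderiv2_comp_e hfX]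
  · -- metric
    have hv : ∀ (g : P2 → P4) (v : P2), fderiv ℝ g x v
        = v 0 • R216.d1 g x e1 + v 1 • R216.d1 g x e2 := by
      intro g v
      have : v = v 0 • e1 + v 1 • e2 := by
        rw [← es_mk]
        apply e.injective
        rw [e.apply_symm_apply]; rfl
      conv_lhs => rw [this]
      rw [map_add, map_smul, map_smul]; rfl
    have q1 : d1 FX (e x) = R216.d1 (FX ∘ e) x e1 := by
      conv_lhs => rw [hFe]
      rw [d1X, e.symm_apply_apply]
    have q2 : d2 FX (e x) = R216.d1 (FX ∘ e) x e2 := by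
      conv_lhs => rw [hFe]
      rw [d2X, e.symm_apply_apply]
    have q3 : d1 (f ∘ e.symm) (e x) = R216.d1 f x e1 := by rw [d1X, e.symm_apply_apply]
    have q4 : d2 (f ∘ e.symm) (e x) = R216.d1 f x e2 := by rw [d2X, e.symm_apply_apply]
    have r1 := m1 (e x)
    have r2 := m2 (e x)
    have r3 := m3 (e x)
    rw [q1, q3] at r1
    rw [q1, q2, q3, q4] at r2
    rw [q2, q4] at r3
    have r4 : ampX (u ∘ e.symm) (b ∘ e.symm) (e x) = amp u b x := by
      simp only [ampX, amp, Function.comp, e.symm_apply_apply]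
    rw [r4] at r1
    have r2' : (inner ℝ (R216.d1 (FX ∘ e) x e2) (R216.d1 (FX ∘ e) x e1) : ℝ)
        = inner ℝ (R216.d1 f x e2) (R216.d1 f x e1) := by
      rw [real_inner_comm, r2, real_inner_comm]
    show (inner ℝ (fderiv ℝ (FX ∘ e) x v) (fderiv ℝ (FX ∘ e) x w) : ℝ)
      = inner ℝ (fderiv ℝ f x v) (fderiv ℝ f x w) + amp u b x ^ 2 * (v 0 * w 0)
    rw [hv (FX ∘ e) v, hv (FX ∘ e) w, hv f v, hv f w]
    simp only [inner_add_left, inner_add_right, real_inner_smul_left, real_inner_smul_right,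
      r1, r2, r2', r3]
    ring
  · have hx' : e x ∈ closure {y : X2 | 0 < (u ∘ e.symm) y} := by
      rw [closureX]; simpa only [mem_preimage, e.symm_apply_apply] using hx
    obtain ⟨c1, c2, c3, c4, c5⟩ := hclose (e x) hx'
    have r4 : ∀ y, ampX (u ∘ e.symm) (b ∘ e.symm) y = amp u b (e.symm y) := fun y => rfl
    have hex : (e x).1 = x 0 := rfl
    rw [hex] at c1 c4 c5
    have q1 : d1 FX (e x) = R216.d1 (FX ∘ e) x e1 := by
      conv_lhs => rw [hFe]
      rw [d1X, e.symm_apply_apply]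
    have q2 : d2 FX (e x) = R216.d1 (FX ∘ e) x e2 := by
      conv_lhs => rw [hFe]
      rw [d2X, e.symm_apply_apply]
    have q22 : d2 (d2 FX) (e x) = R216.d2 (FX ∘ e) x e2 e2 := by
      conv_lhs => rw [hFe]
      rw [d22X hFs', e.symm_apply_apply]
    have q12 : d1 (d2 FX) (e x) = R216.d2 (FX ∘ e) x e1 e2 := by
      conv_lhs => rw [hFe]
      rw [d12X hFs', e.symm_apply_apply]
    have q11 : d1 (d1 FX) (e x) = R216.d2 (FX ∘ e) x e1 e1 := by
      conv_lhs => rw [hFe]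
      rw [d11X hFs', e.symm_apply_apply]
    have q4 : d2 (f ∘ e.symm) (e x) = R216.d1 f x e2 := by rw [d2X, e.symm_apply_apply]
    have q44 : d2 (d2 (f ∘ e.symm)) (e x) = R216.d2 f x e2 e2 := by
      rw [d22X hf, e.symm_apply_apply]
    rw [q1, r4, e.symm_apply_apply] at c1
    simp only [e.symm_apply_apply] at c1
    rw [q2, q4] at c2
    rw [q22, q44] at c3
    rw [q12] at c4
    rw [q11, r4, e.symm_apply_apply] at c5
    simp only [e.symm_apply_apply] at c5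
    refine ⟨c1, c2, c3, ?_, c5⟩
    have hW : d2 (fun y => W (e.symm y, ampX (u ∘ e.symm) (b ∘ e.symm) y) (x 0 / ε + t0)) (e x)
        = fderiv ℝ (fun y => W (y, amp u b y) (x 0 / ε + t0)) x e2 := by
      have : (fun y => W (e.symm y, ampX (u ∘ e.symm) (b ∘ e.symm) y) (x 0 / ε + t0))
        = (fun y => W (y, amp u b y) (x 0 / ε + t0)) ∘ e.symm := rfl
      rw [this]
      show fderiv ℝ _ (e x) (0, 1) = _
      rw [fderiv_comp_es, es_01, e.symm_apply_apply]
    rw [← hW]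
    exact c4


/-- one instance of STAGE + MACRO suffices -/
theorem theoremE_of_pair {q m k₀ : ℕ} {K : ℕ → ℕ} (hq : 2 ≤ q) (hm : 1 ≤ m) (hk₀ : 3 ≤ k₀)
    (hStage : StageThm q m k₀ K) (hM : MacroThm q m k₀ (K k₀)) : TheoremE :=
  theoremE_of_theoremEX (theoremEX_of_pair hq hm hk₀ hStage hM)

end Crest.Agent.R216.TE
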