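import Crest.Agent.R216.EngDefs

/-!
# Row 216, Theorem E: elementary facts about `pd`, `lift`, `mean`, `osc`, `PerOn`
(independent of the class calculus).
-/

open Set Topology MeasureTheory
open scoped ContDiff

set_option linter.unusedSectionVars false

namespace Crest.Agent.R216.TE.EB

section base
variable {V V' : Type*} [NormedAddCommGroup V] [NormedSpace ℝ V]
  [NormedAddCommGroup V'] [NormedSpace ℝ V']

/-- the cylinder over `D` -/
abbrev cyl (D : Set X2) : Set Q := {z | z.1 ∈ D}

lemma isOpen_cyl {D : Set X2} (hD : IsOpen D) : IsOpen (cyl D) := hD.preimage continuous_fst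

/-! ### `lift` -/


lemma hasFDerivAt_lift {v : X2 → V} {z : Q} (hv : DifferentiableAt ℝ v z.1) :
    HasFDerivAt (lift v) ((fderiv ℝ v z.1).comp (ContinuousLinearMap.fst ℝ X2 ℝ)) z :=
  hv.hasFDerivAt.comp z hasFDerivAt_fst

lemma lift_differentiableAt_iff {v : X2 → V} {z : Q} :
    DifferentiableAt ℝ (lift v) z ↔ DifferentiableAt ℝ v z.1 := by
  constructor
  · intro h
    have h2 : DifferentiableAt ℝ (fun x : X2 => (x, z.2)) z.1 :=
      (differentiableAt_id).prodMk (differentiableAt_const _)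
    have h1 : DifferentiableAt ℝ (lift v) ((fun x : X2 => ((x, z.2) : Q)) z.1) := h
    have h3 := DifferentiableAt.comp (g := lift v) (f := fun x : X2 => ((x, z.2) : Q)) z.1 h1 h2
    exact h3
  · intro h
    exact (hasFDerivAt_lift h).differentiableAt

lemma pd2_lift (v : X2 → V) (z : Q) : pd 2 (lift v) z = 0 := by
  by_cases h : DifferentiableAt ℝ v z.1
  · have e : ((0, 0) : X2) = 0 := rfl
    simp [pd, (hasFDerivAt_lift h).fderiv, bas, e]
  · have : ¬ DifferentiableAt ℝ (lift v) z := fun h' => h (lift_differentiableAt_iff.1 h')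
    simp [pd, fderiv_zero_of_not_differentiableAt this]

lemma pd0_lift (v : X2 → V) (z : Q) : pd 0 (lift v) z = d1 v z.1 := by
  by_cases h : DifferentiableAt ℝ v z.1
  · simp [pd, (hasFDerivAt_lift h).fderiv, bas, d1]
  · have h' : ¬ DifferentiableAt ℝ (lift v) z := fun h' => h (lift_differentiableAt_iff.1 h')
    simp [pd, fderiv_zero_of_not_differentiableAt h', d1, fderiv_zero_of_not_differentiableAt h]

lemma pd1_lift (v : X2 → V) (z : Q) : pd 1 (lift v) z = d2 v z.1 := by
  by_cases h : DifferentiableAt ℝ v z.1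
  · simp [pd, (hasFDerivAt_lift h).fderiv, bas, d2]
  · have h' : ¬ DifferentiableAt ℝ (lift v) z := fun h' => h (lift_differentiableAt_iff.1 h')
    simp [pd, fderiv_zero_of_not_differentiableAt h', d2, fderiv_zero_of_not_differentiableAt h]



/-! ### product rules for `pd` -/

lemma pd_add {u v : Q → V} {z : Q} (hu : DifferentiableAt ℝ u z) (hv : DifferentiableAt ℝ v z)
    (j : Fin 3) : pd j (fun z => u z + v z) z = pd j u z + pd j v z := by
  simp only [pd, fderiv_fun_add hu hv]; rfl


lemma pd_const_smul {u : Q → V} {z : Q} (hu : DifferentiableAt ℝ u z) (c : ℝ)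
    (j : Fin 3) : pd j (fun z => c • u z) z = c • pd j u z := by
  simp only [pd, fderiv_fun_const_smul hu]; rfl

lemma pd_const_mul {u : Q → ℝ} {z : Q} (hu : DifferentiableAt ℝ u z) (c : ℝ)
    (j : Fin 3) : pd j (fun z => c * u z) z = c * pd j u z := by
  simp only [pd, fderiv_const_mul hu]; rfl

lemma pd_smul {u : Q → ℝ} {v : Q → V} {z : Q} (hu : DifferentiableAt ℝ u z)
    (hv : DifferentiableAt ℝ v z) (j : Fin 3) :
    pd j (fun z => u z • v z) z = u z • pd j v z + pd j u z • v z := by
  simp only [pd, fderiv_fun_smul hu hv]; rfl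


lemma pd_inner {u v : Q → E4} {z : Q} (hu : DifferentiableAt ℝ u z)
    (hv : DifferentiableAt ℝ v z) (j : Fin 3) :
    pd j (fun z => (inner ℝ (u z) (v z) : ℝ)) z
      = inner ℝ (u z) (pd j v z) + inner ℝ (pd j u z) (v z) := by
  simp only [pd, fderiv_inner_apply ℝ hu hv]

/-! ### periodicity -/

lemma PerOn.map {D : Set X2} {u : Q → V} (hu : PerOn D u) (Φ : X2 → V → V') :
    PerOn D (fun z => Φ z.1 (u z)) := fun x hx t => by
  simp only [hu x hx t]


lemma PerOn.lift (D : Set X2) (v : X2 → V) : PerOn D (lift v) := fun _ _ _ => rfl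

lemma PerOn.add {D : Set X2} {u v : Q → V} (hu : PerOn D u) (hv : PerOn D v) :
    PerOn D (fun z => u z + v z) := fun x hx t => by simp only [hu x hx t, hv x hx t]

lemma PerOn.sub {D : Set X2} {u v : Q → V} (hu : PerOn D u) (hv : PerOn D v) :
    PerOn D (fun z => u z - v z) := fun x hx t => by simp only [hu x hx t, hv x hx t]

lemma PerOn.smul {D : Set X2} {u : Q → ℝ} {v : Q → V} (hu : PerOn D u) (hv : PerOn D v) :
    PerOn D (fun z => u z • v z) := fun x hx t => by simp only [hu x hx t, hv x hx t]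

lemma PerOn.mul {D : Set X2} {u : Q → ℝ} {v : Q → ℝ} (hu : PerOn D u) (hv : PerOn D v) :
    PerOn D (fun z => u z * v z) := fun x hx t => by simp only [hu x hx t, hv x hx t]

lemma PerOn.const_smul {D : Set X2} {v : Q → V} (c : ℝ) (hv : PerOn D v) :
    PerOn D (fun z => c • v z) := fun x hx t => by simp only [hv x hx t]

lemma PerOn.inner {D : Set X2} {u v : Q → E4} (hu : PerOn D u) (hv : PerOn D v) :
    PerOn D (fun z => (inner ℝ (u z) (v z) : ℝ)) := fun x hx t => by
  simp only [hu x hx t, hv x hx t]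

lemma PerOn.congr {D : Set X2} {u v : Q → V} (hu : PerOn D u) (h : EqOn u v (cyl D)) :
    PerOn D v := fun x hx t => by
  rw [← h (show (x, t) ∈ cyl D from hx), ← h (show (x, t + 2 * Real.pi) ∈ cyl D from hx)]
  exact hu x hx t

lemma PerOn.mean (D : Set X2) (u : Q → V) : PerOn D (mean u) := fun _ _ _ => rfl

lemma PerOn.osc {D : Set X2} {u : Q → V} (hu : PerOn D u) : PerOn D (osc u) :=
  PerOn.sub hu (PerOn.mean D u)

lemma PerOn.pd {D : Set X2} (hD : IsOpen D) {u : Q → V} (hu : PerOn D u) (j : Fin 3) :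
    PerOn D (pd j u) := fun x hx t => by
  have h1 : (fun z : Q => u (z + ((0, 0), 2 * Real.pi))) =ᶠ[𝓝 (x, t)] u := by
    refine Filter.eventuallyEq_of_mem ((isOpen_cyl hD).mem_nhds (show (x, t) ∈ cyl D from hx)) ?_
    intro z hz
    have := hu z.1 hz z.2
    have e : z + ((0, 0), 2 * Real.pi) = (z.1, z.2 + 2 * Real.pi) := by
      ext <;> simp
    simp only [e]
    exact this
  have h2 : fderiv ℝ (fun z : Q => u (z + ((0, 0), 2 * Real.pi))) (x, t)
      = fderiv ℝ u ((x, t) + ((0, 0), 2 * Real.pi)) := fderiv_comp_add_right _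
  have e : ((x, t) : Q) + ((0, 0), 2 * Real.pi) = (x, t + 2 * Real.pi) := by
    ext <;> simp
  rw [h1.fderiv_eq, e] at h2
  simp only [Crest.Agent.R216.TE.pd, h2]

/-! ### `mean` -/

lemma cont_slice {D : Set X2} {u : Q → V} (hu : ContDiffOn ℝ ∞ u (cyl D)) {z : Q}
    (hz : z.1 ∈ D) : Continuous (fun s : ℝ => u (z.1, s)) := by
  have h : ContinuousOn u (cyl D) := hu.continuousOn
  have h2 : Continuous (fun s : ℝ => ((z.1, s) : Q)) := by fun_prop
  exact h.comp_continuous h2 (fun s => hz)

lemma mean_congr {D : Set X2} {u v : Q → V} (h : EqOn u v (cyl D)) {z : Q} (hz : z.1 ∈ D) :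
    mean u z = mean v z := by
  simp only [mean]
  congr 1
  refine intervalIntegral.integral_congr (fun s _ => ?_)
  exact h (show ((z.1, s) : Q) ∈ cyl D from hz)

lemma osc_congr {D : Set X2} {u v : Q → V} (h : EqOn u v (cyl D)) {z : Q} (hz : z.1 ∈ D) :
    osc u z = osc v z := by
  simp only [osc, mean_congr h hz, h (show z ∈ cyl D from hz)]

lemma mean_add {D : Set X2} {u v : Q → V} (hu : ContDiffOn ℝ ∞ u (cyl D))
    (hv : ContDiffOn ℝ ∞ v (cyl D)) {z : Q} (hz : z.1 ∈ D) :
    mean (fun z => u z + v z) z = mean u z + mean v z := by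
  simp only [mean]
  rw [intervalIntegral.integral_add ((cont_slice hu hz).intervalIntegrable _ _)
    ((cont_slice hv hz).intervalIntegrable _ _), smul_add]

lemma mean_sub {D : Set X2} {u v : Q → V} (hu : ContDiffOn ℝ ∞ u (cyl D))
    (hv : ContDiffOn ℝ ∞ v (cyl D)) {z : Q} (hz : z.1 ∈ D) :
    mean (fun z => u z - v z) z = mean u z - mean v z := by
  simp only [mean]
  rw [intervalIntegral.integral_sub ((cont_slice hu hz).intervalIntegrable _ _)
    ((cont_slice hv hz).intervalIntegrable _ _), smul_sub]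

lemma mean_smul_lift (c : X2 → ℝ) (u : Q → V) (z : Q) :
    mean (fun z => c z.1 • u z) z = c z.1 • mean u z := by
  simp only [mean]
  rw [intervalIntegral.integral_smul, smul_comm]

lemma mean_mul_lift (c : X2 → ℝ) (u : Q → ℝ) (z : Q) :
    mean (fun z => c z.1 * u z) z = c z.1 * mean u z := by
  have := mean_smul_lift c u z
  simpa using this

lemma mean_const_smul (c : ℝ) (u : Q → V) (z : Q) :
    mean (fun z => c • u z) z = c • mean u z := mean_smul_lift (fun _ => c) u z

lemma mean_const_mul (c : ℝ) (u : Q → ℝ) (z : Q) :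
    mean (fun z => c * u z) z = c * mean u z := mean_mul_lift (fun _ => c) u z


lemma mean_zero (z : Q) : mean (fun _ => (0 : V)) z = 0 := by simp [mean]

lemma mean_lift [CompleteSpace V] (v : X2 → V) (z : Q) : mean (fun z => v z.1) z = v z.1 := by
  simp only [mean, intervalIntegral.integral_const, sub_zero, smul_smul]
  rw [inv_mul_cancel₀ (by positivity), one_smul]

lemma mean_clm [CompleteSpace V] [CompleteSpace V'] {D : Set X2} (L : X2 → V →L[ℝ] V')
    {u : Q → V} (hu : ContDiffOn ℝ ∞ u (cyl D)) {z : Q} (hz : z.1 ∈ D) :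
    mean (fun z => L z.1 (u z)) z = L z.1 (mean u z) := by
  simp only [mean, map_smul]
  congr 1
  exact (L z.1).intervalIntegral_comp_comm ((cont_slice hu hz).intervalIntegrable _ _)

lemma mean_inner_lift {D : Set X2} (c : X2 → E4) {u : Q → E4} (hu : ContDiffOn ℝ ∞ u (cyl D))
    {z : Q} (hz : z.1 ∈ D) :
    mean (fun z => (inner ℝ (c z.1) (u z) : ℝ)) z = inner ℝ (c z.1) (mean u z) :=
  mean_clm (fun x => innerSL ℝ (c x)) hu hz

lemma mean_smul_vec {D : Set X2} (c : X2 → V) [CompleteSpace V] {u : Q → ℝ}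
    (hu : ContDiffOn ℝ ∞ u (cyl D)) {z : Q} (hz : z.1 ∈ D) :
    mean (fun z => u z • c z.1) z = mean u z • c z.1 := by
  have := mean_clm (fun x => (ContinuousLinearMap.toSpanSingleton ℝ (c x))) hu hz
  simpa using this

lemma mean_of_mean [CompleteSpace V] (u : Q → V) (z : Q) : mean (mean u) z = mean u z := by
  have : mean u = fun z : Q => (fun x => mean u (x, 0)) z.1 := rfl
  rw [this]
  exact mean_lift (fun x => mean u (x, 0)) z

lemma mean_osc [CompleteSpace V] {D : Set X2} {u : Q → V} (hu : ContDiffOn ℝ ∞ u (cyl D))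
    {z : Q} (hz : z.1 ∈ D) : mean (osc u) z = 0 := by
  have h1 := (cont_slice hu hz).intervalIntegrable (μ := volume) 0 (2 * Real.pi)
  have : mean (osc u) z = mean u z - mean (mean u) z := by
    simp only [mean, osc]
    rw [intervalIntegral.integral_sub h1 (by simp), smul_sub]
  rw [this, mean_of_mean, sub_self]


lemma osc_of_mean_zero {u : Q → V} {z : Q} (h : mean u z = 0) : osc u z = u z := by
  simp [osc, h]

lemma osc_add_mean (u : Q → V) (z : Q) : osc u z + mean u z = u z := by simp [osc]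


end base
end Crest.Agent.R216.TE.EB
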