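import Crest.Agent.R216.ClsT
import Crest.Agent.R216.EngExp

/-!
# Row 216, Theorem E: algebra of `mean`/`osc`, lifts, and common facts on states of the engine.
-/

open Set Topology MeasureTheory
open scoped ContDiff

set_option linter.unusedSectionVars false

namespace Crest.Agent.R216.TE

namespace St
/-! ## Part 1: algebra of `mean` and `osc` -/
section alg
variable {V : Type*} [NormedAddCommGroup V] [NormedSpace ℝ V]

/-- the slice in `t` is continuous -/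
lemma cont_slice {D : Set X2} {u : Q → V} (hu : ContinuousOn u {z | z.1 ∈ D}) {x : X2}
    (hx : x ∈ D) : Continuous (fun s : ℝ => u (x, s)) := by
  have h : Continuous (fun s : ℝ => ((x, s) : Q)) := by fun_prop
  exact hu.comp_continuous h (fun s => hx)


lemma mean_congr {u v : Q → V} {z : Q} (h : ∀ s, u (z.1, s) = v (z.1, s)) :
    mean u z = mean v z := by
  simp only [mean]
  congr 2
  funext s
  exact h s

lemma mean_congr_on {D : Set X2} {u v : Q → V} (h : EqOn u v {z | z.1 ∈ D}) {z : Q}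
    (hz : z.1 ∈ D) : mean u z = mean v z := mean_congr (fun s => h (show ((z.1, s) : Q).1 ∈ D from hz))

lemma osc_congr_on {D : Set X2} {u v : Q → V} (h : EqOn u v {z | z.1 ∈ D}) {z : Q}
    (hz : z.1 ∈ D) : osc u z = osc v z := by
  have h1 := h (show z ∈ {z : Q | z.1 ∈ D} from hz)
  simp only [osc, mean_congr_on h hz, h1]

lemma mean_add {D : Set X2} {u v : Q → V} (hu : ContinuousOn u {z | z.1 ∈ D})
    (hv : ContinuousOn v {z | z.1 ∈ D}) {z : Q} (hz : z.1 ∈ D) :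
    mean (fun z => u z + v z) z = mean u z + mean v z := by
  simp only [mean]
  rw [intervalIntegral.integral_add ((cont_slice hu hz).intervalIntegrable _ _)
    ((cont_slice hv hz).intervalIntegrable _ _), smul_add]



lemma mean_smul_lift (f : X2 → ℝ) (u : Q → V) (z : Q) :
    mean (fun z => f z.1 • u z) z = f z.1 • mean u z := by
  simp only [mean]
  rw [intervalIntegral.integral_smul, smul_comm]

lemma mean_const_smul (c : ℝ) (u : Q → V) (z : Q) :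
    mean (fun z => c • u z) z = c • mean u z := mean_smul_lift (fun _ => c) u z







/-- functions independent of `t` -/
lemma mean_of_indep [CompleteSpace V] {u : Q → V} {z : Q} {c : V} (h : ∀ s, u (z.1, s) = c) :
    mean u z = c := by
  simp only [mean, h]
  rw [intervalIntegral.integral_const, sub_zero, smul_smul, inv_mul_cancel₀ (by positivity),
    one_smul]

lemma mean_lift [CompleteSpace V] (v : X2 → V) (z : Q) : mean (lift v) z = v z.1 :=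
  mean_of_indep (fun _ => rfl)


lemma mean_apply (u : Q → V) (x : X2) (s t : ℝ) : mean u (x, s) = mean u (x, t) := rfl

lemma mean_eq_lift (u : Q → V) : mean u = lift (fun x => mean u (x, 0)) := rfl


lemma osc_add_mean (u : Q → V) (z : Q) : osc u z + mean u z = u z := by simp [osc]

/-- the mean of the oscillating part vanishes -/
lemma mean_osc [CompleteSpace V] {D : Set X2} {u : Q → V} (hu : ContinuousOn u {z | z.1 ∈ D})
    {z : Q} (hz : z.1 ∈ D) : mean (osc u) z = 0 := by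
  have h1 : mean (osc u) z = mean u z - mean (mean u) z := by
    simp only [mean, osc]
    rw [intervalIntegral.integral_sub ((cont_slice hu hz).intervalIntegrable _ _)
      (continuous_const.intervalIntegrable _ _), smul_sub]
  rw [h1, mean_eq_lift u, mean_lift]
  simp only [lift]
  rw [mean_apply u z.1 0 z.2]
  simp

lemma osc_osc [CompleteSpace V] {D : Set X2} {u : Q → V} (hu : ContinuousOn u {z | z.1 ∈ D})
    {z : Q} (hz : z.1 ∈ D) : osc (osc u) z = osc u z := by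
  show osc u z - mean (osc u) z = osc u z
  rw [St.mean_osc hu hz, sub_zero]

lemma osc_add {D : Set X2} {u v : Q → V} (hu : ContinuousOn u {z | z.1 ∈ D})
    (hv : ContinuousOn v {z | z.1 ∈ D}) {z : Q} (hz : z.1 ∈ D) :
    osc (fun z => u z + v z) z = osc u z + osc v z := by
  simp only [osc, mean_add hu hv hz]
  abel


lemma osc_smul_lift (f : X2 → ℝ) (u : Q → V) (z : Q) :
    osc (fun z => f z.1 • u z) z = f z.1 • osc u z := by
  simp only [osc, mean_smul_lift, smul_sub]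

lemma osc_const_smul (c : ℝ) (u : Q → V) (z : Q) :
    osc (fun z => c • u z) z = c • osc u z := osc_smul_lift (fun _ => c) u z





/-! ### lifts -/


lemma contDiffOn_of_lift {D : Set X2} {v : X2 → V}
    (h : ContDiffOn ℝ ∞ (lift v) {z : Q | z.1 ∈ D}) : ContDiffOn ℝ ∞ v D := by
  have h1 : ContDiff ℝ ∞ (fun x : X2 => ((x, 0) : Q)) := by fun_prop
  exact h.comp h1.contDiffOn (fun x hx => hx)

lemma diffAt_of_lift {D : Set X2} (hD : IsOpen D) {v : X2 → V}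
    (h : ContDiffOn ℝ ∞ (lift v) {z : Q | z.1 ∈ D}) {x : X2} (hx : x ∈ D) :
    DifferentiableAt ℝ v x :=
  ((contDiffOn_of_lift h).contDiffAt (hD.mem_nhds hx)).differentiableAt (by simp)

lemma pd0_lift {v : X2 → V} {z : Q} (h : DifferentiableAt ℝ v z.1) :
    pd 0 (lift v) z = d1 v z.1 := by
  have h1 : HasFDerivAt (lift v) ((fderiv ℝ v z.1).comp (ContinuousLinearMap.fst ℝ X2 ℝ)) z :=
    h.hasFDerivAt.comp z hasFDerivAt_fst
  simp only [pd, d1, h1.fderiv]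
  simp [bas]

lemma pd1_lift {v : X2 → V} {z : Q} (h : DifferentiableAt ℝ v z.1) :
    pd 1 (lift v) z = d2 v z.1 := by
  have h1 : HasFDerivAt (lift v) ((fderiv ℝ v z.1).comp (ContinuousLinearMap.fst ℝ X2 ℝ)) z :=
    h.hasFDerivAt.comp z hasFDerivAt_fst
  simp only [pd, d2, h1.fderiv]
  simp [bas]

lemma pd2_of_indep {u : Q → V} {z : Q} (h : ∀ s, u (z.1, s) = u z) : pd 2 u z = 0 := by
  by_cases hd : DifferentiableAt ℝ u z
  · have hc : HasDerivAt (fun s : ℝ => ((z.1, s) : Q)) (((0, 0), 1) : Q) z.2 := by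
      exact (hasDerivAt_const z.2 z.1).prodMk (hasDerivAt_id z.2)
    have h1 : HasDerivAt (fun s : ℝ => u (z.1, s)) (fderiv ℝ u z (((0, 0), 1) : Q)) z.2 := by
      have h2 : HasFDerivAt u (fderiv ℝ u z) ((z.1, z.2) : Q) := hd.hasFDerivAt
      exact h2.comp_hasDerivAt z.2 hc
    have h3 : HasDerivAt (fun s : ℝ => u (z.1, s)) 0 z.2 := by
      have : (fun s : ℝ => u (z.1, s)) = fun _ => u z := funext h
      rw [this]; exact hasDerivAt_const _ _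
    have := h1.unique h3
    simpa [pd, bas] using this
  · simp [pd, fderiv_zero_of_not_differentiableAt hd]

lemma pd2_lift (v : X2 → V) (z : Q) : pd 2 (lift v) z = 0 := pd2_of_indep (fun _ => rfl)


lemma pd_add {u v : Q → V} {z : Q} (hu : DifferentiableAt ℝ u z) (hv : DifferentiableAt ℝ v z)
    (j : Fin 3) : pd j (fun z => u z + v z) z = pd j u z + pd j v z := by
  simp only [pd]
  rw [fderiv_fun_add hu hv]; rfl


lemma pd_const_smul {u : Q → V} {z : Q} (hu : DifferentiableAt ℝ u z) (c : ℝ)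
    (j : Fin 3) : pd j (fun z => c • u z) z = c • pd j u z := by
  simp only [pd]
  rw [fderiv_fun_const_smul hu]; rfl

lemma pd_inner {u v : Q → E4} {z : Q} (hu : DifferentiableAt ℝ u z) (hv : DifferentiableAt ℝ v z)
    (j : Fin 3) : pd j (fun z => inner ℝ (u z) (v z)) z =
      inner ℝ (pd j u z) (v z) + inner ℝ (u z) (pd j v z) := by
  simp only [pd]
  rw [fderiv_inner_apply ℝ hu hv]
  ring

end alg

/-! ## Part 2: classes of states -/

section fam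
variable {𝓕 : Fam} {w w' : 𝓕.I → X2 → ℝ}
variable {V : Type*} [NormedAddCommGroup V] [NormedSpace ℝ V]

lemma sm_cont {u : 𝓕.I → Q → V} (h : 𝓕.Sm u) (i : 𝓕.I) :
    ContinuousOn (u i) {z | z.1 ∈ 𝓕.D i} := (h i).continuousOn

lemma sm_diffAt {u : 𝓕.I → Q → V} (h : 𝓕.Sm u) {i : 𝓕.I} {z : Q} (hz : z ∈ 𝓕.dom i) :
    DifferentiableAt ℝ (u i) z := Crest.Agent.R216.TE.diffAt (𝓕.isOpen_dom i) (h i) hz

lemma sm_add {u v : 𝓕.I → Q → V} (hu : 𝓕.Sm u) (hv : 𝓕.Sm v) :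
    𝓕.Sm (fun i z => u i z + v i z) := fun i => (hu i).add (hv i)


lemma sm_csmul {u : 𝓕.I → Q → V} (hu : 𝓕.Sm u) (c : 𝓕.I → ℝ) :
    𝓕.Sm (fun i z => c i • u i z) := fun i => (hu i).const_smul (c i)




/-- class of the oscillating part of a sum -/
lemma B_osc_add {E R E' : 𝓕.I → Q → V} (sE : 𝓕.Sm E) (sR : 𝓕.Sm R)
    (hE : 𝓕.B w (fun i => Crest.Agent.R216.TE.osc (E i)))
    (hR : 𝓕.B w (fun i => Crest.Agent.R216.TE.osc (R i)))
    (e : ∀ i, ∀ z ∈ 𝓕.dom i, E' i z = E i z + R i z) :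
    𝓕.B w (fun i => Crest.Agent.R216.TE.osc (E' i)) := by
  refine (hE.add hR).congr (fun i z hz => ?_)
  show _ = Crest.Agent.R216.TE.osc (E' i) z
  rw [osc_congr_on (D := 𝓕.D i) (fun z hz => e i z hz) hz,
    osc_add (sm_cont sE i) (sm_cont sR i) hz]

/-- class of the mean of a sum -/
lemma B_mean_add {E R E' : 𝓕.I → Q → V} (sE : 𝓕.Sm E) (sR : 𝓕.Sm R)
    (hE : 𝓕.B w (fun i => Crest.Agent.R216.TE.mean (E i)))
    (hR : 𝓕.B w (fun i => Crest.Agent.R216.TE.mean (R i)))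
    (e : ∀ i, ∀ z ∈ 𝓕.dom i, E' i z = E i z + R i z) :
    𝓕.B w (fun i => Crest.Agent.R216.TE.mean (E' i)) := by
  refine (hE.add hR).congr (fun i z hz => ?_)
  show _ = Crest.Agent.R216.TE.mean (E' i) z
  rw [mean_congr_on (D := 𝓕.D i) (fun z hz => e i z hz) hz,
    mean_add (sm_cont sE i) (sm_cont sR i) hz]

end fam

section efam
variable {𝓔 : EFam} {V : Type*} [NormedAddCommGroup V] [NormedSpace ℝ V]

lemma A1_add {F V' : 𝓔.I → Q → V} (hF : 𝓔.toFam.Sm F) (hV : 𝓔.toFam.Sm V') {i : 𝓔.I} {z : Q}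
    (hz : z ∈ 𝓔.toFam.dom i) :
    𝓔.A1 (fun i z => F i z + V' i z) i z = 𝓔.A1 F i z + 𝓔.A1 V' i z := by
  simp only [EFam.A1]
  rw [pd_add (sm_diffAt hF hz) (sm_diffAt hV hz), pd_add (sm_diffAt hF hz) (sm_diffAt hV hz), smul_add]
  abel

lemma A2_add {F V' : 𝓔.I → Q → V} (hF : 𝓔.toFam.Sm F) (hV : 𝓔.toFam.Sm V') {i : 𝓔.I} {z : Q}
    (hz : z ∈ 𝓔.toFam.dom i) :
    𝓔.A2 (fun i z => F i z + V' i z) i z = 𝓔.A2 F i z + 𝓔.A2 V' i z := by
  simp only [EFam.A2]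
  rw [pd_add (sm_diffAt hF hz) (sm_diffAt hV hz)]





/-- the amplitude is in its own class -/
lemma aB : 𝓔.toFam.B (𝓔.W 1 0 0) (fun i => lift (𝓔.a i)) :=
  𝓔.a_B.weight_congr (fun i x _ => by simp [EFam.W])

lemma a2B : 𝓔.toFam.B (𝓔.W 2 0 0) (fun i z => 𝓔.a i z.1 ^ 2) :=
  (EFam.B_mul (aB (𝓔 := 𝓔)) (aB (𝓔 := 𝓔))).congr (fun i z _ => by simp [lift, sq])

lemma A1_lift {v : 𝓔.I → X2 → V} (i : 𝓔.I) (z : Q) :
    𝓔.A1 (fun i => lift (v i)) i z = pd 0 (lift (v i)) z := by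
  simp only [EFam.A1, pd2_lift, smul_zero, add_zero]

lemma A1_lift_B {j m l : ℕ} {v : 𝓔.I → X2 → V}
    (h : 𝓔.toFam.B (𝓔.W j m l) (fun i => lift (v i))) :
    𝓔.toFam.B (𝓔.W j m (l+1)) (𝓔.A1 (fun i => lift (v i))) :=
  (EFam.B_pd h 0).congr (fun i z _ => (A1_lift i z).symm)

end efam

end St

open St

namespace EData
variable {𝓔 : EFam} {d : EData 𝓔}

/-- `u = ε⁻¹ (F - f)` -/
noncomputable def uu (d : EData 𝓔) (F : 𝓔.I → Q → E4) : 𝓔.I → Q → E4 := fun i z =>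
  (𝓔.eps i)⁻¹ • (F i z - d.f i z.1)

lemma uu_eq (F : 𝓔.I → Q → E4) (i : 𝓔.I) (z : Q) : d.uu F i z = d.u1 i z + d.rho F i z := by
  simp only [uu, rho]; abel

lemma F_eq (F : 𝓔.I → Q → E4) (i : 𝓔.I) (z : Q) :
    F i z = d.f i z.1 + 𝓔.eps i • d.uu F i z := by
  simp only [uu, smul_smul]
  rw [mul_inv_cancel₀ (EFam.eps_pos i).ne', one_smul]
  abel

namespace Hyp
variable (h : d.Hyp)
include h

lemma fdiff {i : 𝓔.I} {x : X2} (hx : x ∈ 𝓔.D i) : DifferentiableAt ℝ (d.f i) x :=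
  diffAt_of_lift (𝓔.isOpen i) (h.fsm i) hx

lemma f2diff {i : 𝓔.I} {x : X2} (hx : x ∈ 𝓔.D i) : DifferentiableAt ℝ (d2 (d.f i)) x :=
  diffAt_of_lift (𝓔.isOpen i) (h.f2B.smooth i) hx

lemma pd0_f {i : 𝓔.I} {z : Q} (hz : z ∈ 𝓔.toFam.dom i) :
    pd 0 (lift (d.f i)) z = d.f1 i z := pd0_lift (h.fdiff hz)

lemma pd1_f {i : 𝓔.I} {z : Q} (hz : z ∈ 𝓔.toFam.dom i) :
    pd 1 (lift (d.f i)) z = d.f2 i z := pd1_lift (h.fdiff hz)


lemma pd1_f2 {i : 𝓔.I} {z : Q} (hz : z ∈ 𝓔.toFam.dom i) :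
    pd 1 (d.f2 i) z = d.f22 i z := pd1_lift (h.f2diff hz)

lemma u1B : 𝓔.toFam.B (𝓔.W 1 0 0) d.u1 := h.WB.prim (EFam.W_nn _ _ _) h.Wper

lemma pd2_u1 {i : 𝓔.I} {z : Q} (hz : z ∈ 𝓔.toFam.dom i) : pd 2 (d.u1 i) z = d.Wl i z := by
  show pd 2 (prim (d.Wl i)) z = _
  rw [pd2_prim (𝓔.isOpen i) (h.WB.smooth i) hz]
  simp only [osc, h.Wmean i z hz, sub_zero]




lemma wB : 𝓔.toFam.B (𝓔.W 0 0 0) d.w :=
  h.f1B.add (EFam.B_le h.WB (by omega) le_rfl le_rfl)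

lemma w_sub_f1 : 𝓔.toFam.B (𝓔.W 1 0 0) (fun i z => d.w i z - d.f1 i z) :=
  h.WB.congr (fun i z _ => by simp [w])

end Hyp

lemma rho_split (F : 𝓔.I → Q → E4) (i : 𝓔.I) (z : Q) :
    d.rho F i z = osc (d.rho F i) z + mean (d.rho F i) z := (osc_add_mean _ _).symm

namespace Good
variable {F : 𝓔.I → Q → E4} (h : d.Hyp) (hG : d.Good F)
include hG

lemma rhoB : 𝓔.toFam.B (𝓔.W 1 7 1) (d.rho F) :=
  (hG.rho_osc.add (EFam.B_le hG.rho_mean (by omega) le_rfl le_rfl)).congr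
    (fun i z _ => (rho_split F i z).symm)

include h

lemma uB : 𝓔.toFam.B (𝓔.W 1 0 0) (d.uu F) :=
  (h.u1B.add (EFam.B_le hG.rhoB le_rfl (by omega) (by omega))).congr
    (fun i z _ => (uu_eq F i z).symm)


lemma pd_F (j : Fin 3) {i : 𝓔.I} {z : Q} (hz : z ∈ 𝓔.toFam.dom i) :
    pd j (F i) z = pd j (lift (d.f i)) z + 𝓔.eps i • pd j (d.uu F i) z := by
  have e : F i = fun z => lift (d.f i) z + 𝓔.eps i • d.uu F i z := funext (F_eq F i)
  have h1 : DifferentiableAt ℝ (lift (d.f i)) z := sm_diffAt h.fsm hz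
  have h2 : DifferentiableAt ℝ (d.uu F i) z := sm_diffAt (hG.uB h).smooth hz
  conv_lhs => rw [e]
  rw [pd_add h1 (h2.fun_const_smul (𝓔.eps i)), pd_const_smul h2]

lemma A2_eq {i : 𝓔.I} {z : Q} (hz : z ∈ 𝓔.toFam.dom i) :
    𝓔.A2 F i z = d.f2 i z + 𝓔.eps i • pd 1 (d.uu F i) z := by
  simp only [EFam.A2]
  rw [hG.pd_F h 1 hz, h.pd1_f hz]

lemma A1_eq {i : 𝓔.I} {z : Q} (hz : z ∈ 𝓔.toFam.dom i) :
    𝓔.A1 F i z = d.f1 i z + 𝓔.eps i • pd 0 (d.uu F i) z + pd 2 (d.uu F i) z := by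
  simp only [EFam.A1]
  rw [hG.pd_F h 0 hz, hG.pd_F h 2 hz, h.pd0_f hz, pd2_lift, zero_add, smul_smul,
    inv_mul_cancel₀ (EFam.eps_pos i).ne', one_smul]

lemma pd2_u {i : 𝓔.I} {z : Q} (hz : z ∈ 𝓔.toFam.dom i) :
    pd 2 (d.uu F i) z = d.Wl i z + pd 2 (d.rho F i) z := by
  have e : d.uu F i = fun z => d.u1 i z + d.rho F i z := funext (uu_eq F i)
  rw [e, pd_add (sm_diffAt h.u1B.smooth hz) (sm_diffAt hG.rhoB.smooth hz), h.pd2_u1 hz]

/-- `A1 F = w + (ε ∂₁ u + ∂_t ρ)` -/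
lemma A1_eq' {i : 𝓔.I} {z : Q} (hz : z ∈ 𝓔.toFam.dom i) :
    𝓔.A1 F i z = d.w i z + (𝓔.eps i • pd 0 (d.uu F i) z + pd 2 (d.rho F i) z) := by
  rw [hG.A1_eq h hz, hG.pd2_u h hz]
  simp only [w]
  abel

lemma A1_sub_w : 𝓔.toFam.B (𝓔.W 1 7 2) (fun i z => 𝓔.A1 F i z - d.w i z) := by
  have h1 : 𝓔.toFam.B (𝓔.W 1 7 2) (fun i z => 𝓔.eps i • pd 0 (d.uu F i) z) :=
    EFam.B_le (EFam.B_eps (EFam.B_pd (hG.uB h) 0)) le_rfl (by omega) (by omega)
  have h2 : 𝓔.toFam.B (𝓔.W 1 7 2) (fun i z => pd 2 (d.rho F i) z) := EFam.B_pd hG.rhoB 2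
  exact (h1.add h2).congr (fun i z hz => by rw [hG.A1_eq' h hz, add_sub_cancel_left])

lemma A1_sub_f1 : 𝓔.toFam.B (𝓔.W 1 0 0) (fun i z => 𝓔.A1 F i z - d.f1 i z) :=
  ((EFam.B_le (hG.A1_sub_w h) le_rfl (by omega) (by omega)).add h.w_sub_f1).congr
    (fun i z _ => by simp)

lemma A1B : 𝓔.toFam.B (𝓔.W 0 0 0) (𝓔.A1 F) :=
  (h.f1B.add (EFam.B_le (hG.A1_sub_f1 h) (by omega) le_rfl le_rfl)).congr
    (fun i z _ => by simp)

lemma A2_sub_f2 : 𝓔.toFam.B (𝓔.W 1 16 1) (fun i z => 𝓔.A2 F i z - d.f2 i z) := by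
  have h1 : 𝓔.toFam.B (𝓔.W 1 16 1) (fun i z => 𝓔.eps i • pd 1 (d.uu F i) z) := by
    simpa using EFam.B_eps (EFam.B_pd (hG.uB h) 1)
  exact h1.congr (fun i z hz => by rw [hG.A2_eq h hz, add_sub_cancel_left])

lemma A2B : 𝓔.toFam.B (𝓔.W 0 0 0) (𝓔.A2 F) :=
  (h.f2B.add (EFam.B_le (hG.A2_sub_f2 h) (by omega) (by omega) (by omega))).congr
    (fun i z _ => by simp)



lemma E11B : 𝓔.toFam.B (𝓔.W 0 0 0) (d.E11 F) := by
  have h1 : 𝓔.toFam.B (𝓔.W 0 0 0) (fun i z => inner ℝ (𝓔.A1 F i z) (𝓔.A1 F i z)) :=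
    EFam.B_inner (hG.A1B h) (hG.A1B h)
  have h2 : 𝓔.toFam.B (𝓔.W 0 0 0) (fun i z => inner ℝ (d.f1 i z) (d.f1 i z)) :=
    EFam.B_inner h.f1B h.f1B
  have h3 : 𝓔.toFam.B (𝓔.W 0 0 0) (fun i z => 𝓔.a i z.1 ^ 2) :=
    EFam.B_le (a2B (𝓔 := 𝓔)) (by omega) le_rfl le_rfl
  have h4 : 𝓔.toFam.B (𝓔.W 0 0 0) (fun i z => d.G11 i z.1) :=
    EFam.B_le h.G11B (by omega) (by omega) (by omega)
  exact h1.sub (EFam.W_nn _ _ _) ((h2.add h3).add h4)

lemma E12B : 𝓔.toFam.B (𝓔.W 0 0 0) (d.E12 F) := by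
  have h1 : 𝓔.toFam.B (𝓔.W 0 0 0) (fun i z => inner ℝ (𝓔.A1 F i z) (𝓔.A2 F i z)) :=
    EFam.B_inner (hG.A1B h) (hG.A2B h)
  have h2 : 𝓔.toFam.B (𝓔.W 0 0 0) (fun i z => inner ℝ (d.f1 i z) (d.f2 i z)) :=
    EFam.B_inner h.f1B h.f2B
  have h4 : 𝓔.toFam.B (𝓔.W 0 0 0) (fun i z => d.G12 i z.1) :=
    EFam.B_le h.G12B (by omega) (by omega) (by omega)
  exact h1.sub (EFam.W_nn _ _ _) (h2.add h4)

lemma E22B : 𝓔.toFam.B (𝓔.W 0 0 0) (d.E22 F) := by
  have h1 : 𝓔.toFam.B (𝓔.W 0 0 0) (fun i z => inner ℝ (𝓔.A2 F i z) (𝓔.A2 F i z)) :=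
    EFam.B_inner (hG.A2B h) (hG.A2B h)
  have h2 : 𝓔.toFam.B (𝓔.W 0 0 0) (fun i z => inner ℝ (d.f2 i z) (d.f2 i z)) :=
    EFam.B_inner h.f2B h.f2B
  have h4 : 𝓔.toFam.B (𝓔.W 0 0 0) (fun i z => d.G22 i z.1) :=
    EFam.B_le h.G22B (by omega) (by omega) (by omega)
  exact h1.sub (EFam.W_nn _ _ _) (h2.add h4)







end Good

/-! ## Part 3: adding a correction -/

section add
variable {F V : 𝓔.I → Q → E4}

lemma E11_add (sF : 𝓔.toFam.Sm F) (sV : 𝓔.toFam.Sm V) {i : 𝓔.I} {z : Q}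
    (hz : z ∈ 𝓔.toFam.dom i) :
    d.E11 (fun i z => F i z + V i z) i z = d.E11 F i z +
      (2 * inner ℝ (𝓔.A1 F i z) (𝓔.A1 V i z) + inner ℝ (𝓔.A1 V i z) (𝓔.A1 V i z)) := by
  simp only [E11]
  rw [A1_add sF sV hz, inner_add_left, inner_add_right, inner_add_right,
    real_inner_comm (𝓔.A1 F i z) (𝓔.A1 V i z)]
  ring

lemma E12_add (sF : 𝓔.toFam.Sm F) (sV : 𝓔.toFam.Sm V) {i : 𝓔.I} {z : Q}
    (hz : z ∈ 𝓔.toFam.dom i) :
    d.E12 (fun i z => F i z + V i z) i z = d.E12 F i z +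
      (inner ℝ (𝓔.A1 F i z) (𝓔.A2 V i z) + inner ℝ (𝓔.A1 V i z) (𝓔.A2 F i z)
        + inner ℝ (𝓔.A1 V i z) (𝓔.A2 V i z)) := by
  simp only [E12]
  rw [A1_add sF sV hz, A2_add sF sV hz, inner_add_left, inner_add_right,
    inner_add_right]
  ring

lemma E22_add (sF : 𝓔.toFam.Sm F) (sV : 𝓔.toFam.Sm V) {i : 𝓔.I} {z : Q}
    (hz : z ∈ 𝓔.toFam.dom i) :
    d.E22 (fun i z => F i z + V i z) i z = d.E22 F i z +
      (2 * inner ℝ (𝓔.A2 F i z) (𝓔.A2 V i z) + inner ℝ (𝓔.A2 V i z) (𝓔.A2 V i z)) := by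
  simp only [E22]
  rw [A2_add sF sV hz, inner_add_left, inner_add_right, inner_add_right,
    real_inner_comm (𝓔.A2 F i z) (𝓔.A2 V i z)]
  ring

lemma rho_add (i : 𝓔.I) (z : Q) :
    d.rho (fun i z => F i z + V i z) i z = d.rho F i z + (𝓔.eps i)⁻¹ • V i z := by
  simp only [rho, add_sub_right_comm, smul_add]

/-- adding a small correction to a good state -/
lemma Good.add (hG : d.Good F) (sV : 𝓔.toFam.Sm V) (hVp : ∀ i, PerOn (𝓔.D i) (V i))
    (hVo : 𝓔.toFam.B (𝓔.W 1 23 1) (fun i => osc (V i)))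
    (hVm : 𝓔.toFam.B (𝓔.W 2 23 1) (fun i => mean (V i))) :
    d.Good (fun i z => F i z + V i z) where
  sm := sm_add hG.sm sV
  per := fun i x hx t => by simp only [hG.per i x hx t, hVp i x hx t]
  rho_osc := by
    refine B_osc_add hG.rhoB.smooth (sm_csmul sV _) hG.rho_osc ?_
      (fun i z _ => rho_add i z)
    exact (EFam.B_epsInv (m := 7) hVo).congr (fun i z _ => (osc_const_smul _ _ _).symm)
  rho_mean := by
    refine B_mean_add hG.rhoB.smooth (sm_csmul sV _) hG.rho_mean ?_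
      (fun i z _ => rho_add i z)
    exact (EFam.B_epsInv (m := 7) hVm).congr (fun i z _ => (mean_const_smul _ _ _).symm)

end add

end EData

end Crest.Agent.R216.TE
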