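import Mathlib

-- ▼ part R216/LoopMean
section

/-!
Row 216 (S0335), LOOPS.  Exact moments of the Cayley loops.
For `x ≥ 1`, `α² = (x²-1)(1+y²)` and `p(t) = -xy + α cos t`:
`⟨1/(1-ip)⟩ = 1/(x+iy)` and `⟨1/(1-ip)²⟩ = (1+ixy)/(x+iy)³`.
-/

set_option autoImplicit false

open Complex MeasureTheory Real Metric Set
open scoped Real Interval

namespace Crest.Agent.R216.Loop

/-- average over the circle of the holomorphic function `(1-κu)⁻¹`. -/
lemma avg_F {κ : ℂ} (hκ : ‖κ‖ < 1) (n : ℕ) :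
    circleAverage (fun u : ℂ => ((1 - κ * u)⁻¹) ^ n) 0 1 = 1 := by
  have hne : ∀ u ∈ closedBall (0 : ℂ) 1, 1 - κ * u ≠ 0 := by
    intro u hu h
    have h1 : ‖u‖ ≤ 1 := by simpa using hu
    have h2 : κ * u = 1 := by linear_combination -h
    have h3 : ‖κ * u‖ = 1 := by rw [h2]; simp
    rw [norm_mul] at h3
    nlinarith [norm_nonneg κ, norm_nonneg u]
  have hd : DifferentiableOn ℂ (fun u : ℂ => ((1 - κ * u)⁻¹) ^ n) (closedBall 0 1) := by
    intro u hu
    apply DifferentiableAt.differentiableWithinAt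
    apply DifferentiableAt.pow
    apply DifferentiableAt.inv
    · fun_prop
    · exact hne u hu
  have hdc : DiffContOnCl ℂ (fun u : ℂ => ((1 - κ * u)⁻¹) ^ n) (ball 0 |(1 : ℝ)|) := by
    apply DifferentiableOn.diffContOnCl
    rw [abs_one, closure_ball _ one_ne_zero]
    exact hd
  rw [hdc.circleAverage]
  simp

lemma circleIntegrable_F {κ : ℂ} (hκ : ‖κ‖ < 1) (n m : ℕ) :
    CircleIntegrable (fun u : ℂ => ((1 - κ * u)⁻¹) ^ n * ((1 - κ * u⁻¹)⁻¹) ^ m) 0 1 := by
  apply ContinuousOn.circleIntegrable zero_le_one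
  have h0 : ∀ u ∈ sphere (0 : ℂ) 1, ‖u‖ = 1 := by intro u hu; simpa using hu
  have hne : ∀ u ∈ sphere (0 : ℂ) 1, 1 - κ * u ≠ 0 := by
    intro u hu h
    have h2 : κ * u = 1 := by linear_combination -h
    have h3 : ‖κ * u‖ = 1 := by rw [h2]; simp
    rw [norm_mul, h0 u hu] at h3
    linarith
  have hne' : ∀ u ∈ sphere (0 : ℂ) 1, 1 - κ * u⁻¹ ≠ 0 := by
    intro u hu h
    have h2 : κ * u⁻¹ = 1 := by linear_combination -h
    have h3 : ‖κ * u⁻¹‖ = 1 := by rw [h2]; simp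
    rw [norm_mul, norm_inv, h0 u hu] at h3
    simp at h3
    linarith
  have hu0 : ∀ u ∈ sphere (0 : ℂ) 1, u ≠ 0 := by
    intro u hu h
    have := h0 u hu
    rw [h] at this
    simp at this
  apply ContinuousOn.mul
  · apply ContinuousOn.pow
    apply ContinuousOn.inv₀
    · fun_prop
    · exact hne
  · apply ContinuousOn.pow
    apply ContinuousOn.inv₀
    · apply ContinuousOn.sub continuousOn_const
      apply ContinuousOn.mul continuousOn_const
      exact continuousOn_id.inv₀ hu0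
    · exact hne'

/-- partial fractions on the unit circle -/
lemma pf {κ u : ℂ} (hκ : ‖κ‖ < 1) (hu : ‖u‖ = 1) :
    (1 - κ ^ 2) * ((1 - κ * u)⁻¹ * (1 - κ * u⁻¹)⁻¹) =
      (1 - κ * u)⁻¹ + (1 - κ * u⁻¹)⁻¹ - 1 := by
  have hne : 1 - κ * u ≠ 0 := by
    intro h
    have h2 : κ * u = 1 := by linear_combination -h
    have h3 : ‖κ * u‖ = 1 := by rw [h2]; simp
    rw [norm_mul, hu] at h3
    linarith
  have hne' : 1 - κ * u⁻¹ ≠ 0 := by
    intro h
    have h2 : κ * u⁻¹ = 1 := by linear_combination -h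
    have h3 : ‖κ * u⁻¹‖ = 1 := by rw [h2]; simp
    rw [norm_mul, norm_inv, hu] at h3
    simp at h3
    linarith
  have hu0 : u ≠ 0 := by
    intro h
    rw [h] at hu
    simp at hu
  have hne'' : u - κ ≠ 0 := by
    intro h
    apply hne'
    have : κ = u := by linear_combination -h
    rw [this, mul_inv_cancel₀ hu0, sub_self]
  have e : (1 - κ * u⁻¹)⁻¹ = u * (u - κ)⁻¹ := by
    rw [eq_comm, ← div_eq_mul_inv, div_eq_iff hne'', inv_mul_eq_div, eq_div_iff hne']
    field_simp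
  rw [e]
  field_simp
  ring


lemma avg_G {κ : ℂ} (hκ : ‖κ‖ < 1) (n : ℕ) :
    circleAverage (fun u : ℂ => ((1 - κ * u⁻¹)⁻¹) ^ n) 0 1 = 1 := by
  have h := circleAverage_zero_one_congr_inv (f := fun u : ℂ => ((1 - κ * u)⁻¹) ^ n)
  rw [avg_F hκ n] at h
  exact h

lemma avg_FG {κ : ℂ} (hκ : ‖κ‖ < 1) :
    circleAverage (fun u : ℂ => (1 - κ * u)⁻¹ * (1 - κ * u⁻¹)⁻¹) 0 1 = (1 - κ ^ 2)⁻¹ := by
  have hi := circleIntegrable_F hκ
  have h1 : circleAverage (fun u : ℂ => (1 - κ ^ 2) • ((1 - κ * u)⁻¹ * (1 - κ * u⁻¹)⁻¹)) 0 1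
      = 1 := by
    have e : circleAverage (fun u : ℂ => (1 - κ ^ 2) • ((1 - κ * u)⁻¹ * (1 - κ * u⁻¹)⁻¹)) 0 1
        = circleAverage (fun u : ℂ => ((1 - κ * u)⁻¹) ^ 1 + ((1 - κ * u⁻¹)⁻¹) ^ 1 - 1) 0 1 := by
      apply circleAverage_congr_sphere
      intro u hu
      have hu' : ‖u‖ = 1 := by simpa using hu
      simp only [smul_eq_mul, pow_one]
      exact pf hκ hu'
    rw [e, circleAverage_fun_sub, circleAverage_fun_add, avg_F hκ, avg_G hκ, circleAverage_const]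
    · ring
    · simpa using hi 1 0
    · simpa using hi 0 1
    · have a := hi 1 0
      have b := hi 0 1
      simp only [pow_one, pow_zero, mul_one, one_mul] at a b
      simp only [pow_one]
      exact a.add b
    · have := hi 0 0
      simpa only [pow_zero, mul_one] using this
  rw [circleAverage_fun_smul, smul_eq_mul] at h1
  exact eq_inv_of_mul_eq_one_right h1


/-- the complex number `1 - i p(t)` of the Cayley loop factorises. -/
lemma factor {x y α : ℝ} (hx : 1 ≤ x) (hα : α ^ 2 = (x ^ 2 - 1) * (1 + y ^ 2)) (t : ℝ) :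
    (1 - I * ((-(x * y) + α * Real.cos t : ℝ) : ℂ)) =
      ((x + 1) * (1 + I * y) / 2) *
        ((1 - (I * α / ((x + 1) * (1 + I * y))) * exp (t * I)) *
         (1 - (I * α / ((x + 1) * (1 + I * y))) * (exp (t * I))⁻¹)) := by
  have h1 : (1 + I * (y : ℂ)) ≠ 0 := by
    intro h
    have := congrArg Complex.re h
    simp at this
  have h2 : ((x : ℂ) + 1) ≠ 0 := by
    have : ((x + 1 : ℝ) : ℂ) ≠ 0 := by
      exact_mod_cast (by linarith : x + 1 ≠ 0)
    simpa using this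
  have hα' : (α : ℂ) ^ 2 = (x ^ 2 - 1) * (1 + y ^ 2) := by exact_mod_cast hα
  have hc : (Real.cos t : ℂ) = (exp (t * I) + (exp (t * I))⁻¹) / 2 := by
    rw [Complex.ofReal_cos, Complex.cos, ← Complex.exp_neg]
    congr 3
    ring
  have he : exp (t * I) ≠ 0 := Complex.exp_ne_zero _
  push_cast
  rw [← Complex.ofReal_cos, hc]
  generalize exp (t * I) = u at he
  have hI : (I : ℂ) ^ 2 = -1 := Complex.I_sq
  field_simp
  ring_nf
  simp only [hI, hα']
  ring_nf

/-- `κ` of the loop. -/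
noncomputable def kap (x y α : ℝ) : ℂ := I * α / ((x + 1) * (1 + I * y))

lemma norm_kap {x y α : ℝ} (hx : 1 ≤ x) (hα : α ^ 2 = (x ^ 2 - 1) * (1 + y ^ 2)) :
    ‖kap x y α‖ < 1 := by
  have h1 : ‖kap x y α‖ ^ 2 = (x - 1) / (x + 1) := by
    unfold kap
    rw [norm_div, norm_mul, norm_mul, div_pow, mul_pow, mul_pow]
    have e1 : ‖(I : ℂ)‖ ^ 2 = 1 := by simp
    have e2 : ‖(α : ℂ)‖ ^ 2 = α ^ 2 := by
      rw [Complex.norm_real, Real.norm_eq_abs, sq_abs]
    have e3 : ‖((x : ℂ) + 1)‖ ^ 2 = (x + 1) ^ 2 := by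
      have : ((x : ℂ) + 1) = ((x + 1 : ℝ) : ℂ) := by push_cast; ring
      rw [this, Complex.norm_real, Real.norm_eq_abs, sq_abs]
    have e4 : ‖(1 + I * (y : ℂ))‖ ^ 2 = 1 + y ^ 2 := by
      rw [← Complex.normSq_eq_norm_sq, Complex.normSq_apply]
      simp
      ring
    rw [e1, e2, e3, e4, hα]
    have : (0 : ℝ) < 1 + y ^ 2 := by positivity
    have : (0 : ℝ) < x + 1 := by linarith
    field_simp
    ring
  have h2 : ‖kap x y α‖ ^ 2 < 1 := by
    rw [h1, div_lt_one (by linarith)]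
    linarith
  nlinarith [norm_nonneg (kap x y α)]

lemma one_sub_kap_sq {x y α : ℝ} (hx : 1 ≤ x) (hα : α ^ 2 = (x ^ 2 - 1) * (1 + y ^ 2)) :
    ((x + 1) * (1 + I * y) / 2) * (1 - kap x y α ^ 2) = x + I * y ∧
    ((x + 1) * (1 + I * y) / 2) * (1 + kap x y α ^ 2) = 1 + I * x * y := by
  have h1 : (1 + I * (y : ℂ)) ≠ 0 := by
    intro h
    have := congrArg Complex.re h
    simp at this
  have h2 : ((x : ℂ) + 1) ≠ 0 := by
    have : ((x + 1 : ℝ) : ℂ) ≠ 0 := by
      exact_mod_cast (by linarith : x + 1 ≠ 0)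
    simpa using this
  have hα' : (α : ℂ) ^ 2 = (x ^ 2 - 1) * (1 + y ^ 2) := by exact_mod_cast hα
  have hI : (I : ℂ) ^ 2 = -1 := Complex.I_sq
  have hI4 : (I : ℂ) ^ 4 = 1 := by
    rw [show (4 : ℕ) = 2 * 2 from rfl, pow_mul, hI]; ring
  have key : ((x + 1) * (1 + I * y)) ^ 2 * kap x y α ^ 2 =
      -((x ^ 2 - 1) * (1 + y ^ 2)) := by
    unfold kap
    rw [← hα', div_pow, mul_div_cancel₀ _ (pow_ne_zero 2 (mul_ne_zero h2 h1)), mul_pow, hI]
    ring
  have key2 : (x + 1) * (1 + I * y) * kap x y α ^ 2 = -((x - 1) * (1 - I * y)) := by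
    apply mul_left_cancel₀ (mul_ne_zero h2 h1)
    linear_combination key - (x ^ 2 - 1) * y ^ 2 * hI
  constructor
  · linear_combination (-1 / 2 : ℂ) * key2
  · linear_combination (1 / 2 : ℂ) * key2

lemma avg_eq_integral (f : ℂ → ℂ) :
    circleAverage f 0 1 = (2 * π : ℂ)⁻¹ * ∫ t in (0 : ℝ)..2 * π, f (exp (t * I)) := by
  rw [circleAverage_def]
  simp only [circleMap, Complex.real_smul, zero_add, Complex.ofReal_one, one_mul,
    Complex.ofReal_inv, Complex.ofReal_mul, Complex.ofReal_ofNat]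

/-- **First moment** of the Cayley loops. -/
theorem mean_inv {x y α : ℝ} (hx : 1 ≤ x) (hα : α ^ 2 = (x ^ 2 - 1) * (1 + y ^ 2)) :
    (2 * π : ℂ)⁻¹ * ∫ t in (0 : ℝ)..2 * π,
      (1 - I * ((-(x * y) + α * Real.cos t : ℝ) : ℂ))⁻¹ = (x + I * y)⁻¹ := by
  have hk := norm_kap hx hα
  obtain ⟨h1, -⟩ := one_sub_kap_sq hx hα
  have h := avg_FG hk
  rw [avg_eq_integral] at h
  have e : ∀ t : ℝ, (1 - I * ((-(x * y) + α * Real.cos t : ℝ) : ℂ))⁻¹ =
      ((x + 1) * (1 + I * y) / 2)⁻¹ *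
        ((1 - kap x y α * exp (t * I))⁻¹ * (1 - kap x y α * (exp (t * I))⁻¹)⁻¹) := by
    intro t
    rw [factor hx hα t, mul_inv, mul_inv]
    rfl
  simp only [e]
  rw [intervalIntegral.integral_const_mul, mul_left_comm, ← h1, mul_inv _ (1 - kap x y α ^ 2), h]


end Crest.Agent.R216.Loop
end

-- ▼ part R216/LoopFam

/-!
Row 216 (S0335), LOOPS.  The explicit Cayley loop family in real coordinates.

A mean position `(X, Y)` in the closed unit disc, `(X,Y) ≠ (-1,0)`, `s = a / r` with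
`X² + Y² + s² = 1`.  The loop is `t ↦ (cl X Y s t, sl X Y s t)` on the unit circle, `2π`-periodic and
even in `t`, smooth in all variables on `{-1 < X}`, with mean exactly `(X, Y)`.
-/

set_option autoImplicit false

open Complex MeasureTheory Real Metric Set
open scoped Real Interval ContDiff

namespace Crest.Agent.R216.Loop

noncomputable def n2 (X Y : ℝ) : ℝ := (1 + X) ^ 2 + Y ^ 2
/-- real part of `q = 2/(1+z)` -/
noncomputable def qx (X Y : ℝ) : ℝ := 2 * (1 + X) / n2 X Y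
/-- imaginary part of `q = 2/(1+z)` -/
noncomputable def qy (X Y : ℝ) : ℝ := -(2 * Y) / n2 X Y
/-- `α = s * gl` -/
noncomputable def gl (X Y : ℝ) : ℝ := √((qx X Y + 1) * (1 + qy X Y ^ 2) / n2 X Y)
/-- `p(t)`: tangent of the half angle -/
noncomputable def pl (X Y s t : ℝ) : ℝ := -(qx X Y * qy X Y) + s * gl X Y * Real.cos t
/-- cosine of the angle of the loop -/
noncomputable def cl (X Y s t : ℝ) : ℝ := (1 - pl X Y s t ^ 2) / (1 + pl X Y s t ^ 2)
/-- sine of the angle of the loop -/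
noncomputable def sl (X Y s t : ℝ) : ℝ := 2 * pl X Y s t / (1 + pl X Y s t ^ 2)

lemma n2_pos {X Y : ℝ} (hX : -1 < X) : 0 < n2 X Y := by
  unfold n2
  have : 0 < 1 + X := by linarith
  positivity

lemma qx_pos {X Y : ℝ} (hX : -1 < X) : 0 < qx X Y := by
  unfold qx
  have := n2_pos (Y := Y) hX
  have : 0 < 1 + X := by linarith
  positivity

lemma qx_sub_one {X Y s : ℝ} (hX : -1 < X) (h : X ^ 2 + Y ^ 2 + s ^ 2 = 1) :
    qx X Y - 1 = s ^ 2 / n2 X Y := by
  have h0 := n2_pos (Y := Y) hX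
  unfold qx
  rw [div_sub_one h0.ne', div_left_inj' h0.ne']
  unfold n2
  linear_combination -h

lemma one_le_qx {X Y s : ℝ} (hX : -1 < X) (h : X ^ 2 + Y ^ 2 + s ^ 2 = 1) : 1 ≤ qx X Y := by
  have h0 := n2_pos (Y := Y) hX
  have := qx_sub_one hX h
  have : 0 ≤ s ^ 2 / n2 X Y := by positivity
  linarith

lemma gl_pos {X Y : ℝ} (hX : -1 < X) : 0 < gl X Y := by
  unfold gl
  have := n2_pos (Y := Y) hX
  have := qx_pos (Y := Y) hX
  positivity

lemma gl_sq {X Y : ℝ} (hX : -1 < X) :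
    gl X Y ^ 2 = (qx X Y + 1) * (1 + qy X Y ^ 2) / n2 X Y := by
  unfold gl
  rw [Real.sq_sqrt]
  have := n2_pos (Y := Y) hX
  have := qx_pos (Y := Y) hX
  positivity

lemma alpha_sq {X Y s : ℝ} (hX : -1 < X) (h : X ^ 2 + Y ^ 2 + s ^ 2 = 1) :
    (s * gl X Y) ^ 2 = (qx X Y ^ 2 - 1) * (1 + qy X Y ^ 2) := by
  rw [mul_pow, gl_sq hX]
  have := qx_sub_one hX h
  have e : (qx X Y ^ 2 - 1) = (qx X Y - 1) * (qx X Y + 1) := by ring
  rw [e, this]
  ring

/-! ### the loop lies on the unit circle, periodicity, evenness -/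

lemma one_add_sq_pos (p : ℝ) : 0 < 1 + p ^ 2 := by positivity

lemma cl_sq_add_sl_sq (X Y s t : ℝ) : cl X Y s t ^ 2 + sl X Y s t ^ 2 = 1 := by
  unfold cl sl
  have := one_add_sq_pos (pl X Y s t)
  field_simp
  ring

lemma pl_neg (X Y s t : ℝ) : pl X Y s (-t) = pl X Y s t := by simp [pl]
lemma cl_neg (X Y s t : ℝ) : cl X Y s (-t) = cl X Y s t := by simp [cl, pl_neg]
lemma sl_neg (X Y s t : ℝ) : sl X Y s (-t) = sl X Y s t := by simp [sl, pl_neg]
lemma pl_add_two_pi (X Y s t : ℝ) : pl X Y s (t + 2 * π) = pl X Y s t := by simp [pl]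
lemma cl_add_two_pi (X Y s t : ℝ) : cl X Y s (t + 2 * π) = cl X Y s t := by
  simp [cl, pl_add_two_pi]
lemma sl_add_two_pi (X Y s t : ℝ) : sl X Y s (t + 2 * π) = sl X Y s t := by
  simp [sl, pl_add_two_pi]

/-! ### smoothness -/

section smooth
variable {E : Type*} [NormedAddCommGroup E] [NormedSpace ℝ E] {n : ℕ∞ω}
  {f g h k : E → ℝ} {x : E}

lemma ContDiffAt.n2' (hf : ContDiffAt ℝ n f x) (hg : ContDiffAt ℝ n g x) :
    ContDiffAt ℝ n (fun x => n2 (f x) (g x)) x := by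
  unfold n2
  fun_prop

lemma ContDiffAt.qx' (hf : ContDiffAt ℝ n f x) (hg : ContDiffAt ℝ n g x) (h0 : -1 < f x) :
    ContDiffAt ℝ n (fun x => qx (f x) (g x)) x := by
  unfold qx
  apply ContDiffAt.div
  · fun_prop
  · exact ContDiffAt.n2' hf hg
  · exact (n2_pos h0).ne'

lemma ContDiffAt.qy' (hf : ContDiffAt ℝ n f x) (hg : ContDiffAt ℝ n g x) (h0 : -1 < f x) :
    ContDiffAt ℝ n (fun x => qy (f x) (g x)) x := by
  unfold qy
  apply ContDiffAt.div
  · fun_prop
  · exact ContDiffAt.n2' hf hg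
  · exact (n2_pos h0).ne'

lemma ContDiffAt.gl' (hf : ContDiffAt ℝ n f x) (hg : ContDiffAt ℝ n g x) (h0 : -1 < f x) :
    ContDiffAt ℝ n (fun x => gl (f x) (g x)) x := by
  unfold gl
  have h1 := n2_pos (Y := g x) h0
  have h2 := qx_pos (Y := g x) h0
  have h3 : 0 < (qx (f x) (g x) + 1) * (1 + qy (f x) (g x) ^ 2) / n2 (f x) (g x) := by
    positivity
  refine ContDiffAt.sqrt (f := fun x => (qx (f x) (g x) + 1) * (1 + qy (f x) (g x) ^ 2) /
    n2 (f x) (g x)) ?_ h3.ne'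
  apply ContDiffAt.div
  · apply ContDiffAt.mul
    · exact (ContDiffAt.qx' hf hg h0).add contDiffAt_const
    · exact contDiffAt_const.add ((ContDiffAt.qy' hf hg h0).pow 2)
  · exact ContDiffAt.n2' hf hg
  · exact h1.ne'

lemma ContDiffAt.pl' (hf : ContDiffAt ℝ n f x) (hg : ContDiffAt ℝ n g x)
    (hh : ContDiffAt ℝ n h x) (hk : ContDiffAt ℝ n k x) (h0 : -1 < f x) :
    ContDiffAt ℝ n (fun x => pl (f x) (g x) (h x) (k x)) x := by
  unfold pl
  apply ContDiffAt.add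
  · exact ((ContDiffAt.qx' hf hg h0).mul (ContDiffAt.qy' hf hg h0)).neg
  · exact (hh.mul (ContDiffAt.gl' hf hg h0)).mul (hk.cos)

lemma ContDiffAt.cl' (hf : ContDiffAt ℝ n f x) (hg : ContDiffAt ℝ n g x)
    (hh : ContDiffAt ℝ n h x) (hk : ContDiffAt ℝ n k x) (h0 : -1 < f x) :
    ContDiffAt ℝ n (fun x => cl (f x) (g x) (h x) (k x)) x := by
  unfold cl
  have hp := ContDiffAt.pl' hf hg hh hk h0
  apply ContDiffAt.div
  · exact contDiffAt_const.sub (hp.pow 2)
  · exact contDiffAt_const.add (hp.pow 2)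
  · exact (one_add_sq_pos _).ne'

lemma ContDiffAt.sl' (hf : ContDiffAt ℝ n f x) (hg : ContDiffAt ℝ n g x)
    (hh : ContDiffAt ℝ n h x) (hk : ContDiffAt ℝ n k x) (h0 : -1 < f x) :
    ContDiffAt ℝ n (fun x => sl (f x) (g x) (h x) (k x)) x := by
  unfold sl
  have hp := ContDiffAt.pl' hf hg hh hk h0
  apply ContDiffAt.div
  · exact contDiffAt_const.mul hp
  · exact contDiffAt_const.add (hp.pow 2)
  · exact (one_add_sq_pos _).ne'

end smooth

/-! ### the difference to the mean is `s` times a smooth function -/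





lemma q_norm {X Y : ℝ} (hX : -1 < X) : n2 X Y * (qx X Y ^ 2 + qy X Y ^ 2) = 4 := by
  have := n2_pos (Y := Y) hX
  have e : qx X Y ^ 2 + qy X Y ^ 2 = 4 / n2 X Y := by
    unfold qx qy
    rw [div_pow, div_pow, ← add_div, div_eq_div_iff (by positivity) (by positivity)]
    unfold n2
    ring
  rw [e]
  field_simp



section smooth2
variable {E : Type*} [NormedAddCommGroup E] [NormedSpace ℝ E] {n : ℕ∞ω}
  {f g h k : E → ℝ} {x : E}



end smooth2

/-! ### moments -/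

lemma cl_add_I_sl (X Y s t : ℝ) :
    ((cl X Y s t : ℂ) + I * sl X Y s t) = 2 * (1 - I * (pl X Y s t : ℂ))⁻¹ - 1 := by
  have hp : (1 + (pl X Y s t : ℂ) ^ 2) ≠ 0 := by
    exact_mod_cast (one_add_sq_pos (pl X Y s t)).ne'
  have hp2 : (1 - I * (pl X Y s t : ℂ)) * (1 + I * pl X Y s t) = 1 + (pl X Y s t : ℂ) ^ 2 := by
    linear_combination (-(pl X Y s t : ℂ) ^ 2) * Complex.I_sq
  have h1 : (1 - I * (pl X Y s t : ℂ)) ≠ 0 := by
    intro h
    rw [h, zero_mul] at hp2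
    exact hp hp2.symm
  have e : (1 - I * (pl X Y s t : ℂ))⁻¹ = (1 + I * pl X Y s t) / (1 + (pl X Y s t : ℂ) ^ 2) := by
    rw [eq_div_iff hp, ← hp2, inv_mul_cancel_left₀ h1]
  rw [e]
  unfold cl sl
  push_cast
  generalize (pl X Y s t : ℂ) = p at hp
  field_simp
  ring

lemma continuous_pl (X Y s : ℝ) : Continuous (fun t => pl X Y s t) := by
  unfold pl; fun_prop

lemma continuous_cl (X Y s : ℝ) : Continuous (fun t => cl X Y s t) := by
  unfold cl
  have := continuous_pl X Y s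
  apply Continuous.div (by fun_prop) (by fun_prop)
  intro t
  exact (one_add_sq_pos _).ne'

lemma continuous_sl (X Y s : ℝ) : Continuous (fun t => sl X Y s t) := by
  unfold sl
  have := continuous_pl X Y s
  apply Continuous.div (by fun_prop) (by fun_prop)
  intro t
  exact (one_add_sq_pos _).ne'

lemma continuous_inv_pl (X Y s : ℝ) :
    Continuous (fun t : ℝ => (1 - I * (pl X Y s t : ℂ))⁻¹) := by
  apply Continuous.inv₀
  · have := continuous_pl X Y s
    fun_prop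
  · intro t h
    have := congrArg Complex.re h
    simp at this

lemma q_eq {X Y : ℝ} (hX : -1 < X) :
    ((qx X Y : ℂ) + I * qy X Y) * (1 + X + I * Y) = 2 := by
  have h1 : qx X Y * (1 + X) - qy X Y * Y = 2 := by
    have := n2_pos (Y := Y) hX
    unfold qx qy
    field_simp
    unfold n2
    ring
  have h2 : qx X Y * Y + qy X Y * (1 + X) = 0 := by
    have := n2_pos (Y := Y) hX
    unfold qx qy
    field_simp
    ring
  have h1' : (qx X Y : ℂ) * (1 + X) - qy X Y * Y = 2 := by exact_mod_cast h1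
  have h2' : (qx X Y : ℂ) * Y + qy X Y * (1 + X) = 0 := by exact_mod_cast h2
  linear_combination h1' + I * h2' + (qy X Y : ℂ) * Y * Complex.I_sq


theorem mean_complex {X Y s : ℝ} (hX : -1 < X) (h : X ^ 2 + Y ^ 2 + s ^ 2 = 1) :
    (2 * π : ℂ)⁻¹ * ∫ t in (0 : ℝ)..2 * π, ((cl X Y s t : ℂ) + I * sl X Y s t) = X + I * Y := by
  have hx := one_le_qx hX h
  have hα := alpha_sq hX h
  have hm := mean_inv hx hα
  have hq := q_eq (Y := Y) hX
  have hq0 : ((qx X Y : ℂ) + I * qy X Y) ≠ 0 := by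
    intro h0
    rw [h0, zero_mul] at hq
    norm_num at hq
  simp only [cl_add_I_sl]
  have e : ∫ t in (0 : ℝ)..2 * π, (2 * (1 - I * (pl X Y s t : ℂ))⁻¹ - 1) =
      2 * (∫ t in (0 : ℝ)..2 * π, (1 - I * (pl X Y s t : ℂ))⁻¹) - (2 * π : ℂ) := by
    rw [intervalIntegral.integral_sub, intervalIntegral.integral_const_mul]
    · simp
    · exact ((continuous_inv_pl X Y s).const_smul (2 : ℂ)).intervalIntegrable _ _
    · exact continuous_const.intervalIntegrable _ _
  have hm' : (2 * π : ℂ)⁻¹ * ∫ t in (0 : ℝ)..2 * π, (1 - I * (pl X Y s t : ℂ))⁻¹ =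
      (qx X Y + I * qy X Y)⁻¹ := hm
  have hpi : (2 * π : ℂ) ≠ 0 := by
    have := Real.pi_ne_zero
    simp [this]
  rw [e, mul_sub, inv_mul_cancel₀ hpi, mul_left_comm, hm']
  field_simp
  linear_combination -hq

/-- splitting a complex-valued mean into real and imaginary parts -/
lemma split_mean {f g : ℝ → ℝ} (hf : Continuous f) (hg : Continuous g) {A B : ℝ}
    (h : (2 * π : ℂ)⁻¹ * ∫ t in (0 : ℝ)..2 * π, ((f t : ℂ) + I * g t) = A + I * B) :
    (2 * π)⁻¹ * ∫ t in (0 : ℝ)..2 * π, f t = A ∧ (2 * π)⁻¹ * ∫ t in (0 : ℝ)..2 * π, g t = B := by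
  have i1 : IntervalIntegrable (fun t => (f t : ℂ)) volume 0 (2 * π) :=
    (Complex.continuous_ofReal.comp hf).intervalIntegrable _ _
  have i2 : IntervalIntegrable (fun t => I * (g t : ℂ)) volume 0 (2 * π) :=
    (continuous_const.mul (Complex.continuous_ofReal.comp hg)).intervalIntegrable _ _
  rw [intervalIntegral.integral_add i1 i2, intervalIntegral.integral_const_mul,
    intervalIntegral.integral_ofReal, intervalIntegral.integral_ofReal] at h
  have h' : (((2 * π)⁻¹ * ∫ t in (0 : ℝ)..2 * π, f t : ℝ) : ℂ) +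
      I * (((2 * π)⁻¹ * ∫ t in (0 : ℝ)..2 * π, g t : ℝ) : ℂ) = A + I * B := by
    rw [← h]; push_cast; ring
  constructor
  · have := congrArg Complex.re h'
    simpa using this
  · have := congrArg Complex.im h'
    simpa using this

theorem mean_cl {X Y s : ℝ} (hX : -1 < X) (h : X ^ 2 + Y ^ 2 + s ^ 2 = 1) :
    (2 * π)⁻¹ * ∫ t in (0 : ℝ)..2 * π, cl X Y s t = X :=
  (split_mean (continuous_cl X Y s) (continuous_sl X Y s) (mean_complex hX h)).1

theorem mean_sl {X Y s : ℝ} (hX : -1 < X) (h : X ^ 2 + Y ^ 2 + s ^ 2 = 1) :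
    (2 * π)⁻¹ * ∫ t in (0 : ℝ)..2 * π, sl X Y s t = Y :=
  (split_mean (continuous_cl X Y s) (continuous_sl X Y s) (mean_complex hX h)).2

/-! ### second moments: `⟨e^{2iθ}⟩ = e2c + i e2s` -/








end Crest.Agent.R216.Loop
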