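import Crest.Agent.R216.EFinDefs
import Crest.Agent.R216.Par
import Crest.Agent.R216.MacDefs
import Crest.Agent.R216.EngBase

-- ▼ part R216/MacLoopA
section

/-!
# R216 / Theorem E, MACRO: Hadamard factorisation of an abstract loop family near amplitude zero.
-/

namespace Crest.Agent.R216.TE

open scoped ContDiff Topology
open Set Filter MeasureTheory

section hadamard

/-- points whose segment to amplitude zero stays in `O` -/
def segO (O : Set (X2 × ℝ)) : Set (X2 × ℝ) := {z | ∀ s ∈ Icc (0:ℝ) 1, (z.1, s * z.2) ∈ O}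

lemma isOpen_segO {O : Set (X2 × ℝ)} (hO : IsOpen O) : IsOpen (segO O) := by
  rw [isOpen_iff_mem_nhds]
  intro z hz
  have hcont : Continuous (fun p : (X2 × ℝ) × ℝ => ((p.1.1, p.2 * p.1.2) : X2 × ℝ)) := by fun_prop
  have hO' : IsOpen ((fun p : (X2 × ℝ) × ℝ => ((p.1.1, p.2 * p.1.2) : X2 × ℝ)) ⁻¹' O) :=
    hO.preimage hcont
  obtain ⟨u, v, hu, hv, hzu, hsv, huv⟩ := generalized_tube_lemma (s := {z})
    isCompact_singleton (isCompact_Icc (a := (0:ℝ)) (b := 1)) hO' (by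
      rintro ⟨z', s⟩ ⟨h1, h2⟩
      simp only [mem_singleton_iff] at h1
      subst h1
      exact hz s h2)
  filter_upwards [hu.mem_nhds (hzu rfl)] with z' hz' s hs
  exact huv (show (z', s) ∈ u ×ˢ v from ⟨hz', hsv hs⟩)



/-- the Hadamard quotient `H(x,α,t) = ∫₀¹ ∂_α W(x,sα,t) ds` -/
noncomputable def hadH (W : X2 × ℝ → ℝ → E4) (p : (X2 × ℝ) × ℝ) : E4 :=
  ∫ s in (0:ℝ)..1, fderiv ℝ (fun q : (X2 × ℝ) × ℝ => W q.1 q.2) ((p.1.1, s * p.1.2), p.2)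
    (((0, 0), 1), 0)

variable {O : Set (X2 × ℝ)} {W : X2 × ℝ → ℝ → E4}

lemma hadH_smooth (hO : IsOpen O)
    (hW : ContDiffOn ℝ ∞ (fun z : (X2 × ℝ) × ℝ => W z.1 z.2) (O ×ˢ univ)) :
    ContDiffOn ℝ ∞ (hadH W) (segO O ×ˢ univ) := by
  set g : ((X2 × ℝ) × ℝ) × ℝ → E4 := fun p =>
    fderiv ℝ (fun q : (X2 × ℝ) × ℝ => W q.1 q.2) ((p.1.1.1, p.2 * p.1.1.2), p.1.2)
      (((0, 0), 1), 0) with hg
  have hcont : Continuous (fun p : ((X2 × ℝ) × ℝ) × ℝ =>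
      (((p.1.1.1, p.2 * p.1.1.2), p.1.2) : (X2 × ℝ) × ℝ)) := by fun_prop
  have hcd : ContDiff ℝ ∞ (fun p : ((X2 × ℝ) × ℝ) × ℝ =>
      (((p.1.1.1, p.2 * p.1.1.2), p.1.2) : (X2 × ℝ) × ℝ)) := by fun_prop
  have hO2 : IsOpen (O ×ˢ (univ : Set ℝ)) := hO.prod isOpen_univ
  have hO3 : IsOpen ((fun p : ((X2 × ℝ) × ℝ) × ℝ =>
      (((p.1.1.1, p.2 * p.1.1.2), p.1.2) : (X2 × ℝ) × ℝ)) ⁻¹' (O ×ˢ univ)) := hO2.preimage hcont
  have h1 : ContDiffOn ℝ ∞ (fderiv ℝ (fun q : (X2 × ℝ) × ℝ => W q.1 q.2)) (O ×ˢ univ) :=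
    hW.fderiv_of_isOpen hO2 (by simp)
  have h2 : ContDiffOn ℝ ∞ g ((fun p : ((X2 × ℝ) × ℝ) × ℝ =>
      (((p.1.1.1, p.2 * p.1.1.2), p.1.2) : (X2 × ℝ) × ℝ)) ⁻¹' (O ×ˢ univ)) :=
    (h1.comp hcd.contDiffOn (fun p hp => hp)).clm_apply contDiffOn_const
  refine Par.contDiffOn_par (a := 0) (b := 1) ((isOpen_segO hO).prod isOpen_univ) hO3 ?_ h2
  rintro z ⟨hz, -⟩ s hs
  rw [uIcc_of_le zero_le_one] at hs
  exact ⟨hz s hs, mem_univ _⟩

lemma hadH_eq (hO : IsOpen O)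
    (hW : ContDiffOn ℝ ∞ (fun z : (X2 × ℝ) × ℝ => W z.1 z.2) (O ×ˢ univ)) {z : X2 × ℝ}
    (hz : z ∈ segO O) (t : ℝ) : W z t - W (z.1, 0) t = z.2 • hadH W (z, t) := by
  have hO2 : IsOpen (O ×ˢ (univ : Set ℝ)) := hO.prod isOpen_univ
  have h1 : ∀ s ∈ uIcc (0:ℝ) 1, HasDerivAt (fun s : ℝ => W (z.1, s * z.2) t)
      (z.2 • fderiv ℝ (fun q : (X2 × ℝ) × ℝ => W q.1 q.2) ((z.1, s * z.2), t)
        (((0, 0), 1), 0)) s := by
    intro s hs
    rw [uIcc_of_le zero_le_one] at hs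
    have hm : (((z.1, s * z.2), t) : (X2 × ℝ) × ℝ) ∈ O ×ˢ (univ : Set ℝ) := ⟨hz s hs, mem_univ _⟩
    have hd : HasFDerivAt (fun q : (X2 × ℝ) × ℝ => W q.1 q.2) _ ((z.1, s * z.2), t) :=
      ((hW.contDiffAt (hO2.mem_nhds hm)).differentiableAt (by simp)).hasFDerivAt
    have hc : HasDerivAt (fun s : ℝ => (((z.1, s * z.2), t) : (X2 × ℝ) × ℝ))
        (((0, z.2), 0)) s := by
      have e1 : HasDerivAt (fun s : ℝ => s * z.2) z.2 s := by
        simpa using (hasDerivAt_id s).mul_const z.2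
      exact ((hasDerivAt_const s z.1).prodMk e1).prodMk (hasDerivAt_const s t)
    have := hd.comp_hasDerivAt s hc
    have e : ((((0:X2), z.2), (0:ℝ)) : (X2 × ℝ) × ℝ) = z.2 • ((((0, 0), 1), 0) : (X2 × ℝ) × ℝ) := by
      ext <;> simp
    rw [e, map_smul] at this
    exact this
  have h2 : ContinuousOn (fun s : ℝ => z.2 • fderiv ℝ (fun q : (X2 × ℝ) × ℝ => W q.1 q.2)
      ((z.1, s * z.2), t) (((0, 0), 1), 0)) (uIcc (0:ℝ) 1) := by
    have h3 : ContinuousOn (fderiv ℝ (fun q : (X2 × ℝ) × ℝ => W q.1 q.2)) (O ×ˢ univ) :=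
      (hW.fderiv_of_isOpen hO2 (m := ∞) (by simp)).continuousOn
    have h4 : ContinuousOn (fun s : ℝ => fderiv ℝ (fun q : (X2 × ℝ) × ℝ => W q.1 q.2)
      ((z.1, s * z.2), t)) (uIcc (0:ℝ) 1) := by
      refine h3.comp (by fun_prop) ?_
      intro s hs
      rw [uIcc_of_le zero_le_one] at hs
      exact ⟨hz s hs, mem_univ _⟩
    have h6 : ContinuousOn (fun s : ℝ => fderiv ℝ (fun q : (X2 × ℝ) × ℝ => W q.1 q.2)
      ((z.1, s * z.2), t) (((0, 0), 1), 0)) (uIcc (0:ℝ) 1) := h4.clm_apply continuousOn_const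
    exact (continuousOn_const (c := z.2)).smul h6
  have h5 := intervalIntegral.integral_eq_sub_of_hasDerivAt h1 h2.intervalIntegrable
  rw [intervalIntegral.integral_smul] at h5
  rw [hadH, h5]
  simp

end hadamard

/-- at amplitude zero the loop is constant -/
lemma LoopX.at_zero {f : X2 → E4} {a : X2 → ℝ} {K : Set X2} {O : Set (X2 × ℝ)}
    {W : X2 × ℝ → ℝ → E4} (h : LoopX f a K O W) {x : X2} (hx : (x, (0:ℝ)) ∈ O) (t : ℝ) :
    W (x, 0) t = d1 f x := by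
  have hpi : (0:ℝ) < 2 * Real.pi := by positivity
  have hcont : Continuous (fun t => W (x, 0) t) := by
    have h1 : ContinuousOn (fun z : (X2 × ℝ) × ℝ => W z.1 z.2) (O ×ˢ univ) := h.smooth.continuousOn
    have h2 : Continuous (fun t : ℝ => (((x, (0:ℝ)), t) : (X2 × ℝ) × ℝ)) := by fun_prop
    exact h1.comp_continuous h2 (fun t => ⟨hx, mem_univ _⟩)
  set A := d1 f x with hA
  have hmean : ∫ s in (0:ℝ)..(2 * Real.pi), W (x, 0) s = (2 * Real.pi) • A := h.mean _ hx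
  have hI : ∫ s in (0:ℝ)..(2 * Real.pi), ‖W (x, 0) s - A‖ ^ 2 = 0 := by
    have e1 : ∀ s, ‖W (x, 0) s - A‖ ^ 2 = 2 * inner ℝ A A - 2 * inner ℝ A (W (x, 0) s) := by
      intro s
      have hn := h.norm (x, 0) hx s
      have : ‖W (x, 0) s - A‖ ^ 2 = inner ℝ (W (x, 0) s - A) (W (x, 0) s - A) :=
        (real_inner_self_eq_norm_sq _).symm
      rw [this, inner_sub_left, inner_sub_right, inner_sub_right, hn,
        real_inner_comm A (W (x, 0) s)]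
      simp only
      ring
    simp only [e1]
    rw [intervalIntegral.integral_sub (by simp)
      ((continuous_const.inner hcont).const_mul 2 |>.intervalIntegrable _ _)]
    rw [intervalIntegral.integral_const, intervalIntegral.integral_const_mul]
    have e2 : ∫ s in (0:ℝ)..(2 * Real.pi), (inner ℝ A (W (x, 0) s) : ℝ) =
        inner ℝ A (∫ s in (0:ℝ)..(2 * Real.pi), W (x, 0) s) := by
      have := ContinuousLinearMap.intervalIntegral_comp_comm (innerSL ℝ A)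
        (hcont.intervalIntegrable (μ := volume) 0 (2 * Real.pi))
      simpa using this
    rw [e2, hmean, inner_smul_right]
    simp only [sub_zero, smul_eq_mul]
    ring
  have hcs : Continuous (fun s => ‖W (x, 0) s - A‖ ^ 2) := by fun_prop
  have hz : ∀ s ∈ Icc (0:ℝ) (2 * Real.pi), ‖W (x, 0) s - A‖ ^ 2 = 0 := by
    intro s hs
    by_contra hne
    have hpos : 0 < ∫ s in (0:ℝ)..(2 * Real.pi), ‖W (x, 0) s - A‖ ^ 2 := by
      refine intervalIntegral.integral_pos hpi hcs.continuousOn (fun s _ => by positivity) ?_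
      exact ⟨s, hs, lt_of_le_of_ne (by positivity) (Ne.symm hne)⟩
    linarith
  -- periodicity
  obtain ⟨s, hs, hst⟩ : ∃ s ∈ Ico (0:ℝ) (0 + 2 * Real.pi), W (x, 0) t = W (x, 0) s :=
    Function.Periodic.exists_mem_Ico (f := fun t => W (x, 0) t) (fun t => h.per _ hx t) hpi t 0
  rw [hst]
  have := hz s ⟨hs.1, by linarith [hs.2]⟩
  have h0 : ‖W (x, 0) s - A‖ = 0 := by simpa using this
  exact sub_eq_zero.1 (norm_eq_zero.1 h0)

end Crest.Agent.R216.TE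
end

-- ▼ part R216/ClsComp
section

/-!
# Row 216: class calculus, composition with fixed smooth maps, restriction, reindexing.
-/

open Set Topology
open scoped ContDiff

set_option linter.unusedSectionVars false

namespace Crest.Agent.R216.TE

universe u

namespace Fam
variable {𝓕 : Fam}

/-! ### composition -/
section comp
variable {Y : Type} [NormedAddCommGroup Y] [NormedSpace ℝ Y]

lemma Sm.comp {V : Type*} [NormedAddCommGroup V] [NormedSpace ℝ V] {S : Set Y} {G : Y → V}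
    (hG : ContDiffOn ℝ ∞ G S) {Φ : 𝓕.I → Q → Y} (hs : 𝓕.Sm Φ)
    (hmap : ∀ i, ∀ z ∈ 𝓕.dom i, Φ i z ∈ S) : 𝓕.Sm (fun i z => G (Φ i z)) :=
  fun i => hG.comp (hs i) (hmap i)

lemma Bk.comp {S : Set Y} (hS : IsOpen S) {S' : Set Y} (hS' : S' ⊆ S)
    {Φ : 𝓕.I → Q → Y} (hs : 𝓕.Sm Φ) (hmap : ∀ i, ∀ z ∈ 𝓕.dom i, Φ i z ∈ S')
    (hΦ : ∀ j, 𝓕.B (fun i _ => 𝓕.Lam i) (fun i => Crest.Agent.R216.TE.pd j (Φ i))) (k : ℕ) :
    ∀ {V : Type u} [NormedAddCommGroup V] [NormedSpace ℝ V] {G : Y → V},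
      ContDiffOn ℝ ∞ G S → (∀ k, ∃ C, ∀ y ∈ S', ‖iteratedFDeriv ℝ k G y‖ ≤ C) →
      𝓕.Bk k (fun _ _ => 1) (fun i z => G (Φ i z)) := by
  have hsz : ∀ {V : Type u} [NormedAddCommGroup V] [NormedSpace ℝ V] {G : Y → V},
      (∀ k, ∃ C, ∀ y ∈ S', ‖iteratedFDeriv ℝ k G y‖ ≤ C) →
      𝓕.Sz (fun _ _ => 1) (fun i z => G (Φ i z)) := by
    intro V _ _ G hb
    obtain ⟨C, hC⟩ := hb 0
    refine ⟨|C| + 1, by positivity, fun i z hz => ?_⟩
    have := hC _ (hmap i z hz)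
    rw [norm_iteratedFDeriv_zero] at this
    rw [mul_one]
    exact this.trans ((le_abs_self C).trans (by linarith))
  induction k with
  | zero => intro V _ _ G _ hb; exact hsz hb
  | succ k ih =>
    intro V _ _ G hG hb
    refine ⟨hsz hb, fun j => ?_⟩
    have hG' : ContDiffOn ℝ ∞ (fderiv ℝ G) S := hG.fderiv_of_isOpen hS (by simp)
    have hb' : ∀ k, ∃ C, ∀ y ∈ S', ‖iteratedFDeriv ℝ k (fderiv ℝ G) y‖ ≤ C := by
      intro k
      obtain ⟨C, hC⟩ := hb (k + 1)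
      exact ⟨C, fun y hy => by rw [norm_iteratedFDeriv_fderiv]; exact hC y hy⟩
    have h1 := ih hG' hb'
    have s1 : 𝓕.Sm (fun i z => fderiv ℝ G (Φ i z)) :=
      Sm.comp hG' hs (fun i z hz => hS' (hmap i z hz))
    have h2 := Bk.bilin (ContinuousLinearMap.id ℝ (Y →L[ℝ] V)) s1 (hΦ j).smooth
      (fun i x _ => zero_le_one) (fun i x _ => (Lam_pos i).le) h1 ((hΦ j).bound k)
    refine (h2.mono one_pos (w' := fun i _ => 𝓕.Lam i * 1)
      (fun i x _ => by simp)).congr (fun i z hz => ?_)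
    have d1 := diffAt (𝓕.isOpen_dom i) (hs i) hz
    have hmem := hS' (hmap i z hz)
    have d2 : HasFDerivAt G (fderiv ℝ G (Φ i z)) (Φ i z) :=
      ((hG.contDiffAt (hS.mem_nhds hmem)).differentiableAt (by simp)).hasFDerivAt
    show _ = fderiv ℝ (fun z => G (Φ i z)) z (bas j)
    have := (d2.comp z d1.hasFDerivAt).fderiv
    have e : fderiv ℝ (fun z => G (Φ i z)) z = _ := this
    rw [e]
    rfl

/-- composition with a fixed smooth map all of whose derivatives are bounded on `S'` -/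
lemma B.comp {V : Type u} [NormedAddCommGroup V] [NormedSpace ℝ V] {G : Y → V} {O' S' : Set Y}
    (hO : IsOpen O') (hS : S' ⊆ O') (hG : ContDiffOn ℝ ∞ G O')
    (hb : ∀ k : ℕ, ∃ C : ℝ, ∀ y ∈ S', ‖iteratedFDeriv ℝ k G y‖ ≤ C)
    {Φ : 𝓕.I → Q → Y} (hΦ : 𝓕.Sm Φ)
    (hd : ∀ j, 𝓕.B (fun i _ => 𝓕.Lam i) (fun i => Crest.Agent.R216.TE.pd j (Φ i)))
    (hr : ∀ i, ∀ z ∈ 𝓕.dom i, Φ i z ∈ S') :
    𝓕.B (fun _ _ => 1) (fun i z => G (Φ i z)) :=
  ⟨Sm.comp hG hΦ (fun i z hz => hS (hr i z hz)), fun k => Bk.comp hO hS hΦ hr hd k hG hb⟩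

/-- all derivatives of a smooth function are bounded on compact sets -/
lemma bdd_of_compact {V : Type*} [NormedAddCommGroup V] [NormedSpace ℝ V] {S : Set Y}
    (hS : IsOpen S) {G : Y → V} (hG : ContDiffOn ℝ ∞ G S) {K : Set Y} (hK : IsCompact K)
    (hKS : K ⊆ S) (k : ℕ) : ∃ C, ∀ y ∈ K, ‖iteratedFDeriv ℝ k G y‖ ≤ C := by
  have h1 : ContinuousOn (iteratedFDeriv ℝ k G) S :=
    (hG.continuousOn_iteratedFDerivWithin (m := k) (by exact_mod_cast le_top)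
      hS.uniqueDiffOn).congr (fun y hy => (iteratedFDerivWithin_of_isOpen k hS hy).symm)
  exact hK.exists_bound_of_continuousOn (h1.mono hKS)

/-- composition, values in a compact set -/
lemma B.comp_compact {V : Type u} [NormedAddCommGroup V] [NormedSpace ℝ V] {S : Set Y}
    (hS : IsOpen S) {G : Y → V} (hG : ContDiffOn ℝ ∞ G S) {K : Set Y} (hK : IsCompact K)
    (hKS : K ⊆ S) {Φ : 𝓕.I → Q → Y} (hs : 𝓕.Sm Φ) (hmap : ∀ i, ∀ z ∈ 𝓕.dom i, Φ i z ∈ K)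
    (hΦ : ∀ j, 𝓕.B (fun i _ => 𝓕.Lam i) (fun i => Crest.Agent.R216.TE.pd j (Φ i))) :
    𝓕.B (fun _ _ => 1) (fun i z => G (Φ i z)) :=
  B.comp hS hKS hG (bdd_of_compact hS hG hK hKS) hs hΦ hmap



end comp

/-! ### basic maps with bounded derivatives -/
section basic

/-- the derivatives of a continuous linear map composed with `z ↦ z` -/
lemma pd_clm {V : Type*} [NormedAddCommGroup V] [NormedSpace ℝ V] (L : Q →L[ℝ] V) (j : Fin 3) :
    pd j (fun z => L z) = fun _ => L (bas j) := by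
  funext z
  show fderiv ℝ (fun z => L z) z (bas j) = _
  rw [ContinuousLinearMap.fderiv]

/-- the derivative of a continuous linear map is in `B Λ` -/
lemma B_pd_clm {V : Type*} [NormedAddCommGroup V] [NormedSpace ℝ V] (L : Q →L[ℝ] V) (j : Fin 3) :
    𝓕.B (fun i _ => 𝓕.Lam i) (fun _ => pd j (fun z => L z)) := by
  simp only [pd_clm]
  refine B.const (fun _ => L (bas j)) ⟨‖L (bas j)‖ + 1, by positivity, fun i x _ => ?_⟩
    (fun i x _ => (Lam_pos i).le)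
  have h1 := 𝓕.one_le i
  have h2 : 0 ≤ ‖L (bas j)‖ := norm_nonneg _
  nlinarith

/-- a fixed function of `x`, smooth near a compact set containing all `D i` -/
lemma B_lift_fixed {V : Type u} [NormedAddCommGroup V] [NormedSpace ℝ V] {S : Set X2}
    (hS : IsOpen S) {v : X2 → V} (hv : ContDiffOn ℝ ∞ v S) {K : Set X2} (hK : IsCompact K)
    (hKS : K ⊆ S) (hD : ∀ i, 𝓕.D i ⊆ K) :
    𝓕.B (fun _ _ => 1) (fun _ z => v z.1) :=
  B.comp_compact hS hv hK hKS (Φ := fun _ z => z.1) (fun i => contDiffOn_fst)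
    (fun i z hz => hD i hz)
    (fun j => B_pd_clm (ContinuousLinearMap.fst ℝ X2 ℝ) j)


/-- like `B.lift_fixed`, for functions smooth near a compact set only -/
lemma B.lift_fixedOn {V : Type*} [NormedAddCommGroup V] [NormedSpace ℝ V] {S O1 : Set X2}
    (hS : IsCompact S) (hO : IsOpen O1) (hSO : S ⊆ O1) (hD : ∀ i, 𝓕.D i ⊆ S) {h : X2 → V}
    (hh : ContDiffOn ℝ ∞ h O1) :
    𝓕.B (fun _ _ => 1) (fun _ => lift h) ∧
    ∀ j, 𝓕.B (fun _ _ => 1) (fun _ => Crest.Agent.R216.TE.pd j (lift h)) := by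
  refine ⟨B_lift_fixed hO hh hS hSO hD, fun j => ?_⟩
  have h1 : ContDiffOn ℝ ∞ (fun x => fderiv ℝ h x (bas j).1) O1 :=
    (hh.fderiv_of_isOpen hO (by simp)).clm_apply contDiffOn_const
  refine (B_lift_fixed (𝓕 := 𝓕) hO h1 hS hSO hD).congr (fun i z hz => ?_)
  have hz1 : z.1 ∈ O1 := hSO (hD i hz)
  have h2 : HasFDerivAt h (fderiv ℝ h z.1) z.1 :=
    ((hh.contDiffAt (hO.mem_nhds hz1)).differentiableAt (by simp)).hasFDerivAt
  have h3 := h2.comp z (hasFDerivAt_fst (𝕜 := ℝ) (p := z))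
  have h4 : fderiv ℝ (lift h) z = _ := h3.fderiv
  show _ = fderiv ℝ (lift h) z (bas j)
  rw [h4]
  rfl

end basic

/-! ### restriction -/
section sub

/-- restriction to open sets (same parameters, same cost) -/
def sub (𝓕 : Fam) (D' : 𝓕.I → Set X2) (hD' : ∀ i, IsOpen (D' i)) : Fam where
  I := 𝓕.I
  D := D'
  isOpen := hD'
  Lam := 𝓕.Lam
  one_le := 𝓕.one_le

variable {V : Type*} [NormedAddCommGroup V] [NormedSpace ℝ V]

lemma Sz.sub {w : 𝓕.I → X2 → ℝ} {u : 𝓕.I → Q → V} {D' : 𝓕.I → Set X2}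
    (hD' : ∀ i, IsOpen (D' i)) (h : 𝓕.Sz w u) (hs : ∀ i, D' i ⊆ 𝓕.D i) :
    (𝓕.sub D' hD').Sz w u := by
  obtain ⟨C, hC, h⟩ := h
  exact ⟨C, hC, fun i z hz => h i z (hs i hz)⟩

lemma Bk.sub {k : ℕ} : ∀ {w : 𝓕.I → X2 → ℝ} {u : 𝓕.I → Q → V} {D' : 𝓕.I → Set X2}
    (hD' : ∀ i, IsOpen (D' i)), 𝓕.Bk k w u → (∀ i, D' i ⊆ 𝓕.D i) →
    (𝓕.sub D' hD').Bk k w u := by
  induction k with
  | zero => intro w u D' hD' h hs; exact Sz.sub hD' h hs
  | succ k ih => intro w u D' hD' h hs; exact ⟨Sz.sub hD' h.1 hs, fun j => ih hD' (h.2 j) hs⟩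

lemma B.sub_of {w : 𝓕.I → X2 → ℝ} {u : 𝓕.I → Q → V} {D' : 𝓕.I → Set X2}
    (hD' : ∀ i, IsOpen (D' i)) (h : 𝓕.B w u) (hs : ∀ i, D' i ⊆ 𝓕.D i) :
    (𝓕.sub D' hD').B w u :=
  ⟨fun i => (h.smooth i).mono (fun _ hz => hs i hz), fun k => (h.bound k).sub hD' hs⟩

/-- a finite cover -/
lemma Sz.of_coverN {n : ℕ} {w : 𝓕.I → X2 → ℝ} {u : 𝓕.I → Q → V} {D' : Fin n → 𝓕.I → Set X2}
    (hD' : ∀ m i, IsOpen (D' m i)) (hw : Nn w) (hc : ∀ i, 𝓕.D i ⊆ ⋃ m, D' m i)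
    (h : ∀ m, (𝓕.sub (D' m) (hD' m)).Sz w u) : 𝓕.Sz w u := by
  choose C hC h using h
  refine ⟨1 + ∑ m, C m, ?_, fun i z hz => ?_⟩
  · have : 0 ≤ ∑ m, C m := Finset.sum_nonneg (fun m _ => (hC m).le)
    linarith
  · obtain ⟨m, hm⟩ := mem_iUnion.1 (hc i hz)
    have h1 := h m i z hm
    have h2 : C m ≤ 1 + ∑ m, C m := by
      have : C m ≤ ∑ m, C m := Finset.single_le_sum (fun m _ => (hC m).le) (Finset.mem_univ m)
      linarith
    exact h1.trans (mul_le_mul_of_nonneg_right h2 (hw i z.1 hz))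

lemma Bk.of_coverN {n : ℕ} {k : ℕ} : ∀ {w : 𝓕.I → X2 → ℝ} {u : 𝓕.I → Q → V}
    {D' : Fin n → 𝓕.I → Set X2} (hD' : ∀ m i, IsOpen (D' m i)), Nn w →
    (∀ i, 𝓕.D i ⊆ ⋃ m, D' m i) →
    (∀ m, (𝓕.sub (D' m) (hD' m)).Bk k w u) → 𝓕.Bk k w u := by
  induction k with
  | zero => intro w u D' hD' hw hc h; exact Sz.of_coverN hD' hw hc h
  | succ k ih =>
    intro w u D' hD' hw hc h
    exact ⟨Sz.of_coverN hD' hw hc (fun m => (h m).1),
      fun j => ih hD' (fun i x hx => mul_nonneg (Lam_pos i).le (hw i x hx)) hc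
        (fun m => (h m).2 j)⟩

lemma B.of_coverN {n : ℕ} {w : 𝓕.I → X2 → ℝ} {u : 𝓕.I → Q → V}
    {D' : Fin n → 𝓕.I → Set X2} (hD' : ∀ m i, IsOpen (D' m i)) (hw : Nn w)
    (hc : ∀ i, 𝓕.D i ⊆ ⋃ m, D' m i)
    (h : ∀ m, (𝓕.sub (D' m) (hD' m)).B w u) : 𝓕.B w u := by
  refine ⟨fun i z hz => ?_, fun k => Bk.of_coverN hD' hw hc (fun m => (h m).bound k)⟩
  obtain ⟨m, hm⟩ := mem_iUnion.1 (hc i hz)
  have h1 := (h m).smooth i
  have h2 : ContDiffAt ℝ ∞ (u i) z :=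
    h1.contDiffAt (((𝓕.sub (D' m) (hD' m)).isOpen_dom i).mem_nhds hm)
  exact h2.contDiffWithinAt

/-- finite cover, two pieces -/
lemma B.of_cover_two {w : 𝓕.I → X2 → ℝ} {u : 𝓕.I → Q → V}
    {D1 D2 : 𝓕.I → Set X2} (h1 : ∀ i, IsOpen (D1 i)) (h2 : ∀ i, IsOpen (D2 i)) (hw : Nn w)
    (hc : ∀ i, 𝓕.D i ⊆ D1 i ∪ D2 i)
    (hu1 : (𝓕.sub D1 h1).B w u) (hu2 : (𝓕.sub D2 h2).B w u) : 𝓕.B w u := by
  refine B.of_coverN (n := 2) (D' := ![D1, D2])
    (Fin.forall_fin_two.2 ⟨h1, h2⟩) hw (fun i x hx => ?_) (Fin.forall_fin_two.2 ⟨hu1, hu2⟩)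
  rcases hc i hx with h | h
  · exact mem_iUnion.2 ⟨0, h⟩
  · exact mem_iUnion.2 ⟨1, h⟩

/-- restriction -/
lemma B.restrict {w : 𝓕.I → X2 → ℝ}
    {v : 𝓕.I → Q → V} (h : 𝓕.B w v) (U : 𝓕.I → Set X2) (hU : ∀ i, IsOpen (U i)) :
    (𝓕.restrict U hU).B w v :=
  B.sub_of (D' := fun i => 𝓕.D i ∩ U i) (fun i => (𝓕.isOpen i).inter (hU i)) h
    (fun _ => inter_subset_left)

lemma B.of_cover {w : 𝓕.I → X2 → ℝ}
    {v : 𝓕.I → Q → V} (hw : Nn w) {U1 U2 : 𝓕.I → Set X2} (hU1 : ∀ i, IsOpen (U1 i))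
    (hU2 : ∀ i, IsOpen (U2 i)) (hcov : ∀ i, 𝓕.D i ⊆ U1 i ∪ U2 i)
    (h1 : (𝓕.restrict U1 hU1).B w v) (h2 : (𝓕.restrict U2 hU2).B w v) : 𝓕.B w v :=
  B.of_cover_two (D1 := fun i => 𝓕.D i ∩ U1 i) (D2 := fun i => 𝓕.D i ∩ U2 i)
    (fun i => (𝓕.isOpen i).inter (hU1 i)) (fun i => (𝓕.isOpen i).inter (hU2 i)) hw
    (fun i x hx => (hcov i hx).elim (fun h => Or.inl ⟨hx, h⟩) (fun h => Or.inr ⟨hx, h⟩)) h1 h2

end sub

/-! ### reindexing -/
section reindex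

/-- reindexing of the parameters -/
def reindex (𝓕 : Fam) {J : Type} (φ : J → 𝓕.I) : Fam where
  I := J
  D := fun j => 𝓕.D (φ j)
  isOpen := fun j => 𝓕.isOpen _
  Lam := fun j => 𝓕.Lam (φ j)
  one_le := fun j => 𝓕.one_le _

variable {V : Type*} [NormedAddCommGroup V] [NormedSpace ℝ V]

lemma Sz.reindex {J : Type} (φ : J → 𝓕.I) {w : 𝓕.I → X2 → ℝ} {u : 𝓕.I → Q → V}
    (h : 𝓕.Sz w u) : (𝓕.reindex φ).Sz (fun j => w (φ j)) (fun j => u (φ j)) := by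
  obtain ⟨C, hC, h⟩ := h
  exact ⟨C, hC, fun i z hz => h _ z hz⟩

lemma Bk.reindex {J : Type} (φ : J → 𝓕.I) {k : ℕ} : ∀ {w : 𝓕.I → X2 → ℝ}
    {u : 𝓕.I → Q → V}, 𝓕.Bk k w u →
    (𝓕.reindex φ).Bk k (fun j => w (φ j)) (fun j => u (φ j)) := by
  induction k with
  | zero => intro w u h; exact Sz.reindex φ h
  | succ k ih => intro w u h; exact ⟨Sz.reindex φ h.1, fun j => ih (h.2 j)⟩

lemma B.reindex {J : Type} (φ : J → 𝓕.I) {w : 𝓕.I → X2 → ℝ} {u : 𝓕.I → Q → V}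
    (h : 𝓕.B w u) : (𝓕.reindex φ).B (fun j => w (φ j)) (fun j => u (φ j)) :=
  ⟨fun i => h.smooth _, fun k => (h.bound k).reindex φ⟩

end reindex

/-! ### change of the cost -/
section cost


variable {V : Type*} [NormedAddCommGroup V] [NormedSpace ℝ V]



end cost

end Fam

end Crest.Agent.R216.TE
end

-- ▼ part R216/MacLoop

/-!
# Row 216, Theorem E, MAC-3: the loops over a family with amplitude close to `ampX u β` are of
class `B(a)` (helper961).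
-/

namespace Crest.Agent.R216.TE

open scoped ContDiff Topology
open Set Filter MeasureTheory

namespace ML

/-! ### bounds of periodic functions -/

section per
variable {V : Type*} [NormedAddCommGroup V] [NormedSpace ℝ V] {O' : Set (X2 × ℝ)}
  {G : (X2 × ℝ) × ℝ → V}

lemma iter_per (hO : IsOpen O') (hp : ∀ z ∈ O', ∀ t, G (z, t + 2 * Real.pi) = G (z, t)) (k : ℕ)
    {z : X2 × ℝ} (hz : z ∈ O') (t : ℝ) :
    iteratedFDeriv ℝ k G (z, t + 2 * Real.pi) = iteratedFDeriv ℝ k G (z, t) := by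
  have h1 : (fun p : (X2 × ℝ) × ℝ => G (p + (0, 2 * Real.pi))) =ᶠ[𝓝 (z, t)] G := by
    have : O' ×ˢ (univ : Set ℝ) ∈ 𝓝 (z, t) := (hO.prod isOpen_univ).mem_nhds ⟨hz, mem_univ _⟩
    filter_upwards [this] with p hp'
    have := hp p.1 hp'.1 p.2
    simpa [Prod.add_def] using this
  have h2 := (h1.iteratedFDeriv ℝ k).self_of_nhds
  rw [← h2, iteratedFDeriv_comp_add_right]
  simp

lemma bdd_of_per (hO : IsOpen O') (hG : ContDiffOn ℝ ∞ G (O' ×ˢ univ))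
    (hp : ∀ z ∈ O', ∀ t, G (z, t + 2 * Real.pi) = G (z, t)) {S : Set (X2 × ℝ)} (hS : IsCompact S)
    (hSO : S ⊆ O') (k : ℕ) :
    ∃ C : ℝ, ∀ y ∈ S ×ˢ (univ : Set ℝ), ‖iteratedFDeriv ℝ k G y‖ ≤ C := by
  have hO2 : IsOpen (O' ×ˢ (univ : Set ℝ)) := hO.prod isOpen_univ
  have hcont : ContinuousOn (iteratedFDeriv ℝ k G) (O' ×ˢ univ) := by
    have h1 := hG.continuousOn_iteratedFDerivWithin (m := k) (by exact_mod_cast le_top)
      hO2.uniqueDiffOn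
    refine h1.congr (fun z hz => ?_)
    exact (iteratedFDerivWithin_of_isOpen k hO2 hz).symm
  have hK : IsCompact (S ×ˢ Icc (0:ℝ) (2 * Real.pi)) := hS.prod isCompact_Icc
  obtain ⟨C, hC⟩ := hK.exists_bound_of_continuousOn
    (hcont.mono (prod_mono hSO (subset_univ _)))
  refine ⟨C, ?_⟩
  rintro ⟨z, t⟩ ⟨hz, -⟩
  have hpi : (0:ℝ) < 2 * Real.pi := by positivity
  obtain ⟨s, hs, hst⟩ : ∃ s ∈ Ico (0:ℝ) (0 + 2 * Real.pi),
      iteratedFDeriv ℝ k G (z, t) = iteratedFDeriv ℝ k G (z, s) :=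
    Function.Periodic.exists_mem_Ico (f := fun t => iteratedFDeriv ℝ k G (z, t))
      (fun t => iter_per hO hp k (hSO hz) t) hpi t 0
  rw [hst]
  exact hC _ ⟨hz, hs.1, by linarith [hs.2]⟩

end per

variable {f : X2 → E4} {u β : X2 → ℝ} {O : Set (X2 × ℝ)} {W : X2 × ℝ → ℝ → E4}

lemma ampX_cont (h : AmpHyp u β) : Continuous (ampX u β) := by
  unfold ampX
  exact ((expNegInvGlue.contDiff (n := 0)).continuous.comp h.hu.continuous).mul h.hβ.continuous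

lemma ampX_nonneg (h : AmpHyp u β) (x : X2) : 0 ≤ ampX u β x :=
  mul_nonneg (expNegInvGlue.nonneg _) (h.pos x).le

/-- a uniform tube around the graph of `ampX` -/
lemma exists_tube (hO : IsOpen O) {K : Set X2} (hK : IsCompact K) {A : X2 → ℝ}
    (hA : Continuous A) (hm : ∀ x ∈ K, (x, A x) ∈ O) :
    ∃ r : ℝ, 0 < r ∧ ∀ x ∈ K, ∀ α, |α - A x| ≤ r → (x, α) ∈ O := by
  have hC : IsCompact ((fun x => ((x, A x) : X2 × ℝ)) '' K) := hK.image (by fun_prop)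
  have hsub : (fun x => ((x, A x) : X2 × ℝ)) '' K ⊆ O := by
    rintro _ ⟨x, hx, rfl⟩; exact hm x hx
  obtain ⟨δ, hδ, h⟩ := hC.exists_cthickening_subset_open hO hsub
  refine ⟨δ, hδ, fun x hx α hα => h ?_⟩
  refine Metric.mem_cthickening_of_dist_le (x, α) (x, A x) δ _ ⟨x, hx, rfl⟩ ?_
  rw [Prod.dist_eq, dist_self, Real.dist_eq]
  exact max_le hδ.le hα

/-- a uniform box around amplitude zero -/
lemma exists_box (hO : IsOpen O) {K : Set X2} (hK : IsCompact K) {A : X2 → ℝ}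
    (hA : Continuous A) (hA0 : ∀ x, 0 ≤ A x) (hm : ∀ x ∈ K, (x, A x) ∈ O) :
    ∃ r : ℝ, 0 < r ∧ ∀ x ∈ K, A x ≤ r → ∀ α, |α| ≤ 2 * r → (x, α) ∈ O := by
  obtain ⟨r, hr, h⟩ := exists_tube hO hK hA hm
  refine ⟨r / 3, by positivity, fun x hx hAx α hα => h x hx α ?_⟩
  have h1 := abs_sub α (A x)
  rw [abs_of_nonneg (hA0 x)] at h1
  linarith

/-- the map `(x,t) ↦ ((x, a x), t)` -/
noncomputable def phi (a : X2 → ℝ) (z : Q) : (X2 × ℝ) × ℝ := ((z.1, a z.1), z.2)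

/-- linear parts of `phi` -/
noncomputable def L0 : Q →L[ℝ] (X2 × ℝ) × ℝ :=
  ((ContinuousLinearMap.inl ℝ X2 ℝ).comp (ContinuousLinearMap.fst ℝ X2 ℝ)).prod
    (ContinuousLinearMap.snd ℝ X2 ℝ)
noncomputable def L1 : ℝ →L[ℝ] (X2 × ℝ) × ℝ :=
  (ContinuousLinearMap.inl ℝ (X2 × ℝ) ℝ).comp (ContinuousLinearMap.inr ℝ X2 ℝ)

lemma phi_eq (a : X2 → ℝ) : phi a = fun z => L0 z + L1 (lift a z) := by
  funext z
  simp [phi, L0, L1, lift]

lemma pd_phi {a : X2 → ℝ} {z : Q} (ha : DifferentiableAt ℝ (lift a) z) (j : Fin 3) :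
    pd j (phi a) z = L0 (bas j) + L1 (pd j (lift a) z) := by
  rw [phi_eq]
  unfold pd
  have h1 : HasFDerivAt (fun z => L0 z + L1 (lift a z)) (L0 + L1.comp (fderiv ℝ (lift a) z)) z :=
    L0.hasFDerivAt.add (L1.hasFDerivAt.comp z ha.hasFDerivAt)
  rw [h1.fderiv]
  rfl

variable (𝓔 : EFam)

lemma a_smooth : 𝓔.toFam.Sm (fun i => lift (𝓔.a i)) := 𝓔.a_B.smooth

lemma phi_smooth : 𝓔.toFam.Sm (fun i => phi (𝓔.a i)) := by
  intro i
  have h := a_smooth 𝓔 i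
  show ContDiffOn ℝ ∞ (phi (𝓔.a i)) _
  rw [phi_eq]
  exact L0.contDiff.contDiffOn.add (L1.contDiff.comp_contDiffOn h)

lemma phi_pd (j : Fin 3) : 𝓔.toFam.B (fun i _ => 𝓔.Lam i)
    (fun i => Crest.Agent.R216.TE.pd j (phi (𝓔.a i))) := by
  obtain ⟨C, hC, haC⟩ := 𝓔.a_le
  have h1 : 𝓔.toFam.B (fun i x => 𝓔.Lam i * 𝓔.a i x)
      (fun i => Crest.Agent.R216.TE.pd j (lift (𝓔.a i))) := 𝓔.a_B.pd j
  have hnn : ∀ i, ∀ x ∈ 𝓔.D i, 0 ≤ 𝓔.Lam i := fun i x _ => (zero_le_one).trans (𝓔.one_le i)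
  have h2 : 𝓔.toFam.B (fun i _ => 𝓔.Lam i)
      (fun i => Crest.Agent.R216.TE.pd j (lift (𝓔.a i))) :=
    h1.mono hC (fun i x hx => by
      have := haC i x hx
      have h3 := hnn i x hx
      nlinarith)
  have h3 := h2.clm L1 hnn
  have h4 : 𝓔.toFam.B (fun i _ => 𝓔.Lam i) (fun _ _ => L0 (bas j)) :=
    (EFam.B_const (𝓔 := 𝓔) (L0 (bas j))).le (fun i x _ => by
      simpa [EFam.W] using 𝓔.one_le i)
  refine (h4.add h3).congr (fun i z hz => ?_)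
  have hd : DifferentiableAt ℝ (lift (𝓔.a i)) z :=
    ((a_smooth 𝓔 i).contDiffAt ((𝓔.toFam.isOpen_dom i).mem_nhds hz)).differentiableAt (by simp)
  exact (pd_phi hd j).symm

end ML

open ML

section
variable {f : X2 → E4} {u β : X2 → ℝ} {O : Set (X2 × ℝ)} {W : X2 × ℝ → ℝ → E4}

/-- the loops over a family with amplitude close to `ampX u β` are of class `B(a)`. -/
theorem mac_loop (h : MacHyp f u β O W) : ∃ r : ℝ, 0 < r ∧ ∀ 𝓔 : EFam,
    (∀ i, 𝓔.D i ⊆ {x | 0 < u x}) →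
    (∀ i, ∀ x ∈ 𝓔.D i, |𝓔.a i x - ampX u β x| ≤ r) →
    𝓔.toFam.B (𝓔.W 1 0 0) (fun i z => W (z.1, 𝓔.a i z.1) z.2 - d1 f z.1) := by
  set K := closure {x | 0 < u x} with hKdef
  have hK : IsCompact K := h.ha.cpt
  set A := ampX u β with hAdef
  have hAc : Continuous A := ampX_cont h.ha
  have hA0 : ∀ x, 0 ≤ A x := ampX_nonneg h.ha
  have hO := h.hW.isOpen
  obtain ⟨r1, hr1, ht⟩ := exists_tube hO hK hAc h.hW.mem
  obtain ⟨r0, hr0, hb⟩ := exists_box hO hK hAc hA0 h.hW.mem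
  have hd1f : ContDiff ℝ ∞ (d1 f) := by
    unfold d1
    exact (h.hf.fderiv_right (m := ∞) (by simp)).clm_apply contDiff_const
  refine ⟨min r1 (r0 / 4), by positivity, fun 𝓔 hD ha => ?_⟩
  have hDK : ∀ i, 𝓔.D i ⊆ K := fun i => (hD i).trans subset_closure
  set U1 : 𝓔.I → Set X2 := fun _ => {x | A x < r0} with hU1
  set U2 : 𝓔.I → Set X2 := fun _ => {x | r0 / 2 < A x} with hU2
  have hU1o : ∀ i, IsOpen (U1 i) := fun _ => isOpen_lt hAc continuous_const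
  have hU2o : ∀ i, IsOpen (U2 i) := fun _ => isOpen_lt continuous_const hAc
  have hcov : ∀ i, 𝓔.toFam.D i ⊆ U1 i ∪ U2 i := by
    intro i x _
    rcases lt_or_ge (A x) r0 with h1 | h1
    · exact Or.inl h1
    · exact Or.inr (show r0 / 2 < A x by linarith)
  have hper : ∀ z ∈ O, ∀ t, W z (t + 2 * Real.pi) = W z t := h.hW.per
  have hW := h.hW.smooth
  refine Fam.B.of_cover (𝓕 := 𝓔.toFam) (EFam.W_nn 1 0 0) hU1o hU2o hcov ?_ ?_
  · -- near amplitude zero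
    set S1 : Set (X2 × ℝ) := {p | p.1 ∈ K ∧ A p.1 ≤ r0 ∧ |p.2| ≤ 2 * r0} with hS1
    have hS1c : IsCompact S1 := by
      have : IsCompact (K ×ˢ Icc (-(2 * r0)) (2 * r0)) := hK.prod isCompact_Icc
      refine this.of_isClosed_subset ?_ ?_
      · have e : S1 = (Prod.fst ⁻¹' K) ∩ ({p | A p.1 ≤ r0} ∩ {p | |p.2| ≤ 2 * r0}) := by
          ext p; simp [hS1]
        rw [e]
        refine (hK.isClosed.preimage continuous_fst).inter ((isClosed_le ?_ ?_).inter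
          (isClosed_le ?_ ?_)) <;> fun_prop
      · rintro p ⟨h1, h2, h3⟩
        exact ⟨h1, abs_le.1 h3⟩
    have hS1O : S1 ⊆ segO O := by
      rintro p ⟨h1, h2, h3⟩ s hs
      refine hb p.1 h1 h2 _ ?_
      rw [abs_mul, abs_of_nonneg hs.1]
      calc s * |p.2| ≤ 1 * |p.2| := by gcongr; exact hs.2
        _ ≤ 2 * r0 := by linarith
    have hHs := hadH_smooth hO hW
    have hHper : ∀ z ∈ segO O, ∀ t, hadH W (z, t + 2 * Real.pi) = hadH W (z, t) := by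
      intro z hz t
      unfold hadH
      refine intervalIntegral.integral_congr (fun s hs => ?_)
      rw [uIcc_of_le zero_le_one] at hs
      have h1 : (fun p : (X2 × ℝ) × ℝ => W (p + (0, 2 * Real.pi)).1 (p + (0, 2 * Real.pi)).2)
          =ᶠ[𝓝 ((z.1, s * z.2), t)] fun q : (X2 × ℝ) × ℝ => W q.1 q.2 := by
        have : O ×ˢ (univ : Set ℝ) ∈ 𝓝 ((z.1, s * z.2), t) :=
          (hO.prod isOpen_univ).mem_nhds ⟨hz s hs, mem_univ _⟩
        filter_upwards [this] with p hp'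
        have := hper p.1 hp'.1 p.2
        simpa using this
      have h2 := h1.fderiv_eq (𝕜 := ℝ)
      have h3 := fderiv_comp_add_right (𝕜 := ℝ) (F := E4) (f := fun q : (X2 × ℝ) × ℝ => W q.1 q.2)
        (x := ((z.1, s * z.2), t)) ((0, 2 * Real.pi) : (X2 × ℝ) × ℝ)
      have h4 : (((z.1, s * z.2), t) : (X2 × ℝ) × ℝ) + (0, 2 * Real.pi) =
          ((z.1, s * z.2), t + 2 * Real.pi) := by simp
      rw [h4] at h3
      simp only
      rw [← h3, ← h2]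
    have hcomp := Fam.B.comp (𝓕 := 𝓔.toFam.restrict U1 hU1o) (G := hadH W)
      (O' := segO O ×ˢ univ) (S' := S1 ×ˢ univ) ((isOpen_segO hO).prod isOpen_univ)
      (prod_mono hS1O Subset.rfl) hHs
      (fun k => bdd_of_per (isOpen_segO hO) hHs hHper hS1c hS1O k)
      (Φ := fun i => phi (𝓔.a i))
      (fun i => (phi_smooth 𝓔 i).mono (fun z hz => hz.1))
      (fun j => (phi_pd 𝓔 j).restrict U1 hU1o) (by
        intro i z hz
        have hzD : z.1 ∈ 𝓔.D i := hz.1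
        have hzU : A z.1 < r0 := hz.2
        refine ⟨⟨hDK i hzD, hzU.le, ?_⟩, mem_univ _⟩
        have h1 := (ha i z.1 hzD).trans (min_le_right _ _)
        have h2 := 𝓔.a_pos i z.1 hzD
        show |𝓔.a i z.1| ≤ 2 * r0
        rw [abs_of_pos h2]
        have h3 := abs_le.1 h1
        linarith [h3.2])
    have haB : (𝓔.toFam.restrict U1 hU1o).B 𝓔.a (fun i => lift (𝓔.a i)) :=
      𝓔.a_B.restrict U1 hU1o
    have hann : ∀ i, ∀ x ∈ (𝓔.toFam.restrict U1 hU1o).D i, 0 ≤ 𝓔.a i x :=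
      fun i x hx => (𝓔.a_pos i x hx.1).le
    have hprod := haB.bilin (ContinuousLinearMap.lsmul ℝ ℝ) hann
      (fun i x _ => zero_le_one) hcomp
    refine Fam.B.congr (𝓕 := 𝓔.toFam.restrict U1 hU1o)
      (Fam.B.weight_congr (𝓕 := 𝓔.toFam.restrict U1 hU1o) (w' := 𝓔.W 1 0 0) hprod
        (fun i x _ => by simp [EFam.W])) (fun i z hz => ?_)
    have hzD : z.1 ∈ 𝓔.D i := hz.1
    have hzU : A z.1 < r0 := hz.2
    have hmem : ((z.1, 𝓔.a i z.1) : X2 × ℝ) ∈ segO O := by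
      apply hS1O
      refine ⟨hDK i hzD, hzU.le, ?_⟩
      have h1 := (ha i z.1 hzD).trans (min_le_right _ _)
      have h2 := 𝓔.a_pos i z.1 hzD
      show |𝓔.a i z.1| ≤ 2 * r0
      rw [abs_of_pos h2]
      have h3 := abs_le.1 h1
      linarith [h3.2]
    have h0 : ((z.1, (0:ℝ)) : X2 × ℝ) ∈ O := by
      have := hmem 0 ⟨le_rfl, zero_le_one⟩
      simpa using this
    have h1 := hadH_eq hO hW hmem z.2
    rw [h.hW.at_zero h0] at h1
    show (ContinuousLinearMap.lsmul ℝ ℝ (lift (𝓔.a i) z)) (hadH W (phi (𝓔.a i) z)) = _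
    rw [h1]
    rfl
  · -- away from amplitude zero
    set r := min r1 (r0 / 4) with hr
    set S2 : Set (X2 × ℝ) := {p | p.1 ∈ K ∧ |p.2 - A p.1| ≤ r} with hS2
    have hS2c : IsCompact S2 := by
      have h1 : IsCompact ((fun q : X2 × ℝ => ((q.1, A q.1 + q.2) : X2 × ℝ)) ''
          (K ×ˢ Icc (-r) r)) := (hK.prod isCompact_Icc).image (by fun_prop)
      convert h1 using 1
      ext p
      constructor
      · rintro ⟨h2, h3⟩
        exact ⟨(p.1, p.2 - A p.1), ⟨h2, abs_le.1 h3⟩, by simp⟩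
      · rintro ⟨q, ⟨h2, h3⟩, rfl⟩
        refine ⟨h2, ?_⟩
        simpa using abs_le.2 h3
    have hS2O : S2 ⊆ O := fun p hp => ht p.1 hp.1 p.2 (hp.2.trans (min_le_left _ _))
    set G2 : (X2 × ℝ) × ℝ → E4 := fun p => W p.1 p.2 - d1 f p.1.1 with hG2
    have hG2s : ContDiffOn ℝ ∞ G2 (O ×ˢ univ) := by
      refine hW.sub ?_
      exact (hd1f.comp (contDiff_fst.comp contDiff_fst)).contDiffOn
    have hG2per : ∀ z ∈ O, ∀ t, G2 (z, t + 2 * Real.pi) = G2 (z, t) := by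
      intro z hz t
      simp only [hG2, hper z hz t]
    have hcomp := Fam.B.comp (𝓕 := 𝓔.toFam.restrict U2 hU2o) (G := G2)
      (O' := O ×ˢ univ) (S' := S2 ×ˢ univ) (hO.prod isOpen_univ)
      (prod_mono hS2O Subset.rfl) hG2s
      (fun k => bdd_of_per hO hG2s hG2per hS2c hS2O k)
      (Φ := fun i => phi (𝓔.a i))
      (fun i => (phi_smooth 𝓔 i).mono (fun z hz => hz.1))
      (fun j => (phi_pd 𝓔 j).restrict U2 hU2o)
      (fun i z hz => ⟨⟨hDK i hz.1, ha i z.1 hz.1⟩, mem_univ _⟩)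
    refine Fam.B.congr (𝓕 := 𝓔.toFam.restrict U2 hU2o)
      (Fam.B.mono (𝓕 := 𝓔.toFam.restrict U2 hU2o) (w' := 𝓔.W 1 0 0) hcomp (C := 4 / r0)
        (by positivity) (fun i x hx => ?_)) (fun i z hz => rfl)
    have hxD : x ∈ 𝓔.D i := hx.1
    have hxU : r0 / 2 < A x := hx.2
    have h1 := (ha i x hxD).trans (min_le_right _ _)
    have h3 := abs_le.1 h1
    have h4 : r0 / 4 ≤ 𝓔.a i x := by linarith [h3.1]
    have h5 : 𝓔.W 1 0 0 i x = 𝓔.a i x := by simp [EFam.W]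
    rw [h5]
    calc (1:ℝ) = 4 / r0 * (r0 / 4) := by field_simp
      _ ≤ 4 / r0 * 𝓔.a i x := by gcongr

end

end Crest.Agent.R216.TE
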