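import Crest.Agent.R216.StageClose
import Crest.Agent.R216.StageG
import Crest.Agent.R216.AlgP
import Crest.Agent.R216.EngExp
import Crest.Agent.R216.LoopDefs
import Crest.Agent.R216.LoopFam
import Crest.Agent.R216.StageDefs

-- ▼ part R216/StageLow
section

/-!
# Row 216, Theorem E, module STAGE: the open condition `GC` is stable.
-/

set_option linter.unusedSectionVars false

open Set Topology MeasureTheory Metric
open scoped ContDiff

namespace Crest.Agent.R216.TE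

namespace SLow

/-- triples `(f₁,f₂,f₂₂)` -/
abbrev E3 := E4 × E4 × E4

lemma continuous_gram : Continuous fun p : E3 => gram p.2.1 p.2.2 := by
  unfold gram
  fun_prop

lemma continuousOn_ppr {O : Set E3} (hO : ∀ p ∈ O, gram p.2.1 p.2.2 ≠ 0) :
    ContinuousOn (fun p : E3 => ppr p.1 p.2.1 p.2.2) O := by
  have h1 : ContinuousOn (fun p : E3 => (gram p.2.1 p.2.2)⁻¹) O :=
    continuous_gram.continuousOn.inv₀ hO
  have i1 : Continuous fun p : E3 => (inner ℝ p.1 p.2.1 : ℝ) := by fun_prop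
  have i2 : Continuous fun p : E3 => (inner ℝ p.1 p.2.2 : ℝ) := by fun_prop
  have i3 : Continuous fun p : E3 => (inner ℝ p.2.2 p.2.2 : ℝ) • p.2.1
      - (inner ℝ p.2.1 p.2.2 : ℝ) • p.2.2 := by fun_prop
  have i4 : Continuous fun p : E3 => (inner ℝ p.2.1 p.2.1 : ℝ) • p.2.2
      - (inner ℝ p.2.1 p.2.2 : ℝ) • p.2.1 := by fun_prop
  unfold ppr cpr xiB xiC
  exact continuous_fst.continuousOn.sub
    ((i1.continuousOn.smul (h1.smul i3.continuousOn)).add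
      (i2.continuousOn.smul (h1.smul i4.continuousOn)))

/-- the compact set of good triples -/
def GT (c B : ℝ) : Set E3 :=
  {p | (‖p.1‖ ≤ B ∧ ‖p.2.1‖ ≤ B ∧ ‖p.2.2‖ ≤ B ∧ c ≤ gram p.2.1 p.2.2) ∧
    c ≤ ‖ppr p.1 p.2.1 p.2.2‖ ^ 2}

lemma isCompact_GT {c : ℝ} (hc : 0 < c) (B : ℝ) : IsCompact (GT c B) := by
  set C1 : Set E3 := {p | ‖p.1‖ ≤ B ∧ ‖p.2.1‖ ≤ B ∧ ‖p.2.2‖ ≤ B ∧ c ≤ gram p.2.1 p.2.2}
    with hC1
  have e1 : IsClosed {p : E3 | ‖p.1‖ ≤ B} := isClosed_le (by fun_prop) continuous_const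
  have e2 : IsClosed {p : E3 | ‖p.2.1‖ ≤ B} := isClosed_le (by fun_prop) continuous_const
  have e3 : IsClosed {p : E3 | ‖p.2.2‖ ≤ B} := isClosed_le (by fun_prop) continuous_const
  have e4 : IsClosed {p : E3 | c ≤ gram p.2.1 p.2.2} :=
    isClosed_le continuous_const continuous_gram
  have h1 : IsClosed C1 := e1.inter (e2.inter (e3.inter e4))
  have h2 : ContinuousOn (fun p : E3 => ‖ppr p.1 p.2.1 p.2.2‖ ^ 2) C1 :=
    ((continuousOn_ppr (O := C1) fun p hp => (hc.trans_le hp.2.2.2).ne').norm).pow 2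
  have h3 : IsClosed (C1 ∩ (fun p : E3 => ‖ppr p.1 p.2.1 p.2.2‖ ^ 2) ⁻¹' Ici c) :=
    h2.preimage_isClosed_of_isClosed h1 isClosed_Ici
  have h4 : GT c B = C1 ∩ (fun p : E3 => ‖ppr p.1 p.2.1 p.2.2‖ ^ 2) ⁻¹' Ici c := rfl
  rw [h4]
  refine IsCompact.of_isClosed_subset (isCompact_closedBall (0 : E3) B) h3 ?_
  rintro p ⟨⟨h5, h6, h7, _⟩, _⟩
  simp only [mem_closedBall, dist_zero_right, Prod.norm_def]
  exact max_le h5 (max_le h6 h7)

/-- **The open condition is stable**, quantitatively. -/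
theorem exists_delta {c : ℝ} (hc : 0 < c) {c' : ℝ} (hc' : 0 < c') (hcc : c' < c) (B : ℝ) :
    ∃ δ : ℝ, 0 < δ ∧ ∀ A B₁ C A' B' C' : E4, ‖A‖ ≤ B → ‖B₁‖ ≤ B → ‖C‖ ≤ B →
      c ≤ gram B₁ C → c ≤ ‖ppr A B₁ C‖ ^ 2 →
      ‖A' - A‖ < δ → ‖B' - B₁‖ < δ → ‖C' - C‖ < δ →
      c' ≤ gram B' C' ∧ c' ≤ ‖ppr A' B' C'‖ ^ 2 := by
  set O1 : Set E3 := {p | c' < gram p.2.1 p.2.2} with hO1
  have h1 : IsOpen O1 := isOpen_lt continuous_const continuous_gram
  have h2 : ContinuousOn (fun p : E3 => ‖ppr p.1 p.2.1 p.2.2‖ ^ 2) O1 :=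
    ((continuousOn_ppr (O := O1) fun p hp => (hc'.trans hp).ne').norm).pow 2
  have h3 : IsOpen (O1 ∩ (fun p : E3 => ‖ppr p.1 p.2.1 p.2.2‖ ^ 2) ⁻¹' Ioi c') :=
    h2.isOpen_inter_preimage h1 isOpen_Ioi
  have h4 : GT c B ⊆ O1 ∩ (fun p : E3 => ‖ppr p.1 p.2.1 p.2.2‖ ^ 2) ⁻¹' Ioi c' := by
    rintro p ⟨⟨_, _, _, h5⟩, h6⟩
    exact ⟨hcc.trans_le h5, hcc.trans_le h6⟩
  obtain ⟨δ, hδ, h5⟩ := (isCompact_GT hc B).exists_thickening_subset_open h3 h4
  refine ⟨δ, hδ, fun A B₁ C A' B' C' hA hB hC hg hp h6 h7 h8 => ?_⟩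
  have h9 : ((A', B', C') : E3) ∈ thickening δ (GT c B) := by
    rw [mem_thickening_iff]
    refine ⟨(A, B₁, C), ⟨⟨hA, hB, hC, hg⟩, hp⟩, ?_⟩
    simp only [dist_eq_norm]
    exact max_lt h6 (max_lt h7 h8)
  have h10 := h5 h9
  exact ⟨le_of_lt h10.1, le_of_lt h10.2⟩

end SLow

namespace SPar.Idx
variable {P : SPar} (i : P.Idx)

/-- `L² (L⁻¹)^K ≤ T⁻¹` when `K ≥ 3`. -/
lemma small_le (hK : 3 ≤ P.K) : i.L ^ 2 * (i.L)⁻¹ ^ P.K ≤ P.T⁻¹ := by
  have h1 := i.L_one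
  have h2 := i.L_pos
  have hT := P.hT
  have h3 : (i.L)⁻¹ ^ P.K ≤ (i.L)⁻¹ ^ 3 :=
    pow_le_pow_of_le_one (by positivity) (inv_le_one_of_one_le₀ h1) hK
  calc i.L ^ 2 * (i.L)⁻¹ ^ P.K ≤ i.L ^ 2 * (i.L)⁻¹ ^ 3 :=
        mul_le_mul_of_nonneg_left h3 (by positivity)
    _ = (i.L)⁻¹ := by field_simp
    _ ≤ P.T⁻¹ := inv_anti₀ (by linarith) i.hL

/-- **lower bounds for the smoothed map** -/
theorem low_ft {c' δ : ℝ}
    (h : ∀ A B₁ C A' B' C' : E4, ‖A‖ ≤ P.B0 → ‖B₁‖ ≤ P.B0 → ‖C‖ ≤ P.B0 →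
      P.c0 ≤ gram B₁ C → P.c0 ≤ ‖ppr A B₁ C‖ ^ 2 →
      ‖A' - A‖ < δ → ‖B' - B₁‖ < δ → ‖C' - C‖ < δ →
      c' ≤ gram B' C' ∧ c' ≤ ‖ppr A' B' C'‖ ^ 2)
    (hK : 3 ≤ P.K) (hT : P.T⁻¹ < δ) {x : X2} (hx : x ∈ P.S.W) :
    c' ≤ gram (d2 i.ft x) (d2 (d2 i.ft) x) ∧
    c' ≤ ‖ppr (d1 i.ft x) (d2 i.ft x) (d2 (d2 i.ft) x)‖ ^ 2 := by
  have hxN : x ∈ P.S.N := interior_subset (P.S.sub hx)
  obtain ⟨h1, h2, _, h4⟩ := i.G.1 x hxN
  obtain ⟨h5, h6⟩ := i.G.2 x hx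
  obtain ⟨h7, h8, _, h10⟩ := i.close_all hx
  have h11 := i.small_le hK
  exact h _ _ _ _ _ _ h1 h2 h4 h5 h6 (by linarith) (by linarith) (by linarith)


end SPar.Idx

/-- packaged: there is a threshold depending only on `c0`, `B0`. -/
theorem exists_T_low {c0 B0 : ℝ} (hc0 : 0 < c0) :
    ∃ T0 : ℝ, 2 ≤ T0 ∧ ∀ P : SPar, P.c0 = c0 → P.B0 = B0 → 3 ≤ P.K → T0 ≤ P.T →
      ∀ i : P.Idx, ∀ x ∈ P.S.W,
        c0 / 2 ≤ gram (d2 i.ft x) (d2 (d2 i.ft) x) ∧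
        c0 / 2 ≤ ‖ppr (d1 i.ft x) (d2 i.ft x) (d2 (d2 i.ft) x)‖ ^ 2 := by
  obtain ⟨δ, hδ, h⟩ := SLow.exists_delta hc0 (half_pos hc0) (half_lt_self hc0) B0
  refine ⟨max 2 (δ⁻¹ + 1), le_max_left _ _, fun P h1 h2 hK hT i x hx => ?_⟩
  subst h1 h2
  refine i.low_ft h hK ?_ hx
  have h3 : δ⁻¹ + 1 ≤ P.T := (le_max_right _ _).trans hT
  have h4 : 0 < δ⁻¹ := inv_pos.2 hδ
  rw [inv_lt_comm₀ (by linarith) hδ]
  linarith

/-- the form used by STAGE -/
theorem SPar.low (S : SData) {c0 B0 : ℝ} (hc : 0 < c0) (_hB : 0 < B0) : ∃ T0 : ℝ, ∀ P : SPar,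
    P.S = S → P.c0 = c0 → P.B0 = B0 → 3 ≤ P.K → T0 ≤ P.T → ∀ i : P.Idx, ∀ x ∈ P.S.W,
      c0 / 2 ≤ gram (d2 i.ft x) (d2 (d2 i.ft) x) ∧
      Real.sqrt (c0 / 2) ≤ ‖ppr (d1 i.ft x) (d2 i.ft x) (d2 (d2 i.ft) x)‖ := by
  obtain ⟨T0, _, h⟩ := exists_T_low (B0 := B0) hc
  refine ⟨T0, fun P _ h1 h2 hK hT i x hx => ?_⟩
  obtain ⟨h3, h4⟩ := h P h1 h2 hK hT i x hx
  exact ⟨h3, Real.sqrt_le_iff.2 ⟨norm_nonneg _, h4⟩⟩

end Crest.Agent.R216.TE
end

-- ▼ part R216/StageT0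
section

/-!
# Row 216, Theorem E, module STAGE: existence of the fixed parameters `SPar` with the
largeness facts.
-/

set_option linter.unusedSectionVars false

open Set Topology MeasureTheory Metric
open scoped ContDiff

namespace Crest.Agent.R216.TE

/-- The parameters exist for every large threshold `T`. -/
theorem exists_SPar (S : SData) {c0 B0 : ℝ} (hc : 0 < c0) (hB : 0 < B0) {k : ℕ} (hk : 1 ≤ k)
    {K : ℕ} (_hK : 3 ≤ K) :
    ∃ T0 : ℝ, 2 ≤ T0 ∧ ∀ T : ℝ, T0 ≤ T →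
      ∃ P : SPar, P.S = S ∧ P.c0 = c0 ∧ P.B0 = B0 ∧ P.k = k ∧ P.K = K ∧ P.T = T := by
  obtain ⟨r, hr, hsub⟩ := S.exists_r
  refine ⟨max 2 (K * r⁻¹), le_max_left _ _, fun T hT => ?_⟩
  have hT2 : 2 ≤ T := (le_max_left _ _).trans hT
  have hTr : K * r⁻¹ ≤ T := (le_max_right _ _).trans hT
  have hT0 : 0 < T := by linarith
  refine ⟨⟨S, c0, B0, hc, hB, k, hk, K, T, hT2, fun x hx => ?_⟩, rfl, rfl, rfl, rfl, rfl, rfl⟩
  refine (closedBall_subset_closedBall ?_).trans (hsub x hx)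
  have h1 : (K : ℝ) ≤ T * r := by
    rw [← div_eq_mul_inv, div_le_iff₀ hr] at hTr
    exact hTr
  have h2 : T * r ≤ T ^ 2 * r := by
    have : T ≤ T ^ 2 := by nlinarith
    exact mul_le_mul_of_nonneg_right this hr.le
  rw [← div_eq_mul_inv, div_le_iff₀ (by positivity)]
  linarith

namespace SPar

/-- enlarge the threshold -/
def raise (P : SPar) (T : ℝ) (hT : P.T ≤ T) : SPar where
  S := P.S
  c0 := P.c0
  B0 := P.B0
  c0pos := P.c0pos
  B0pos := P.B0pos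
  k := P.k
  hk := P.hk
  K := P.K
  T := T
  hT := P.hT.trans hT
  hr := fun x hx => by
    refine (closedBall_subset_closedBall ?_).trans (P.hr x hx)
    have h1 := P.hT
    have : (T ^ 2)⁻¹ ≤ (P.T ^ 2)⁻¹ := by
      apply inv_anti₀ (by positivity)
      exact pow_le_pow_left₀ (by linarith) hT 2
    exact mul_le_mul_of_nonneg_left this (Nat.cast_nonneg _)

section raise
variable (P : SPar) {T : ℝ} (hT : P.T ≤ T)

@[simp] lemma raise_S : (P.raise T hT).S = P.S := rfl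
@[simp] lemma raise_c0 : (P.raise T hT).c0 = P.c0 := rfl
@[simp] lemma raise_B0 : (P.raise T hT).B0 = P.B0 := rfl
@[simp] lemma raise_k : (P.raise T hT).k = P.k := rfl
@[simp] lemma raise_K : (P.raise T hT).K = P.K := rfl
@[simp] lemma raise_T : (P.raise T hT).T = T := rfl

/-- an index of the raised parameters is an index of the old ones -/
def castIdx (i : (P.raise T hT).Idx) : P.Idx where
  L := i.L
  hL := hT.trans i.hL
  k' := i.k'
  hk' := i.hk'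
  f := i.f
  hf := i.hf
  G := i.G
  st := i.st
  bd := i.bd

variable (i : (P.raise T hT).Idx)

@[simp] lemma castIdx_L : (P.castIdx hT i).L = i.L := rfl
@[simp] lemma castIdx_k' : (P.castIdx hT i).k' = i.k' := rfl
@[simp] lemma castIdx_f : (P.castIdx hT i).f = i.f := rfl
@[simp] lemma castIdx_l : (P.castIdx hT i).l = i.l := rfl
@[simp] lemma castIdx_l' : (P.castIdx hT i).l' = i.l' := rfl
@[simp] lemma castIdx_Kc : (P.castIdx hT i).Kc = i.Kc := rfl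
@[simp] lemma castIdx_D : (P.castIdx hT i).D = i.D := rfl
@[simp] lemma castIdx_a : (P.castIdx hT i).a = i.a := rfl
@[simp] lemma castIdx_ft : (P.castIdx hT i).ft = i.ft := rfl
@[simp] lemma castIdx_R11 : (P.castIdx hT i).R11 = i.R11 := rfl
@[simp] lemma castIdx_R12 : (P.castIdx hT i).R12 = i.R12 := rfl
@[simp] lemma castIdx_R22 : (P.castIdx hT i).R22 = i.R22 := rfl

end raise

end SPar

/-- Parameters with all the largeness facts and an arbitrarily large threshold. -/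
theorem exists_SPar_ge (S : SData) {c0 B0 : ℝ} (hc : 0 < c0) (hB : 0 < B0) {k : ℕ} (hk : 1 ≤ k)
    {K : ℕ} (hK : 3 ≤ K) (Tm : ℝ) :
    ∃ P : SPar, P.S = S ∧ P.c0 = c0 ∧ P.B0 = B0 ∧ P.k = k ∧ P.K = K ∧ Tm ≤ P.T ∧ P.Large1 ∧
      (∀ i : P.Idx, ∀ x ∈ P.S.W, c0 / 2 ≤ gram (d2 i.ft x) (d2 (d2 i.ft) x) ∧
        Real.sqrt (c0 / 2) ≤ ‖ppr (d1 i.ft x) (d2 i.ft x) (d2 (d2 i.ft) x)‖) := by
  obtain ⟨T1, hT1, h1⟩ := exists_SPar S hc hB hk hK
  obtain ⟨P, hS, hc0, hB0, hPk, hPK, hPT⟩ := h1 T1 le_rfl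
  obtain ⟨T2, h2⟩ := P.large1_of
  obtain ⟨T3, h3⟩ := SPar.low S hc hB
  have hT : P.T ≤ max P.T (max T2 (max T3 Tm)) := le_max_left _ _
  refine ⟨P.raise _ hT, hS, hc0, hB0, hPk, hPK, ?_, ?_, ?_⟩
  · exact (((le_max_right _ _).trans (le_max_right _ _)).trans (le_max_right _ _))
  · intro i x hx z hz hu
    exact h2 (P.castIdx hT i) (((le_max_left _ _).trans (le_max_right _ _)).trans i.hL)
      x hx z hz hu
  · refine h3 (P.raise _ hT) hS hc0 hB0 ?_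
      (((le_max_left _ _).trans (le_max_right _ _)).trans (le_max_right _ _))
    show 3 ≤ P.K
    rw [hPK]; exact hK

/-- Parameters with all the largeness facts. -/
theorem exists_SPar' (S : SData) {c0 B0 : ℝ} (hc : 0 < c0) (hB : 0 < B0) {k : ℕ} (hk : 1 ≤ k)
    {K : ℕ} (hK : 3 ≤ K) :
    ∃ P : SPar, P.S = S ∧ P.c0 = c0 ∧ P.B0 = B0 ∧ P.k = k ∧ P.K = K ∧ P.Large1 ∧
      (∀ i : P.Idx, ∀ x ∈ P.S.W, c0 / 2 ≤ gram (d2 i.ft x) (d2 (d2 i.ft) x) ∧
        Real.sqrt (c0 / 2) ≤ ‖ppr (d1 i.ft x) (d2 i.ft x) (d2 (d2 i.ft) x)‖) := by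
  obtain ⟨P, h1, h2, h3, h4, h5, _, h6, h7⟩ := exists_SPar_ge S hc hB hk hK 0
  exact ⟨P, h1, h2, h3, h4, h5, h6, h7⟩

end Crest.Agent.R216.TE
end

-- ▼ part R216/Alg
section

/-!
# Row 216, Theorem E: class versions of the linear algebra in `ℝ⁴`
(`gram`, dual frame, projection to `span(B,C)`, rotation in `Π`).
-/

open Set Topology MeasureTheory
open scoped ContDiff

namespace Crest.Agent.R216.TE

section AlgClass
variable {𝓔 : EFam} {A B C : 𝓔.I → Q → E4}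

/-- components of a vector valued function -/
lemma B_comp {j m l : ℕ} {u : 𝓔.I → Q → E4} (h : 𝓔.toFam.B (𝓔.W j m l) u) (k : Fin 4) :
    𝓔.toFam.B (𝓔.W j m l) (fun i z => u i z k) :=
  Fam.B.clm (EuclideanSpace.proj k : E4 →L[ℝ] ℝ) (EFam.W_nn _ _ _) h

/-- a vector valued function whose components are in the class -/
lemma B_of_comp {j m l : ℕ} {u : 𝓔.I → Q → E4}
    (h : ∀ k : Fin 4, 𝓔.toFam.B (𝓔.W j m l) (fun i z => u i z k)) :
    𝓔.toFam.B (𝓔.W j m l) u := by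
  have h1 : ∀ k : Fin 4, 𝓔.toFam.B (𝓔.W j m l)
      (fun i z => u i z k • (EuclideanSpace.single k (1:ℝ) : E4)) := fun k =>
    EFam.B_smul (h k) (EFam.B_const (𝓔 := 𝓔) (EuclideanSpace.single k (1:ℝ) : E4))
  refine (EFam.B_add (EFam.B_add (EFam.B_add (h1 0) (h1 1)) (h1 2)) (h1 3)).congr
    (fun i z _ => ?_)
  ext k
  fin_cases k <;> simp

lemma B_gram (hB : 𝓔.toFam.B (𝓔.W 0 0 0) B) (hC : 𝓔.toFam.B (𝓔.W 0 0 0) C) :
    𝓔.toFam.B (𝓔.W 0 0 0) (fun i z => gram (B i z) (C i z)) := by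
  have h1 := EFam.B_mul (EFam.B_inner hB hB) (EFam.B_inner hC hC)
  have h2 := EFam.B_mul (EFam.B_inner hB hC) (EFam.B_inner hB hC)
  refine (EFam.B_sub h1 h2).congr (fun i z _ => ?_)
  simp only [gram, pow_two]

lemma B_gram_inv {j m l : ℕ} {V : Type*} [NormedAddCommGroup V] [NormedSpace ℝ V]
    {v : 𝓔.I → Q → V} (hB : 𝓔.toFam.B (𝓔.W 0 0 0) B) (hC : 𝓔.toFam.B (𝓔.W 0 0 0) C)
    (hg : ∃ c, 0 < c ∧ ∀ i, ∀ z ∈ 𝓔.toFam.dom i, c ≤ gram (B i z) (C i z))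
    (hv : 𝓔.toFam.B (𝓔.W j m l) v) :
    𝓔.toFam.B (𝓔.W j m l) (fun i z => (gram (B i z) (C i z))⁻¹ • v i z) := by
  obtain ⟨c, hc, hg⟩ := hg
  exact EFam.B_inv (k := 0) (B_gram hB hC)
    ⟨c, hc, fun i z hz => by simpa using hg i z hz⟩ hv

lemma B_xiB (hB : 𝓔.toFam.B (𝓔.W 0 0 0) B) (hC : 𝓔.toFam.B (𝓔.W 0 0 0) C)
    (hg : ∃ c, 0 < c ∧ ∀ i, ∀ z ∈ 𝓔.toFam.dom i, c ≤ gram (B i z) (C i z)) :
    𝓔.toFam.B (𝓔.W 0 0 0) (fun i z => xiB (B i z) (C i z)) ∧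
    𝓔.toFam.B (𝓔.W 0 0 0) (fun i z => xiC (B i z) (C i z)) := by
  have hBC := EFam.B_inner hB hC
  constructor
  · exact B_gram_inv hB hC hg
      (EFam.B_sub (EFam.B_smul (EFam.B_inner hC hC) hB) (EFam.B_smul hBC hC))
  · exact B_gram_inv hB hC hg
      (EFam.B_sub (EFam.B_smul (EFam.B_inner hB hB) hC) (EFam.B_smul hBC hB))

lemma B_cpr (hA : 𝓔.toFam.B (𝓔.W 0 0 0) A) (hB : 𝓔.toFam.B (𝓔.W 0 0 0) B)
    (hC : 𝓔.toFam.B (𝓔.W 0 0 0) C)
    (hg : ∃ c, 0 < c ∧ ∀ i, ∀ z ∈ 𝓔.toFam.dom i, c ≤ gram (B i z) (C i z)) :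
    𝓔.toFam.B (𝓔.W 0 0 0) (fun i z => cpr (A i z) (B i z) (C i z)) := by
  obtain ⟨h1, h2⟩ := B_xiB hB hC hg
  exact EFam.B_add (EFam.B_smul (EFam.B_inner hA hB) h1) (EFam.B_smul (EFam.B_inner hA hC) h2)

lemma B_ppr (hA : 𝓔.toFam.B (𝓔.W 0 0 0) A) (hB : 𝓔.toFam.B (𝓔.W 0 0 0) B)
    (hC : 𝓔.toFam.B (𝓔.W 0 0 0) C)
    (hg : ∃ c, 0 < c ∧ ∀ i, ∀ z ∈ 𝓔.toFam.dom i, c ≤ gram (B i z) (C i z)) :
    𝓔.toFam.B (𝓔.W 0 0 0) (fun i z => ppr (A i z) (B i z) (C i z)) :=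
  EFam.B_sub hA (B_cpr hA hB hC hg)

/-- `cross3` is trilinear: general weights -/
lemma B_cross3 {j m l j' m' l' j'' m'' l'' : ℕ} {u v w : 𝓔.I → Q → E4}
    (hu : 𝓔.toFam.B (𝓔.W j m l) u) (hv : 𝓔.toFam.B (𝓔.W j' m' l') v)
    (hw : 𝓔.toFam.B (𝓔.W j'' m'' l'') w) :
    𝓔.toFam.B (𝓔.W (j+(j'+j'')) (m+(m'+m'')) (l+(l'+l'')))
      (fun i z => cross3 (u i z) (v i z) (w i z)) := by
  have t : ∀ a b c d e : Fin 4, 𝓔.toFam.B (𝓔.W (j+(j'+j'')) (m+(m'+m'')) (l+(l'+l'')))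
      (fun i z => u i z a * (v i z b * w i z c - v i z d * w i z e)) := fun a b c d e =>
    EFam.B_mul (B_comp hu a) (EFam.B_sub (EFam.B_mul (B_comp hv b) (B_comp hw c))
      (EFam.B_mul (B_comp hv d) (B_comp hw e)))
  refine B_of_comp (fun k => ?_)
  fin_cases k
  · exact EFam.B_add (EFam.B_sub (t 1 2 3 3 2) (t 2 1 3 3 1)) (t 3 1 2 2 1)
  · exact EFam.B_neg (EFam.B_add (EFam.B_sub (t 0 2 3 3 2) (t 2 0 3 3 0)) (t 3 0 2 2 0))
  · exact EFam.B_add (EFam.B_sub (t 0 1 3 3 1) (t 1 0 3 3 0)) (t 3 0 1 1 0)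
  · exact EFam.B_neg (EFam.B_add (EFam.B_sub (t 0 1 2 2 1) (t 1 0 2 2 0)) (t 2 0 1 1 0))

/-- general weights for the vector in the plane -/
lemma B_Jrot' {j m l : ℕ} {v : 𝓔.I → Q → E4} (hB : 𝓔.toFam.B (𝓔.W 0 0 0) B)
    (hC : 𝓔.toFam.B (𝓔.W 0 0 0) C) (hv : 𝓔.toFam.B (𝓔.W j m l) v)
    (hg : ∃ c, 0 < c ∧ ∀ i, ∀ z ∈ 𝓔.toFam.dom i, c ≤ gram (B i z) (C i z)) :
    𝓔.toFam.B (𝓔.W j m l) (fun i z => Jrot (B i z) (C i z) (v i z)) := by
  obtain ⟨c, hc, hg⟩ := hg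
  have h1 : 𝓔.toFam.B (𝓔.W 0 0 0) (fun i z => Real.sqrt (gram (B i z) (C i z))) := by
    have := Fam.B.sqrt (𝓕 := 𝓔.toFam) (w := 𝓔.W 0 0 0) hc (fun i x hx => EFam.W_pos _ _ _ i hx)
      (fun i z hz => by simpa [EFam.W] using hg i z hz) (B_gram hB hC)
    exact EFam.B_weq this (fun i x _ => by simp [EFam.W])
  have h2 : 𝓔.toFam.B (𝓔.W j m l) (fun i z => cross3 (B i z) (C i z) (v i z)) :=
    EFam.B_le (B_cross3 hB hC hv) (by omega) (by omega) (by omega)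
  exact EFam.B_inv (k := 0) h1 ⟨Real.sqrt c, Real.sqrt_pos.2 hc, fun i z hz => by
    simpa using Real.sqrt_le_sqrt (hg i z hz)⟩ h2

lemma B_Jrot {v : 𝓔.I → Q → E4} (hB : 𝓔.toFam.B (𝓔.W 0 0 0) B)
    (hC : 𝓔.toFam.B (𝓔.W 0 0 0) C) (hv : 𝓔.toFam.B (𝓔.W 0 0 0) v)
    (hg : ∃ c, 0 < c ∧ ∀ i, ∀ z ∈ 𝓔.toFam.dom i, c ≤ gram (B i z) (C i z)) :
    𝓔.toFam.B (𝓔.W 0 0 0) (fun i z => Jrot (B i z) (C i z) (v i z)) :=
  B_Jrot' hB hC hv hg

end AlgClass

end Crest.Agent.R216.TE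
end

-- ▼ part R216/LoopB
section

/-!
# Row 216, Theorem E: the loops over a family are in `B(a)` (`loop_class`).
-/

open Set Topology MeasureTheory
open scoped ContDiff

set_option linter.unusedSectionVars false

namespace Crest.Agent.R216.TE

namespace LoopB

/-! ### the class with weight one -/

section one
variable {V : Type*} [NormedAddCommGroup V] [NormedSpace ℝ V]
variable {𝓕 : Fam}

/-- the class with weight one -/
def B1 (𝓕 : Fam) (u : 𝓕.I → Q → V) : Prop := 𝓕.B (fun _ _ => (1 : ℝ)) u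

lemma nn1 : Fam.Nn (fun _ _ => (1 : ℝ) : 𝓕.I → X2 → ℝ) := fun _ _ _ => zero_le_one

lemma B1.add {u v : 𝓕.I → Q → V} (hu : B1 𝓕 u) (hv : B1 𝓕 v) :
    B1 𝓕 (fun i z => u i z + v i z) := Fam.B.add hu hv

lemma B1.sub {u v : 𝓕.I → Q → V} (hu : B1 𝓕 u) (hv : B1 𝓕 v) :
    B1 𝓕 (fun i z => u i z - v i z) := Fam.B.sub nn1 hu hv

lemma B1.neg {u : 𝓕.I → Q → V} (hu : B1 𝓕 u) : B1 𝓕 (fun i z => - u i z) := Fam.B.neg nn1 hu

lemma B1.mul {u v : 𝓕.I → Q → ℝ} (hu : B1 𝓕 u) (hv : B1 𝓕 v) :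
    B1 𝓕 (fun i z => u i z * v i z) :=
  (Fam.B.mul nn1 nn1 hu hv).weight_congr (fun i x _ => by norm_num)

lemma B1.smul {u : 𝓕.I → Q → ℝ} {v : 𝓕.I → Q → V} (hu : B1 𝓕 u) (hv : B1 𝓕 v) :
    B1 𝓕 (fun i z => u i z • v i z) :=
  (Fam.B.smul nn1 nn1 hu hv).weight_congr (fun i x _ => by norm_num)

lemma B1.inner {u v : 𝓕.I → Q → E4} (hu : B1 𝓕 u) (hv : B1 𝓕 v) :
    B1 𝓕 (fun i z => inner ℝ (u i z) (v i z)) :=
  (Fam.B.inner nn1 nn1 hu hv).weight_congr (fun i x _ => by norm_num)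

lemma B1.const (c : ℝ) : B1 𝓕 (fun _ _ => c) :=
  Fam.B.const (fun _ => c) ⟨|c| + 1, by positivity, fun i x _ => by
    rw [Real.norm_eq_abs]; linarith⟩ nn1

lemma B1.sq {u : 𝓕.I → Q → ℝ} (hu : B1 𝓕 u) : B1 𝓕 (fun i z => u i z ^ 2) := by
  have := hu.mul hu
  simpa only [← pow_two] using this

lemma B1.inv {u : 𝓕.I → Q → ℝ} (hu : B1 𝓕 u)
    (hlow : ∃ c, 0 < c ∧ ∀ i, ∀ z ∈ 𝓕.dom i, c ≤ u i z) :
    B1 𝓕 (fun i z => (u i z)⁻¹) := by
  obtain ⟨c, hc, hl⟩ := hlow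
  exact (Fam.B.inv hc (fun _ _ _ => one_pos) (fun i z hz => by rw [mul_one]; exact hl i z hz)
    hu).weight_congr (fun i x _ => by norm_num)

lemma B1.sqrt {u : 𝓕.I → Q → ℝ} (hu : B1 𝓕 u)
    (hlow : ∃ c, 0 < c ∧ ∀ i, ∀ z ∈ 𝓕.dom i, c ≤ u i z) :
    B1 𝓕 (fun i z => Real.sqrt (u i z)) := by
  obtain ⟨c, hc, hl⟩ := hlow
  exact (Fam.B.sqrt hc (fun _ _ _ => one_pos) (fun i z hz => by rw [mul_one]; exact hl i z hz)
    hu).weight_congr (fun i x _ => by norm_num)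

/-- size bound -/
lemma B1.bdd {u : 𝓕.I → Q → ℝ} (hu : B1 𝓕 u) :
    ∃ C, 0 < C ∧ ∀ i, ∀ z ∈ 𝓕.dom i, |u i z| ≤ C := by
  obtain ⟨C, hC, h⟩ := hu.sz
  exact ⟨C, hC, fun i z hz => by simpa using h i z hz⟩

lemma pd_cos (φ : ℝ) (j : Fin 3) (z : Q) :
    pd j (fun z : Q => Real.cos (z.2 + φ)) z = (bas j).2 * Real.cos (z.2 + (φ + Real.pi / 2)) := by
  have h1 : HasFDerivAt (fun z : Q => z.2 + φ) (ContinuousLinearMap.snd ℝ (ℝ × ℝ) ℝ) z :=
    hasFDerivAt_snd.add_const φ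
  have h2 := (Real.hasDerivAt_cos (z.2 + φ)).comp_hasFDerivAt z h1
  have h3 : fderiv ℝ (fun z : Q => Real.cos (z.2 + φ)) z
      = (-Real.sin (z.2 + φ)) • ContinuousLinearMap.snd ℝ (ℝ × ℝ) ℝ := h2.fderiv
  rw [pd, h3, ← add_assoc, Real.cos_add_pi_div_two]
  simp [mul_comm]

lemma cosBk (k : ℕ) : ∀ {w : 𝓕.I → X2 → ℝ}, (∀ i, ∀ x ∈ 𝓕.D i, 1 ≤ w i x) → ∀ φ : ℝ,
    𝓕.Bk k w (fun _ z => Real.cos (z.2 + φ)) := by
  have hsz : ∀ {w : 𝓕.I → X2 → ℝ}, (∀ i, ∀ x ∈ 𝓕.D i, 1 ≤ w i x) → ∀ φ : ℝ,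
      𝓕.Sz w (fun _ z => Real.cos (z.2 + φ)) := fun {w} hw φ =>
    ⟨1, one_pos, fun i z hz => by
      rw [one_mul, Real.norm_eq_abs]
      exact (Real.abs_cos_le_one _).trans (hw i z.1 hz)⟩
  induction k with
  | zero => intro w hw φ; exact hsz hw φ
  | succ k ih =>
    intro w hw φ
    have hL : ∀ i, ∀ x ∈ 𝓕.D i, 1 ≤ 𝓕.Lam i * w i x := fun i x hx => by
      have h1 := 𝓕.one_le i
      have h2 := hw i x hx
      nlinarith
    refine ⟨hsz hw φ, fun j => ?_⟩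
    have hpd : (fun i => pd j ((fun (_ : 𝓕.I) (z : Q) => Real.cos (z.2 + φ)) i)) =
        fun (_ : 𝓕.I) (z : Q) => (bas j).2 * Real.cos (z.2 + (φ + Real.pi / 2)) := by
      funext i z
      exact pd_cos φ j z
    rw [hpd]
    have hb : (bas j).2 = 0 ∨ (bas j).2 = 1 := by
      fin_cases j <;> simp [bas]
    rcases hb with hb | hb
    · simp only [hb, zero_mul]
      exact (Fam.B.zero (fun i x hx => (zero_le_one.trans (hL i x hx)))).bound k
    · simp only [hb, one_mul]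
      exact ih hL _

lemma B1.cos : B1 𝓕 (fun _ z => Real.cos z.2) := by
  refine ⟨fun i => ?_, fun k => ?_⟩
  · exact (Real.contDiff_cos.comp contDiff_snd).contDiffOn
  · have := cosBk (𝓕 := 𝓕) k (w := fun _ _ => (1 : ℝ)) (fun _ _ _ => le_rfl) 0
    simpa using this

end one

/-! ### algebra -/

section alg
variable (x y sig den q1 q2 be P : ℝ)

lemma rel1 (hden0 : den ≠ 0) (hden : den = (1 + x) ^ 2 + y ^ 2) (h1 : q1 = 2 * (1 + x) / den)
    (h2 : q2 = -(2 * y) / den) :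
    q1 * (1 + x) - q2 * y = 2 ∧ q1 * y + q2 * (1 + x) = 0 := by
  rw [h1, h2]
  constructor
  · field_simp
    rw [hden]; ring
  · field_simp
    ring

lemma alg_re (hden0 : den ≠ 0) (hden : den = (1 + x) ^ 2 + y ^ 2)
    (hxy : x ^ 2 + y ^ 2 = 1 - sig) (h1 : q1 = 2 * (1 + x) / den)
    (h2 : q2 = -(2 * y) / den) (hb : be = -(q1 * q2)) :
    (1 - P ^ 2) / (1 + P ^ 2) - x =
      (P - be) * (-2 * (P + be) * (1 + P ^ 2)⁻¹ * (1 + be ^ 2)⁻¹)
      + sig * (den⁻¹ * (1 + be ^ 2)⁻¹ * ((1 + x) + q2 * y - be * (y - q2 * (1 + x)))) := by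
  obtain ⟨r1, r2⟩ := rel1 x y den q1 q2 hden0 hden h1 h2
  have hq : sig * den⁻¹ = q1 - 1 := by
    rw [h1]
    field_simp
    rw [hden]
    linarith
  have e1 : (1 - P ^ 2) / (1 + P ^ 2) - (1 - be ^ 2) / (1 + be ^ 2) =
      (P - be) * (-2 * (P + be) * (1 + P ^ 2)⁻¹ * (1 + be ^ 2)⁻¹) := by
    have hP : (1 + P ^ 2) ≠ 0 := by positivity
    have hB : (1 + be ^ 2) ≠ 0 := by positivity
    field_simp
    ring
  have e2 : (1 - be ^ 2) / (1 + be ^ 2) - x =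
      sig * (den⁻¹ * (1 + be ^ 2)⁻¹ * ((1 + x) + q2 * y - be * (y - q2 * (1 + x)))) := by
    have hB : (1 + be ^ 2) ≠ 0 := by positivity
    have e3 : sig * (den⁻¹ * (1 + be ^ 2)⁻¹ * ((1 + x) + q2 * y - be * (y - q2 * (1 + x)))) =
        (q1 - 1) * ((1 + x) + q2 * y - be * (y - q2 * (1 + x))) / (1 + be ^ 2) := by
      rw [← hq]; ring
    rw [e3, eq_div_iff hB, sub_mul, div_mul_cancel₀ _ hB, hb]
    linear_combination (-1 : ℝ) * r1 - q1 * q2 * r2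
  linarith

lemma alg_im (hden0 : den ≠ 0) (hden : den = (1 + x) ^ 2 + y ^ 2)
    (hxy : x ^ 2 + y ^ 2 = 1 - sig) (h1 : q1 = 2 * (1 + x) / den)
    (h2 : q2 = -(2 * y) / den) (hb : be = -(q1 * q2)) :
    2 * P / (1 + P ^ 2) - y =
      (P - be) * (2 * (1 - P * be) * (1 + P ^ 2)⁻¹ * (1 + be ^ 2)⁻¹)
      + sig * (den⁻¹ * (1 + be ^ 2)⁻¹ * ((y - q2 * (1 + x)) + be * ((1 + x) + q2 * y))) := by
  obtain ⟨r1, r2⟩ := rel1 x y den q1 q2 hden0 hden h1 h2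
  have hq : sig * den⁻¹ = q1 - 1 := by
    rw [h1]
    field_simp
    rw [hden]
    linarith
  have e1 : 2 * P / (1 + P ^ 2) - 2 * be / (1 + be ^ 2) =
      (P - be) * (2 * (1 - P * be) * (1 + P ^ 2)⁻¹ * (1 + be ^ 2)⁻¹) := by
    have hP : (1 + P ^ 2) ≠ 0 := by positivity
    have hB : (1 + be ^ 2) ≠ 0 := by positivity
    field_simp
    ring
  have e2 : 2 * be / (1 + be ^ 2) - y =
      sig * (den⁻¹ * (1 + be ^ 2)⁻¹ * ((y - q2 * (1 + x)) + be * ((1 + x) + q2 * y))) := by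
    have hB : (1 + be ^ 2) ≠ 0 := by positivity
    have e3 : sig * (den⁻¹ * (1 + be ^ 2)⁻¹ * ((y - q2 * (1 + x)) + be * ((1 + x) + q2 * y))) =
        (q1 - 1) * ((y - q2 * (1 + x)) + be * ((1 + x) + q2 * y)) / (1 + be ^ 2) := by
      rw [← hq]; ring
    rw [e3, eq_div_iff hB, sub_mul, div_mul_cancel₀ _ hB, hb]
    linear_combination (q1 * q2) * r1 - r2
  linarith

end alg

/-! ### the scalars of the loop -/

section main
variable {𝓔 : EFam} {A B C b : 𝓔.I → X2 → E4}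

lemma B1.of_W {V : Type*} [NormedAddCommGroup V] [NormedSpace ℝ V] {u : 𝓔.I → Q → V}
    (h : 𝓔.toFam.B (𝓔.W 0 0 0) u) : B1 𝓔.toFam u :=
  Fam.B.weight_congr h (fun i x _ => by simp [EFam.W])

/-- the amplitude is in `B(1)` -/
lemma B1_a : B1 𝓔.toFam (fun i z => 𝓔.a i z.1) := by
  obtain ⟨c, hc, h⟩ := 𝓔.a_le
  exact Fam.B.mono 𝓔.a_B hc (fun i x hx => by rw [mul_one]; exact h i x hx)

/-- coordinates -/
lemma B1.coord {u : 𝓔.I → Q → E4} (hu : B1 𝓔.toFam u) (k : Fin 4) :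
    B1 𝓔.toFam (fun i z => u i z k) :=
  Fam.B.clm (EuclideanSpace.proj k) nn1 hu

lemma B1.of_coord {u : 𝓔.I → Q → E4} (hu : ∀ k, B1 𝓔.toFam (fun i z => u i z k)) :
    B1 𝓔.toFam u := by
  have hc : ∀ k : Fin 4, B1 𝓔.toFam (fun _ _ => (EuclideanSpace.single k (1 : ℝ) : E4)) :=
    fun k => Fam.B.const (fun _ => EuclideanSpace.single k (1 : ℝ))
      ⟨1, one_pos, fun i x _ => by simp⟩ nn1
  have h := (((hu 0).smul (hc 0)).add ((hu 1).smul (hc 1))).add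
    (((hu 2).smul (hc 2)).add ((hu 3).smul (hc 3)))
  have e : (fun i z => u i z 0 • (EuclideanSpace.single 0 (1 : ℝ) : E4)
      + u i z 1 • (EuclideanSpace.single 1 (1 : ℝ) : E4)
      + (u i z 2 • (EuclideanSpace.single 2 (1 : ℝ) : E4)
      + u i z 3 • (EuclideanSpace.single 3 (1 : ℝ) : E4))) = u := by
    funext i z
    ext k
    fin_cases k <;> simp
  rw [e] at h
  exact h

lemma B1_Jrot {B C v : 𝓔.I → Q → E4} (hB : B1 𝓔.toFam B) (hC : B1 𝓔.toFam C)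
    (hv : B1 𝓔.toFam v)
    (hg : ∃ c, 0 < c ∧ ∀ i, ∀ z ∈ 𝓔.toFam.dom i, c ≤ gram (B i z) (C i z)) :
    B1 𝓔.toFam (fun i z => Jrot (B i z) (C i z) (v i z)) := by
  have hgr : B1 𝓔.toFam (fun i z => gram (B i z) (C i z)) :=
    ((hB.inner hB).mul (hC.inner hC)).sub (hB.inner hC).sq
  have hsq := hgr.sqrt hg
  have hsl : ∃ c, 0 < c ∧ ∀ i, ∀ z ∈ 𝓔.toFam.dom i, c ≤ Real.sqrt (gram (B i z) (C i z)) := by
    obtain ⟨c, hc, h⟩ := hg
    exact ⟨Real.sqrt c, Real.sqrt_pos.2 hc, fun i z hz => Real.sqrt_le_sqrt (h i z hz)⟩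
  refine (hsq.inv hsl).smul (B1.of_coord (fun k => ?_))
  have b := fun k => hB.coord k
  have c := fun k => hC.coord k
  have w := fun k => hv.coord k
  fin_cases k
  · exact (((b 1).mul (((c 2).mul (w 3)).sub ((c 3).mul (w 2)))).sub
      ((b 2).mul (((c 1).mul (w 3)).sub ((c 3).mul (w 1))))).add
      ((b 3).mul (((c 1).mul (w 2)).sub ((c 2).mul (w 1))))
  · exact ((((b 0).mul (((c 2).mul (w 3)).sub ((c 3).mul (w 2)))).sub
      ((b 2).mul (((c 0).mul (w 3)).sub ((c 3).mul (w 0))))).add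
      ((b 3).mul (((c 0).mul (w 2)).sub ((c 2).mul (w 0))))).neg
  · exact (((b 0).mul (((c 1).mul (w 3)).sub ((c 3).mul (w 1)))).sub
      ((b 1).mul (((c 0).mul (w 3)).sub ((c 3).mul (w 0))))).add
      ((b 3).mul (((c 0).mul (w 1)).sub ((c 1).mul (w 0))))
  · exact ((((b 0).mul (((c 1).mul (w 2)).sub ((c 2).mul (w 1)))).sub
      ((b 1).mul (((c 0).mul (w 2)).sub ((c 2).mul (w 0))))).add
      ((b 2).mul (((c 0).mul (w 1)).sub ((c 1).mul (w 0))))).neg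

/-- a pointwise formula for `W` -/
lemma loopW_eq (A B C b : E4) (s : ℝ) (hg : 0 < gram B C) (hb : ‖b‖ = 1)
    (hbB : inner ℝ b B = (0:ℝ)) (hbC : inner ℝ b C = (0:ℝ)) (hr : 0 < lr A B C b s) (t : ℝ) :
    loopW A B C b s t = lr A B C b s • ((lomre A B C b s t - lx A B C b s) • b
      + (lomim A B C b s t - ly A B C b s) • lb' B C b) := by
  have hJ := Jrot_perp B C b
  have hp := ppr_perp A B C hg.ne'
  have hfr := frame_expand B C b (ppr A B C) hg hb hbB hbC hp.1 hp.2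
  have hc : ∀ v : E4, inner ℝ v B = (0:ℝ) → inner ℝ v C = (0:ℝ) →
      inner ℝ (cpr A B C) v = (0:ℝ) := by
    intro v h1 h2
    have h1' : inner ℝ B v = (0:ℝ) := by rw [real_inner_comm]; exact h1
    have h2' : inner ℝ C v = (0:ℝ) := by rw [real_inner_comm]; exact h2
    simp only [cpr, xiB, xiC, inner_add_left, inner_smul_left, inner_sub_left, h1', h2']
    simp
  have e1 : inner ℝ (ppr A B C) b = lp1 A b := by
    rw [ppr, inner_sub_left, hc b hbB hbC, sub_zero]; rfl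
  have e2 : inner ℝ (ppr A B C) (Jrot B C b) = lp2 A B C b := by
    rw [ppr, inner_sub_left, hc _ hJ.1 hJ.2.1, sub_zero]; rfl
  rw [e1, e2] at hfr
  have hx : lr A B C b s * lx A B C b s = lp1 A b := by
    rw [lx]; field_simp
  have hy : lr A B C b s * ly A B C b s = lp2 A B C b := by
    rw [ly]; field_simp
  have h1 : loopW A B C b s t = lr A B C b s • (lomre A B C b s t • b
      + lomim A B C b s t • lb' B C b) - ppr A B C := by
    rw [loopW, loopw, ppr]; abel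
  rw [h1, hfr, ← hx, ← hy, lb']
  module

/-- the function `G` with `W = a G` -/
lemma G_class (h : LoopHyp 𝓔 A B C b) :
    ∃ G : 𝓔.I → Q → E4, B1 𝓔.toFam G ∧ ∀ i, ∀ z ∈ 𝓔.toFam.dom i,
      loopW (A i z.1) (B i z.1) (C i z.1) (b i z.1) (𝓔.a i z.1) z.2 = 𝓔.a i z.1 • G i z := by
  obtain ⟨cg, hcg, hg⟩ := h.gram_low
  obtain ⟨cr, hcr, hr⟩ := h.r_low
  obtain ⟨cd, hcd, hd⟩ := h.den_low
  -- abbreviations
  set p1 : 𝓔.I → Q → ℝ := fun i z => lp1 (A i z.1) (b i z.1) with hp1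
  set p2 : 𝓔.I → Q → ℝ := fun i z => lp2 (A i z.1) (B i z.1) (C i z.1) (b i z.1) with hp2
  set s : 𝓔.I → Q → ℝ := fun i z => 𝓔.a i z.1 with hs
  set b' : 𝓔.I → Q → E4 := fun i z => lb' (B i z.1) (C i z.1) (b i z.1) with hb'
  set r : 𝓔.I → Q → ℝ := fun i z => lr (A i z.1) (B i z.1) (C i z.1) (b i z.1) (𝓔.a i z.1) with hr'
  set x : 𝓔.I → Q → ℝ := fun i z => lx (A i z.1) (B i z.1) (C i z.1) (b i z.1) (𝓔.a i z.1) with hx'
  set y : 𝓔.I → Q → ℝ := fun i z => ly (A i z.1) (B i z.1) (C i z.1) (b i z.1) (𝓔.a i z.1) with hy'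
  set den : 𝓔.I → Q → ℝ :=
    fun i z => lden (A i z.1) (B i z.1) (C i z.1) (b i z.1) (𝓔.a i z.1) with hden'
  set q1 : 𝓔.I → Q → ℝ :=
    fun i z => lq1 (A i z.1) (B i z.1) (C i z.1) (b i z.1) (𝓔.a i z.1) with hq1'
  set q2 : 𝓔.I → Q → ℝ :=
    fun i z => lq2 (A i z.1) (B i z.1) (C i z.1) (b i z.1) (𝓔.a i z.1) with hq2'
  set be : 𝓔.I → Q → ℝ :=
    fun i z => lbeta (A i z.1) (B i z.1) (C i z.1) (b i z.1) (𝓔.a i z.1) with hbe'
  set ka : 𝓔.I → Q → ℝ :=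
    fun i z => lkap (A i z.1) (B i z.1) (C i z.1) (b i z.1) (𝓔.a i z.1) with hka'
  set P : 𝓔.I → Q → ℝ :=
    fun i z => lP (A i z.1) (B i z.1) (C i z.1) (b i z.1) (𝓔.a i z.1) z.2 with hP'
  have BA : B1 𝓔.toFam (fun i z => A i z.1) := B1.of_W h.AB
  have Bb : B1 𝓔.toFam (fun i z => b i z.1) := B1.of_W h.bB
  have Bb' : B1 𝓔.toFam b' := B1_Jrot (B1.of_W h.BB) (B1.of_W h.CB) Bb
    ⟨cg, hcg, fun i z hz => hg i z.1 hz⟩
  have Bs : B1 𝓔.toFam s := B1_a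
  have Bp1 : B1 𝓔.toFam p1 := BA.inner Bb
  have Bp2 : B1 𝓔.toFam p2 := BA.inner Bb'
  have hrpos : ∀ i, ∀ z ∈ 𝓔.toFam.dom i, 0 < r i z := fun i z hz => hcr.trans_le (hr i z.1 hz)
  have hrsq : ∀ i, ∀ z ∈ 𝓔.toFam.dom i, r i z ^ 2 = p1 i z ^ 2 + p2 i z ^ 2 + s i z ^ 2 :=
    fun i z _ => Real.sq_sqrt (by positivity)
  have Br : B1 𝓔.toFam r := by
    refine B1.sqrt (u := fun i z => p1 i z ^ 2 + p2 i z ^ 2 + s i z ^ 2)
      ((Bp1.sq.add Bp2.sq).add Bs.sq) ⟨cr ^ 2, by positivity, fun i z hz => ?_⟩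
    have h1 := hr i z.1 hz
    have h2 := hrsq i z hz
    calc cr ^ 2 ≤ r i z ^ 2 := by
          have : cr ≤ r i z := h1
          gcongr
      _ = _ := h2
  have Bri : B1 𝓔.toFam (fun i z => (r i z)⁻¹) := Br.inv ⟨cr, hcr, fun i z hz => hr i z.1 hz⟩
  have Bx : B1 𝓔.toFam x := by
    have := Bp1.mul Bri
    simp only [← div_eq_mul_inv] at this
    exact this
  have By : B1 𝓔.toFam y := by
    have := Bp2.mul Bri
    simp only [← div_eq_mul_inv] at this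
    exact this
  have B1x : B1 𝓔.toFam (fun i z => 1 + x i z) := (B1.const 1).add Bx
  have Bden : B1 𝓔.toFam den := B1x.sq.add By.sq
  have Bdeni : B1 𝓔.toFam (fun i z => (den i z)⁻¹) :=
    Bden.inv ⟨cd, hcd, fun i z hz => hd i z.1 hz⟩
  have hdpos : ∀ i, ∀ z ∈ 𝓔.toFam.dom i, 0 < den i z := fun i z hz => hcd.trans_le (hd i z.1 hz)
  have Bq1 : B1 𝓔.toFam q1 := by
    have := ((B1.const 2).mul B1x).mul Bdeni
    simp only [← div_eq_mul_inv] at this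
    exact this
  have Bq2 : B1 𝓔.toFam q2 := by
    have := (((B1.const 2).mul By).neg).mul Bdeni
    simp only [← div_eq_mul_inv] at this
    exact this
  have Bbe : B1 𝓔.toFam be := (Bq1.mul Bq2).neg
  have hxy : ∀ i, ∀ z ∈ 𝓔.toFam.dom i,
      x i z ^ 2 + y i z ^ 2 = 1 - s i z ^ 2 * ((r i z)⁻¹) ^ 2 := by
    intro i z hz
    have h1 := hrpos i z hz
    have h2 := hrsq i z hz
    have e1 : x i z = p1 i z * (r i z)⁻¹ := div_eq_mul_inv _ _
    have e2 : y i z = p2 i z * (r i z)⁻¹ := div_eq_mul_inv _ _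
    rw [e1, e2]
    have h3 : r i z * (r i z)⁻¹ = 1 := mul_inv_cancel₀ h1.ne'
    have h4 : r i z ^ 2 * ((r i z)⁻¹) ^ 2 = 1 := by rw [← mul_pow, h3, one_pow]
    rw [h2] at h4
    linear_combination h4
  have hx1 : ∀ i, ∀ z ∈ 𝓔.toFam.dom i, 0 ≤ 1 + x i z := by
    intro i z hz
    have h1 := hxy i z hz
    have h2 : x i z ^ 2 ≤ 1 := by
      have : 0 ≤ s i z ^ 2 * ((r i z)⁻¹) ^ 2 := by positivity
      nlinarith [sq_nonneg (y i z)]
    nlinarith [abs_le_of_sq_le_sq' (by simpa using h2 : x i z ^ 2 ≤ 1 ^ 2) zero_le_one]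
  have hq1pos : ∀ i, ∀ z ∈ 𝓔.toFam.dom i, 0 ≤ q1 i z := by
    intro i z hz
    have h1 := hx1 i z hz
    have h2 := hdpos i z hz
    show 0 ≤ 2 * (1 + x i z) / den i z
    positivity
  -- kappa
  have Brd : B1 𝓔.toFam (fun i z => r i z ^ 2 * den i z) := Br.sq.mul Bden
  have hrdlow : ∃ c, 0 < c ∧ ∀ i, ∀ z ∈ 𝓔.toFam.dom i, c ≤ r i z ^ 2 * den i z := by
    refine ⟨cr ^ 2 * cd, by positivity, fun i z hz => ?_⟩
    have h1 : cr ≤ r i z := hr i z.1 hz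
    have h2 : cd ≤ den i z := hd i z.1 hz
    gcongr
  have Brdi := Brd.inv hrdlow
  have BK : B1 𝓔.toFam (fun i z => (q1 i z + 1) * (1 + q2 i z ^ 2) * (r i z ^ 2 * den i z)⁻¹) :=
    ((Bq1.add (B1.const 1)).mul ((B1.const 1).add Bq2.sq)).mul Brdi
  have hKlow : ∃ c, 0 < c ∧ ∀ i, ∀ z ∈ 𝓔.toFam.dom i,
      c ≤ (q1 i z + 1) * (1 + q2 i z ^ 2) * (r i z ^ 2 * den i z)⁻¹ := by
    obtain ⟨M, hM, hb⟩ := Brd.bdd
    obtain ⟨c, hc, hl⟩ := hrdlow
    refine ⟨M⁻¹, inv_pos.2 hM, fun i z hz => ?_⟩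
    have h1 := hl i z hz
    have h2 := hb i z hz
    have h3 : 0 < r i z ^ 2 * den i z := hc.trans_le h1
    have h4 : r i z ^ 2 * den i z ≤ M := (le_abs_self _).trans h2
    have h5 : M⁻¹ ≤ (r i z ^ 2 * den i z)⁻¹ := inv_anti₀ h3 h4
    have h6 : 1 ≤ (q1 i z + 1) * (1 + q2 i z ^ 2) := by
      have := hq1pos i z hz
      nlinarith [sq_nonneg (q2 i z)]
    have h7 : 0 < (r i z ^ 2 * den i z)⁻¹ := inv_pos.2 h3
    calc M⁻¹ ≤ 1 * (r i z ^ 2 * den i z)⁻¹ := by rw [one_mul]; exact h5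
      _ ≤ _ := by gcongr
  have Bka : B1 𝓔.toFam ka := by
    have := BK.sqrt hKlow
    simp only [← div_eq_mul_inv] at this
    exact this
  have Bcos : B1 𝓔.toFam (fun _ z => Real.cos z.2) := B1.cos
  have BP : B1 𝓔.toFam P := Bbe.add ((Bs.mul Bka).mul Bcos)
  have BPi : B1 𝓔.toFam (fun i z => (1 + P i z ^ 2)⁻¹) :=
    ((B1.const 1).add BP.sq).inv ⟨1, one_pos, fun i z _ => by nlinarith [sq_nonneg (P i z)]⟩
  have Bbei : B1 𝓔.toFam (fun i z => (1 + be i z ^ 2)⁻¹) :=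
    ((B1.const 1).add Bbe.sq).inv ⟨1, one_pos, fun i z _ => by nlinarith [sq_nonneg (be i z)]⟩
  -- the two factors
  set G1 : 𝓔.I → Q → ℝ := fun i z =>
    ka i z * Real.cos z.2 * (-2 * (P i z + be i z) * (1 + P i z ^ 2)⁻¹ * (1 + be i z ^ 2)⁻¹)
      + s i z * ((r i z)⁻¹) ^ 2 * ((den i z)⁻¹ * (1 + be i z ^ 2)⁻¹ *
        ((1 + x i z) + q2 i z * y i z - be i z * (y i z - q2 i z * (1 + x i z)))) with hG1
  set G2 : 𝓔.I → Q → ℝ := fun i z =>
    ka i z * Real.cos z.2 * (2 * (1 - P i z * be i z) * (1 + P i z ^ 2)⁻¹ * (1 + be i z ^ 2)⁻¹)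
      + s i z * ((r i z)⁻¹) ^ 2 * ((den i z)⁻¹ * (1 + be i z ^ 2)⁻¹ *
        ((y i z - q2 i z * (1 + x i z)) + be i z * ((1 + x i z) + q2 i z * y i z))) with hG2
  have BG1 : B1 𝓔.toFam G1 :=
    ((Bka.mul Bcos).mul ((((B1.const (-2)).mul (BP.add Bbe)).mul BPi).mul Bbei)).add
      ((Bs.mul Bri.sq).mul ((Bdeni.mul Bbei).mul
        ((B1x.add (Bq2.mul By)).sub (Bbe.mul (By.sub (Bq2.mul B1x))))))
  have BG2 : B1 𝓔.toFam G2 :=
    ((Bka.mul Bcos).mul ((((B1.const 2).mul ((B1.const 1).sub (BP.mul Bbe))).mul BPi).mul Bbei)).add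
      ((Bs.mul Bri.sq).mul ((Bdeni.mul Bbei).mul
        ((By.sub (Bq2.mul B1x)).add (Bbe.mul (B1x.add (Bq2.mul By))))))
  refine ⟨fun i z => r i z • (G1 i z • b i z.1 + G2 i z • b' i z),
    Br.smul ((BG1.smul Bb).add (BG2.smul Bb')), fun i z hz => ?_⟩
  have hperp := h.b_perp i z.1 hz
  rw [loopW_eq _ _ _ _ _ (hcg.trans_le (hg i z.1 hz)) (h.b_unit i z.1 hz) hperp.1 hperp.2
    (hrpos i z hz)]
  have hPb : P i z - be i z = s i z * (ka i z * Real.cos z.2) := by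
    show (be i z + s i z * ka i z * Real.cos z.2) - be i z = _
    ring
  have e1 : lomre (A i z.1) (B i z.1) (C i z.1) (b i z.1) (𝓔.a i z.1) z.2 - x i z
      = s i z * G1 i z := by
    have := alg_re (x i z) (y i z) (s i z ^ 2 * ((r i z)⁻¹) ^ 2) (den i z) (q1 i z) (q2 i z)
      (be i z) (P i z) (hdpos i z hz).ne' rfl (hxy i z hz) rfl rfl rfl
    show (1 - P i z ^ 2) / (1 + P i z ^ 2) - x i z = _
    rw [this, hPb, hG1]
    ring
  have e2 : lomim (A i z.1) (B i z.1) (C i z.1) (b i z.1) (𝓔.a i z.1) z.2 - y i z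
      = s i z * G2 i z := by
    have := alg_im (x i z) (y i z) (s i z ^ 2 * ((r i z)⁻¹) ^ 2) (den i z) (q1 i z) (q2 i z)
      (be i z) (P i z) (hdpos i z hz).ne' rfl (hxy i z hz) rfl rfl rfl
    show 2 * P i z / (1 + P i z ^ 2) - y i z = _
    rw [this, hPb, hG2]
    ring
  show r i z • ((lomre (A i z.1) (B i z.1) (C i z.1) (b i z.1) (𝓔.a i z.1) z.2 - x i z) • b i z.1
    + (lomim (A i z.1) (B i z.1) (C i z.1) (b i z.1) (𝓔.a i z.1) z.2 - y i z) • b' i z) =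
    s i z • (r i z • (G1 i z • b i z.1 + G2 i z • b' i z))
  rw [e1, e2]
  module

end main

end LoopB

section
variable {𝓔 : EFam} {A B C b : 𝓔.I → X2 → E4}

/-- the loops over a family: `W ∈ B(a)` -/
lemma loop_class (h : LoopHyp 𝓔 A B C b) :
    𝓔.toFam.B (𝓔.W 1 0 0)
      (fun i z => loopW (A i z.1) (B i z.1) (C i z.1) (b i z.1) (𝓔.a i z.1) z.2) := by
  obtain ⟨G, hG, hW⟩ := LoopB.G_class h
  have h1 : 𝓔.toFam.B (fun i x => 𝓔.a i x * 1) (fun i z => 𝓔.a i z.1 • G i z) :=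
    Fam.B.smul (fun i x hx => (𝓔.a_pos i x hx).le) LoopB.nn1 𝓔.a_B hG
  refine (h1.weight_congr (fun i x _ => by simp [EFam.W])).congr (fun i z hz => ?_)
  exact (hW i z hz).symm

end

end Crest.Agent.R216.TE
end

-- ▼ part R216/LoopA
section

/-!
# Row 216, Theorem E, TE-12: the Cayley loops in the frame (exact mean, circle, perpendicularity).
-/

set_option autoImplicit false

open Set Topology MeasureTheory
open scoped ContDiff

namespace Crest.Agent.R216.TE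

section
variable (A B C b : E4) (s : ℝ)

/-- the frame `b, b' = Jrot b` of `Π` -/
lemma lb'_facts {B C b : E4} (hg : 0 < gram B C) (hb : ‖b‖ = 1)
    (hbB : inner ℝ b B = (0:ℝ)) (hbC : inner ℝ b C = (0:ℝ)) :
    ‖lb' B C b‖ = 1 ∧ inner ℝ b (lb' B C b) = (0:ℝ) ∧ inner ℝ (lb' B C b) B = (0:ℝ) ∧
      inner ℝ (lb' B C b) C = (0:ℝ) := by
  obtain ⟨h1, h2, h3⟩ := Jrot_perp B C b
  refine ⟨?_, ?_, h1, h2⟩
  · unfold lb'; rw [norm_Jrot B C b hg hbB hbC, hb]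
  · unfold lb'; rw [real_inner_comm]; exact h3

/-- decomposition of `A` -/
lemma A_decomp {A B C b : E4} (hg : 0 < gram B C) (hb : ‖b‖ = 1)
    (hbB : inner ℝ b B = (0:ℝ)) (hbC : inner ℝ b C = (0:ℝ)) :
    A - cpr A B C = lp1 A b • b + lp2 A B C b • lb' B C b := by
  obtain ⟨h1, h2, h3, h4⟩ := lb'_facts hg hb hbB hbC
  have hp := ppr_perp A B C hg.ne'
  have h := frame_expand' B C b (lb' B C b) (ppr A B C) hg hb h1 h2 hbB hbC h3 h4 hp.1 hp.2
  have e1 : inner ℝ (ppr A B C) b = lp1 A b := by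
    unfold ppr lp1
    rw [inner_sub_left, real_inner_comm b (cpr A B C), inner_cpr_of_orth A hbB hbC, sub_zero]
  have e2 : inner ℝ (ppr A B C) (lb' B C b) = lp2 A B C b := by
    unfold ppr lp2
    rw [inner_sub_left, real_inner_comm (lb' B C b) (cpr A B C), inner_cpr_of_orth A h3 h4,
      sub_zero]
  rw [e1, e2] at h
  exact h

lemma lr_sq : lr A B C b s ^ 2 = lp1 A b ^ 2 + lp2 A B C b ^ 2 + s ^ 2 := by
  unfold lr
  rw [Real.sq_sqrt (by positivity)]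


variable {A B C b s}

lemma lxy_sq (hr : 0 < lr A B C b s) :
    lx A B C b s ^ 2 + ly A B C b s ^ 2 + (s / lr A B C b s) ^ 2 = 1 := by
  unfold lx ly
  rw [div_pow, div_pow, div_pow, ← add_div, ← add_div, ← lr_sq, div_self (by positivity)]

lemma lx_gt (hr : 0 < lr A B C b s) (hd : 0 < lden A B C b s) : -1 < lx A B C b s := by
  have h := lxy_sq hr
  by_contra h1
  rw [not_lt] at h1
  have h2 : lx A B C b s = -1 := by
    nlinarith [sq_nonneg (ly A B C b s), sq_nonneg (s / lr A B C b s)]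
  have h3 : ly A B C b s = 0 := by
    rw [h2] at h
    have : ly A B C b s ^ 2 = 0 := by
      nlinarith [sq_nonneg (ly A B C b s), sq_nonneg (s / lr A B C b s)]
    exact pow_eq_zero_iff (two_ne_zero) |>.mp this
  unfold lden at hd
  rw [h2, h3] at hd
  norm_num at hd

lemma lden_eq : lden A B C b s = Loop.n2 (lx A B C b s) (ly A B C b s) := rfl

lemma lq1_eq : lq1 A B C b s = Loop.qx (lx A B C b s) (ly A B C b s) := rfl

lemma lq2_eq : lq2 A B C b s = Loop.qy (lx A B C b s) (ly A B C b s) := rfl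

lemma lkap_eq (hr : 0 < lr A B C b s) :
    lkap A B C b s = Loop.gl (lx A B C b s) (ly A B C b s) / lr A B C b s := by
  unfold lkap Loop.gl
  rw [lq1_eq, lq2_eq, lden_eq, mul_comm (lr A B C b s ^ 2), ← div_div, Real.sqrt_div' _
    (sq_nonneg _), Real.sqrt_sq hr.le]

lemma lP_eq (hr : 0 < lr A B C b s) (t : ℝ) :
    lP A B C b s t = Loop.pl (lx A B C b s) (ly A B C b s) (s / lr A B C b s) t := by
  unfold lP lbeta Loop.pl
  rw [lkap_eq hr, lq1_eq, lq2_eq]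
  ring

lemma lomre_eq (hr : 0 < lr A B C b s) (t : ℝ) :
    lomre A B C b s t = Loop.cl (lx A B C b s) (ly A B C b s) (s / lr A B C b s) t := by
  unfold lomre Loop.cl
  rw [lP_eq hr]

lemma lomim_eq (hr : 0 < lr A B C b s) (t : ℝ) :
    lomim A B C b s t = Loop.sl (lx A B C b s) (ly A B C b s) (s / lr A B C b s) t := by
  unfold lomim Loop.sl
  rw [lP_eq hr]

lemma lom_sq (A B C b : E4) (s t : ℝ) : lomre A B C b s t ^ 2 + lomim A B C b s t ^ 2 = 1 := by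
  unfold lomre lomim
  have : 0 < 1 + lP A B C b s t ^ 2 := by positivity
  field_simp
  ring

lemma continuous_lP (A B C b : E4) (s : ℝ) : Continuous (fun t => lP A B C b s t) := by
  unfold lP
  fun_prop

lemma continuous_lomre (A B C b : E4) (s : ℝ) : Continuous (fun t => lomre A B C b s t) := by
  unfold lomre
  have h := continuous_lP A B C b s
  refine Continuous.div (by fun_prop) (by fun_prop) fun t => ?_
  have : 0 < 1 + lP A B C b s t ^ 2 := by positivity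
  exact this.ne'

lemma continuous_lomim (A B C b : E4) (s : ℝ) : Continuous (fun t => lomim A B C b s t) := by
  unfold lomim
  have h := continuous_lP A B C b s
  refine Continuous.div (by fun_prop) (by fun_prop) fun t => ?_
  have : 0 < 1 + lP A B C b s t ^ 2 := by positivity
  exact this.ne'

lemma integral_lomre (hr : 0 < lr A B C b s) (hd : 0 < lden A B C b s) :
    ∫ t in (0:ℝ)..(2 * Real.pi), lomre A B C b s t = 2 * Real.pi * lx A B C b s := by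
  have h := Loop.mean_cl (lx_gt hr hd) (lxy_sq hr)
  have hpi : (2 * Real.pi) ≠ 0 := by positivity
  rw [inv_mul_eq_iff_eq_mul₀ hpi] at h
  rw [← h]
  exact intervalIntegral.integral_congr fun t _ => lomre_eq hr t

lemma integral_lomim (hr : 0 < lr A B C b s) (hd : 0 < lden A B C b s) :
    ∫ t in (0:ℝ)..(2 * Real.pi), lomim A B C b s t = 2 * Real.pi * ly A B C b s := by
  have h := Loop.mean_sl (lx_gt hr hd) (lxy_sq hr)
  have hpi : (2 * Real.pi) ≠ 0 := by positivity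
  rw [inv_mul_eq_iff_eq_mul₀ hpi] at h
  rw [← h]
  exact intervalIntegral.integral_congr fun t _ => lomim_eq hr t

end

/-- `W` in the frame -/
lemma loopW_eq (A B C b : E4) (s : ℝ) (hg : 0 < gram B C) (hb : ‖b‖ = 1)
    (hbB : inner ℝ b B = (0:ℝ)) (hbC : inner ℝ b C = (0:ℝ)) (t : ℝ) :
    loopW A B C b s t = (lr A B C b s * lomre A B C b s t - lp1 A b) • b +
      (lr A B C b s * lomim A B C b s t - lp2 A B C b) • lb' B C b := by
  have h := A_decomp (A := A) hg hb hbB hbC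
  have e : loopW A B C b s t = lr A B C b s • (lomre A B C b s t • b +
      lomim A B C b s t • lb' B C b) - (A - cpr A B C) := by
    unfold loopW loopw
    abel
  rw [e, h]
  module

/-- exact mean of the loop -/
lemma loop_mean (A B C b : E4) (s : ℝ) (hg : 0 < gram B C) (hb : ‖b‖ = 1)
    (hbB : inner ℝ b B = (0:ℝ)) (hbC : inner ℝ b C = (0:ℝ)) (hr : 0 < lr A B C b s)
    (hd : 0 < lden A B C b s) :
    ∫ t in (0:ℝ)..(2 * Real.pi), loopW A B C b s t = 0 := by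
  have e : ∀ t, loopW A B C b s t = (lr A B C b s * lomre A B C b s t - lp1 A b) • b +
      (lr A B C b s * lomim A B C b s t - lp2 A B C b) • lb' B C b :=
    loopW_eq A B C b s hg hb hbB hbC
  simp only [e]
  have hc1 := continuous_lomre A B C b s
  have hc2 := continuous_lomim A B C b s
  rw [intervalIntegral.integral_add, intervalIntegral.integral_smul_const,
    intervalIntegral.integral_smul_const, intervalIntegral.integral_sub,
    intervalIntegral.integral_sub, intervalIntegral.integral_const_mul,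
    intervalIntegral.integral_const_mul, integral_lomre hr hd, integral_lomim hr hd,
    intervalIntegral.integral_const, intervalIntegral.integral_const]
  · have e1 : lr A B C b s * (2 * Real.pi * lx A B C b s) - (2 * Real.pi - 0) • lp1 A b = 0 := by
      unfold lx
      rw [smul_eq_mul]
      field_simp
      ring
    have e2 : lr A B C b s * (2 * Real.pi * ly A B C b s) - (2 * Real.pi - 0) • lp2 A B C b
        = 0 := by
      unfold ly
      rw [smul_eq_mul]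
      field_simp
      ring
    rw [e1, e2]
    simp
  all_goals apply Continuous.intervalIntegrable; fun_prop

lemma loop_circle (A B C b : E4) (s : ℝ) (hg : 0 < gram B C) (hb : ‖b‖ = 1)
    (hbB : inner ℝ b B = (0:ℝ)) (hbC : inner ℝ b C = (0:ℝ)) (t : ℝ) :
    inner ℝ (loopw A B C b s t) (loopw A B C b s t) = inner ℝ A A + s ^ 2 := by
  obtain ⟨h1, h2, h3, h4⟩ := lb'_facts hg hb hbB hbC
  have hbb : inner ℝ b b = (1:ℝ) := by rw [real_inner_self_eq_norm_sq, hb]; norm_num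
  have hbb' : inner ℝ (lb' B C b) (lb' B C b) = (1:ℝ) := by
    rw [real_inner_self_eq_norm_sq, h1]; norm_num
  have h2' : inner ℝ (lb' B C b) b = (0:ℝ) := by rw [real_inner_comm]; exact h2
  have c1 : inner ℝ b (cpr A B C) = (0:ℝ) := inner_cpr_of_orth A hbB hbC
  have c1' : inner ℝ (cpr A B C) b = (0:ℝ) := by rw [real_inner_comm]; exact c1
  have c2 : inner ℝ (lb' B C b) (cpr A B C) = (0:ℝ) := inner_cpr_of_orth A h3 h4
  have c2' : inner ℝ (cpr A B C) (lb' B C b) = (0:ℝ) := by rw [real_inner_comm]; exact c2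
  have hA : A = cpr A B C + (lp1 A b • b + lp2 A B C b • lb' B C b) := by
    rw [← A_decomp (A := A) hg hb hbB hbC]; abel
  have key : ∀ (c : E4) (x y : ℝ), inner ℝ b c = (0:ℝ) → inner ℝ c b = (0:ℝ) →
      inner ℝ (lb' B C b) c = (0:ℝ) → inner ℝ c (lb' B C b) = (0:ℝ) →
      inner ℝ (c + (x • b + y • lb' B C b)) (c + (x • b + y • lb' B C b)) =
        inner ℝ c c + x ^ 2 + y ^ 2 := by
    intro c x y k1 k2 k3 k4
    simp only [inner_add_left, inner_add_right, real_inner_smul_left, real_inner_smul_right, k1,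
      k2, k3, k4, hbb, hbb', h2, h2']
    ring
  have e1 : loopw A B C b s t = cpr A B C + ((lr A B C b s * lomre A B C b s t) • b +
      (lr A B C b s * lomim A B C b s t) • lb' B C b) := by
    unfold loopw
    module
  have e2 : (inner ℝ A A : ℝ) = inner ℝ (cpr A B C) (cpr A B C) + lp1 A b ^ 2 +
      lp2 A B C b ^ 2 := by
    rw [← key (cpr A B C) (lp1 A b) (lp2 A B C b) c1 c1' c2 c2', ← hA]
  rw [e1, key _ _ _ c1 c1' c2 c2', e2]
  have h5 := lom_sq A B C b s t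
  have h6 := lr_sq A B C b s
  linear_combination (lr A B C b s ^ 2) * h5 + h6

lemma loop_perp (A B C b : E4) (s : ℝ) (hg : 0 < gram B C)
    (hbB : inner ℝ b B = (0:ℝ)) (hbC : inner ℝ b C = (0:ℝ)) (t : ℝ) :
    inner ℝ (loopW A B C b s t) B = (0:ℝ) ∧ inner ℝ (loopW A B C b s t) C = (0:ℝ) := by
  obtain ⟨h1, h2, h3⟩ := Jrot_perp B C b
  have e1 : inner ℝ (lb' B C b) B = (0:ℝ) := h1
  have e2 : inner ℝ (lb' B C b) C = (0:ℝ) := h2
  unfold loopW loopw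
  constructor
  · rw [inner_sub_left, inner_add_left, inner_cpr_B A hg.ne', real_inner_smul_left,
      inner_add_left, real_inner_smul_left, real_inner_smul_left, hbB, e1]
    ring
  · rw [inner_sub_left, inner_add_left, inner_cpr_C A hg.ne', real_inner_smul_left,
      inner_add_left, real_inner_smul_left, real_inner_smul_left, hbC, e2]
    ring

end Crest.Agent.R216.TE
end

-- ▼ part R216/LoopC
section

/-!
# Row 216, Theorem E: nondegeneracy of the loops (TE-14, helper335).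
-/

open Set Topology MeasureTheory
open scoped ContDiff

namespace Crest.Agent.R216.TE

namespace LoopC

/-- mean over a period -/
noncomputable def mn (u : ℝ → ℝ) : ℝ := (2 * Real.pi)⁻¹ * ∫ t in (0:ℝ)..(2 * Real.pi), u t

lemma int_low {f : ℝ → ℝ} (hf : Continuous f) (h0 : ∀ t, 0 ≤ f t) {a b k : ℝ} (ha : 0 ≤ a)
    (hab : a ≤ b) (hb : b ≤ 2 * Real.pi) (hk : ∀ t ∈ Icc a b, k ≤ f t) :
    (b - a) * k ≤ ∫ t in (0:ℝ)..(2 * Real.pi), f t := by
  have h1 : ∫ t in a..b, f t ≤ ∫ t in (0:ℝ)..(2 * Real.pi), f t :=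
    intervalIntegral.integral_mono_interval ha hab hb (Filter.Eventually.of_forall h0)
      (hf.intervalIntegrable _ _)
  have h2 : ∫ t in a..b, k ≤ ∫ t in a..b, f t :=
    intervalIntegral.integral_mono_on hab (by simp) (hf.intervalIntegrable _ _) hk
  simp only [intervalIntegral.integral_const, smul_eq_mul] at h2
  linarith

lemma mn_low {f : ℝ → ℝ} (hf : Continuous f) (h0 : ∀ t, 0 ≤ f t) {a b k : ℝ} (ha : 0 ≤ a)
    (hab : a ≤ b) (hb : b ≤ 2 * Real.pi) (hk : ∀ t ∈ Icc a b, k ≤ f t) :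
    (b - a) / (2 * Real.pi) * k ≤ mn f := by
  have h := int_low hf h0 ha hab hb hk
  have hp : 0 < (2 * Real.pi)⁻¹ := by positivity
  have h2 := mul_le_mul_of_nonneg_left h hp.le
  unfold mn
  calc (b - a) / (2 * Real.pi) * k = (2 * Real.pi)⁻¹ * ((b - a) * k) := by ring
    _ ≤ _ := h2

lemma mn_comb {f g h : ℝ → ℝ} (hf : Continuous f) (hg : Continuous g) (hh : Continuous h)
    (x y z : ℝ) : mn (fun t => x * f t + y * g t + z * h t) = x * mn f + y * mn g + z * mn h := by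
  unfold mn
  have h1 : ∫ t in (0:ℝ)..(2 * Real.pi), (x * f t + y * g t + z * h t) =
      x * (∫ t in (0:ℝ)..(2 * Real.pi), f t) + y * (∫ t in (0:ℝ)..(2 * Real.pi), g t)
        + z * ∫ t in (0:ℝ)..(2 * Real.pi), h t := by
    rw [intervalIntegral.integral_add, intervalIntegral.integral_add,
      intervalIntegral.integral_const_mul, intervalIntegral.integral_const_mul,
      intervalIntegral.integral_const_mul]
    all_goals apply Continuous.intervalIntegrable; fun_prop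
  rw [h1]; ring

lemma mn_const (x : ℝ) : mn (fun _ => x) = x := by
  unfold mn
  simp only [intervalIntegral.integral_const, sub_zero, smul_eq_mul]
  field_simp

/-- Lagrange identity for the Gram determinant of two functions, lower bound -/
lemma mn_gram {u v : ℝ → ℝ} (hu : Continuous u) (hv : Continuous v) {a b a' b' k : ℝ}
    (ha : 0 ≤ a) (hab : a ≤ b) (hb : b ≤ 2 * Real.pi)
    (ha' : 0 ≤ a') (hab' : a' ≤ b') (hb' : b' ≤ 2 * Real.pi)
    (hk : ∀ s ∈ Icc a b, ∀ t ∈ Icc a' b', k ≤ (u s * v t - u t * v s) ^ 2) :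
    1 / 2 * ((b - a) / (2 * Real.pi)) * ((b' - a') / (2 * Real.pi)) * k ≤
      mn (fun t => u t ^ 2) * mn (fun t => v t ^ 2) - mn (fun t => u t * v t) ^ 2 := by
  set g : ℝ → ℝ := fun s => mn (fun t => (u s * v t - u t * v s) ^ 2) with hg
  have hgs : ∀ s, g s = mn (fun t => v t ^ 2) * u s ^ 2 + (-2 * mn (fun t => u t * v t)) * (u s * v s)
      + mn (fun t => u t ^ 2) * v s ^ 2 := by
    intro s
    have : (fun t => (u s * v t - u t * v s) ^ 2) =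
        (fun t => u s ^ 2 * v t ^ 2 + (-2 * (u s * v s)) * (u t * v t) + v s ^ 2 * u t ^ 2) := by
      funext t; ring
    simp only [hg]
    rw [this, mn_comb (by fun_prop) (by fun_prop) (by fun_prop)]
    ring
  have hgc : Continuous g := by
    have : g = fun s => mn (fun t => v t ^ 2) * u s ^ 2
      + (-2 * mn (fun t => u t * v t)) * (u s * v s) + mn (fun t => u t ^ 2) * v s ^ 2 :=
      funext hgs
    rw [this]; fun_prop
  have hmg : mn g = 2 * (mn (fun t => u t ^ 2) * mn (fun t => v t ^ 2)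
      - mn (fun t => u t * v t) ^ 2) := by
    have : g = fun s => mn (fun t => v t ^ 2) * u s ^ 2
      + (-2 * mn (fun t => u t * v t)) * (u s * v s) + mn (fun t => u t ^ 2) * v s ^ 2 :=
      funext hgs
    rw [this, mn_comb (by fun_prop) (by fun_prop) (by fun_prop)]
    ring
  have hg0 : ∀ s, 0 ≤ g s := by
    intro s
    simp only [hg, mn]
    apply mul_nonneg (by positivity)
    apply intervalIntegral.integral_nonneg (by positivity)
    intro t _; positivity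
  have hgl : ∀ s ∈ Icc a b, (b' - a') / (2 * Real.pi) * k ≤ g s := by
    intro s hs
    apply mn_low (by fun_prop) (fun t => by positivity) ha' hab' hb'
    exact fun t ht => hk s hs t ht
  have := mn_low hgc hg0 ha hab hb hgl
  rw [hmg] at this
  linarith

/-- the real part of `(1+iP)/(1-iP)` -/
noncomputable def ore (P : ℝ) : ℝ := (1 - P ^ 2) / (1 + P ^ 2)
/-- the imaginary part of `(1+iP)/(1-iP)` -/
noncomputable def oim (P : ℝ) : ℝ := 2 * P / (1 + P ^ 2)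

lemma ore_oim (p q : ℝ) : ore p * oim q - ore q * oim p =
    2 * (q - p) * (1 + p * q) / ((1 + p ^ 2) * (1 + q ^ 2)) := by
  unfold ore oim
  have h1 : (1 + p ^ 2) ≠ 0 := by positivity
  have h2 : (1 + q ^ 2) ≠ 0 := by positivity
  field_simp
  ring

lemma ore_oim_low {β e f K d : ℝ} (he : 0 ≤ e) (he' : e ≤ 1 / 2) (hf : 0 ≤ f) (hf' : f ≤ 1 / 2)
    (h1 : |β - e| ≤ K) (h2 : |β + f| ≤ K) (hd : 0 ≤ d) (hd' : d ≤ e + f) :
    d ^ 2 / (1 + K ^ 2) ^ 4 ≤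
      (ore (β - e) * oim (β + f) - ore (β + f) * oim (β - e)) ^ 2 := by
  rw [ore_oim]
  have hK1 : (β - e) ^ 2 ≤ K ^ 2 := by
    rw [← sq_abs]; exact pow_le_pow_left₀ (abs_nonneg _) h1 2
  have hK2 : (β + f) ^ 2 ≤ K ^ 2 := by
    rw [← sq_abs (β + f)]; exact pow_le_pow_left₀ (abs_nonneg _) h2 2
  have hg : 1 / 2 ≤ 1 + (β - e) * (β + f) := by
    nlinarith [sq_nonneg (β + (f - e) / 2), sq_nonneg (e + f)]
  have hnum : d ≤ 2 * (β + f - (β - e)) * (1 + (β - e) * (β + f)) := by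
    have : 0 ≤ e + f := by positivity
    nlinarith
  have hden : (1 + (β - e) ^ 2) * (1 + (β + f) ^ 2) ≤ (1 + K ^ 2) ^ 2 := by
    have a2 : 0 ≤ 1 + (β + f) ^ 2 := by positivity
    rw [pow_two (1 + K ^ 2)]
    exact mul_le_mul (by linarith) (by linarith) a2 (by positivity)
  have hquot : d / (1 + K ^ 2) ^ 2 ≤ 2 * (β + f - (β - e)) * (1 + (β - e) * (β + f)) /
      ((1 + (β - e) ^ 2) * (1 + (β + f) ^ 2)) := by
    apply div_le_div₀ (hd.trans hnum) hnum (by positivity) hden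
  calc d ^ 2 / (1 + K ^ 2) ^ 4 = (d / (1 + K ^ 2) ^ 2) ^ 2 := by rw [div_pow, ← pow_mul]
    _ ≤ _ := pow_le_pow_left₀ (by positivity) hquot 2

/-- lower bound of the Gram determinant of `(re ω, im ω)`, `ω = (1+iP)/(1-iP)`,
`P = β + α cos t` -/
lemma gram_om {K : ℝ} (hK : 0 < K) : ∃ c, 0 < c ∧ ∀ β α : ℝ, |β| ≤ K → 0 ≤ α → α ≤ K →
    c * α ^ 2 ≤ mn (fun t => ore (β + α * Real.cos t) ^ 2) * mn (fun t => oim (β + α * Real.cos t) ^ 2)
      - mn (fun t => ore (β + α * Real.cos t) * oim (β + α * Real.cos t)) ^ 2 := by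
  set δ : ℝ := min (Real.pi / 4) (1 / (4 * K)) with hδ
  have hδ0 : 0 < δ := lt_min (by positivity) (by positivity)
  have hδ1 : δ ≤ Real.pi / 4 := min_le_left _ _
  have hδ2 : δ ≤ 1 / (4 * K) := min_le_right _ _
  have hpi := Real.pi_pos
  have hsin : 0 < Real.sin δ := Real.sin_pos_of_pos_of_lt_pi hδ0 (by linarith)
  refine ⟨1 / 2 * (δ / (2 * Real.pi)) * (δ / (2 * Real.pi)) *
    ((2 * Real.sin δ) ^ 2 / (1 + (2 * K) ^ 2) ^ 4), by positivity, ?_⟩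
  intro β α hβ hα hαK
  have hu : Continuous (fun t => ore (β + α * Real.cos t)) := by
    unfold ore
    apply Continuous.div (by fun_prop) (by fun_prop)
    intro t; positivity
  have hv : Continuous (fun t => oim (β + α * Real.cos t)) := by
    unfold oim
    apply Continuous.div (by fun_prop) (by fun_prop)
    intro t; positivity
  have key : ∀ σ ∈ Icc δ (2 * δ), Real.sin δ ≤ Real.sin σ ∧ α * Real.sin σ ≤ 1 / 2 := by
    intro σ hσ
    constructor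
    · apply Real.sin_le_sin_of_le_of_le_pi_div_two <;> linarith [hσ.1, hσ.2]
    · have h1 : Real.sin σ ≤ σ := Real.sin_le (by linarith [hσ.1])
      have h2 : σ ≤ 2 * (1 / (4 * K)) := by linarith [hσ.2]
      have h0 : 0 ≤ Real.sin σ :=
        (Real.sin_pos_of_pos_of_lt_pi (by linarith [hσ.1]) (by linarith [hσ.2])).le
      calc α * Real.sin σ ≤ K * (2 * (1 / (4 * K))) := by
            apply mul_le_mul hαK (h1.trans h2) h0 hK.le
        _ = 1 / 2 := by field_simp; norm_num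
  have h := mn_gram hu hv (a := Real.pi / 2 + δ) (b := Real.pi / 2 + 2 * δ)
    (a' := Real.pi / 2 - 2 * δ) (b' := Real.pi / 2 - δ)
    (k := (2 * (α * Real.sin δ)) ^ 2 / (1 + (2 * K) ^ 2) ^ 4)
    (by linarith) (by linarith) (by linarith) (by linarith) (by linarith) (by linarith) ?_
  · refine le_trans (le_of_eq ?_) h
    ring
  · intro s hs t ht
    have hs' := key (s - Real.pi / 2) ⟨by linarith [hs.1], by linarith [hs.2]⟩
    have ht' := key (Real.pi / 2 - t) ⟨by linarith [ht.2], by linarith [ht.1]⟩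
    have es : β + α * Real.cos s = β - α * Real.sin (s - Real.pi / 2) := by
      rw [Real.sin_sub_pi_div_two]; ring
    have et : β + α * Real.cos t = β + α * Real.sin (Real.pi / 2 - t) := by
      rw [Real.sin_pi_div_two_sub]
    rw [es, et]
    have hb1 := abs_le.1 hβ
    have n1 : 0 ≤ α * Real.sin (s - Real.pi / 2) := mul_nonneg hα (hsin.le.trans hs'.1)
    have n2 : 0 ≤ α * Real.sin (Real.pi / 2 - t) := mul_nonneg hα (hsin.le.trans ht'.1)
    have m1 : α * Real.sin (s - Real.pi / 2) ≤ K := by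
      calc _ ≤ α * 1 := mul_le_mul_of_nonneg_left (Real.sin_le_one _) hα
        _ ≤ K := by linarith
    have m2 : α * Real.sin (Real.pi / 2 - t) ≤ K := by
      calc _ ≤ α * 1 := mul_le_mul_of_nonneg_left (Real.sin_le_one _) hα
        _ ≤ K := by linarith
    apply ore_oim_low n1 hs'.2 n2 ht'.2
    · rw [abs_le]; constructor <;> linarith
    · rw [abs_le]; constructor <;> linarith
    · positivity
    · have a1 := mul_le_mul_of_nonneg_left hs'.1 hα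
      have a2 := mul_le_mul_of_nonneg_left ht'.1 hα
      linarith

lemma inner_cpr {A B C v : E4} (hB : inner ℝ v B = (0:ℝ)) (hC : inner ℝ v C = (0:ℝ)) :
    inner ℝ (cpr A B C) v = (0:ℝ) := by
  have hB' : inner ℝ B v = (0:ℝ) := by rw [real_inner_comm]; exact hB
  have hC' : inner ℝ C v = (0:ℝ) := by rw [real_inner_comm]; exact hC
  simp [cpr, xiB, xiC, inner_add_left, inner_sub_left, real_inner_smul_left, hB', hC']

section point
variable {A B C b : E4} {s : ℝ}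



lemma W_b (hb : ‖b‖ = 1) (hbB : inner ℝ b B = (0:ℝ)) (hbC : inner ℝ b C = (0:ℝ))
    (hbb : inner ℝ (lb' B C b) b = (0:ℝ)) (t : ℝ) :
    inner ℝ (loopW A B C b s t) b = lr A B C b s * lomre A B C b s t - lp1 A b := by
  simp [loopW, loopw, inner_add_left, inner_sub_left, real_inner_smul_left, inner_cpr hbB hbC, hbb,
    lp1, hb]

lemma W_b' (hb' : ‖lb' B C b‖ = 1) (hbB : inner ℝ (lb' B C b) B = (0:ℝ))
    (hbC : inner ℝ (lb' B C b) C = (0:ℝ))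
    (hbb : inner ℝ (lb' B C b) b = (0:ℝ)) (t : ℝ) :
    inner ℝ (loopW A B C b s t) (lb' B C b) = lr A B C b s * lomim A B C b s t - lp2 A B C b := by
  have hbb' : inner ℝ b (lb' B C b) = (0:ℝ) := by rw [real_inner_comm]; exact hbb
  simp [loopW, loopw, inner_add_left, inner_sub_left, real_inner_smul_left, inner_cpr hbB hbC, hbb',
    lp2, hb']

lemma continuous_lomre : Continuous (lomre A B C b s) := by
  unfold lomre lP
  apply Continuous.div (by fun_prop) (by fun_prop)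
  intro t; positivity

lemma continuous_lomim : Continuous (lomim A B C b s) := by
  unfold lomim lP
  apply Continuous.div (by fun_prop) (by fun_prop)
  intro t; positivity

lemma continuous_loopW : Continuous (loopW A B C b s) := by
  have h1 := continuous_lomre (A := A) (B := B) (C := C) (b := b) (s := s)
  have h2 := continuous_lomim (A := A) (B := B) (C := C) (b := b) (s := s)
  unfold loopW loopw
  fun_prop

lemma mn_inner (v : E4) (hm : ∫ t in (0:ℝ)..(2 * Real.pi), loopW A B C b s t = 0) :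
    mn (fun t => inner ℝ (loopW A B C b s t) v) = 0 := by
  unfold mn
  have h : ∫ t in (0:ℝ)..(2 * Real.pi), (innerSL ℝ v) (loopW A B C b s t) = 0 := by
    rw [ContinuousLinearMap.intervalIntegral_comp_comm _
      (continuous_loopW.intervalIntegrable _ _), hm, map_zero]
  have h2 : ∫ t in (0:ℝ)..(2 * Real.pi), (inner ℝ (loopW A B C b s t) v : ℝ) = 0 := by
    rw [← h]
    congr 1
    funext t
    rw [innerSL_apply_apply, real_inner_comm]
  rw [h2, mul_zero]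

lemma del_eq (hb : ‖b‖ = 1) (hbB : inner ℝ b B = (0:ℝ)) (hbC : inner ℝ b C = (0:ℝ))
    (hb' : ‖lb' B C b‖ = 1) (hbB' : inner ℝ (lb' B C b) B = (0:ℝ))
    (hbC' : inner ℝ (lb' B C b) C = (0:ℝ))
    (hbb : inner ℝ (lb' B C b) b = (0:ℝ))
    (hm : ∫ t in (0:ℝ)..(2 * Real.pi), loopW A B C b s t = 0) :
    lp1 A b ^ 2 * mn (fun t => (inner ℝ (loopW A B C b s t) (lb' B C b) : ℝ) ^ 2)
    + lp2 A B C b ^ 2 * mn (fun t => (inner ℝ (loopW A B C b s t) b : ℝ) ^ 2)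
    - 2 * lp1 A b * lp2 A B C b * mn (fun t => (inner ℝ (loopW A B C b s t) b : ℝ) *
        (inner ℝ (loopW A B C b s t) (lb' B C b) : ℝ))
    + mn (fun t => (inner ℝ (loopW A B C b s t) b : ℝ) ^ 2) *
      mn (fun t => (inner ℝ (loopW A B C b s t) (lb' B C b) : ℝ) ^ 2)
    - mn (fun t => (inner ℝ (loopW A B C b s t) b : ℝ) *
        (inner ℝ (loopW A B C b s t) (lb' B C b) : ℝ)) ^ 2 =
    lr A B C b s ^ 4 * (mn (fun t => lomre A B C b s t ^ 2) * mn (fun t => lomim A B C b s t ^ 2)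
      - mn (fun t => lomre A B C b s t * lomim A B C b s t) ^ 2) := by
  have h1 := mn_inner b hm
  have h2 := mn_inner (lb' B C b) hm
  simp only [W_b hb hbB hbC hbb, W_b' hb' hbB' hbC' hbb] at h1 h2 ⊢
  have cre := continuous_lomre (A := A) (B := B) (C := C) (b := b) (s := s)
  have cim := continuous_lomim (A := A) (B := B) (C := C) (b := b) (s := s)
  set r := lr A B C b s
  set p1 := lp1 A b
  set p2 := lp2 A B C b
  set u := lomre A B C b s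
  set v := lomim A B C b s
  have e1 : mn (fun t => r * u t - p1) = r * mn u - p1 := by
    have := mn_comb cre (continuous_const (y := (1:ℝ))) (continuous_const (y := (0:ℝ))) r (-p1) 0
    rw [mn_const, mn_const] at this
    rw [show (fun t => r * u t - p1) = (fun t => r * u t + -p1 * 1 + 0 * 0) by funext t; ring, this]
    ring
  have e2 : mn (fun t => r * v t - p2) = r * mn v - p2 := by
    have := mn_comb cim (continuous_const (y := (1:ℝ))) (continuous_const (y := (0:ℝ))) r (-p2) 0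
    rw [mn_const, mn_const] at this
    rw [show (fun t => r * v t - p2) = (fun t => r * v t + -p2 * 1 + 0 * 0) by funext t; ring, this]
    ring
  rw [e1] at h1
  rw [e2] at h2
  have e3 : mn (fun t => (r * u t - p1) ^ 2) = r ^ 2 * mn (fun t => u t ^ 2) - p1 ^ 2 := by
    have := mn_comb (f := fun t => u t ^ 2) (g := u) (h := fun _ => (1:ℝ)) (by fun_prop) cre
      (by fun_prop) (r ^ 2) (-2 * r * p1) (p1 ^ 2)
    rw [mn_const] at this
    rw [show (fun t => (r * u t - p1) ^ 2) =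
      (fun t => r ^ 2 * u t ^ 2 + -2 * r * p1 * u t + p1 ^ 2 * 1) by funext t; ring, this]
    linear_combination (-2 * p1) * h1
  have e4 : mn (fun t => (r * v t - p2) ^ 2) = r ^ 2 * mn (fun t => v t ^ 2) - p2 ^ 2 := by
    have := mn_comb (f := fun t => v t ^ 2) (g := v) (h := fun _ => (1:ℝ)) (by fun_prop) cim
      (by fun_prop) (r ^ 2) (-2 * r * p2) (p2 ^ 2)
    rw [mn_const] at this
    rw [show (fun t => (r * v t - p2) ^ 2) =
      (fun t => r ^ 2 * v t ^ 2 + -2 * r * p2 * v t + p2 ^ 2 * 1) by funext t; ring, this]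
    linear_combination (-2 * p2) * h2
  have e5 : mn (fun t => (r * u t - p1) * (r * v t - p2)) =
      r ^ 2 * mn (fun t => u t * v t) - p1 * p2 := by
    have t1 := mn_comb (f := fun t => u t * v t) (g := fun t => -p1 * r * v t + -p2 * r * u t)
      (h := fun _ => (1:ℝ)) (by fun_prop) (by fun_prop)
      (by fun_prop) (r ^ 2) 1 (p1 * p2)
    have t2 := mn_comb (f := v) (g := u) (h := fun _ => (0:ℝ)) cim cre (by fun_prop)
      (-p1 * r) (-p2 * r) 0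
    rw [mn_const] at t1 t2
    rw [show (fun t => -p1 * r * v t + -p2 * r * u t + 0 * (0:ℝ)) =
      (fun t => -p1 * r * v t + -p2 * r * u t) by funext t; ring] at t2
    rw [t2] at t1
    rw [show (fun t => (r * u t - p1) * (r * v t - p2)) =
      (fun t => r ^ 2 * (u t * v t) + 1 * (-p1 * r * v t + -p2 * r * u t) + p1 * p2 * 1) by
        funext t; ring, t1]
    linear_combination (-p1) * h2 + (-p2) * h1
  rw [e3, e4, e5]
  ring

end point

/-- uniform bounds of the parameters of the loops -/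
lemma bounds {R S cr cd : ℝ} (hR : 0 < R) (hS : 0 < S) (hcr : 0 < cr) (hcd : 0 < cd) :
    ∃ K k : ℝ, 0 < K ∧ 0 < k ∧ ∀ (A B C b : E4) (s : ℝ), 0 ≤ s → s ≤ S →
      |lp1 A b| ≤ R → |lp2 A B C b| ≤ R → cr ≤ lr A B C b s → cd ≤ lden A B C b s →
      |lbeta A B C b s| ≤ K ∧ s * lkap A B C b s ≤ K ∧ k ≤ lkap A B C b s := by
  refine ⟨8 / cd ^ 2 + S * Real.sqrt ((4 / cd + 1) * (1 + (2 / cd) ^ 2) / (cr ^ 2 * cd)),
    Real.sqrt (1 / ((2 * R ^ 2 + S ^ 2) * 4)), by positivity, by positivity, ?_⟩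
  intro A B C b s hs hsS hp1 hp2 hr hd
  have hr0 : 0 < lr A B C b s := hcr.trans_le hr
  have hd0 : 0 < lden A B C b s := hcd.trans_le hd
  have hrsq : lr A B C b s ^ 2 = lp1 A b ^ 2 + lp2 A B C b ^ 2 + s ^ 2 := by
    unfold lr
    rw [Real.sq_sqrt (by positivity)]
  have hrR : lr A B C b s ^ 2 ≤ 2 * R ^ 2 + S ^ 2 := by
    rw [hrsq]
    have h1 := pow_le_pow_left₀ (abs_nonneg _) hp1 2
    have h2 := pow_le_pow_left₀ (abs_nonneg _) hp2 2
    have h3 := pow_le_pow_left₀ hs hsS 2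
    rw [sq_abs] at h1 h2
    linarith
  have hxy : lx A B C b s ^ 2 + ly A B C b s ^ 2 ≤ 1 := by
    unfold lx ly
    rw [div_pow, div_pow, ← add_div, div_le_one (by positivity), hrsq]
    nlinarith [sq_nonneg s]
  have hx1 : |lx A B C b s| ≤ 1 :=
    (sq_le_one_iff_abs_le_one _).1 (by linarith [sq_nonneg (ly A B C b s)])
  have hy1 : |ly A B C b s| ≤ 1 :=
    (sq_le_one_iff_abs_le_one _).1 (by linarith [sq_nonneg (lx A B C b s)])
  have hx := abs_le.1 hx1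
  have hden4 : lden A B C b s ≤ 4 := by
    unfold lden
    nlinarith
  have hq1 : 0 ≤ lq1 A B C b s := by
    unfold lq1
    apply div_nonneg _ hd0.le
    linarith
  have hq1' : lq1 A B C b s ≤ 4 / cd := by
    unfold lq1
    apply div_le_div₀ (by norm_num) (by linarith) hcd hd
  have hq2 : |lq2 A B C b s| ≤ 2 / cd := by
    unfold lq2
    rw [abs_div, abs_neg, abs_mul, abs_of_pos (show (0:ℝ) < 2 by norm_num), abs_of_pos hd0]
    apply div_le_div₀ (by norm_num) (by linarith) hcd hd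
  have hq2s : lq2 A B C b s ^ 2 ≤ (2 / cd) ^ 2 := by
    rw [← sq_abs]; exact pow_le_pow_left₀ (abs_nonneg _) hq2 2
  have hβ : |lbeta A B C b s| ≤ 8 / cd ^ 2 := by
    unfold lbeta
    rw [abs_neg, abs_mul, abs_of_nonneg hq1]
    calc lq1 A B C b s * |lq2 A B C b s| ≤ 4 / cd * (2 / cd) :=
          mul_le_mul hq1' hq2 (abs_nonneg _) (by positivity)
      _ = 8 / cd ^ 2 := by rw [div_mul_div_comm]; norm_num; rw [sq]
  have hκ : lkap A B C b s ≤ Real.sqrt ((4 / cd + 1) * (1 + (2 / cd) ^ 2) / (cr ^ 2 * cd)) := by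
    unfold lkap
    apply Real.sqrt_le_sqrt
    apply div_le_div₀ (by positivity)
    · apply mul_le_mul (by linarith) (by linarith) (by positivity) (by positivity)
    · positivity
    · apply mul_le_mul _ hd hcd.le (by positivity)
      exact pow_le_pow_left₀ hcr.le hr 2
  have hκ' : Real.sqrt (1 / ((2 * R ^ 2 + S ^ 2) * 4)) ≤ lkap A B C b s := by
    unfold lkap
    apply Real.sqrt_le_sqrt
    apply div_le_div₀ (by positivity)
    · nlinarith [sq_nonneg (lq2 A B C b s), mul_nonneg hq1 (sq_nonneg (lq2 A B C b s))]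
    · positivity
    · apply mul_le_mul hrR hden4 hd0.le (by positivity)
  refine ⟨hβ.trans (by have : 0 ≤ S * Real.sqrt ((4 / cd + 1) * (1 + (2 / cd) ^ 2) / (cr ^ 2 * cd)) := by positivity
                       linarith), ?_, hκ'⟩
  have hκ0 : 0 ≤ lkap A B C b s := Real.sqrt_nonneg _
  have h8 : 0 ≤ 8 / cd ^ 2 := by positivity
  have := mul_le_mul hsS hκ hκ0 hS.le
  linarith

/-- the pointwise form of the nondegeneracy of the loops -/
lemma del_point {R S cr cd : ℝ} (hR : 0 < R) (hS : 0 < S) (hcr : 0 < cr) (hcd : 0 < cd) :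
    ∃ c, 0 < c ∧ ∀ (A B C b : E4) (s : ℝ), 0 ≤ s → s ≤ S → ‖A‖ ≤ R →
      cr ≤ lr A B C b s → cd ≤ lden A B C b s →
      ‖b‖ = 1 → inner ℝ b B = (0:ℝ) → inner ℝ b C = (0:ℝ) →
      ‖lb' B C b‖ = 1 → inner ℝ (lb' B C b) B = (0:ℝ) →
      inner ℝ (lb' B C b) C = (0:ℝ) → inner ℝ (lb' B C b) b = (0:ℝ) →
      ∫ t in (0:ℝ)..(2 * Real.pi), loopW A B C b s t = 0 →
      c * s ^ 2 ≤ lp1 A b ^ 2 * mn (fun t => (inner ℝ (loopW A B C b s t) (lb' B C b) : ℝ) ^ 2)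
        + lp2 A B C b ^ 2 * mn (fun t => (inner ℝ (loopW A B C b s t) b : ℝ) ^ 2)
        - 2 * lp1 A b * lp2 A B C b * mn (fun t => (inner ℝ (loopW A B C b s t) b : ℝ) *
            (inner ℝ (loopW A B C b s t) (lb' B C b) : ℝ))
        + mn (fun t => (inner ℝ (loopW A B C b s t) b : ℝ) ^ 2) *
          mn (fun t => (inner ℝ (loopW A B C b s t) (lb' B C b) : ℝ) ^ 2)
        - mn (fun t => (inner ℝ (loopW A B C b s t) b : ℝ) *
            (inner ℝ (loopW A B C b s t) (lb' B C b) : ℝ)) ^ 2 := by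
  obtain ⟨K, k, hK, hk, hKk⟩ := bounds hR hS hcr hcd
  obtain ⟨c, hc, hcK⟩ := gram_om hK
  refine ⟨cr ^ 4 * (c * k ^ 2), by positivity, ?_⟩
  intro A B C b s hs hsS hA hr hd hb hbB hbC hb' hbB' hbC' hbb hm
  rw [del_eq hb hbB hbC hb' hbB' hbC' hbb hm]
  have hp1 : |lp1 A b| ≤ R := by
    have := abs_real_inner_le_norm A b
    rw [hb, mul_one] at this
    exact this.trans hA
  have hp2 : |lp2 A B C b| ≤ R := by
    have := abs_real_inner_le_norm A (lb' B C b)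
    rw [hb', mul_one] at this
    exact this.trans hA
  obtain ⟨h1, h2, h3⟩ := hKk A B C b s hs hsS hp1 hp2 hr hd
  have hκ0 : 0 ≤ lkap A B C b s := Real.sqrt_nonneg _
  have h4 := hcK (lbeta A B C b s) (s * lkap A B C b s) h1 (mul_nonneg hs hκ0) h2
  have h5 : c * k ^ 2 * s ^ 2 ≤ c * (s * lkap A B C b s) ^ 2 := by
    rw [mul_pow]
    have := pow_le_pow_left₀ hk.le h3 2
    have h6 : k ^ 2 * s ^ 2 ≤ lkap A B C b s ^ 2 * s ^ 2 :=
      mul_le_mul_of_nonneg_right this (sq_nonneg s)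
    nlinarith
  have h7 : cr ^ 4 ≤ lr A B C b s ^ 4 := pow_le_pow_left₀ hcr.le hr 4
  have h8 := h5.trans h4
  calc cr ^ 4 * (c * k ^ 2) * s ^ 2 = cr ^ 4 * (c * k ^ 2 * s ^ 2) := by ring
    _ ≤ lr A B C b s ^ 4 * (c * k ^ 2 * s ^ 2) := mul_le_mul_of_nonneg_right h7 (by positivity)
    _ ≤ _ := mul_le_mul_of_nonneg_left h8 (by positivity)

end LoopC

section
variable {𝓔 : EFam} {A B C b : 𝓔.I → X2 → E4}

/-- nondegeneracy, modulo the algebra of the frame and the mean of the loop -/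
lemma loop_del_of (h : LoopHyp 𝓔 A B C b)
    (hJ : ∀ i, ∀ x ∈ 𝓔.D i, ‖lb' (B i x) (C i x) (b i x)‖ = 1 ∧
      inner ℝ (lb' (B i x) (C i x) (b i x)) (B i x) = (0:ℝ) ∧
      inner ℝ (lb' (B i x) (C i x) (b i x)) (C i x) = (0:ℝ) ∧
      inner ℝ (lb' (B i x) (C i x) (b i x)) (b i x) = (0:ℝ))
    (hm : ∀ i, ∀ x ∈ 𝓔.D i, ∫ t in (0:ℝ)..(2 * Real.pi),
      loopW (A i x) (B i x) (C i x) (b i x) (𝓔.a i x) t = 0) :
    ∃ c, 0 < c ∧ ∀ i, ∀ x ∈ 𝓔.D i,
    let b' := Jrot (B i x) (C i x) (b i x)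
    let W := fun t => loopW (A i x) (B i x) (C i x) (b i x) (𝓔.a i x) t
    let m := fun (u : ℝ → ℝ) => (2 * Real.pi)⁻¹ * ∫ t in (0:ℝ)..(2 * Real.pi), u t
    let p1 : ℝ := inner ℝ (A i x) (b i x)
    let p2 : ℝ := inner ℝ (A i x) b'
    let W1 := fun t => (inner ℝ (W t) (b i x) : ℝ)
    let W2 := fun t => (inner ℝ (W t) b' : ℝ)
    c * 𝓔.a i x ^ 2 ≤ p1 ^ 2 * m (fun t => W2 t ^ 2) + p2 ^ 2 * m (fun t => W1 t ^ 2)
      - 2 * p1 * p2 * m (fun t => W1 t * W2 t)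
      + m (fun t => W1 t ^ 2) * m (fun t => W2 t ^ 2) - m (fun t => W1 t * W2 t) ^ 2 := by
  obtain ⟨R, hR, hA⟩ := h.AB.sz
  obtain ⟨S, hS, haS⟩ := 𝓔.a_le
  obtain ⟨cr, hcr, hr⟩ := h.r_low
  obtain ⟨cd, hcd, hd⟩ := h.den_low
  obtain ⟨c, hc, H⟩ := LoopC.del_point hR hS hcr hcd
  refine ⟨c, hc, ?_⟩
  intro i x hx
  have hA' : ‖A i x‖ ≤ R := by
    have := hA i (x, 0) hx
    simpa [lift, EFam.W] using this
  exact H (A i x) (B i x) (C i x) (b i x) (𝓔.a i x) (𝓔.a_pos i x hx).le (haS i x hx) hA'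
    (hr i x hx) (hd i x hx) (h.b_unit i x hx) (h.b_perp i x hx).1 (h.b_perp i x hx).2
    (hJ i x hx).1 (hJ i x hx).2.1 (hJ i x hx).2.2.1 (hJ i x hx).2.2.2 (hm i x hx)

/-- nondegeneracy: with `W1 = ⟪W,b⟫`, `W2 = ⟪W,Jb⟫`, `p1, p2` the components of `A` -/
lemma loop_del (h : LoopHyp 𝓔 A B C b) : ∃ c, 0 < c ∧ ∀ i, ∀ x ∈ 𝓔.D i,
    let b' := Jrot (B i x) (C i x) (b i x)
    let W := fun t => loopW (A i x) (B i x) (C i x) (b i x) (𝓔.a i x) t
    let m := fun (u : ℝ → ℝ) => (2 * Real.pi)⁻¹ * ∫ t in (0:ℝ)..(2 * Real.pi), u t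
    let p1 : ℝ := inner ℝ (A i x) (b i x)
    let p2 : ℝ := inner ℝ (A i x) b'
    let W1 := fun t => (inner ℝ (W t) (b i x) : ℝ)
    let W2 := fun t => (inner ℝ (W t) b' : ℝ)
    c * 𝓔.a i x ^ 2 ≤ p1 ^ 2 * m (fun t => W2 t ^ 2) + p2 ^ 2 * m (fun t => W1 t ^ 2)
      - 2 * p1 * p2 * m (fun t => W1 t * W2 t)
      + m (fun t => W1 t ^ 2) * m (fun t => W2 t ^ 2) - m (fun t => W1 t * W2 t) ^ 2 := by
  have hg : ∀ i, ∀ x ∈ 𝓔.D i, 0 < gram (B i x) (C i x) := by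
    obtain ⟨c, hc, H⟩ := h.gram_low
    exact fun i x hx => hc.trans_le (H i x hx)
  apply loop_del_of h
  · intro i x hx
    obtain ⟨h1, h2, h3, h4⟩ := lb'_facts (hg i x hx) (h.b_unit i x hx) (h.b_perp i x hx).1
      (h.b_perp i x hx).2
    refine ⟨h1, h3, h4, ?_⟩
    rw [real_inner_comm]; exact h2
  · intro i x hx
    obtain ⟨cr, hcr, hr⟩ := h.r_low
    obtain ⟨cd, hcd, hd⟩ := h.den_low
    exact loop_mean _ _ _ _ _ (hg i x hx) (h.b_unit i x hx) (h.b_perp i x hx).1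
      (h.b_perp i x hx).2 (hcr.trans_le (hr i x hx)) (hcd.trans_le (hd i x hx))

end

end Crest.Agent.R216.TE
end

-- ▼ part R216/HypLoop
section

/-!
# Row 216, Theorem E: the Cayley loops satisfy the hypotheses of the engine (helper961).
`loopData f b G11 G12 G22 : EData 𝓔` and `hyp_of_loop : ... → (loopData ...).Hyp`.
-/

open Set Topology MeasureTheory
open scoped ContDiff

namespace Crest.Agent.R216.TE

/-- engine data with the Cayley loops for a frame vector `b` of `{f₂,f₂₂}ᗮ` -/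
noncomputable def loopData (𝓔 : EFam) (f b : 𝓔.I → X2 → E4) (G11 G12 G22 : 𝓔.I → X2 → ℝ) :
    EData 𝓔 where
  f := f
  b1 := b
  b2 := fun i x => Jrot (d2 (f i) x) (d2 (d2 (f i)) x) (b i x)
  Wl := fun i z => loopW (d1 (f i) z.1) (d2 (f i) z.1) (d2 (d2 (f i)) z.1) (b i z.1)
    (𝓔.a i z.1) z.2
  G11 := G11
  G12 := G12
  G22 := G22

namespace HL

lemma loopW_per (A B C b : E4) (s t : ℝ) :
    loopW A B C b s (t + 2 * Real.pi) = loopW A B C b s t := by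
  simp only [loopW, loopw, lomre, lomim, lP, Real.cos_add_two_pi]

lemma loopW_even (A B C b : E4) (s t : ℝ) : loopW A B C b s (-t) = loopW A B C b s t := by
  simp only [loopW, loopw, lomre, lomim, lP, Real.cos_neg]

end HL

open HL

/-- **The Cayley loops satisfy the hypotheses of the engine.** -/
theorem hyp_of_loop (𝓔 : EFam) (f b : 𝓔.I → X2 → E4) (G11 G12 G22 : 𝓔.I → X2 → ℝ)
    (hf : 𝓔.toFam.Sm (fun i => lift (f i)))
    (hL : LoopHyp 𝓔 (fun i => d1 (f i)) (fun i => d2 (f i)) (fun i => d2 (d2 (f i))) b)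
    (h12 : 𝓔.toFam.B (𝓔.W 0 0 0) (fun i => lift (d1 (d2 (f i)))))
    (hG11 : 𝓔.toFam.B (𝓔.W 2 48 0) (fun i => lift (G11 i)))
    (hG12 : 𝓔.toFam.B (𝓔.W 2 48 0) (fun i => lift (G12 i)))
    (hG22 : 𝓔.toFam.B (𝓔.W 2 48 0) (fun i => lift (G22 i)))
    (star : ∀ i, ∀ x ∈ 𝓔.D i, ∀ l ∈ Icc (0:ℝ) 1, (x.1, l * x.2) ∈ 𝓔.D i)
    (bdd2 : ∃ L, 0 < L ∧ ∀ i, ∀ x ∈ 𝓔.D i, |x.2| ≤ L) :
    (loopData 𝓔 f b G11 G12 G22).Hyp := by
  obtain ⟨cg, hcg, hg⟩ := hL.gram_low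
  obtain ⟨cr, hcr, hr⟩ := hL.r_low
  obtain ⟨cd, hcd, hd⟩ := hL.den_low
  have hgp : ∀ i, ∀ x ∈ 𝓔.D i, 0 < gram (d2 (f i) x) (d2 (d2 (f i)) x) :=
    fun i x hx => hcg.trans_le (hg i x hx)
  have hJ : ∀ i, ∀ x ∈ 𝓔.D i, ‖Jrot (d2 (f i) x) (d2 (d2 (f i)) x) (b i x)‖ = 1 ∧
      inner ℝ (b i x) (Jrot (d2 (f i) x) (d2 (d2 (f i)) x) (b i x)) = (0:ℝ) ∧
      inner ℝ (Jrot (d2 (f i) x) (d2 (d2 (f i)) x) (b i x)) (d2 (f i) x) = (0:ℝ) ∧
      inner ℝ (Jrot (d2 (f i) x) (d2 (d2 (f i)) x) (b i x)) (d2 (d2 (f i)) x) = (0:ℝ) :=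
    fun i x hx => lb'_facts (hgp i x hx) (hL.b_unit i x hx) (hL.b_perp i x hx).1
      (hL.b_perp i x hx).2
  have hint0 : ∀ i, ∀ x ∈ 𝓔.D i, ∫ t in (0:ℝ)..(2 * Real.pi),
      loopW (d1 (f i) x) (d2 (f i) x) (d2 (d2 (f i)) x) (b i x) (𝓔.a i x) t = 0 :=
    fun i x hx => loop_mean _ _ _ _ _ (hgp i x hx) (hL.b_unit i x hx) (hL.b_perp i x hx).1
      (hL.b_perp i x hx).2 (hcr.trans_le (hr i x hx)) (hcd.trans_le (hd i x hx))
  refine
    { fsm := hf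
      f1B := hL.AB
      f2B := hL.BB
      f12B := h12
      f22B := hL.CB
      gram_low := ⟨cg, hcg, fun i z hz => hg i z.1 hz⟩
      b1B := hL.bB
      b2B := B_Jrot hL.BB hL.CB hL.bB ⟨cg, hcg, fun i z hz => hg i z.1 hz⟩
      b_on := fun i x hx => ⟨hL.b_unit i x hx, (hJ i x hx).1, (hJ i x hx).2.1⟩
      b_perp := fun i z hz => ⟨(hL.b_perp i z.1 hz).1, (hL.b_perp i z.1 hz).2,
        (hJ i z.1 hz).2.2.1, (hJ i z.1 hz).2.2.2⟩
      WB := loop_class hL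
      Wper := fun i x _ t => loopW_per _ _ _ _ _ _
      Weven := fun i x _ t => loopW_even _ _ _ _ _ _
      Wmean := fun i z hz => ?_
      Wperp := fun i z hz => loop_perp _ _ _ _ _ (hgp i z.1 hz) (hL.b_perp i z.1 hz).1
        (hL.b_perp i z.1 hz).2 _
      circle := fun i z hz => ?_
      r2_low := ⟨cr ^ 2, by positivity, fun i z hz => ?_⟩
      Del_low := ?_
      G11B := hG11
      G12B := hG12
      G22B := hG22
      star := star
      bdd2 := bdd2 }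
  · show mean _ z = 0
    unfold mean
    have := hint0 i z.1 hz
    simp only [loopData]
    rw [this, smul_zero]
  · have h1 := loop_circle (d1 (f i) z.1) (d2 (f i) z.1) (d2 (d2 (f i)) z.1) (b i z.1)
      (𝓔.a i z.1) (hgp i z.1 hz) (hL.b_unit i z.1 hz) (hL.b_perp i z.1 hz).1
      (hL.b_perp i z.1 hz).2 z.2
    have h2 : (loopData 𝓔 f b G11 G12 G22).w i z = loopw (d1 (f i) z.1) (d2 (f i) z.1)
        (d2 (d2 (f i)) z.1) (b i z.1) (𝓔.a i z.1) z.2 := by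
      show d1 (f i) z.1 + loopW _ _ _ _ _ _ = _
      unfold loopW
      abel
    rw [h2, h1]
    rfl
  · have h1 := hr i z.1 hz
    have h2 := lr_sq (A := d1 (f i) z.1) (B := d2 (f i) z.1) (C := d2 (d2 (f i)) z.1)
      (b := b i z.1) (s := 𝓔.a i z.1)
    have h3 : (loopData 𝓔 f b G11 G12 G22).r2 i z = lr (d1 (f i) z.1) (d2 (f i) z.1)
        (d2 (d2 (f i)) z.1) (b i z.1) (𝓔.a i z.1) ^ 2 := by
      rw [h2]; rfl
    rw [h3]
    exact pow_le_pow_left₀ hcr.le h1 2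
  · obtain ⟨c, hc, H⟩ := loop_del hL
    refine ⟨c, hc, fun i z hz => (H i z.1 hz).trans (le_of_eq ?_)⟩
    rfl

end Crest.Agent.R216.TE
end

-- ▼ part R216/MicroHyp

/-!
# Row 216, Theorem E, STAGE: the micro loops `b = p/|p|` satisfy `LoopHyp`.
-/

open Set Topology MeasureTheory
open scoped ContDiff

namespace Crest.Agent.R216.TE

lemma inner_cpr_perp (A B C b : E4) (hB : inner ℝ b B = (0:ℝ)) (hC : inner ℝ b C = (0:ℝ)) :
    inner ℝ (cpr A B C) b = (0:ℝ) := by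
  have hB' : inner ℝ B b = (0:ℝ) := by rw [real_inner_comm]; exact hB
  have hC' : inner ℝ C b = (0:ℝ) := by rw [real_inner_comm]; exact hC
  simp only [cpr, xiB, xiC, inner_add_left, inner_sub_left, inner_smul_left, hB', hC']
  simp

lemma inner_ppr_perp (A B C b : E4) (hB : inner ℝ b B = (0:ℝ)) (hC : inner ℝ b C = (0:ℝ)) :
    inner ℝ A b = (inner ℝ (ppr A B C) b : ℝ) := by
  rw [ppr, inner_sub_left, inner_cpr_perp A B C b hB hC, sub_zero]

/-- the norm of a vector of the class with positive lower bound -/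
lemma B_norm {𝓔 : EFam} {v : 𝓔.I → Q → E4} (hv : 𝓔.toFam.B (𝓔.W 0 0 0) v)
    (hlow : ∃ c, 0 < c ∧ ∀ i, ∀ z ∈ 𝓔.toFam.dom i, c ≤ ‖v i z‖) :
    𝓔.toFam.B (𝓔.W 0 0 0) (fun i z => ‖v i z‖) := by
  obtain ⟨c, hc, hlow⟩ := hlow
  have h1 := Fam.B.sqrt (𝓕 := 𝓔.toFam) (w := 𝓔.W 0 0 0) (u := fun i z => inner ℝ (v i z) (v i z))
    (c := c ^ 2) (by positivity) (fun i x hx => EFam.W_pos _ _ _ i hx)
    (fun i z hz => by
      have := hlow i z hz
      rw [real_inner_self_eq_norm_sq]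
      simp only [EFam.W, pow_zero, mul_one]
      nlinarith [norm_nonneg (v i z)]) (EFam.B_inner hv hv)
  refine (EFam.B_weq h1 (fun i x _ => by simp [EFam.W])).congr (fun i z _ => ?_)
  simp only [real_inner_self_eq_norm_sq]
  exact Real.sqrt_sq (norm_nonneg _)

lemma B_normalize {𝓔 : EFam} {v : 𝓔.I → Q → E4} (hv : 𝓔.toFam.B (𝓔.W 0 0 0) v)
    (hlow : ∃ c, 0 < c ∧ ∀ i, ∀ z ∈ 𝓔.toFam.dom i, c ≤ ‖v i z‖) :
    𝓔.toFam.B (𝓔.W 0 0 0) (fun i z => ‖v i z‖⁻¹ • v i z) := by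
  obtain ⟨c, hc, hl⟩ := hlow
  exact EFam.B_inv (k := 0) (B_norm hv ⟨c, hc, hl⟩)
    ⟨c, hc, fun i z hz => by simpa using hl i z hz⟩ hv

/-- the frame `b = p/|p|` gives `LoopHyp` (general `A, B, C`) -/
theorem loopHyp_of_p {𝓔 : EFam} {A B C : 𝓔.I → X2 → E4}
    (AB : 𝓔.toFam.B (𝓔.W 0 0 0) (fun i => lift (A i)))
    (BB : 𝓔.toFam.B (𝓔.W 0 0 0) (fun i => lift (B i)))
    (CB : 𝓔.toFam.B (𝓔.W 0 0 0) (fun i => lift (C i)))
    (gram_low : ∃ c, 0 < c ∧ ∀ i, ∀ x ∈ 𝓔.D i, c ≤ gram (B i x) (C i x))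
    (p_low : ∃ c, 0 < c ∧ ∀ i, ∀ x ∈ 𝓔.D i, c ≤ ‖ppr (A i x) (B i x) (C i x)‖) :
    LoopHyp 𝓔 A B C
      (fun i x => (‖ppr (A i x) (B i x) (C i x)‖)⁻¹ • ppr (A i x) (B i x) (C i x)) := by
  obtain ⟨c0, hc0, hg'⟩ := gram_low
  obtain ⟨c1, hc1, hp'⟩ := p_low
  have hgz : ∃ c, 0 < c ∧ ∀ i, ∀ z ∈ 𝓔.toFam.dom i,
      c ≤ gram (lift (B i) z) (lift (C i) z) :=
    ⟨c0, hc0, fun i z hz => hg' i z.1 hz⟩
  have hpr := B_ppr AB BB CB hgz
  have hne : ∀ i, ∀ x ∈ 𝓔.D i, ‖ppr (A i x) (B i x) (C i x)‖ ≠ 0 :=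
    fun i x hx => (lt_of_lt_of_le hc1 (hp' i x hx)).ne'
  have hgn : ∀ i, ∀ x ∈ 𝓔.D i, gram (B i x) (C i x) ≠ 0 :=
    fun i x hx => (lt_of_lt_of_le hc0 (hg' i x hx)).ne'
  have hperp : ∀ i, ∀ x ∈ 𝓔.D i,
      inner ℝ (‖ppr (A i x) (B i x) (C i x)‖⁻¹ • ppr (A i x) (B i x) (C i x)) (B i x) = (0:ℝ) ∧
      inner ℝ (‖ppr (A i x) (B i x) (C i x)‖⁻¹ • ppr (A i x) (B i x) (C i x)) (C i x)
        = (0:ℝ) := by
    intro i x hx
    obtain ⟨e1, e2⟩ := ppr_perp (A i x) (B i x) (C i x) (hgn i x hx)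
    constructor
    · rw [inner_smul_left, e1, mul_zero]
    · rw [inner_smul_left, e2, mul_zero]
  have hunit : ∀ i, ∀ x ∈ 𝓔.D i,
      ‖‖ppr (A i x) (B i x) (C i x)‖⁻¹ • ppr (A i x) (B i x) (C i x)‖ = 1 := by
    intro i x hx
    rw [norm_smul, norm_inv, norm_norm, inv_mul_cancel₀ (hne i x hx)]
  have hlp1 : ∀ i, ∀ x ∈ 𝓔.D i, lp1 (A i x)
      (‖ppr (A i x) (B i x) (C i x)‖⁻¹ • ppr (A i x) (B i x) (C i x))
      = ‖ppr (A i x) (B i x) (C i x)‖ := by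
    intro i x hx
    obtain ⟨e1, e2⟩ := hperp i x hx
    rw [lp1, inner_ppr_perp _ _ _ _ e1 e2, inner_smul_right, real_inner_self_eq_norm_sq]
    have := hne i x hx
    field_simp
  refine ⟨AB, BB, CB, ?_, ⟨c0, hc0, hg'⟩, hunit, hperp, ⟨c1, hc1, fun i x hx => ?_⟩,
    ⟨1, one_pos, fun i x hx => ?_⟩⟩
  · exact B_normalize hpr ⟨c1, hc1, fun i z hz => hp' i z.1 hz⟩
  · have h := hp' i x hx
    have e := hlp1 i x hx
    rw [lr, e]
    refine h.trans (Real.le_sqrt_of_sq_le ?_)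
    nlinarith [sq_nonneg (lp2 (A i x) (B i x) (C i x)
        (‖ppr (A i x) (B i x) (C i x)‖⁻¹ • ppr (A i x) (B i x) (C i x))),
      sq_nonneg (𝓔.a i x)]
  · have e := hlp1 i x hx
    have hx0 : 0 ≤ lx (A i x) (B i x) (C i x)
        (‖ppr (A i x) (B i x) (C i x)‖⁻¹ • ppr (A i x) (B i x) (C i x)) (𝓔.a i x) := by
      rw [lx, e]
      exact div_nonneg (norm_nonneg _) (Real.sqrt_nonneg _)
    rw [lden]
    nlinarith [sq_nonneg (ly (A i x) (B i x) (C i x)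
      (‖ppr (A i x) (B i x) (C i x)‖⁻¹ • ppr (A i x) (B i x) (C i x)) (𝓔.a i x))]

theorem microLoopHyp (𝓔 : EFam) (f : 𝓔.I → X2 → E4)
    (h1 : 𝓔.toFam.B (𝓔.W 0 0 0) (fun i => lift (d1 (f i))))
    (h2 : 𝓔.toFam.B (𝓔.W 0 0 0) (fun i => lift (d2 (f i))))
    (h22 : 𝓔.toFam.B (𝓔.W 0 0 0) (fun i => lift (d2 (d2 (f i)))))
    (hg : ∃ c, 0 < c ∧ ∀ i, ∀ x ∈ 𝓔.D i, c ≤ gram (d2 (f i) x) (d2 (d2 (f i)) x))
    (hp : ∃ c, 0 < c ∧ ∀ i, ∀ x ∈ 𝓔.D i,
      c ≤ ‖ppr (d1 (f i) x) (d2 (f i) x) (d2 (d2 (f i)) x)‖) :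
    LoopHyp 𝓔 (fun i => d1 (f i)) (fun i => d2 (f i)) (fun i => d2 (d2 (f i)))
      (fun i => mb (f i)) :=
  loopHyp_of_p h1 h2 h22 hg hp

/-- **The micro data satisfy the hypotheses of the engine.** -/
theorem microData_hyp (𝓔 : EFam) (f : 𝓔.I → X2 → E4) (G11 G12 G22 : 𝓔.I → X2 → ℝ)
    (hf : ∀ i, ContDiff ℝ ∞ (f i))
    (h1 : 𝓔.toFam.B (𝓔.W 0 0 0) (fun i => lift (d1 (f i))))
    (h2 : 𝓔.toFam.B (𝓔.W 0 0 0) (fun i => lift (d2 (f i))))
    (h12 : 𝓔.toFam.B (𝓔.W 0 0 0) (fun i => lift (d1 (d2 (f i)))))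
    (h22 : 𝓔.toFam.B (𝓔.W 0 0 0) (fun i => lift (d2 (d2 (f i)))))
    (hg : ∃ c, 0 < c ∧ ∀ i, ∀ x ∈ 𝓔.D i, c ≤ gram (d2 (f i) x) (d2 (d2 (f i)) x))
    (hp : ∃ c, 0 < c ∧ ∀ i, ∀ x ∈ 𝓔.D i,
      c ≤ ‖ppr (d1 (f i) x) (d2 (f i) x) (d2 (d2 (f i)) x)‖)
    (hG11 : 𝓔.toFam.B (𝓔.W 2 48 0) (fun i => lift (G11 i)))
    (hG12 : 𝓔.toFam.B (𝓔.W 2 48 0) (fun i => lift (G12 i)))
    (hG22 : 𝓔.toFam.B (𝓔.W 2 48 0) (fun i => lift (G22 i)))
    (star : ∀ i, ∀ x ∈ 𝓔.D i, ∀ l ∈ Icc (0:ℝ) 1, (x.1, l * x.2) ∈ 𝓔.D i)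
    (bdd2 : ∃ L, 0 < L ∧ ∀ i, ∀ x ∈ 𝓔.D i, |x.2| ≤ L) :
    (microData 𝓔 f G11 G12 G22).Hyp := by
  have hs : 𝓔.toFam.Sm (fun i => lift (f i)) :=
    fun i => ((hf i).comp contDiff_fst).contDiffOn
  exact hyp_of_loop 𝓔 f (fun i => mb (f i)) G11 G12 G22 hs
    (microLoopHyp 𝓔 f h1 h2 h22 hg hp) h12 hG11 hG12 hG22 star bdd2

end Crest.Agent.R216.TE
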