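import Crest.Agent.R216.StageDefs
import Crest.Agent.R216.Conv

/-!
# Row 216, Theorem E, module STAGE, part S5: smoothing errors.

`ft = P K (L²)⁻¹ f`. On `W` all the differences of derivatives of order `j ≤ 4` are
`≤ L^j (L⁻¹)^K`. The same for smooth functions with derivative bounds on `N`.
-/

set_option linter.unusedSectionVars false

open Set Topology MeasureTheory Metric
open scoped ContDiff

namespace Crest.Agent.R216.TE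

namespace SClose

variable {V : Type*} [NormedAddCommGroup V] [NormedSpace ℝ V]

/-! ### partial derivatives and iterated derivatives -/

/-- evaluation at a vector -/
noncomputable def evv (V : Type*) [NormedAddCommGroup V] [NormedSpace ℝ V] (v : X2) :
    (X2 →L[ℝ] V) →L[ℝ] V := ContinuousLinearMap.apply ℝ V v

lemma norm_evv_le (v : X2) (hv : ‖v‖ ≤ 1) : ‖evv V v‖ ≤ 1 := by
  apply ContinuousLinearMap.opNorm_le_bound _ zero_le_one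
  intro L
  rw [one_mul]
  calc ‖L v‖ ≤ ‖L‖ * ‖v‖ := L.le_opNorm v
    _ ≤ ‖L‖ * 1 := mul_le_mul_of_nonneg_left hv (norm_nonneg _)
    _ = ‖L‖ := mul_one _

lemma norm_e1 : ‖((1, 0) : X2)‖ ≤ 1 := by simp [Prod.norm_def]
lemma norm_e2 : ‖((0, 1) : X2)‖ ≤ 1 := by simp [Prod.norm_def]


lemma contDiff_dv {g : X2 → V} (hg : ContDiff ℝ ∞ g) (v : X2) :
    ContDiff ℝ ∞ (evv V v ∘ fderiv ℝ g) :=
  (evv V v).contDiff.comp (hg.fderiv_right (m := ∞) (by simp))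

lemma contDiff_d1 {g : X2 → V} (hg : ContDiff ℝ ∞ g) : ContDiff ℝ ∞ (d1 g) := contDiff_dv hg _
lemma contDiff_d2 {g : X2 → V} (hg : ContDiff ℝ ∞ g) : ContDiff ℝ ∞ (d2 g) := contDiff_dv hg _

lemma norm_iteratedFDeriv_dv_le {g : X2 → V} (hg : ContDiff ℝ ∞ g) (v : X2) (hv : ‖v‖ ≤ 1)
    (j : ℕ) (x : X2) :
    ‖iteratedFDeriv ℝ j (evv V v ∘ fderiv ℝ g) x‖ ≤ ‖iteratedFDeriv ℝ (j + 1) g x‖ := by
  have h1 : ContDiff ℝ ∞ (fderiv ℝ g) := hg.fderiv_right (m := ∞) (by simp)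
  rw [ContinuousLinearMap.iteratedFDeriv_comp_left (evv V v)
    ((h1.of_le (by exact_mod_cast le_top)).contDiffAt (n := j)) le_rfl]
  refine (ContinuousLinearMap.norm_compContinuousMultilinearMap_le _ _).trans ?_
  rw [norm_iteratedFDeriv_fderiv]
  calc ‖evv V v‖ * ‖iteratedFDeriv ℝ (j + 1) g x‖ ≤ 1 * ‖iteratedFDeriv ℝ (j + 1) g x‖ :=
        mul_le_mul_of_nonneg_right (norm_evv_le v hv) (norm_nonneg _)
    _ = _ := one_mul _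

lemma norm_iteratedFDeriv_d1_le {g : X2 → V} (hg : ContDiff ℝ ∞ g) (j : ℕ) (x : X2) :
    ‖iteratedFDeriv ℝ j (d1 g) x‖ ≤ ‖iteratedFDeriv ℝ (j + 1) g x‖ :=
  norm_iteratedFDeriv_dv_le hg _ norm_e1 j x

lemma norm_iteratedFDeriv_d2_le {g : X2 → V} (hg : ContDiff ℝ ∞ g) (j : ℕ) (x : X2) :
    ‖iteratedFDeriv ℝ j (d2 g) x‖ ≤ ‖iteratedFDeriv ℝ (j + 1) g x‖ :=
  norm_iteratedFDeriv_dv_le hg _ norm_e2 j x

lemma norm_d1_le {g : X2 → V} (hg : ContDiff ℝ ∞ g) (x : X2) :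
    ‖d1 g x‖ ≤ ‖iteratedFDeriv ℝ 1 g x‖ := by
  simpa using norm_iteratedFDeriv_d1_le hg 0 x

lemma norm_d2_le {g : X2 → V} (hg : ContDiff ℝ ∞ g) (x : X2) :
    ‖d2 g x‖ ≤ ‖iteratedFDeriv ℝ 1 g x‖ := by
  simpa using norm_iteratedFDeriv_d2_le hg 0 x


lemma norm_d1d2_le {g : X2 → V} (hg : ContDiff ℝ ∞ g) (x : X2) :
    ‖d1 (d2 g) x‖ ≤ ‖iteratedFDeriv ℝ 2 g x‖ :=
  (norm_d1_le (contDiff_d2 hg) x).trans (norm_iteratedFDeriv_d2_le hg 1 x)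


lemma norm_d2d2_le {g : X2 → V} (hg : ContDiff ℝ ∞ g) (x : X2) :
    ‖d2 (d2 g) x‖ ≤ ‖iteratedFDeriv ℝ 2 g x‖ :=
  (norm_d2_le (contDiff_d2 hg) x).trans (norm_iteratedFDeriv_d2_le hg 1 x)

/-- additivity of `d1`, `d2` -/
lemma d1_sub {g h : X2 → V} (hg : ContDiff ℝ ∞ g) (hh : ContDiff ℝ ∞ h) :
    d1 (fun y => g y - h y) = fun y => d1 g y - d1 h y := by
  ext x
  unfold d1
  rw [fderiv_fun_sub (hg.differentiable (by simp) x) (hh.differentiable (by simp) x)]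
  rfl

lemma d2_sub {g h : X2 → V} (hg : ContDiff ℝ ∞ g) (hh : ContDiff ℝ ∞ h) :
    d2 (fun y => g y - h y) = fun y => d2 g y - d2 h y := by
  ext x
  unfold d2
  rw [fderiv_fun_sub (hg.differentiable (by simp) x) (hh.differentiable (by simp) x)]
  rfl

end SClose

open SClose

namespace SPar.Idx
variable {P : SPar} (i : P.Idx)

lemma sq_pos : 0 < (i.L ^ 2)⁻¹ := by have := i.L_pos; positivity

lemma scale_nonneg : 0 ≤ (i.L)⁻¹ ^ P.K := by have := i.L_pos; positivity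

lemma ft_cdiff : ContDiff ℝ ∞ i.ft :=
  Smooth.contDiff_P (by simp) i.sq_pos.ne' P.K i.hf

lemma ft_eq (x : X2) : i.ft x = i.f x - Smooth.Rn P.K (i.L ^ 2)⁻¹ i.f x := rfl

lemma ft_sub_eq : (fun x => i.ft x - i.f x) = fun x => - Smooth.Rn P.K (i.L ^ 2)⁻¹ i.f x := by
  ext1 x; rw [ft_eq]; abel

/-- `(L²)⁻¹ ^ K * L^(j+K) = L^j (L⁻¹)^K` -/
lemma scale_eq (j : ℕ) : ((i.L ^ 2)⁻¹) ^ P.K * i.L ^ (j + P.K) = i.L ^ j * (i.L)⁻¹ ^ P.K := by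
  have h := i.L_pos.ne'
  have h1 : i.L ^ P.K * (i.L)⁻¹ ^ P.K = 1 := by
    rw [← mul_pow, mul_inv_cancel₀ h, one_pow]
  calc ((i.L ^ 2)⁻¹) ^ P.K * i.L ^ (j + P.K)
      = i.L ^ j * (i.L)⁻¹ ^ P.K * (i.L ^ P.K * (i.L)⁻¹ ^ P.K) := by
        rw [pow_add, ← inv_pow, ← pow_mul, mul_comm 2 P.K, pow_mul]
        ring
    _ = _ := by rw [h1, mul_one]

/-- **Smoothing errors of `f`** (all orders `≤ 4`, the constant is `1`). -/
theorem close_iter {j : ℕ} (hj : j ≤ 4) (hj1 : 1 ≤ j + P.K) {x : X2} (hx : x ∈ P.S.W) :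
    ‖iteratedFDeriv ℝ j (fun y => i.ft y - i.f y) x‖ ≤ i.L ^ j * (i.L)⁻¹ ^ P.K := by
  rw [ft_sub_eq]
  have h0 : (fun x => - Smooth.Rn P.K (i.L ^ 2)⁻¹ i.f x) = -(Smooth.Rn P.K (i.L ^ 2)⁻¹ i.f) := rfl
  rw [h0, iteratedFDeriv_neg_apply, norm_neg]
  have h1 := Smooth.norm_iteratedFDeriv_Rn_le (g := i.f) i.sq_pos j P.K
    (i.hf.of_le (by exact_mod_cast le_top)) (x := x) (M := i.L ^ (j + P.K))
    (fun z hz => i.bd (j + P.K) hj1 (by omega) z (i.ball_sub hx hz))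
  rwa [scale_eq] at h1

lemma ftf_smooth : ContDiff ℝ ∞ (fun y => i.ft y - i.f y) := i.ft_cdiff.sub i.hf

theorem close_d1 {x : X2} (hx : x ∈ P.S.W) :
    ‖d1 i.ft x - d1 i.f x‖ ≤ i.L * (i.L)⁻¹ ^ P.K := by
  have h := norm_d1_le i.ftf_smooth x
  rw [d1_sub i.ft_cdiff i.hf] at h
  have h2 := i.close_iter (j := 1) (by omega) (by omega) hx
  rw [pow_one] at h2
  exact h.trans h2

theorem close_d2 {x : X2} (hx : x ∈ P.S.W) :
    ‖d2 i.ft x - d2 i.f x‖ ≤ i.L * (i.L)⁻¹ ^ P.K := by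
  have h := norm_d2_le i.ftf_smooth x
  rw [d2_sub i.ft_cdiff i.hf] at h
  have h2 := i.close_iter (j := 1) (by omega) (by omega) hx
  rw [pow_one] at h2
  exact h.trans h2


theorem close_d12 {x : X2} (hx : x ∈ P.S.W) :
    ‖d1 (d2 i.ft) x - d1 (d2 i.f) x‖ ≤ i.L ^ 2 * (i.L)⁻¹ ^ P.K := by
  have h := norm_d1d2_le i.ftf_smooth x
  rw [d2_sub i.ft_cdiff i.hf, d1_sub (contDiff_d2 i.ft_cdiff) (contDiff_d2 i.hf)] at h
  exact h.trans (i.close_iter (j := 2) (by omega) (by omega) hx)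


theorem close_d22 {x : X2} (hx : x ∈ P.S.W) :
    ‖d2 (d2 i.ft) x - d2 (d2 i.f) x‖ ≤ i.L ^ 2 * (i.L)⁻¹ ^ P.K := by
  have h := norm_d2d2_le i.ftf_smooth x
  rw [d2_sub i.ft_cdiff i.hf, d2_sub (contDiff_d2 i.ft_cdiff) (contDiff_d2 i.hf)] at h
  exact h.trans (i.close_iter (j := 2) (by omega) (by omega) hx)


/-- the form requested by STAGE: everything `≤ L² (L⁻¹)^K` -/
theorem close_all {x : X2} (hx : x ∈ P.S.W) :
    ‖d1 i.ft x - d1 i.f x‖ ≤ i.L ^ 2 * (i.L)⁻¹ ^ P.K ∧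
    ‖d2 i.ft x - d2 i.f x‖ ≤ i.L ^ 2 * (i.L)⁻¹ ^ P.K ∧
    ‖d1 (d2 i.ft) x - d1 (d2 i.f) x‖ ≤ i.L ^ 2 * (i.L)⁻¹ ^ P.K ∧
    ‖d2 (d2 i.ft) x - d2 (d2 i.f) x‖ ≤ i.L ^ 2 * (i.L)⁻¹ ^ P.K := by
  have h1 : i.L * (i.L)⁻¹ ^ P.K ≤ i.L ^ 2 * (i.L)⁻¹ ^ P.K := by
    apply mul_le_mul_of_nonneg_right _ i.scale_nonneg
    have := i.L_one
    nlinarith
  exact ⟨(i.close_d1 hx).trans h1, (i.close_d2 hx).trans h1, i.close_d12 hx, i.close_d22 hx⟩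

/-- Smoothing errors of a general family with derivative bounds on `N`. -/
theorem close_gen {F : Type} [NormedAddCommGroup F] [NormedSpace ℝ F] [CompleteSpace F]
    {g : X2 → F} (hg : ContDiff ℝ ∞ g) (j : ℕ) {M : ℝ}
    (hM : ∀ x ∈ P.S.N, ‖iteratedFDeriv ℝ (j + P.K) g x‖ ≤ M) {x : X2} (hx : x ∈ P.S.W) :
    ‖iteratedFDeriv ℝ j (fun y => Smooth.P P.K (i.L ^ 2)⁻¹ g y - g y) x‖ ≤
      ((i.L ^ 2)⁻¹) ^ P.K * M := by
  have h0 : (fun y => Smooth.P P.K (i.L ^ 2)⁻¹ g y - g y) =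
      -(Smooth.Rn P.K (i.L ^ 2)⁻¹ g) := by
    ext1 y
    simp only [Smooth.P, Pi.neg_apply]
    abel
  rw [h0, iteratedFDeriv_neg_apply, norm_neg]
  exact Smooth.norm_iteratedFDeriv_Rn_le i.sq_pos j P.K
    (hg.of_le (by exact_mod_cast le_top)) (fun z hz => hM z (i.ball_sub hx hz))

end SPar.Idx

namespace SPar
variable (P : SPar)

/-- **Smoothing errors of the tensor coefficients.** -/
theorem close_R (R : P.Idx → X2 → ℝ) (hR : ∀ i, ContDiff ℝ ∞ (R i)) (j : ℕ)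
    (hb : ∃ C, ∀ i : P.Idx, ∀ x ∈ P.S.N,
      ‖iteratedFDeriv ℝ (j + P.K) (R i) x‖ ≤ C * i.L ^ (j + P.K + 2) + C) :
    ∃ C, 0 < C ∧ ∀ i : P.Idx, ∀ x ∈ P.S.W,
      ‖iteratedFDeriv ℝ j (fun y => Smooth.P P.K (i.L ^ 2)⁻¹ (R i) y - R i y) x‖ ≤
        C * i.L ^ (j + 2) * (i.L)⁻¹ ^ P.K := by
  obtain ⟨C, hC⟩ := hb
  refine ⟨2 * |C| + 1, by positivity, fun i x hx => ?_⟩
  have hL := i.L_one
  have hLp := i.L_pos
  have h1 : ∀ x ∈ P.S.N, ‖iteratedFDeriv ℝ (j + P.K) (R i) x‖ ≤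
      (2 * |C| + 1) * i.L ^ (j + P.K + 2) := by
    intro x hx
    refine (hC i x hx).trans ?_
    have h2 : (1:ℝ) ≤ i.L ^ (j + P.K + 2) := one_le_pow₀ hL
    have h3 := le_abs_self C
    nlinarith [abs_nonneg C]
  refine (i.close_gen (hR i) j h1 hx).trans (le_of_eq ?_)
  have h4 := i.scale_eq (j + 2)
  have e : i.L ^ (j + P.K + 2) = i.L ^ (j + 2 + P.K) := by congr 1; omega
  rw [e]
  calc ((i.L ^ 2)⁻¹) ^ P.K * ((2 * |C| + 1) * i.L ^ (j + 2 + P.K))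
      = (2 * |C| + 1) * (((i.L ^ 2)⁻¹) ^ P.K * i.L ^ (j + 2 + P.K)) := by ring
    _ = _ := by rw [h4]; ring

/-- order `0`, in the form used by STAGE -/
theorem close_R0 (R : P.Idx → X2 → ℝ) (hR : ∀ i, ContDiff ℝ ∞ (R i))
    (hb : ∃ C, ∀ i : P.Idx, ∀ x ∈ P.S.N,
      ‖iteratedFDeriv ℝ P.K (R i) x‖ ≤ C * i.L ^ (P.K + 2) + C) :
    ∃ C, 0 < C ∧ ∀ i : P.Idx, ∀ x ∈ P.S.W,
      |Smooth.P P.K (i.L ^ 2)⁻¹ (R i) x - R i x| ≤ C * i.L ^ 4 * (i.L)⁻¹ ^ P.K := by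
  have e : 0 + P.K = P.K := Nat.zero_add _
  obtain ⟨C, hC, h⟩ := P.close_R R hR 0 (by rw [e]; exact hb)
  refine ⟨C, hC, fun i x hx => ?_⟩
  have h1 := h i x hx
  simp only [norm_iteratedFDeriv_zero, Real.norm_eq_abs, zero_add] at h1
  refine h1.trans ?_
  apply mul_le_mul_of_nonneg_right _ i.scale_nonneg
  apply mul_le_mul_of_nonneg_left _ hC.le
  exact pow_le_pow_right₀ i.L_one (by norm_num)

end SPar

end Crest.Agent.R216.TE
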