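import Crest.Agent.R216.StageA
import Crest.Agent.R216.StageClose
import Crest.Agent.R216.StageG

-- ▼ part R216/StageTh
section

/-!
# Row 216, Theorem E, module STAGE: the cut-off.
-/

set_option linter.unusedSectionVars false

open Set Topology MeasureTheory Metric
open scoped ContDiff

namespace Crest.Agent.R216.TE
namespace SPar

/-- the cut-off -/
noncomputable def th (P : SPar) (i : P.Idx) : X2 → ℝ := cutoff P.S.u i.l' i.Kc

lemma th_smooth (P : SPar) (i : P.Idx) : ContDiff ℝ ∞ (P.th i) :=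
  contDiff_cutoff _ _ P.S.h.hu

lemma th_supp (P : SPar) (i : P.Idx) : tsupport (P.th i) ⊆ i.D := by
  have hK := Idx.Kc_pos i
  have hcl : IsClosed {x : X2 | 3 ≤ 4 * i.Kc * (2 * i.l' * P.S.u x - 1)} := by
    have := P.S.h.hu.continuous
    exact isClosed_le continuous_const (by fun_prop)
  have h1 : tsupport (P.th i) ⊆ {x : X2 | 3 ≤ 4 * i.Kc * (2 * i.l' * P.S.u x - 1)} := by
    refine closure_minimal (fun x hx => ?_) hcl
    by_contra hc
    apply hx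
    have : 4 * i.Kc * (2 * i.l' * P.S.u x - 1) - 3 ≤ 0 := by
      have := not_le.1 (show ¬ 3 ≤ 4 * i.Kc * (2 * i.l' * P.S.u x - 1) from hc)
      linarith
    exact Real.smoothTransition.zero_of_nonpos this
  refine h1.trans (fun x hx => ?_)
  have h2 : 3 ≤ 4 * i.Kc * (2 * i.l' * P.S.u x - 1) := hx
  show (2 * i.Kc)⁻¹ < 2 * i.l' * P.S.u x - 1
  rw [inv_lt_iff_one_lt_mul₀ (by linarith)]
  linarith

lemma th_nonneg (P : SPar) (i : P.Idx) (x : X2) : 0 ≤ P.th i x :=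
  Real.smoothTransition.nonneg _

lemma th_le (P : SPar) (i : P.Idx) (x : X2) : P.th i x ≤ 1 :=
  Real.smoothTransition.le_one _

lemma th_one (P : SPar) (i : P.Idx) {x : X2} (h : (i.Kc)⁻¹ ≤ 2 * i.l' * P.S.u x - 1) :
    P.th i x = 1 := by
  have hK := Idx.Kc_pos i
  refine Real.smoothTransition.one_of_one_le ?_
  rw [inv_le_iff_one_le_mul₀ hK] at h
  linarith

open Fam in
lemma th_B (P : SPar) : P.efam.toFam.B (fun _ _ => 1) (fun i : P.Idx => lift (P.th i)) := by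
  obtain ⟨C0, hC0, hcost⟩ := (P.profHyp).cost
  have := B.comp_affine (𝓕 := P.fam) P.S.hW (fun i => Idx.D_sub_W i) P.S.h.hu
    (c := fun i => 8 * Idx.Kc i * Idx.l' i)
    (b := fun i => - 4 * Idx.Kc i - 3) (m := fun _ => 1) (fun _ => one_pos)
    ⟨8 * C0, by positivity, fun i => by
      have h1 := (hcost i).2
      have h2 := Idx.l'_pos i
      have h3 := Idx.Kc_pos i
      have h4 : 1 ≤ Idx.Kc i := by
        have := Idx.one_le_l' i
        unfold Idx.Kc; linarith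
      rw [abs_of_nonneg (by positivity), mul_one]
      have h5 : Idx.Kc i * Idx.l' i ≤ (2 * Idx.Kc i) ^ 2 * (1 + Idx.l' i) := by
        have e1 : Idx.Kc i ≤ (2 * Idx.Kc i) ^ 2 := by nlinarith
        have e2 : Idx.l' i ≤ 1 + Idx.l' i := by linarith
        exact mul_le_mul e1 e2 h2.le (by positivity)
      nlinarith⟩
    (w := fun _ _ => 1) (g := fun _ => Real.smoothTransition)
    (fun _ => Real.smoothTransition.contDiff) (fun _ _ _ => zero_le_one) ?_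
  · refine this.congr (fun i z _ => ?_)
    simp only [lift, th, cutoff]
    congr 1; ring
  · intro n
    obtain ⟨C, hC, hb⟩ := Prof.st_bdd n
    exact ⟨C + 1, by positivity, fun i x _ => by
      rw [one_pow, mul_one, mul_one]; exact (hb _).trans (by linarith)⟩

end SPar
end Crest.Agent.R216.TE
end

-- ▼ part R216/StageE
section

/-!
# Row 216, Theorem E, module STAGE, part S4 (helper534): the errors of the input:
smoothness, size, support and derivative bounds of `R11, R12, R22`.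
-/

set_option linter.unusedSectionVars false

open Set Topology MeasureTheory Metric
open scoped ContDiff

namespace Crest.Agent.R216.TE

namespace SPar
variable (P : SPar)

/-- derivative bounds `‖D^j g_i‖ ≤ C L^{j+s}` on `N` for `j ≤ J` -/
def GBd {V : Type*} [NormedAddCommGroup V] [NormedSpace ℝ V] (s J : ℕ) (g : P.Idx → X2 → V) :
    Prop :=
  ∀ j ≤ J, ∃ C, 0 ≤ C ∧ ∀ i : P.Idx, ∀ x ∈ P.S.N, ‖iteratedFDeriv ℝ j (g i) x‖ ≤ C * i.L ^ (j + s)

variable {P}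
variable {V V' V'' : Type*} [NormedAddCommGroup V] [NormedSpace ℝ V]
  [NormedAddCommGroup V'] [NormedSpace ℝ V'] [NormedAddCommGroup V''] [NormedSpace ℝ V'']

lemma GBd.mono {s s' J J' : ℕ} {g : P.Idx → X2 → V} (h : P.GBd s J g) (hs : s ≤ s')
    (hJ : J' ≤ J) : P.GBd s' J' g := by
  intro j hj
  obtain ⟨C, hC, h⟩ := h j (hj.trans hJ)
  refine ⟨C, hC, fun i x hx => (h i x hx).trans ?_⟩
  exact mul_le_mul_of_nonneg_left (pow_le_pow_right₀ i.L_one (by omega)) hC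


lemma GBd.add {s J : ℕ} {g h : P.Idx → X2 → V} (hg : P.GBd s J g) (hh : P.GBd s J h)
    (sg : ∀ i, ContDiff ℝ ∞ (g i)) (sh : ∀ i, ContDiff ℝ ∞ (h i)) :
    P.GBd s J (fun i x => g i x + h i x) := by
  intro j hj
  obtain ⟨C, hC, h1⟩ := hg j hj
  obtain ⟨C', hC', h2⟩ := hh j hj
  refine ⟨C + C', by positivity, fun i x hx => ?_⟩
  show ‖iteratedFDeriv ℝ j (g i + h i) x‖ ≤ _
  rw [iteratedFDeriv_add_apply ((sg i).of_le (by exact_mod_cast le_top)).contDiffAt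
    ((sh i).of_le (by exact_mod_cast le_top)).contDiffAt]
  refine (norm_add_le _ _).trans ?_
  have := h1 i x hx
  have := h2 i x hx
  linarith

lemma GBd.neg {s J : ℕ} {g : P.Idx → X2 → V} (hg : P.GBd s J g) :
    P.GBd s J (fun i x => - g i x) := by
  intro j hj
  obtain ⟨C, hC, h1⟩ := hg j hj
  refine ⟨C, hC, fun i x hx => ?_⟩
  show ‖iteratedFDeriv ℝ j (- g i) x‖ ≤ _
  rw [iteratedFDeriv_neg_apply, norm_neg]
  exact h1 i x hx

lemma GBd.sub {s J : ℕ} {g h : P.Idx → X2 → V} (hg : P.GBd s J g) (hh : P.GBd s J h)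
    (sg : ∀ i, ContDiff ℝ ∞ (g i)) (sh : ∀ i, ContDiff ℝ ∞ (h i)) :
    P.GBd s J (fun i x => g i x - h i x) := by
  have := hg.add hh.neg sg (fun i => (sh i).neg)
  simpa only [sub_eq_add_neg] using this

lemma GBd.bilin (B : V →L[ℝ] V' →L[ℝ] V'') (hB : ‖B‖ ≤ 1) {s s' J : ℕ} {g : P.Idx → X2 → V}
    {h : P.Idx → X2 → V'} (hg : P.GBd s J g) (hh : P.GBd s' J h)
    (sg : ∀ i, ContDiff ℝ ∞ (g i)) (sh : ∀ i, ContDiff ℝ ∞ (h i)) :
    P.GBd (s + s') J (fun i x => B (g i x) (h i x)) := by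
  intro j hj
  choose! C hC h1 using hg
  choose! C' hC' h2 using hh
  refine ⟨∑ a ∈ Finset.range (j + 1), (j.choose a : ℝ) * C a * C' (j - a),
    Finset.sum_nonneg (fun a ha => ?_), fun i x hx => ?_⟩
  · have ha' : a ≤ J := by have := Finset.mem_range.1 ha; omega
    have h3 := hC a ha'
    have h4 := hC' (j - a) (by omega)
    positivity
  · refine (B.norm_iteratedFDeriv_le_of_bilinear_of_le_one (sg i) (sh i) x
      (by exact_mod_cast le_top) hB).trans ?_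
    rw [Finset.sum_mul]
    refine Finset.sum_le_sum (fun a ha => ?_)
    have haj : a ≤ j := by have := Finset.mem_range.1 ha; omega
    have h3 := h1 a (haj.trans hj) i x hx
    have h4 := h2 (j - a) (by omega) i x hx
    have h5 := hC a (haj.trans hj)
    have h6 := hC' (j - a) (by omega)
    have hL := i.L_pos
    calc (j.choose a : ℝ) * ‖iteratedFDeriv ℝ a (g i) x‖ * ‖iteratedFDeriv ℝ (j - a) (h i) x‖
        ≤ (j.choose a : ℝ) * (C a * i.L ^ (a + s)) * (C' (j - a) * i.L ^ (j - a + s')) := by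
          gcongr
      _ = (j.choose a : ℝ) * C a * C' (j - a) * (i.L ^ (a + s) * i.L ^ (j - a + s')) := by ring
      _ = _ := by
          rw [← pow_add]
          congr 2
          omega

lemma GBd.mul {s s' J : ℕ} {g h : P.Idx → X2 → ℝ} (hg : P.GBd s J g) (hh : P.GBd s' J h)
    (sg : ∀ i, ContDiff ℝ ∞ (g i)) (sh : ∀ i, ContDiff ℝ ∞ (h i)) :
    P.GBd (s + s') J (fun i x => g i x * h i x) :=
  GBd.bilin (ContinuousLinearMap.mul ℝ ℝ) (ContinuousLinearMap.opNorm_mul_le ℝ ℝ) hg hh sg sh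

lemma GBd.inner {s s' J : ℕ} {g h : P.Idx → X2 → E4} (hg : P.GBd s J g) (hh : P.GBd s' J h)
    (sg : ∀ i, ContDiff ℝ ∞ (g i)) (sh : ∀ i, ContDiff ℝ ∞ (h i)) :
    P.GBd (s + s') J (fun i x => (inner ℝ (g i x) (h i x) : ℝ)) := by
  have hB : ‖(innerSL ℝ : E4 →L[ℝ] E4 →L[ℝ] ℝ)‖ ≤ 1 := norm_innerSL_le ℝ
  exact GBd.bilin (innerSL ℝ : E4 →L[ℝ] E4 →L[ℝ] ℝ) hB hg hh sg sh






/-- smoothness of the profile part -/
lemma Idx.prof_smooth (i : P.Idx) :
    ContDiff ℝ ∞ (fun x => P.S.A x ^ 2 * (1 - Prof.kap i.l (P.S.u x))) := by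
  have hA : ContDiff ℝ ∞ P.S.A := by
    unfold SData.A ampX
    exact (expNegInvGlue.contDiff.comp P.S.h.hu).mul P.S.h.hβ
  exact (hA.pow 2).mul (contDiff_const.sub ((Prof.contDiff_kap i.l).comp P.S.h.hu))


namespace Idx
variable (i : P.Idx)

/-! ### smoothness -/

lemma ip_smooth {g h : X2 → E4} (hg : ContDiff ℝ ∞ g) (hh : ContDiff ℝ ∞ h) :
    ContDiff ℝ ∞ (fun x => (inner ℝ (g x) (h x) : ℝ)) := hg.inner ℝ hh

lemma d1f0_smooth : ContDiff ℝ ∞ (d1 P.S.f0) := SClose.contDiff_d1 P.S.hf0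
lemma d2f0_smooth : ContDiff ℝ ∞ (d2 P.S.f0) := SClose.contDiff_d2 P.S.hf0
lemma d1f_smooth : ContDiff ℝ ∞ (d1 i.f) := SClose.contDiff_d1 i.hf
lemma d2f_smooth : ContDiff ℝ ∞ (d2 i.f) := SClose.contDiff_d2 i.hf

theorem R11_smooth : ContDiff ℝ ∞ i.R11 :=
  ((ip_smooth d1f0_smooth d1f0_smooth).add i.prof_smooth).sub
    (ip_smooth i.d1f_smooth i.d1f_smooth)

theorem R12_smooth : ContDiff ℝ ∞ i.R12 :=
  (ip_smooth d1f0_smooth d2f0_smooth).sub (ip_smooth i.d1f_smooth i.d2f_smooth)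

theorem R22_smooth : ContDiff ℝ ∞ i.R22 :=
  (ip_smooth d2f0_smooth d2f0_smooth).sub (ip_smooth i.d2f_smooth i.d2f_smooth)

/-! ### size -/

theorem R11_abs (x : X2) : |i.R11 x| ≤ Real.exp (-(12 * i.l)) := by
  have h := i.st.e11 x
  rw [abs_sub_comm] at h
  have e : (mS : ℝ) = 12 := by norm_num [mS]
  rw [e] at h
  exact h

theorem R12_abs (x : X2) : |i.R12 x| ≤ Real.exp (-(12 * i.l)) := by
  have h := i.st.e12 x
  rw [abs_sub_comm] at h
  have e : (mS : ℝ) = 12 := by norm_num [mS]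
  rw [e] at h
  exact h

theorem R22_abs (x : X2) : |i.R22 x| ≤ Real.exp (-(12 * i.l)) := by
  have h := i.st.e22 x
  rw [abs_sub_comm] at h
  have e : (mS : ℝ) = 12 := by norm_num [mS]
  rw [e] at h
  exact h

theorem R11_le (x : X2) : |i.R11 x| ≤ Real.exp (-(12 * i.l)) := i.R11_abs x
theorem R12_le (x : X2) : |i.R12 x| ≤ Real.exp (-(12 * i.l)) := i.R12_abs x
theorem R22_le (x : X2) : |i.R22 x| ≤ Real.exp (-(12 * i.l)) := i.R22_abs x

/-! ### support -/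

lemma f_eventuallyEq {x : X2} (hx : 2 * i.l * P.S.u x < 1) : i.f =ᶠ[𝓝 x] P.S.f0 := by
  have hc : Continuous (fun x => 2 * i.l * P.S.u x) :=
    continuous_const.mul P.S.h.hu.continuous
  filter_upwards [(isOpen_lt hc continuous_const).mem_nhds hx] with y hy
  exact i.st.eq0 y (le_of_lt hy)

theorem eq_near {x : X2} (h : 2 * i.l * P.S.u x < 1) : i.f =ᶠ[𝓝 x] P.S.f0 :=
  i.f_eventuallyEq h

theorem R11_zero {x : X2} (hx : 2 * i.l * P.S.u x < 1) : i.R11 x = 0 := by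
  have h := i.f_eventuallyEq hx
  have h1 : d1 i.f x = d1 P.S.f0 x := by unfold d1; rw [h.fderiv_eq]
  unfold R11
  rw [h1, Prof.kap_eq_one hx.le]
  ring

theorem R12_zero {x : X2} (hx : 2 * i.l * P.S.u x < 1) : i.R12 x = 0 := by
  have h := i.f_eventuallyEq hx
  have h1 : d1 i.f x = d1 P.S.f0 x := by unfold d1; rw [h.fderiv_eq]
  have h2 : d2 i.f x = d2 P.S.f0 x := by unfold d2; rw [h.fderiv_eq]
  unfold R12
  rw [h1, h2, sub_self]

theorem R22_zero {x : X2} (hx : 2 * i.l * P.S.u x < 1) : i.R22 x = 0 := by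
  have h := i.f_eventuallyEq hx
  have h2 : d2 i.f x = d2 P.S.f0 x := by unfold d2; rw [h.fderiv_eq]
  unfold R22
  rw [h2, sub_self]

end Idx

/-! ### derivative bounds -/

variable (P)











end SPar

end Crest.Agent.R216.TE
end

-- ▼ part R216/StageEb
section

/-!
# Row 216, Theorem E, module STAGE, part S4b: derivative bounds of the input errors `R11, R12, R22`.
-/

set_option linter.unusedSectionVars false

open Set Topology MeasureTheory Metric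
open scoped ContDiff

namespace Crest.Agent.R216.TE

namespace SErr

/-- fixed smooth functions have bounded derivatives on compact sets -/
lemma fixed_bd {V : Type*} [NormedAddCommGroup V] [NormedSpace ℝ V] {g : X2 → V}
    (hg : ContDiff ℝ ∞ g) {N : Set X2} (hN : IsCompact N) (n : ℕ) :
    ∃ C, 1 ≤ C ∧ ∀ j ≤ n, ∀ x ∈ N, ‖iteratedFDeriv ℝ j g x‖ ≤ C := by
  have h : ∀ j : ℕ, ∃ C, ∀ x ∈ N, ‖iteratedFDeriv ℝ j g x‖ ≤ C := fun j =>
    hN.exists_bound_of_continuousOn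
      (hg.continuous_iteratedFDeriv (m := j) (by exact_mod_cast le_top)).continuousOn
  choose C hC using h
  refine ⟨1 + ∑ j ∈ Finset.range (n + 1), |C j|, ?_, fun j hj x hx => ?_⟩
  · have : 0 ≤ ∑ j ∈ Finset.range (n + 1), |C j| := Finset.sum_nonneg (fun _ _ => abs_nonneg _)
    linarith
  · have h1 : |C j| ≤ ∑ j ∈ Finset.range (n + 1), |C j| :=
      Finset.single_le_sum (f := fun j => |C j|) (fun _ _ => abs_nonneg _)
        (Finset.mem_range.2 (by omega))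
    have h2 := hC j x hx
    have h3 := le_abs_self (C j)
    linarith

/-- Leibniz bound -/
lemma bil_bd {E F G : Type*} [NormedAddCommGroup E] [NormedSpace ℝ E] [NormedAddCommGroup F]
    [NormedSpace ℝ F] [NormedAddCommGroup G] [NormedSpace ℝ G] (B : E →L[ℝ] F →L[ℝ] G)
    (hB : ‖B‖ ≤ 1) {f : X2 → E} {g : X2 → F} (hf : ContDiff ℝ ∞ f) (hg : ContDiff ℝ ∞ g)
    {n : ℕ} {a b M : ℝ} (ha : 0 ≤ a) (hM : 0 ≤ M) {x : X2}
    (h1 : ∀ j ≤ n, ‖iteratedFDeriv ℝ j f x‖ ≤ a * M ^ j)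
    (h2 : ∀ j ≤ n, ‖iteratedFDeriv ℝ j g x‖ ≤ b * M ^ j) :
    ‖iteratedFDeriv ℝ n (fun y => B (f y) (g y)) x‖ ≤ 2 ^ n * (a * b) * M ^ n := by
  refine (B.norm_iteratedFDeriv_le_of_bilinear_of_le_one hf hg x (n := n)
    (by exact_mod_cast le_top) hB).trans ?_
  calc ∑ i ∈ Finset.range (n + 1),
        (n.choose i : ℝ) * ‖iteratedFDeriv ℝ i f x‖ * ‖iteratedFDeriv ℝ (n - i) g x‖
      ≤ ∑ i ∈ Finset.range (n + 1), (n.choose i : ℝ) * (a * b * M ^ n) := by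
        refine Finset.sum_le_sum (fun i hi => ?_)
        have hin : i ≤ n := by have := Finset.mem_range.1 hi; omega
        have e1 := h1 i hin
        have e2 := h2 (n - i) (by omega)
        have hM' : M ^ n = M ^ i * M ^ (n - i) := by rw [← pow_add]; congr 1; omega
        calc (n.choose i : ℝ) * ‖iteratedFDeriv ℝ i f x‖ * ‖iteratedFDeriv ℝ (n - i) g x‖
            = (n.choose i : ℝ) * (‖iteratedFDeriv ℝ i f x‖ * ‖iteratedFDeriv ℝ (n - i) g x‖) := by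
              ring
          _ ≤ (n.choose i : ℝ) * ((a * M ^ i) * (b * M ^ (n - i))) := by
              apply mul_le_mul_of_nonneg_left _ (Nat.cast_nonneg _)
              exact mul_le_mul e1 e2 (norm_nonneg _) (by positivity)
          _ = _ := by rw [hM']; ring
    _ = 2 ^ n * (a * b) * M ^ n := by
        rw [← Finset.sum_mul]
        have : ∑ i ∈ Finset.range (n + 1), (n.choose i : ℝ) = 2 ^ n := by
          exact_mod_cast Nat.sum_range_choose n
        rw [this]; ring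

lemma innerSL_norm : ‖(innerSL ℝ : E4 →L[ℝ] E4 →L[ℝ] ℝ)‖ ≤ 1 := norm_innerSL_le ℝ

/-- bound of inner products of first derivatives -/
lemma inner_bd {f g : X2 → E4} (hf : ContDiff ℝ ∞ f) (hg : ContDiff ℝ ∞ g) {n : ℕ} {M : ℝ}
    (hM : 0 ≤ M) {x : X2} (h1 : ∀ j ≤ n, ‖iteratedFDeriv ℝ j f x‖ ≤ M * M ^ j)
    (h2 : ∀ j ≤ n, ‖iteratedFDeriv ℝ j g x‖ ≤ M * M ^ j) :
    ‖iteratedFDeriv ℝ n (fun y => (inner ℝ (f y) (g y) : ℝ)) x‖ ≤ 2 ^ n * M ^ (n + 2) := by
  have := bil_bd (innerSL ℝ) innerSL_norm hf hg hM hM h1 h2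
  refine this.trans (le_of_eq ?_)
  rw [pow_add]; ring

lemma st_all (n : ℕ) : ∃ C, 1 ≤ C ∧ ∀ j ≤ n, ∀ y : ℝ,
    ‖iteratedFDeriv ℝ j Real.smoothTransition y‖ ≤ C := by
  choose C hC0 hC using Prof.st_bdd
  refine ⟨1 + ∑ j ∈ Finset.range (n + 1), C j, ?_, fun j hj y => ?_⟩
  · have : 0 ≤ ∑ j ∈ Finset.range (n + 1), C j := Finset.sum_nonneg (fun j _ => hC0 j)
    linarith
  · rw [norm_iteratedFDeriv_eq_norm_iteratedDeriv, Real.norm_eq_abs]
    have h1 : C j ≤ ∑ j ∈ Finset.range (n + 1), C j :=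
      Finset.single_le_sum (f := fun j => C j) (fun j _ => hC0 j) (Finset.mem_range.2 (by omega))
    have := hC j y
    linarith

/-- derivatives of `st (c u - 1)` -/
lemma st_comp_bd {u : X2 → ℝ} (hu : ContDiff ℝ ∞ u) {N : Set X2} (hN : IsCompact N) (n : ℕ) :
    ∃ C, 1 ≤ C ∧ ∀ c M : ℝ, 0 ≤ c → 1 ≤ M → c ≤ M → ∀ j ≤ n, ∀ x ∈ N,
      ‖iteratedFDeriv ℝ j (fun y => Real.smoothTransition (c * u y - 1)) x‖ ≤ C * M ^ j := by
  obtain ⟨Cu, hCu1, hCu⟩ := fixed_bd hu hN n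
  obtain ⟨Cs, hCs1, hCs⟩ := st_all n
  refine ⟨(n.factorial : ℝ) * Cs * Cu ^ n, ?_, fun c M hc hM hcM j hj x hx => ?_⟩
  · have h1 : (1:ℝ) ≤ n.factorial := by exact_mod_cast Nat.factorial_pos n
    have h2 : 1 ≤ Cu ^ n := one_le_pow₀ hCu1
    have h3 : 1 ≤ (n.factorial : ℝ) * Cs := by nlinarith
    nlinarith
  · have hf : ContDiff ℝ ∞ (fun y => c * u y - 1) := (contDiff_const.mul hu).sub contDiff_const
    have hD : ∀ i, 1 ≤ i → i ≤ j → ‖iteratedFDeriv ℝ i (fun y => c * u y - 1) x‖ ≤ (M * Cu) ^ i := by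
      intro i hi hij
      have e1 : iteratedFDeriv ℝ i (fun y => c * u y - 1) x = c • iteratedFDeriv ℝ i u x := by
        have h1 : (fun y => c * u y - 1) = (fun y => (fun z => c • u z) y - (fun _ => (1:ℝ)) y) := by
          funext y; simp
        rw [h1, fun_iteratedFDeriv_sub_apply
          ((hu.const_smul c).of_le (by exact_mod_cast le_top)).contDiffAt
          contDiff_const.contDiffAt]
        rw [iteratedFDeriv_const_smul_apply' (hu.of_le (by exact_mod_cast le_top)).contDiffAt]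
        have h2 : iteratedFDeriv ℝ i (fun _ : X2 => (1:ℝ)) x = 0 := by
          have := iteratedFDeriv_const_of_ne (𝕜 := ℝ) (E := X2) (n := i) (by omega) (1:ℝ)
          rw [this]; rfl
        rw [h2, sub_zero]
      rw [e1, norm_smul, Real.norm_of_nonneg hc]
      have h3 := hCu i (hij.trans hj) x hx
      calc c * ‖iteratedFDeriv ℝ i u x‖ ≤ M * Cu :=
            mul_le_mul hcM h3 (norm_nonneg _) (by linarith)
        _ = (M * Cu) ^ 1 := (pow_one _).symm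
        _ ≤ (M * Cu) ^ i := pow_le_pow_right₀ (by nlinarith) hi
    have h4 := norm_iteratedFDeriv_comp_le (g := Real.smoothTransition)
      (f := fun y => c * u y - 1) (N := ∞) Real.smoothTransition.contDiff hf (n := j)
      (by exact_mod_cast le_top) x (fun i hi => hCs i (hi.trans hj) _) hD
    refine h4.trans ?_
    have h5 : (j.factorial : ℝ) ≤ n.factorial := by exact_mod_cast Nat.factorial_le hj
    have h6 : Cu ^ j ≤ Cu ^ n := pow_le_pow_right₀ hCu1 hj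
    calc (j.factorial : ℝ) * Cs * (M * Cu) ^ j = ((j.factorial : ℝ) * Cs * Cu ^ j) * M ^ j := by
          rw [mul_pow]; ring
      _ ≤ ((n.factorial : ℝ) * Cs * Cu ^ n) * M ^ j := by gcongr

end SErr

open SErr

namespace SPar

lemma Idx.l_le {P : SPar} (i : P.Idx) : 2 * i.l ≤ (800 * P.k : ℕ) * i.L := by
  have h1 := i.l_eq
  have h2 : Real.log i.L ≤ i.L := (Real.log_le_sub_one_of_pos i.L_pos).trans (by linarith)
  rw [h1]
  push_cast
  have : (0:ℝ) ≤ P.k := Nat.cast_nonneg _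
  nlinarith

/-- `A² (1 - κ)` -/
lemma amp_bd (P : SPar) (n : ℕ) : ∃ C, 0 ≤ C ∧ ∀ i : P.Idx, ∀ x ∈ P.S.N,
    ‖iteratedFDeriv ℝ n (fun x => P.S.A x ^ 2 * (1 - Prof.kap i.l (P.S.u x))) x‖ ≤
      C * i.L ^ n := by
  have hA : ContDiff ℝ ∞ P.S.A := by
    have h1 : ContDiff ℝ ∞ (fun x => expNegInvGlue (P.S.u x)) :=
      expNegInvGlue.contDiff.comp P.S.h.hu
    exact h1.mul P.S.h.hβ
  obtain ⟨CA, hCA1, hCA⟩ := fixed_bd hA P.S.hN n
  obtain ⟨Cs, hCs1, hCs⟩ := st_comp_bd P.S.h.hu P.S.hN n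
  set D : ℝ := ((800 * P.k : ℕ) : ℝ) with hD
  have hD1 : 1 ≤ D := by
    have := P.hk
    have h2 : 1 ≤ 800 * P.k := by omega
    rw [hD]; exact_mod_cast h2
  refine ⟨2 ^ n * ((2 ^ n * (CA * Cs)) * (2 ^ n * (CA * Cs))) * D ^ n, by positivity,
    fun i x hx => ?_⟩
  set M : ℝ := D * i.L with hM
  have hM1 : 1 ≤ M := by have := i.L_one; nlinarith
  have hcM : 2 * i.l ≤ M := i.l_le
  have hl := i.l_pos
  have hs : ContDiff ℝ ∞ (fun y => Real.smoothTransition (2 * i.l * P.S.u y - 1)) :=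
    Real.smoothTransition.contDiff.comp ((contDiff_const.mul P.S.h.hu).sub contDiff_const)
  have b1 : ∀ j ≤ n, ‖iteratedFDeriv ℝ j P.S.A x‖ ≤ CA * M ^ j := by
    intro j hj
    refine (hCA j hj x hx).trans ?_
    exact le_mul_of_one_le_right (by linarith) (one_le_pow₀ hM1)
  have b2 : ∀ j ≤ n, ‖iteratedFDeriv ℝ j
      (fun y => Real.smoothTransition (2 * i.l * P.S.u y - 1)) x‖ ≤ Cs * M ^ j := by
    intro j hj
    exact hCs (2 * i.l) M (by linarith) hM1 hcM j hj x hx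
  set p : X2 → ℝ := fun y => P.S.A y * Real.smoothTransition (2 * i.l * P.S.u y - 1) with hp
  have hpc : ContDiff ℝ ∞ p := hA.mul hs
  have b3 : ∀ j ≤ n, ‖iteratedFDeriv ℝ j p x‖ ≤ (2 ^ n * (CA * Cs)) * M ^ j := by
    intro j hj
    have h := bil_bd (ContinuousLinearMap.mul ℝ ℝ) (by simp) hA hs (n := j) (a := CA)
      (b := Cs) (M := M) (by linarith) (by linarith) (x := x) (fun m hm => b1 m (hm.trans hj))
      (fun m hm => b2 m (hm.trans hj))
    refine (le_of_eq_of_le rfl h).trans ?_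
    have : (2:ℝ) ^ j ≤ 2 ^ n := pow_le_pow_right₀ (by norm_num) hj
    gcongr
  have b4 : ‖iteratedFDeriv ℝ n (fun y => p y * p y) x‖ ≤
      2 ^ n * ((2 ^ n * (CA * Cs)) * (2 ^ n * (CA * Cs))) * M ^ n := by
    have h := bil_bd (ContinuousLinearMap.mul ℝ ℝ) (by simp) hpc hpc (n := n)
      (a := 2 ^ n * (CA * Cs)) (b := 2 ^ n * (CA * Cs)) (M := M) (by positivity) (by linarith)
      (x := x) b3 b3
    exact le_of_eq_of_le rfl h
  have e : (fun x => P.S.A x ^ 2 * (1 - Prof.kap i.l (P.S.u x))) =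
      fun y => (1 - Real.exp (-(2 * i.l))) • ((fun y => p y * p y) y) := by
    funext y
    simp only [Prof.kap, hp, smul_eq_mul]
    ring
  rw [e, iteratedFDeriv_const_smul_apply'
    ((hpc.mul hpc).of_le (by exact_mod_cast le_top)).contDiffAt, norm_smul]
  have h0 : ‖(1 - Real.exp (-(2 * i.l)))‖ ≤ 1 := by
    rw [Real.norm_eq_abs, abs_of_nonneg (Prof.one_sub_exp_nonneg hl.le)]
    have := Real.exp_pos (-(2 * i.l))
    linarith
  calc ‖(1 - Real.exp (-(2 * i.l)))‖ * ‖iteratedFDeriv ℝ n (fun y => p y * p y) x‖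
      ≤ 1 * (2 ^ n * ((2 ^ n * (CA * Cs)) * (2 ^ n * (CA * Cs))) * M ^ n) :=
        mul_le_mul h0 b4 (norm_nonneg _) zero_le_one
    _ = _ := by rw [hM, mul_pow]; ring

/-- inner products of the fixed map -/
lemma fixed_inner_bd (P : SPar) {g h : X2 → E4} (hg : ContDiff ℝ ∞ g) (hh : ContDiff ℝ ∞ h)
    (n : ℕ) : ∃ C, 0 ≤ C ∧ ∀ x ∈ P.S.N,
    ‖iteratedFDeriv ℝ n (fun y => (inner ℝ (g y) (h y) : ℝ)) x‖ ≤ C := by
  obtain ⟨C, hC1, hC⟩ := fixed_bd (hg.inner ℝ hh) P.S.hN n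
  exact ⟨C, by linarith, fun x hx => hC n le_rfl x hx⟩

lemma Idx.d1_bd {P : SPar} (i : P.Idx) {x : X2} (hx : x ∈ P.S.N) :
    ∀ j ≤ P.K, ‖iteratedFDeriv ℝ j (d1 i.f) x‖ ≤ i.L * i.L ^ j := by
  intro j hj
  refine (SClose.norm_iteratedFDeriv_d1_le i.hf j x).trans ?_
  refine (i.bd (j + 1) (by omega) (by omega) x hx).trans (le_of_eq ?_)
  rw [pow_succ]; ring

lemma Idx.d2_bd {P : SPar} (i : P.Idx) {x : X2} (hx : x ∈ P.S.N) :
    ∀ j ≤ P.K, ‖iteratedFDeriv ℝ j (d2 i.f) x‖ ≤ i.L * i.L ^ j := by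
  intro j hj
  refine (SClose.norm_iteratedFDeriv_d2_le i.hf j x).trans ?_
  refine (i.bd (j + 1) (by omega) (by omega) x hx).trans (le_of_eq ?_)
  rw [pow_succ]; ring

/-- difference of two smooth functions -/
lemma iter_sub_le {g h : X2 → ℝ} (hg : ContDiff ℝ ∞ g) (hh : ContDiff ℝ ∞ h) (n : ℕ) (x : X2) :
    ‖iteratedFDeriv ℝ n (fun y => g y - h y) x‖ ≤
      ‖iteratedFDeriv ℝ n g x‖ + ‖iteratedFDeriv ℝ n h x‖ := by
  have e : iteratedFDeriv ℝ n (fun y => g y - h y) x =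
      iteratedFDeriv ℝ n g x - iteratedFDeriv ℝ n h x :=
    fun_iteratedFDeriv_sub_apply (hg.of_le (by exact_mod_cast le_top)).contDiffAt
      (hh.of_le (by exact_mod_cast le_top)).contDiffAt
  rw [e]
  exact norm_sub_le _ _

lemma iter_add_le {g h : X2 → ℝ} (hg : ContDiff ℝ ∞ g) (hh : ContDiff ℝ ∞ h) (n : ℕ) (x : X2) :
    ‖iteratedFDeriv ℝ n (fun y => g y + h y) x‖ ≤
      ‖iteratedFDeriv ℝ n g x‖ + ‖iteratedFDeriv ℝ n h x‖ := by
  have e : iteratedFDeriv ℝ n (fun y => g y + h y) x =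
      iteratedFDeriv ℝ n g x + iteratedFDeriv ℝ n h x :=
    fun_iteratedFDeriv_add_apply (hg.of_le (by exact_mod_cast le_top)).contDiffAt
      (hh.of_le (by exact_mod_cast le_top)).contDiffAt
  rw [e]
  exact norm_add_le _ _

lemma smooth_amp (P : SPar) (i : P.Idx) :
    ContDiff ℝ ∞ (fun x => P.S.A x ^ 2 * (1 - Prof.kap i.l (P.S.u x))) := by
  have hA : ContDiff ℝ ∞ P.S.A := by
    have h1 : ContDiff ℝ ∞ (fun x => expNegInvGlue (P.S.u x)) :=
      expNegInvGlue.contDiff.comp P.S.h.hu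
    exact h1.mul P.S.h.hβ
  exact (hA.pow 2).mul (contDiff_const.sub ((Prof.contDiff_kap _).comp P.S.h.hu))

theorem R11_bd (P : SPar) : ∃ C, ∀ i : P.Idx, ∀ x ∈ P.S.N,
    ‖iteratedFDeriv ℝ P.K (i.R11) x‖ ≤ C * i.L ^ (P.K + 2) + C := by
  have h0 : ContDiff ℝ ∞ (d1 P.S.f0) := SClose.contDiff_d1 P.S.hf0
  obtain ⟨C1, hC1, h1⟩ := P.fixed_inner_bd h0 h0 P.K
  obtain ⟨C2, hC2, h2⟩ := P.amp_bd P.K
  refine ⟨C1 + C2 + 2 ^ P.K, fun i x hx => ?_⟩
  have hf := SClose.contDiff_d1 i.hf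
  have h3 := inner_bd hf hf i.L_pos.le (i.d1_bd hx) (i.d1_bd hx)
  have s1 := h0.inner ℝ h0
  have s2 := P.smooth_amp i
  have s3 := hf.inner ℝ hf
  have e1 := iter_sub_le (s1.add s2) s3 P.K x
  have e2 := iter_add_le s1 s2 P.K x
  have e3 := h1 x hx
  have e4 := h2 i x hx
  have hL1 := i.L_one
  have p1 : i.L ^ P.K ≤ i.L ^ (P.K + 2) := pow_le_pow_right₀ hL1 (by omega)
  have p2 : (0:ℝ) ≤ i.L ^ (P.K + 2) := by have := i.L_pos; positivity
  have p3 : (0:ℝ) ≤ 2 ^ P.K := by positivity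
  have : ‖iteratedFDeriv ℝ P.K i.R11 x‖ ≤ C1 + C2 * i.L ^ P.K + 2 ^ P.K * i.L ^ (P.K + 2) :=
    e1.trans (add_le_add (e2.trans (add_le_add e3 e4)) h3)
  refine this.trans ?_
  nlinarith [mul_le_mul_of_nonneg_left p1 hC2, mul_nonneg hC1 p2]

theorem R12_bd (P : SPar) : ∃ C, ∀ i : P.Idx, ∀ x ∈ P.S.N,
    ‖iteratedFDeriv ℝ P.K (i.R12) x‖ ≤ C * i.L ^ (P.K + 2) + C := by
  have h0 : ContDiff ℝ ∞ (d1 P.S.f0) := SClose.contDiff_d1 P.S.hf0
  have h0' : ContDiff ℝ ∞ (d2 P.S.f0) := SClose.contDiff_d2 P.S.hf0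
  obtain ⟨C1, hC1, h1⟩ := P.fixed_inner_bd h0 h0' P.K
  refine ⟨C1 + 2 ^ P.K, fun i x hx => ?_⟩
  have hf := SClose.contDiff_d1 i.hf
  have hf' := SClose.contDiff_d2 i.hf
  have h3 := inner_bd hf hf' i.L_pos.le (i.d1_bd hx) (i.d2_bd hx)
  have e1 := iter_sub_le (h0.inner ℝ h0') (hf.inner ℝ hf') P.K x
  have e3 := h1 x hx
  have p2 : (0:ℝ) ≤ i.L ^ (P.K + 2) := by have := i.L_pos; positivity
  have p3 : (0:ℝ) ≤ 2 ^ P.K := by positivity
  have : ‖iteratedFDeriv ℝ P.K i.R12 x‖ ≤ C1 + 2 ^ P.K * i.L ^ (P.K + 2) :=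
    e1.trans (add_le_add e3 h3)
  refine this.trans ?_
  nlinarith [mul_nonneg hC1 p2]

theorem R22_bd (P : SPar) : ∃ C, ∀ i : P.Idx, ∀ x ∈ P.S.N,
    ‖iteratedFDeriv ℝ P.K (i.R22) x‖ ≤ C * i.L ^ (P.K + 2) + C := by
  have h0 : ContDiff ℝ ∞ (d2 P.S.f0) := SClose.contDiff_d2 P.S.hf0
  obtain ⟨C1, hC1, h1⟩ := P.fixed_inner_bd h0 h0 P.K
  refine ⟨C1 + 2 ^ P.K, fun i x hx => ?_⟩
  have hf := SClose.contDiff_d2 i.hf
  have h3 := inner_bd hf hf i.L_pos.le (i.d2_bd hx) (i.d2_bd hx)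
  have e1 := iter_sub_le (h0.inner ℝ h0) (hf.inner ℝ hf) P.K x
  have e3 := h1 x hx
  have p2 : (0:ℝ) ≤ i.L ^ (P.K + 2) := by have := i.L_pos; positivity
  have p3 : (0:ℝ) ≤ 2 ^ P.K := by positivity
  have : ‖iteratedFDeriv ℝ P.K i.R22 x‖ ≤ C1 + 2 ^ P.K * i.L ^ (P.K + 2) :=
    e1.trans (add_le_add e3 h3)
  refine this.trans ?_
  nlinarith [mul_nonneg hC1 p2]

end SPar

end Crest.Agent.R216.TE
end

-- ▼ part R216/StageFar
section

/-!
# Row 216, Theorem E, module STAGE, piece T3: outside the domain of the engine.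
-/

set_option linter.unusedSectionVars false

open Set Topology MeasureTheory Metric
open scoped ContDiff

namespace Crest.Agent.R216.TE
namespace SPar
variable {P : SPar}

lemma Idx.two_l_u_lt (i : P.Idx) {x : X2} (hx : 2 * i.l' * P.S.u x - 1 < (i.Kc)⁻¹) :
    2 * i.l * P.S.u x < 1 := by
  have h1 := i.l'_ge_l
  have h2 := i.l_ge
  have h3 : (1 : ℝ) ≤ i.Kc := by unfold Idx.Kc; have := i.one_le_l'; linarith
  have h4 : (i.Kc)⁻¹ ≤ 1 := inv_le_one_of_one_le₀ h3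
  rcases le_or_gt (P.S.u x) 0 with hu | hu
  · have : i.l * P.S.u x ≤ 0 := mul_nonpos_of_nonneg_of_nonpos i.l_pos.le hu
    nlinarith
  · have h5 : 800 * i.l * P.S.u x ≤ i.l' * P.S.u x := mul_le_mul_of_nonneg_right h1 hu.le
    have h6 : i.l' * P.S.u x < 1 := by nlinarith
    nlinarith

/-- outside the domain of the engine the missing metric is negligible -/
theorem far (P : SPar) : ∃ C, 0 < C ∧ ∀ i : P.Idx, ∀ x, 2 * i.l' * P.S.u x - 1 < (i.Kc)⁻¹ →
    2 * i.l * P.S.u x < 1 ∧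
    |P.S.A x ^ 2 * (1 - Prof.kap i.l' (P.S.u x))| ≤ C * Real.exp (-(28 * i.l')) := by
  obtain ⟨C, hC, h⟩ := P.a_le_tail
  refine ⟨C ^ 2, by positivity, fun i x hx => ?_⟩
  have h1 := i.two_l_u_lt hx
  refine ⟨h1, ?_⟩
  rcases le_or_gt (P.S.u x) 0 with hu | hu
  · have hA : P.S.A x = 0 := by
      unfold SData.A ampX
      rw [expNegInvGlue.zero_of_nonpos hu, zero_mul]
    rw [hA]
    simp only [ne_eq, OfNat.ofNat_ne_zero, not_false_eq_true, zero_pow, zero_mul, abs_zero]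
    positivity
  · have hxW : x ∈ P.S.W := subset_closure hu
    have h2 := h i x hxW hx.le
    have h3 := i.a_sq x
    rw [Prof.kap_eq_one h1.le] at h3
    rw [← h3, abs_of_nonneg (sq_nonneg _)]
    calc i.a x ^ 2 ≤ (C * Real.exp (-(14 * i.l'))) ^ 2 := pow_le_pow_left₀ (i.a_nonneg x) h2 2
      _ = C ^ 2 * Real.exp (-(28 * i.l')) := by
          rw [mul_pow, ← Real.exp_nat_mul]
          congr 2
          push_cast; ring

end SPar
end Crest.Agent.R216.TE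
end

-- ▼ part R216/StageBudget

/-!
# Row 216, Theorem E, module STAGE, piece T4: the error budget.
-/

set_option linter.unusedSectionVars false

open Set Topology MeasureTheory Metric
open scoped ContDiff

namespace Crest.Agent.R216.TE
namespace SPar
variable {P : SPar}

/-- `L⁻ᴺ ≤ exp (-12 l')`, `N = 3840000 (k+1)` -/
lemma Idx.inv_pow_le (i : P.Idx) :
    (i.L ^ (3840000 * (P.k + 1)))⁻¹ ≤ Real.exp (-(12 * i.l')) := by
  have h := exp_l' i 12
  push_cast at h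
  rw [h]
  apply inv_anti₀ (pow_pos i.L_pos _)
  apply pow_le_pow_right₀ i.L_one
  have := i.k'_le
  omega

lemma Idx.exp14 (i : P.Idx) :
    Real.exp (-(14 * i.l')) ≤ (i.L)⁻¹ * Real.exp (-(12 * i.l')) := by
  have h1 : Real.exp (-(14 * i.l')) = Real.exp (-(2 * i.l')) * Real.exp (-(12 * i.l')) := by
    rw [← Real.exp_add]; congr 1; ring
  rw [h1]
  apply mul_le_mul_of_nonneg_right _ (Real.exp_pos _).le
  have h2 := exp_l' i 2
  push_cast at h2
  rw [h2]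
  apply inv_anti₀ i.L_pos
  calc i.L = i.L ^ 1 := (pow_one _).symm
    _ ≤ _ := by
      apply pow_le_pow_right₀ i.L_one
      have := i.one_le_k'
      omega

/-- **the error budget** -/
theorem budget (P : SPar) (C : ℝ) : ∃ T1 : ℝ, ∀ i : P.Idx, T1 ≤ i.L →
    C * (i.L ^ 20)⁻¹ ^ (15 + 192000 * (P.k + 1)) + C * Real.exp (-(14 * i.l')) +
      C * (i.L ^ 4 * (i.L)⁻¹ ^ (3840000 * (P.k + 1) + 6)) ≤ Real.exp (-(12 * i.l')) := by
  refine ⟨3 * |C| + 1, fun i hi => ?_⟩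
  have hL := i.L_pos
  have hL1 := i.L_one
  set D := Real.exp (-(12 * i.l')) with hD
  have hD0 : 0 < D := Real.exp_pos _
  have hinv : (0:ℝ) < (i.L)⁻¹ := inv_pos.2 hL
  have h0 := i.inv_pow_le
  rw [← hD] at h0
  -- the three terms
  have h1 : (i.L ^ 20)⁻¹ ^ (15 + 192000 * (P.k + 1)) ≤ (i.L)⁻¹ * D := by
    have e : (i.L ^ 20)⁻¹ ^ (15 + 192000 * (P.k + 1)) =
        (i.L ^ 300)⁻¹ * (i.L ^ (3840000 * (P.k + 1)))⁻¹ := by
      rw [inv_pow, ← pow_mul, show 20 * (15 + 192000 * (P.k + 1)) = 300 + 3840000 * (P.k + 1) by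
        ring, pow_add, mul_inv]
    rw [e]
    refine mul_le_mul ?_ h0 (by positivity) hinv.le
    apply inv_anti₀ hL
    exact le_self_pow₀ hL1 (by norm_num)
  have h2 : Real.exp (-(14 * i.l')) ≤ (i.L)⁻¹ * D := i.exp14
  have h3 : i.L ^ 4 * (i.L)⁻¹ ^ (3840000 * (P.k + 1) + 6) ≤ (i.L)⁻¹ * D := by
    have e : i.L ^ 4 * (i.L)⁻¹ ^ (3840000 * (P.k + 1) + 6) =
        (i.L ^ 2)⁻¹ * (i.L ^ (3840000 * (P.k + 1)))⁻¹ := by
      generalize 3840000 * (P.k + 1) = N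
      rw [inv_pow, pow_add, mul_inv]
      field_simp
    rw [e]
    refine mul_le_mul ?_ h0 (by positivity) hinv.le
    apply inv_anti₀ hL
    exact le_self_pow₀ hL1 (by norm_num)
  have key : ∀ a : ℝ, 0 ≤ a → a ≤ (i.L)⁻¹ * D → C * a ≤ |C| * ((i.L)⁻¹ * D) := by
    intro a ha hab
    calc C * a ≤ |C| * a := mul_le_mul_of_nonneg_right (le_abs_self C) ha
      _ ≤ _ := mul_le_mul_of_nonneg_left hab (abs_nonneg C)
  have k1 := key _ (by positivity) h1
  have k2 := key _ (Real.exp_pos _).le h2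
  have k3 := key _ (by positivity) h3
  have h4 : 3 * |C| * (i.L)⁻¹ ≤ 1 := by
    rw [← div_eq_mul_inv, div_le_one hL]; linarith
  calc _ ≤ |C| * ((i.L)⁻¹ * D) + |C| * ((i.L)⁻¹ * D) + |C| * ((i.L)⁻¹ * D) := by linarith
    _ = (3 * |C| * (i.L)⁻¹) * D := by ring
    _ ≤ 1 * D := mul_le_mul_of_nonneg_right h4 hD0.le
    _ = D := one_mul _

end SPar
end Crest.Agent.R216.TE
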