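import Crest.Agent.R216.EngState
import Crest.Agent.R216.EngDefs
import Crest.Agent.R216.ClsT
import Crest.Agent.R216.ClsInt2
import Crest.Agent.R216.EngExp
import Crest.Agent.R216.EngGood

-- ▼ part R216/Step1
section

/-!
# Row 216, Theorem E: step 1 of a round (mean-(22) correction).
-/

open Set Topology MeasureTheory
open scoped ContDiff

namespace Crest.Agent.R216.TE

namespace Step1

lemma gramB {𝓔 : EFam} {d : EData 𝓔} (h : d.Hyp) :
    𝓔.toFam.B (𝓔.W 0 0 0) (fun i z => gram (d.f2 i z) (d.f22 i z)) := by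
  have h1 : 𝓔.toFam.B (𝓔.W 0 0 0) (fun i z => inner ℝ (d.f2 i z) (d.f2 i z)) :=
    EFam.B_inner h.f2B h.f2B
  have h2 : 𝓔.toFam.B (𝓔.W 0 0 0) (fun i z => inner ℝ (d.f22 i z) (d.f22 i z)) :=
    EFam.B_inner h.f22B h.f22B
  have h3 : 𝓔.toFam.B (𝓔.W 0 0 0) (fun i z => inner ℝ (d.f2 i z) (d.f22 i z)) :=
    EFam.B_inner h.f2B h.f22B
  have h4 : 𝓔.toFam.B (𝓔.W 0 0 0)
      (fun i z => inner ℝ (d.f2 i z) (d.f2 i z) * inner ℝ (d.f22 i z) (d.f22 i z)) :=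
    EFam.B_mul h1 h2
  have h5 : 𝓔.toFam.B (𝓔.W 0 0 0)
      (fun i z => inner ℝ (d.f2 i z) (d.f22 i z) * inner ℝ (d.f2 i z) (d.f22 i z)) :=
    EFam.B_mul h3 h3
  exact (h4.sub (EFam.W_nn _ _ _) h5).congr (fun i z _ => by simp only [gram, sq])

lemma xiCB {𝓔 : EFam} {d : EData 𝓔} (h : d.Hyp) :
    𝓔.toFam.B (𝓔.W 0 0 0) (fun i z => xiC (d.f2 i z) (d.f22 i z)) := by
  have h1 : 𝓔.toFam.B (𝓔.W 0 0 0) (fun i z => inner ℝ (d.f2 i z) (d.f2 i z) • d.f22 i z) :=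
    EFam.B_smul (EFam.B_inner h.f2B h.f2B) h.f22B
  have h2 : 𝓔.toFam.B (𝓔.W 0 0 0) (fun i z => inner ℝ (d.f2 i z) (d.f22 i z) • d.f2 i z) :=
    EFam.B_smul (EFam.B_inner h.f2B h.f22B) h.f2B
  obtain ⟨c, hc, hlow⟩ := h.gram_low
  exact EFam.B_inv (k := 0) (gramB h) ⟨c, hc, fun i z hz => by simpa using hlow i z hz⟩
    (h1.sub (EFam.W_nn _ _ _) h2)

lemma inner_xiC_left {B C : E4} : inner ℝ B (xiC B C) = 0 := by
  simp only [xiC, inner_smul_right, inner_sub_right]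
  ring

lemma inner_xiC_right {B C : E4} (hg : gram B C ≠ 0) : inner ℝ C (xiC B C) = 1 := by
  simp only [xiC, inner_smul_right, inner_sub_right, real_inner_comm B C]
  have : inner ℝ B B * inner ℝ C C - inner ℝ B C * inner ℝ B C = gram B C := by
    simp only [gram]; ring
  rw [this, inv_mul_cancel₀ hg]

end Step1

namespace EData
variable {𝓔 : EFam} {d : EData 𝓔}

open Step1 St in
/-- Step1.lean : mean-(22) correction, `F' = F + (mean E22 / 2) ξ_C` -/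
theorem step1 (h : d.Hyp) (n : ℕ) {F : 𝓔.I → Q → E4} (hG : d.Good F)
    (hE : d.Err (15+n) (15+n) (15+n) (23+n) (27+n) (27+n) F) :
    ∃ F', d.Good F' ∧ d.Err (15+n) (15+n) (15+n) (23+n) (27+n) (28+n) F' := by
  -- the correction
  set X : 𝓔.I → X2 → E4 := fun i x =>
    ((2:ℝ)⁻¹ * mean (d.E22 F i) (x, 0)) • xiC (d.f2 i (x, 0)) (d.f22 i (x, 0)) with hX
  set V : 𝓔.I → Q → E4 := fun i => lift (X i) with hVdef
  have hVeq : ∀ i z, V i z = ((2:ℝ)⁻¹ * mean (d.E22 F i) z) • xiC (d.f2 i z) (d.f22 i z) :=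
    fun i z => rfl
  have hVB : 𝓔.toFam.B (𝓔.W 2 (27+n) 0) V := by
    have h1 : 𝓔.toFam.B (𝓔.W 2 (27+n) 0) (fun i z => (2:ℝ)⁻¹ * mean (d.E22 F i) z) :=
      hE.m22.const_smul (2:ℝ)⁻¹ (EFam.W_nn _ _ _)
    have h2 := EFam.B_smul h1 (xiCB h)
    exact h2
  have sV : 𝓔.toFam.Sm V := hVB.smooth
  have A1V : 𝓔.toFam.B (𝓔.W 2 (27+n) 1) (𝓔.A1 V) := A1_lift_B hVB
  have A2V : 𝓔.toFam.B (𝓔.W 2 (27+n) 1) (𝓔.A2 V) := EFam.B_A2 hVB
  have sE11 := (hG.E11B h).smooth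
  have sE12 := (hG.E12B h).smooth
  have sE22 := (hG.E22B h).smooth
  refine ⟨fun i z => F i z + V i z, ?_, ?_⟩
  · refine hG.add sV (fun i x _ t => rfl) ?_ ?_
    · exact (EFam.B_le hVB (by omega) (by omega) (by omega)).osc (EFam.W_nn _ _ _)
    · exact (EFam.B_le hVB (by omega) (by omega) (by omega)).mean (EFam.W_nn _ _ _)
  · -- remainders
    set R11 : 𝓔.I → Q → ℝ := fun i z =>
      2 * inner ℝ (𝓔.A1 F i z) (𝓔.A1 V i z) + inner ℝ (𝓔.A1 V i z) (𝓔.A1 V i z) with hR11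
    set R12 : 𝓔.I → Q → ℝ := fun i z =>
      inner ℝ (𝓔.A1 F i z) (𝓔.A2 V i z) + inner ℝ (𝓔.A1 V i z) (𝓔.A2 F i z)
        + inner ℝ (𝓔.A1 V i z) (𝓔.A2 V i z) with hR12
    have VV : ∀ {p q : 𝓔.I → Q → E4}, 𝓔.toFam.B (𝓔.W 2 (27+n) 1) p →
        𝓔.toFam.B (𝓔.W 2 (27+n) 1) q →
        𝓔.toFam.B (𝓔.W 2 (28+n) 0) (fun i z => inner ℝ (p i z) (q i z)) := fun hp hq =>
      EFam.B_le (EFam.B_inner hp hq) (by omega) (by omega) (by omega)
    have VV' : ∀ {p q : 𝓔.I → Q → E4}, 𝓔.toFam.B (𝓔.W 2 (27+n) 1) p →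
        𝓔.toFam.B (𝓔.W 2 (27+n) 1) q →
        𝓔.toFam.B (𝓔.W 2 (27+n) 1) (fun i z => inner ℝ (p i z) (q i z)) := fun hp hq =>
      EFam.B_le (EFam.B_inner hp hq) (by omega) (by omega) (by omega)
    have R11B : 𝓔.toFam.B (𝓔.W 2 (27+n) 1) R11 := by
      have h1 : 𝓔.toFam.B (𝓔.W 2 (27+n) 1) (fun i z => inner ℝ (𝓔.A1 F i z) (𝓔.A1 V i z)) := by
        simpa using EFam.B_inner (hG.A1B h) A1V
      exact (h1.const_smul 2 (EFam.W_nn _ _ _)).add (VV' A1V A1V)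
    have R12B : 𝓔.toFam.B (𝓔.W 2 (27+n) 1) R12 := by
      have h1 : 𝓔.toFam.B (𝓔.W 2 (27+n) 1) (fun i z => inner ℝ (𝓔.A1 F i z) (𝓔.A2 V i z)) := by
        simpa using EFam.B_inner (hG.A1B h) A2V
      have h2 : 𝓔.toFam.B (𝓔.W 2 (27+n) 1) (fun i z => inner ℝ (𝓔.A1 V i z) (𝓔.A2 F i z)) := by
        simpa using EFam.B_inner A1V (hG.A2B h)
      exact (h1.add h2).add (VV' A1V A2V)
    -- the (22) remainder
    set R22 : 𝓔.I → Q → ℝ := fun i z =>
      2 * inner ℝ (𝓔.A2 F i z - d.f2 i z) (𝓔.A2 V i z)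
        + inner ℝ (𝓔.A2 V i z) (𝓔.A2 V i z) with hR22
    have R22B : 𝓔.toFam.B (𝓔.W 2 (28+n) 0) R22 := by
      have h1 : 𝓔.toFam.B (𝓔.W 2 (28+n) 0)
          (fun i z => inner ℝ (𝓔.A2 F i z - d.f2 i z) (𝓔.A2 V i z)) :=
        EFam.B_le (EFam.B_inner (hG.A2_sub_f2 h) A2V) (by omega) (by omega) (by omega)
      exact (h1.const_smul 2 (EFam.W_nn _ _ _)).add (VV A2V A2V)
    have key : ∀ i, ∀ z ∈ 𝓔.toFam.dom i,
        2 * inner ℝ (d.f2 i z) (𝓔.A2 V i z) = - mean (d.E22 F i) z := by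
      intro i z hz
      have hg : ∀ z ∈ 𝓔.toFam.dom i, gram (d.f2 i z) (d.f22 i z) ≠ 0 := by
        obtain ⟨c, hc, hlow⟩ := h.gram_low
        exact fun z hz => (lt_of_lt_of_le hc (hlow i z hz)).ne'
      have e0 : EqOn (fun z => inner ℝ (d.f2 i z) (V i z)) (fun _ => (0:ℝ)) (𝓔.toFam.dom i) := by
        intro z hz
        simp only [hVeq, inner_smul_right, inner_xiC_left, mul_zero]
      have e1 := pd_eqOn (𝓔.toFam.isOpen_dom i) e0 1 hz
      rw [pd_inner (sm_diffAt h.f2B.smooth hz) (sm_diffAt sV hz), h.pd1_f2 hz] at e1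
      have e2 : inner ℝ (d.f22 i z) (V i z) = (2:ℝ)⁻¹ * mean (d.E22 F i) z := by
        simp only [hVeq, inner_smul_right, inner_xiC_right (hg z hz), mul_one]
      have e3 : pd 1 (fun _ : Q => (0:ℝ)) z = 0 := by simp [pd]
      rw [e2, e3] at e1
      have e4 : 𝓔.A2 V i z = pd 1 (V i) z := rfl
      rw [e4]
      linarith
    have eq22 : ∀ i, ∀ z ∈ 𝓔.toFam.dom i,
        d.E22 (fun i z => F i z + V i z) i z = osc (d.E22 F i) z + R22 i z := by
      intro i z hz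
      rw [E22_add hG.sm sV hz]
      have h1 := key i z hz
      simp only [hR22, osc, inner_sub_left]
      linarith
    have sosc : 𝓔.toFam.Sm (fun i => osc (d.E22 F i)) := hE.o22.smooth
    refine ⟨?_, ?_, ?_, ?_, ?_, ?_⟩
    · exact B_osc_add sE11 R11B.smooth hE.o11
        ((EFam.B_le R11B (by omega) (by omega) (by omega)).osc (EFam.W_nn _ _ _))
        (fun i z hz => E11_add hG.sm sV hz)
    · exact B_mean_add sE11 R11B.smooth hE.m11
        ((EFam.B_le R11B (by omega) (by omega) (by omega)).mean (EFam.W_nn _ _ _))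
        (fun i z hz => E11_add hG.sm sV hz)
    · exact B_osc_add sE12 R12B.smooth hE.o12
        ((EFam.B_le R12B (by omega) (by omega) (by omega)).osc (EFam.W_nn _ _ _))
        (fun i z hz => E12_add hG.sm sV hz)
    · exact B_mean_add sE12 R12B.smooth hE.m12
        ((EFam.B_le R12B (by omega) (by omega) (by omega)).mean (EFam.W_nn _ _ _))
        (fun i z hz => E12_add hG.sm sV hz)
    · refine B_osc_add sosc R22B.smooth ?_
        ((EFam.B_le R22B (by omega) (by omega) (by omega)).osc (EFam.W_nn _ _ _)) eq22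
      refine hE.o22.congr (fun i z hz => ?_)
      show _ = osc (osc (d.E22 F i)) z
      exact (osc_osc (sm_cont sE22 i) hz).symm
    · refine B_mean_add sosc R22B.smooth ?_
        (R22B.mean (EFam.W_nn _ _ _)) eq22
      refine (Fam.B.zero (EFam.W_nn _ _ _)).congr (fun i z hz => ?_)
      exact (St.mean_osc (sm_cont sE22 i) hz).symm

end EData
end Crest.Agent.R216.TE
end

-- ▼ part R216/ClsShift
section

/-!
# Row 216, Theorem E: shift calculus (TE-2).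
-/

open Set Topology MeasureTheory
open scoped ContDiff

set_option linter.unusedSectionVars false

namespace Crest.Agent.R216.TE

section ClsShift
variable {V : Type*} [NormedAddCommGroup V] [NormedSpace ℝ V]

namespace Shf

/-- the shift map `(x,t) ↦ (x, t + γ x)` -/
def shm (γ : X2 → ℝ) (z : Q) : Q := (z.1, z.2 + γ z.1)

lemma shift_eq_comp (γ : X2 → ℝ) (u : Q → V) : shift γ u = fun z => u (shm γ z) := rfl

lemma lift_contDiffOn {D : Set X2} {v : X2 → V} (h : ContDiffOn ℝ ∞ v D) :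
    ContDiffOn ℝ ∞ (lift v) {z : Q | z.1 ∈ D} := by
  have : ContDiffOn ℝ ∞ (v ∘ Prod.fst) {z : Q | z.1 ∈ D} :=
    h.comp contDiff_fst.contDiffOn (fun z hz => hz)
  exact this

lemma contDiffOn_of_lift {D : Set X2} {v : X2 → V}
    (h : ContDiffOn ℝ ∞ (lift v) {z : Q | z.1 ∈ D}) : ContDiffOn ℝ ∞ v D := by
  have h1 : ContDiffOn ℝ ∞ (fun x : X2 => ((x, (0:ℝ)) : Q)) D :=
    (contDiff_id.prodMk contDiff_const).contDiffOn
  exact h.comp h1 (fun x hx => hx)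

lemma shm_contDiffOn {D : Set X2} {γ : X2 → ℝ} (hγ : ContDiffOn ℝ ∞ γ D) :
    ContDiffOn ℝ ∞ (shm γ) {z : Q | z.1 ∈ D} := by
  have h1 : ContDiffOn ℝ ∞ (lift γ) {z : Q | z.1 ∈ D} := lift_contDiffOn hγ
  exact contDiff_fst.contDiffOn.prodMk (contDiff_snd.contDiffOn.add h1)

lemma shift_contDiffOn {D : Set X2} {u : Q → V} (hu : ContDiffOn ℝ ∞ u {z | z.1 ∈ D})
    {γ : X2 → ℝ} (hγ : ContDiffOn ℝ ∞ γ D) : ContDiffOn ℝ ∞ (shift γ u) {z : Q | z.1 ∈ D} := by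
  rw [shift_eq_comp]
  exact hu.comp (shm_contDiffOn hγ) (fun z hz => hz)

lemma isOpen_cyl {D : Set X2} (hD : IsOpen D) : IsOpen {z : Q | z.1 ∈ D} :=
  hD.preimage continuous_fst

/-- derivative of the lift -/
lemma lift_hasFDerivAt {D : Set X2} (hD : IsOpen D) {γ : X2 → V} (hγ : ContDiffOn ℝ ∞ γ D)
    {z : Q} (hz : z.1 ∈ D) :
    HasFDerivAt (lift γ) ((fderiv ℝ γ z.1).comp (ContinuousLinearMap.fst ℝ X2 ℝ)) z := by
  have h1 : DifferentiableAt ℝ γ z.1 :=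
    (hγ.contDiffAt (hD.mem_nhds hz)).differentiableAt (by simp)
  exact h1.hasFDerivAt.comp z hasFDerivAt_fst

lemma pd2_lift {D : Set X2} (hD : IsOpen D) {γ : X2 → V} (hγ : ContDiffOn ℝ ∞ γ D)
    {z : Q} (hz : z.1 ∈ D) : pd 2 (lift γ) z = 0 := by
  rw [pd, (lift_hasFDerivAt hD hγ hz).fderiv]
  exact map_zero (fderiv ℝ γ z.1)

end Shf
open Shf

/-- chain rule for the shift -/
lemma pd_shift {D : Set X2} (hD : IsOpen D) {u : Q → V} (hu : ContDiffOn ℝ ∞ u {z | z.1 ∈ D})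
    {γ : X2 → ℝ} (hγ : ContDiffOn ℝ ∞ γ D) (j : Fin 3) {z : Q} (hz : z.1 ∈ D) :
    pd j (shift γ u) z = shift γ (pd j u) z + pd j (lift γ) z • shift γ (pd 2 u) z := by
  have hl := lift_hasFDerivAt hD hγ hz
  have hs : HasFDerivAt (shm γ)
      ((ContinuousLinearMap.fst ℝ X2 ℝ).prod ((ContinuousLinearMap.snd ℝ X2 ℝ) +
        ((fderiv ℝ γ z.1).comp (ContinuousLinearMap.fst ℝ X2 ℝ)))) z :=
    hasFDerivAt_fst.prodMk (hasFDerivAt_snd.add hl)
  have hz' : (shm γ z) ∈ {z : Q | z.1 ∈ D} := hz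
  have hd := (diffAt (isOpen_cyl hD) hu hz').hasFDerivAt
  have hc := (hd.comp z hs).fderiv
  have e : pd j (lift γ) z = fderiv ℝ γ z.1 (bas j).1 := by
    rw [pd, hl.fderiv]; rfl
  have e2 : pd j (shift γ u) z = fderiv ℝ u (shm γ z)
      ((bas j).1, (bas j).2 + fderiv ℝ γ z.1 (bas j).1) := by
    rw [pd]
    change fderiv ℝ (u ∘ shm γ) z (bas j) = _
    rw [hc]; rfl
  have e3 : (((bas j).1, (bas j).2 + fderiv ℝ γ z.1 (bas j).1) : Q)
      = bas j + (fderiv ℝ γ z.1 (bas j).1) • bas 2 := by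
    ext <;> simp [bas]
  rw [e2, e3, map_add, map_smul, e]
  rfl

lemma mean_shift {D : Set X2} {u : Q → V} (_hu : ContDiffOn ℝ ∞ u {z | z.1 ∈ D}) (hp : PerOn D u)
    (γ : X2 → ℝ) {z : Q} (hz : z.1 ∈ D) : mean (shift γ u) z = mean u z := by
  have hper : Function.Periodic (fun s => u (z.1, s)) (2 * Real.pi) := fun s => hp z.1 hz s
  unfold mean
  congr 1
  have h1 : ∫ s in (0:ℝ)..(2 * Real.pi), shift γ u (z.1, s)
      = ∫ s in (0:ℝ)..(2 * Real.pi), (fun s => u (z.1, s)) (s + γ z.1) := rfl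
  rw [h1, intervalIntegral.integral_comp_add_right (fun s => u (z.1, s)) (γ z.1)]
  have := hper.intervalIntegral_add_eq (γ z.1) 0
  rw [zero_add] at this ⊢
  rw [add_comm (2 * Real.pi)]
  exact this

namespace Fam
variable {𝓕 : Fam} {w : 𝓕.I → X2 → ℝ}

lemma B.gamma_smooth {γ : 𝓕.I → X2 → ℝ} {w : 𝓕.I → X2 → ℝ}
    (hγ : 𝓕.B w (fun i => lift (γ i))) (i : 𝓕.I) : ContDiffOn ℝ ∞ (γ i) (𝓕.D i) :=
  contDiffOn_of_lift (hγ.smooth i)

lemma Sm.shift {u : 𝓕.I → Q → V} {γ : 𝓕.I → X2 → ℝ} (hu : 𝓕.Sm u)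
    (hγ : ∀ i, ContDiffOn ℝ ∞ (γ i) (𝓕.D i)) :
    𝓕.Sm (fun i => Crest.Agent.R216.TE.shift (γ i) (u i)) :=
  fun i => shift_contDiffOn (hu i) (hγ i)

lemma Sz.shift {u : 𝓕.I → Q → V} {γ : 𝓕.I → X2 → ℝ} (hu : 𝓕.Sz w u) :
    𝓕.Sz w (fun i => Crest.Agent.R216.TE.shift (γ i) (u i)) := by
  obtain ⟨C, hC, hu⟩ := hu
  exact ⟨C, hC, fun i z hz => hu i (shm (γ i) z) hz⟩

lemma Nn.LamMul (hw : Nn w) : Nn (fun i x => 𝓕.Lam i * w i x) :=
  fun i x hx => mul_nonneg (Lam_pos i).le (hw i x hx)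

lemma Bk.shift {k : ℕ} {γ : 𝓕.I → X2 → ℝ} {g : 𝓕.I → ℝ}
    (hg0 : ∀ i, 0 ≤ g i) (hγ : 𝓕.B (fun i _ => g i) (fun i => lift (γ i)))
    (hg : ∃ C, ∀ i, 𝓕.Lam i * g i ≤ C) :
    ∀ {w : 𝓕.I → X2 → ℝ} {u : 𝓕.I → Q → V}, Nn w → 𝓕.Sm u → 𝓕.Bk k w u →
      𝓕.Bk k w (fun i => Crest.Agent.R216.TE.shift (γ i) (u i)) := by
  obtain ⟨C, hC⟩ := hg
  have hγs := hγ.gamma_smooth
  induction k with
  | zero => intro w u _ _ hu; exact Sz.shift hu
  | succ k ih =>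
    intro w u hw su hu
    refine ⟨hu.1.shift, fun j => ?_⟩
    have h1 := ih hw.LamMul (su.pd j) (hu.2 j)
    have h2 := ih hw.LamMul (su.pd 2) (hu.2 2)
    have h3 := (hγ.pd j).bound k
    have hgn : Nn (𝓕 := 𝓕) (fun i _ => g i) := fun i _ _ => hg0 i
    have h4 := Bk.bilin (ContinuousLinearMap.lsmul ℝ ℝ) (hγ.smooth.pd j) ((su.pd 2).shift hγs)
      hgn.LamMul hw.LamMul h3 h2
    have h4' : 𝓕.Bk k (fun i x => 𝓕.Lam i * w i x) (fun i z =>
        Crest.Agent.R216.TE.pd j (lift (γ i)) z •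
          Crest.Agent.R216.TE.shift (γ i) (Crest.Agent.R216.TE.pd 2 (u i)) z) := by
      refine Bk.mono h4 (C := max C 1) (by positivity) (fun i x hx => ?_)
      exact mul_le_mul_of_nonneg_right ((hC i).trans (le_max_left _ _)) (hw.LamMul i x hx)
    have s2 : 𝓕.Sm (fun i z => Crest.Agent.R216.TE.pd j (lift (γ i)) z •
          Crest.Agent.R216.TE.shift (γ i) (Crest.Agent.R216.TE.pd 2 (u i)) z) := fun i =>
      (hγ.smooth.pd j i).smul ((su.pd 2).shift hγs i)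
    refine (Bk.add ((su.pd j).shift hγs) s2 h1 h4').congr (fun i z hz => ?_)
    exact (pd_shift (𝓕.isOpen i) (su i) (hγs i) j hz).symm

lemma B.shift {u : 𝓕.I → Q → V} {γ : 𝓕.I → X2 → ℝ} {g : 𝓕.I → ℝ} (hw : Nn w)
    (hg0 : ∀ i, 0 ≤ g i) (hu : 𝓕.B w u) (hγ : 𝓕.B (fun i _ => g i) (fun i => lift (γ i)))
    (hg : ∃ C, ∀ i, 𝓕.Lam i * g i ≤ C) :
    𝓕.B w (fun i => Crest.Agent.R216.TE.shift (γ i) (u i)) :=
  ⟨hu.smooth.shift hγ.gamma_smooth, fun k => Bk.shift hg0 hγ hg hw hu.smooth (hu.bound k)⟩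

lemma Bk.shift_sub (k : ℕ) {γ : 𝓕.I → X2 → ℝ} {g : 𝓕.I → ℝ}
    (hg0 : ∀ i, 0 ≤ g i) (hγ : 𝓕.B (fun i _ => g i) (fun i => lift (γ i)))
    (hg : ∃ C, ∀ i, 𝓕.Lam i * g i ≤ C) :
    ∀ {w : 𝓕.I → X2 → ℝ} {u : 𝓕.I → Q → V}, Nn w → 𝓕.B w u →
      𝓕.Bk k (fun i x => 𝓕.Lam i * g i * w i x)
        (fun i z => Crest.Agent.R216.TE.shift (γ i) (u i) z - u i z) := by
  have hγs := hγ.gamma_smooth
  have hsz : ∀ {w : 𝓕.I → X2 → ℝ} {u : 𝓕.I → Q → V}, Nn w → 𝓕.B w u →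
      𝓕.Sz (fun i x => 𝓕.Lam i * g i * w i x)
        (fun i z => Crest.Agent.R216.TE.shift (γ i) (u i) z - u i z) := by
    intro w u hw hu
    obtain ⟨C1, hC1, h1⟩ := (hu.pd 2).sz
    obtain ⟨C2, hC2, h2⟩ := hγ.sz
    refine ⟨C1 * C2, by positivity, fun i z hz => ?_⟩
    have hγz : |γ i z.1| ≤ C2 * g i := by
      have := h2 i z hz
      simpa [lift] using this
    have hder : ∀ s : ℝ, HasDerivAt (fun s => u i (z.1, s))
        (Crest.Agent.R216.TE.pd 2 (u i) (z.1, s)) s := by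
      intro s
      have hzs : ((z.1, s) : Q) ∈ 𝓕.dom i := hz
      have hd := (diffAt (𝓕.isOpen_dom i) (hu.smooth i) hzs).hasFDerivAt
      have hc : HasDerivAt (fun s : ℝ => ((z.1, s) : Q)) ((0, 1) : Q) s :=
        (hasDerivAt_const s z.1).prodMk (hasDerivAt_id s)
      exact hd.comp_hasDerivAt s hc
    have hb : ∀ s ∈ (univ : Set ℝ), ‖Crest.Agent.R216.TE.pd 2 (u i) (z.1, s)‖
        ≤ C1 * (𝓕.Lam i * w i z.1) := fun s _ => h1 i (z.1, s) hz
    have := convex_univ.norm_image_sub_le_of_norm_hasDerivWithin_le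
      (f := fun s => u i (z.1, s)) (fun s _ => (hder s).hasDerivWithinAt) hb
      (mem_univ z.2) (mem_univ (z.2 + γ i z.1))
    have hL : 0 ≤ 𝓕.Lam i * w i z.1 := hw.LamMul i z.1 hz
    calc ‖Crest.Agent.R216.TE.shift (γ i) (u i) z - u i z‖
        = ‖u i (z.1, z.2 + γ i z.1) - u i (z.1, z.2)‖ := rfl
      _ ≤ C1 * (𝓕.Lam i * w i z.1) * ‖z.2 + γ i z.1 - z.2‖ := this
      _ ≤ C1 * (𝓕.Lam i * w i z.1) * (C2 * g i) := by
          refine mul_le_mul_of_nonneg_left ?_ (by positivity)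
          rw [add_sub_cancel_left]; exact hγz
      _ = C1 * C2 * (𝓕.Lam i * g i * w i z.1) := by ring
  induction k with
  | zero => intro w u hw hu; exact hsz hw hu
  | succ k ih =>
    intro w u hw hu
    refine ⟨hsz hw hu, fun j => ?_⟩
    have hgn : Nn (𝓕 := 𝓕) (fun i _ => g i) := fun i _ _ => hg0 i
    have h1 := ih hw.LamMul (hu.pd j)
    have h2 := (B.shift hw.LamMul hg0 (hu.pd 2) hγ hg)
    have h3 := (B.smul hgn.LamMul hw.LamMul (hγ.pd j) h2)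
    have h1' : 𝓕.Bk k (fun i x => 𝓕.Lam i * (𝓕.Lam i * g i * w i x)) (fun i z =>
        Crest.Agent.R216.TE.shift (γ i) (Crest.Agent.R216.TE.pd j (u i)) z -
          Crest.Agent.R216.TE.pd j (u i) z) :=
      h1.mono one_pos (fun i x _ => by rw [one_mul]; apply le_of_eq; ring)
    have h3' := (h3.bound k).mono (w' := fun i x => 𝓕.Lam i * (𝓕.Lam i * g i * w i x)) one_pos
      (fun i x _ => by rw [one_mul]; apply le_of_eq; ring)
    have s1 : 𝓕.Sm (fun i z => Crest.Agent.R216.TE.shift (γ i) (Crest.Agent.R216.TE.pd j (u i)) z -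
          Crest.Agent.R216.TE.pd j (u i) z) := fun i =>
      ((hu.smooth.pd j).shift hγs i).sub (hu.smooth.pd j i)
    refine (Bk.add s1 h3.smooth h1' h3').congr (fun i z hz => ?_)
    have d1 := diffAt (𝓕.isOpen_dom i) (hu.smooth.shift hγs i) hz
    have d2 := diffAt (𝓕.isOpen_dom i) (hu.smooth i) hz
    have e1 : Crest.Agent.R216.TE.pd j
        (fun z => Crest.Agent.R216.TE.shift (γ i) (u i) z - u i z) z
        = Crest.Agent.R216.TE.pd j (Crest.Agent.R216.TE.shift (γ i) (u i)) z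
          - Crest.Agent.R216.TE.pd j (u i) z := by
      show fderiv ℝ (fun z => Crest.Agent.R216.TE.shift (γ i) (u i) z - u i z) z (bas j) = _
      rw [fderiv_fun_sub d1 d2]; rfl
    rw [e1, pd_shift (𝓕.isOpen i) (hu.smooth i) (hγs i) j hz]
    simp only []
    abel

lemma B.shift_sub {u : 𝓕.I → Q → V} {γ : 𝓕.I → X2 → ℝ} {g : 𝓕.I → ℝ} (hw : Nn w)
    (hg0 : ∀ i, 0 ≤ g i) (hu : 𝓕.B w u) (hγ : 𝓕.B (fun i _ => g i) (fun i => lift (γ i)))
    (hg : ∃ C, ∀ i, 𝓕.Lam i * g i ≤ C) :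
    𝓕.B (fun i x => 𝓕.Lam i * g i * w i x)
      (fun i z => Crest.Agent.R216.TE.shift (γ i) (u i) z - u i z) :=
  ⟨fun i => (hu.smooth.shift hγ.gamma_smooth i).sub (hu.smooth i),
    fun k => Bk.shift_sub k hg0 hγ hg hw hu⟩

end Fam
end ClsShift
end Crest.Agent.R216.TE
end

-- ▼ part R216/Step2
section

/-!
# Row 216, Theorem E, step 2: phase shift (TE-7).
-/

open Set Topology MeasureTheory
open scoped ContDiff

set_option linter.unusedSectionVars false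

namespace Crest.Agent.R216.TE

namespace Stp2
open Shf CT

section basic
variable {V : Type*} [NormedAddCommGroup V] [NormedSpace ℝ V]

/-- slice continuity -/
def Sl (u : Q → V) (x : X2) : Prop := Continuous (fun s : ℝ => u (x, s))

lemma Sl.of {D : Set X2} {u : Q → V} (hu : ContDiffOn ℝ ∞ u {z | z.1 ∈ D}) {x : X2} (hx : x ∈ D) :
    Sl u x :=
  hu.continuousOn.comp_continuous (by fun_prop) (fun _ => hx)

lemma mean_congr {u v : Q → V} {z : Q} (h : ∀ s, u (z.1, s) = v (z.1, s)) :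
    mean u z = mean v z := by
  unfold mean
  congr 1
  exact intervalIntegral.integral_congr (fun s _ => h s)

lemma mean_add {u v : Q → V} {z : Q} (hu : Sl u z.1) (hv : Sl v z.1) :
    mean (fun z => u z + v z) z = mean u z + mean v z := by
  unfold mean
  rw [intervalIntegral.integral_add (Continuous.intervalIntegrable hu _ _)
    (Continuous.intervalIntegrable hv _ _), smul_add]

lemma mean_sub {u v : Q → V} {z : Q} (hu : Sl u z.1) (hv : Sl v z.1) :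
    mean (fun z => u z - v z) z = mean u z - mean v z := by
  unfold mean
  rw [intervalIntegral.integral_sub (Continuous.intervalIntegrable hu _ _)
    (Continuous.intervalIntegrable hv _ _), smul_sub]

lemma mean_cmul {c u : Q → ℝ} {z : Q} (hc : ∀ s, c (z.1, s) = c z) :
    mean (fun z => c z * u z) z = c z * mean u z := by
  unfold mean
  simp only [hc, intervalIntegral.integral_const_mul, smul_eq_mul]
  ring

lemma mean_const [CompleteSpace V] {u : Q → V} {z : Q} (hc : ∀ s, u (z.1, s) = u z) :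
    mean u z = u z := by
  have h : (2 * Real.pi) ≠ 0 := by positivity
  unfold mean
  simp only [hc, intervalIntegral.integral_const, sub_zero, smul_smul]
  rw [inv_mul_cancel₀ h, one_smul]

lemma mean_csmul (c : ℝ) (u : Q → V) (z : Q) : mean (fun z => c • u z) z = c • mean u z := by
  unfold mean
  rw [intervalIntegral.integral_smul, smul_comm]

lemma mean_inner_c {c u : Q → E4} {z : Q} (hc : ∀ s, c (z.1, s) = c z) (hu : Sl u z.1) :
    mean (fun z => (inner ℝ (c z) (u z) : ℝ)) z = inner ℝ (c z) (mean u z) := by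
  unfold mean
  simp only [hc]
  have := (innerSL ℝ (c z)).intervalIntegral_comp_comm
    (Continuous.intervalIntegrable (μ := volume) hu 0 (2*Real.pi))
  simp only [innerSL_apply_apply] at this
  rw [this, inner_smul_right]
  rfl

lemma Sl.add {u v : Q → V} {x : X2} (hu : Sl u x) (hv : Sl v x) : Sl (fun z => u z + v z) x :=
  Continuous.add hu hv
lemma Sl.cmul {c u : Q → ℝ} {x : X2} (hc : ∀ s t, c (x, s) = c (x, t)) (hu : Sl u x) :
    Sl (fun z => c z * u z) x := by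
  have : (fun s : ℝ => c (x, s) * u (x, s)) = fun s : ℝ => c (x, 0) * u (x, s) := by
    funext s; rw [hc s 0]
  show Continuous (fun s : ℝ => c (x, s) * u (x, s))
  rw [this]
  exact continuous_const.mul hu
lemma Sl.sub {u v : Q → V} {x : X2} (hu : Sl u x) (hv : Sl v x) : Sl (fun z => u z - v z) x :=
  Continuous.sub hu hv
lemma Sl.csmul {u : Q → V} {x : X2} (hu : Sl u x) (c : ℝ) : Sl (fun z => c • u z) x :=
  (continuous_const_smul c).comp hu
lemma Sl.inner {u v : Q → E4} {x : X2} (hu : Sl u x) (hv : Sl v x) :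
    Sl (fun z => (inner ℝ (u z) (v z) : ℝ)) x := Continuous.inner hu hv
lemma Sl.shift {D : Set X2} {u : Q → V} (hu : ContDiffOn ℝ ∞ u {z | z.1 ∈ D}) {x : X2}
    (hx : x ∈ D) (γ : X2 → ℝ) : Sl (Crest.Agent.R216.TE.shift γ u) x := by
  have h1 : Continuous (fun s : ℝ => u (x, s)) := Sl.of hu hx
  exact h1.comp (by fun_prop : Continuous (fun s : ℝ => s + γ x))

/-- mean of a combination of shifted functions with coefficients depending on `x` only -/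
lemma comb {D : Set X2} {γ : X2 → ℝ} {E' E N H L : Q → ℝ} {c1 c2 c3 : Q → ℝ}
    (sE : ContDiffOn ℝ ∞ E {z | z.1 ∈ D}) (sN : ContDiffOn ℝ ∞ N {z | z.1 ∈ D})
    (sH : ContDiffOn ℝ ∞ H {z | z.1 ∈ D}) (sL : ContDiffOn ℝ ∞ L {z | z.1 ∈ D})
    (pE : PerOn D E) (pN : PerOn D N) (pH : PerOn D H) (pL : PerOn D L)
    (h : ∀ z : Q, z.1 ∈ D → E' z =
      shift γ E z + c1 z * shift γ N z + c2 z * shift γ H z + c3 z * shift γ L z)
    (k1 : ∀ x ∈ D, ∀ s t, c1 (x, s) = c1 (x, t)) (k2 : ∀ x ∈ D, ∀ s t, c2 (x, s) = c2 (x, t))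
    (k3 : ∀ x ∈ D, ∀ s t, c3 (x, s) = c3 (x, t)) {z : Q} (hz : z.1 ∈ D) :
    mean E' z = mean E z + c1 z * mean N z + c2 z * mean H z + c3 z * mean L z := by
  have e : mean E' z = mean (fun z =>
      shift γ E z + c1 z * shift γ N z + c2 z * shift γ H z + c3 z * shift γ L z) z :=
    mean_congr (fun s => h (z.1, s) hz)
  have cE : Sl (shift γ E) z.1 := Sl.shift sE hz γ
  have cN := Sl.cmul (k1 z.1 hz) (Sl.shift sN hz γ)
  have cH := Sl.cmul (k2 z.1 hz) (Sl.shift sH hz γ)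
  have cL := Sl.cmul (k3 z.1 hz) (Sl.shift sL hz γ)
  rw [e, mean_add ((cE.add cN).add cH) cL, mean_add (cE.add cN) cH, mean_add cE cN,
    mean_cmul (fun s => k1 z.1 hz s z.2), mean_cmul (fun s => k2 z.1 hz s z.2),
    mean_cmul (fun s => k3 z.1 hz s z.2),
    mean_shift sE pE γ hz, mean_shift sN pN γ hz, mean_shift sH pH γ hz, mean_shift sL pL γ hz]

lemma comb_osc {D : Set X2} {γ : X2 → ℝ} {E' E N H L : Q → ℝ} {c1 c2 c3 : Q → ℝ}
    (sE : ContDiffOn ℝ ∞ E {z | z.1 ∈ D}) (sN : ContDiffOn ℝ ∞ N {z | z.1 ∈ D})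
    (sH : ContDiffOn ℝ ∞ H {z | z.1 ∈ D}) (sL : ContDiffOn ℝ ∞ L {z | z.1 ∈ D})
    (pE : PerOn D E) (pN : PerOn D N) (pH : PerOn D H) (pL : PerOn D L)
    (h : ∀ z : Q, z.1 ∈ D → E' z =
      shift γ E z + c1 z * shift γ N z + c2 z * shift γ H z + c3 z * shift γ L z)
    (k1 : ∀ x ∈ D, ∀ s t, c1 (x, s) = c1 (x, t)) (k2 : ∀ x ∈ D, ∀ s t, c2 (x, s) = c2 (x, t))
    (k3 : ∀ x ∈ D, ∀ s t, c3 (x, s) = c3 (x, t)) {z : Q} (hz : z.1 ∈ D) :
    osc E' z = shift γ (osc E) z + c1 z * shift γ (osc N) z + c2 z * shift γ (osc H) z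
      + c3 z * shift γ (osc L) z := by
  have h1 := comb sE sN sH sL pE pN pH pL h k1 k2 k3 hz
  have h2 := h z hz
  have k : ∀ G : Q → ℝ, shift γ (osc G) z = shift γ G z - mean G z := fun G => rfl
  rw [k, k, k, k]
  show E' z - mean E' z = _
  rw [h1, h2]
  ring

end basic

section data
variable {𝓔 : EFam} (d : EData 𝓔) (F : 𝓔.I → Q → E4)

/-- `∂_t` of the oscillating part of `ρ` -/
noncomputable def P : 𝓔.I → Q → E4 := fun i => pd 2 (osc (d.rho F i))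
/-- `ε⁻¹ ∂_t F` -/
noncomputable def U2 : 𝓔.I → Q → E4 := fun i z => d.Wl i z + P d F i z
/-- `∂_j (ρ + u₁)` -/
noncomputable def Y (j : Fin 3) : 𝓔.I → Q → E4 := fun i z =>
  pd j (osc (d.rho F i)) z + pd j (mean (d.rho F i)) z + pd j (d.u1 i) z
/-- `A1 F - w` -/
noncomputable def R : 𝓔.I → Q → E4 := fun i z => P d F i z + 𝓔.eps i • Y d F 0 i z
/-- oscillating part of `∂₂ (ρ + u₁)` -/
noncomputable def S' : 𝓔.I → Q → E4 := fun i z => pd 1 (osc (d.rho F i)) z + pd 1 (d.u1 i) z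
/-- `ε⁻¹ <A1 F, ∂_t F>` -/
noncomputable def N : 𝓔.I → Q → ℝ := fun i z => inner ℝ (𝓔.A1 F i z) (U2 d F i z)
/-- `ε⁻¹ <A2 F, ∂_t F>` -/
noncomputable def H : 𝓔.I → Q → ℝ := fun i z => inner ℝ (𝓔.A2 F i z) (U2 d F i z)
/-- `ε⁻² |∂_t F|²` -/
noncomputable def L : 𝓔.I → Q → ℝ := fun i z => inner ℝ (U2 d F i z) (U2 d F i z)

variable {d F}

lemma u1B (h : d.Hyp) : 𝓔.toFam.B (𝓔.W 1 0 0) d.u1 :=
  Fam.B.prim (EFam.W_nn _ _ _) h.WB h.Wper

lemma f_smooth (h : d.Hyp) (i : 𝓔.I) : ContDiffOn ℝ ∞ (d.f i) (𝓔.D i) :=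
  contDiffOn_of_lift (h.fsm i)

lemma rho_sm (h : d.Hyp) (hF : 𝓔.toFam.Sm F) : 𝓔.toFam.Sm (d.rho F) := fun i =>
  ((contDiffOn_const (c := (𝓔.eps i)⁻¹)).smul ((hF i).sub (h.fsm i))).sub ((u1B h).smooth i)

lemma u1_per (h : d.Hyp) (i : 𝓔.I) : PerOn (𝓔.D i) (d.u1 i) := fun _ hx t =>
  per_prim (h.WB.smooth i) (h.Wper i) hx t

lemma rho_per (h : d.Hyp) (hG : d.Good F) (i : 𝓔.I) : PerOn (𝓔.D i) (d.rho F i) := by
  intro x hx t
  show (𝓔.eps i)⁻¹ • (F i (x, t + 2 * Real.pi) - d.f i x) - d.u1 i (x, t + 2 * Real.pi)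
    = (𝓔.eps i)⁻¹ • (F i (x, t) - d.f i x) - d.u1 i (x, t)
  rw [hG.per i x hx t, u1_per h i x hx t]

lemma F_eq (i : 𝓔.I) : F i = fun z => lift (d.f i) z + 𝓔.eps i •
    ((osc (d.rho F i) z + mean (d.rho F i) z) + d.u1 i z) := by
  funext z
  have h1 := (EFam.eps_pos (𝓔 := 𝓔) i).ne'
  have h2 : osc (d.rho F i) z + mean (d.rho F i) z = d.rho F i z := by
    show d.rho F i z - mean (d.rho F i) z + mean (d.rho F i) z = _
    abel
  rw [h2]
  show F i z = d.f i z.1 + 𝓔.eps i • ((𝓔.eps i)⁻¹ • (F i z - d.f i z.1) - d.u1 i z + d.u1 i z)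
  rw [sub_add_cancel, smul_smul, mul_inv_cancel₀ h1, one_smul]
  abel

lemma pdF (h : d.Hyp) (hG : d.Good F) (i : 𝓔.I) (j : Fin 3) {z : Q} (hz : z.1 ∈ 𝓔.D i) :
    pd j (F i) z = pd j (lift (d.f i)) z + 𝓔.eps i • Y d F j i z := by
  have hD := 𝓔.toFam.isOpen_dom i
  have d1 := diffAt hD (h.fsm i) hz
  have d2 := diffAt hD (hG.rho_osc.smooth i) hz
  have d3 := diffAt hD (hG.rho_mean.smooth i) hz
  have d4 := diffAt hD ((u1B h).smooth i) hz
  have e : pd j (F i) z = fderiv ℝ (fun z => lift (d.f i) z + 𝓔.eps i •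
    ((osc (d.rho F i) z + mean (d.rho F i) z) + d.u1 i z)) z (bas j) := by
    rw [pd, ← F_eq]
  rw [e, fderiv_fun_add d1 (((d2.fun_add d3).fun_add d4).fun_const_smul _),
    fderiv_fun_const_smul ((d2.fun_add d3).fun_add d4),
    fderiv_fun_add (d2.fun_add d3) d4, fderiv_fun_add d2 d3]
  rfl

lemma pd0_f (h : d.Hyp) (i : 𝓔.I) {z : Q} (hz : z.1 ∈ 𝓔.D i) :
    pd 0 (lift (d.f i)) z = d.f1 i z := by
  rw [pd, (lift_hasFDerivAt (𝓔.isOpen i) (f_smooth h i) hz).fderiv]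
  rfl

lemma pd1_f (h : d.Hyp) (i : 𝓔.I) {z : Q} (hz : z.1 ∈ 𝓔.D i) :
    pd 1 (lift (d.f i)) z = d.f2 i z := by
  rw [pd, (lift_hasFDerivAt (𝓔.isOpen i) (f_smooth h i) hz).fderiv]
  rfl

lemma Y2 (h : d.Hyp) (i : 𝓔.I) {z : Q} (hz : z.1 ∈ 𝓔.D i) :
    Y d F 2 i z = U2 d F i z := by
  have h1 : pd 2 (d.u1 i) z = d.Wl i z := by
    rw [EData.u1, pd2_prim (𝓔.isOpen i) (h.WB.smooth i) hz]
    show d.Wl i z - mean (d.Wl i) z = _
    rw [h.Wmean i z hz, sub_zero]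
  show pd 2 (osc (d.rho F i)) z + pd 2 (mean (d.rho F i)) z + pd 2 (d.u1 i) z = _
  rw [h1, pd2_mean, add_zero, add_comm]
  rfl

lemma pd2F (h : d.Hyp) (hG : d.Good F) (i : 𝓔.I) {z : Q} (hz : z.1 ∈ 𝓔.D i) :
    pd 2 (F i) z = 𝓔.eps i • U2 d F i z := by
  rw [pdF h hG i 2 hz, Y2 h i hz, Shf.pd2_lift (𝓔.isOpen i) (f_smooth h i) hz, zero_add]

lemma pd0F (h : d.Hyp) (hG : d.Good F) (i : 𝓔.I) {z : Q} (hz : z.1 ∈ 𝓔.D i) :
    pd 0 (F i) z = d.f1 i z + 𝓔.eps i • Y d F 0 i z := by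
  rw [pdF h hG i 0 hz, pd0_f h i hz]

lemma pd1F (h : d.Hyp) (hG : d.Good F) (i : 𝓔.I) {z : Q} (hz : z.1 ∈ 𝓔.D i) :
    𝓔.A2 F i z = d.f2 i z + 𝓔.eps i • Y d F 1 i z := by
  show pd 1 (F i) z = _
  rw [pdF h hG i 1 hz, pd1_f h i hz]

lemma A1F (h : d.Hyp) (hG : d.Good F) (i : 𝓔.I) {z : Q} (hz : z.1 ∈ 𝓔.D i) :
    𝓔.A1 F i z = pd 0 (F i) z + U2 d F i z := by
  show pd 0 (F i) z + (𝓔.eps i)⁻¹ • pd 2 (F i) z = _
  rw [pd2F h hG i hz, smul_smul, inv_mul_cancel₀ (EFam.eps_pos i).ne', one_smul]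

lemma A1F' (h : d.Hyp) (hG : d.Good F) (i : 𝓔.I) {z : Q} (hz : z.1 ∈ 𝓔.D i) :
    𝓔.A1 F i z = d.f1 i z + (d.Wl i z + R d F i z) := by
  rw [A1F h hG i hz, pd0F h hG i hz]
  show d.f1 i z + 𝓔.eps i • Y d F 0 i z + (d.Wl i z + P d F i z) =
    d.f1 i z + (d.Wl i z + (P d F i z + 𝓔.eps i • Y d F 0 i z))
  abel

/-! classes -/

lemma PB (hG : d.Good F) : 𝓔.toFam.B (𝓔.W 1 7 2) (P d F) := EFam.B_pd hG.rho_osc 2

lemma U2B (h : d.Hyp) (hG : d.Good F) : 𝓔.toFam.B (𝓔.W 1 0 0) (U2 d F) :=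
  EFam.B_add h.WB (EFam.B_le (PB hG) (by omega) (by omega) (by omega))

lemma YB (h : d.Hyp) (hG : d.Good F) (j : Fin 3) : 𝓔.toFam.B (𝓔.W 1 0 1) (Y d F j) :=
  EFam.B_add (EFam.B_add (EFam.B_le (EFam.B_pd hG.rho_osc j) (by omega) (by omega) (by omega))
    (EFam.B_le (EFam.B_pd hG.rho_mean j) (by omega) (by omega) (by omega)))
    (EFam.B_pd (u1B h) j)

lemma RB (h : d.Hyp) (hG : d.Good F) : 𝓔.toFam.B (𝓔.W 1 7 2) (R d F) :=
  EFam.B_add (PB hG) (EFam.B_le (EFam.B_eps (YB h hG 0)) (by omega) (by omega) (by omega))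

lemma S'B (h : d.Hyp) (hG : d.Good F) : 𝓔.toFam.B (𝓔.W 1 0 1) (S' d F) :=
  EFam.B_add (EFam.B_le (EFam.B_pd hG.rho_osc 1) (by omega) (by omega) (by omega))
    (EFam.B_pd (u1B h) 1)

lemma A1B (h : d.Hyp) (hG : d.Good F) : 𝓔.toFam.B (𝓔.W 0 0 0) (𝓔.A1 F) := by
  have h1 := EFam.B_add h.f1B (EFam.B_add (EFam.B_le (j' := 0) (m' := 0) (l' := 0) h.WB
    (by omega) (by omega) (by omega))
    (EFam.B_le (j' := 0) (m' := 0) (l' := 0) (RB h hG) (by omega) (by omega) (by omega)))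
  exact h1.congr (fun i z hz => (A1F' h hG i hz).symm)

lemma A2B (h : d.Hyp) (hG : d.Good F) : 𝓔.toFam.B (𝓔.W 0 0 0) (𝓔.A2 F) := by
  have h1 := EFam.B_add h.f2B (EFam.B_le (j' := 0) (m' := 0) (l' := 0) (EFam.B_eps (YB h hG 1))
    (by omega) (by omega) (by omega))
  exact h1.congr (fun i z hz => (pd1F h hG i hz).symm)

lemma NB (h : d.Hyp) (hG : d.Good F) : 𝓔.toFam.B (𝓔.W 1 0 0) (N d F) :=
  EFam.B_innerR (A1B h hG) (U2B h hG) (by omega) (by omega) (by omega)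


lemma LB (h : d.Hyp) (hG : d.Good F) : 𝓔.toFam.B (𝓔.W 2 0 0) (L d F) :=
  EFam.B_inner (U2B h hG) (U2B h hG)

/-- the refined bound for `<A2 F, ∂_t F>` -/
lemma HB (h : d.Hyp) (hG : d.Good F) (h12 : 𝓔.toFam.B (𝓔.W 1 15 0) (d.E12 F)) :
    𝓔.toFam.B (𝓔.W 1 15 0) (H d F) := by
  have hY0 := YB h hG 0
  have hY1 := YB h hG 1
  have t1 := EFam.B_le (EFam.B_eps (EFam.B_inner h.f1B hY1)) (j' := 1) (m' := 15) (l' := 0)
    (by omega) (by omega) (by omega)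
  have t2 := EFam.B_le (EFam.B_eps (EFam.B_inner h.f2B hY0)) (j' := 1) (m' := 15) (l' := 0)
    (by omega) (by omega) (by omega)
  have t3 := EFam.B_le (EFam.B_eps (EFam.B_eps (EFam.B_inner hY1 hY0)))
    (j' := 1) (m' := 15) (l' := 0) (by omega) (by omega) (by omega)
  have tG := EFam.B_le h.G12B (j' := 1) (m' := 15) (l' := 0) (by omega) (by omega) (by omega)
  have key := EFam.B_sub (EFam.B_sub (EFam.B_sub (EFam.B_add h12 tG) t1) t2) t3
  refine key.congr (fun i z hz => ?_)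
  have e1 := A1F h hG i hz
  have e2 := pd1F h hG i hz
  have e3 := pd0F h hG i hz
  have e4 : U2 d F i z = 𝓔.A1 F i z - pd 0 (F i) z := by rw [e1]; abel
  show d.E12 F i z + lift (d.G12 i) z - 𝓔.eps i • inner ℝ (d.f1 i z) (Y d F 1 i z)
    - 𝓔.eps i • inner ℝ (d.f2 i z) (Y d F 0 i z)
    - 𝓔.eps i • 𝓔.eps i • inner ℝ (Y d F 1 i z) (Y d F 0 i z)
    = inner ℝ (𝓔.A2 F i z) (U2 d F i z)
  have e5 : (inner ℝ (𝓔.A2 F i z) (U2 d F i z) : ℝ)
      = inner ℝ (𝓔.A1 F i z) (𝓔.A2 F i z) - inner ℝ (𝓔.A2 F i z) (pd 0 (F i) z) := by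
    rw [e4, inner_sub_right, real_inner_comm]
  have e6 : (inner ℝ (𝓔.A2 F i z) (pd 0 (F i) z) : ℝ)
      = inner ℝ (d.f1 i z) (d.f2 i z) + 𝓔.eps i * inner ℝ (d.f1 i z) (Y d F 1 i z)
        + 𝓔.eps i * inner ℝ (d.f2 i z) (Y d F 0 i z)
        + 𝓔.eps i * (𝓔.eps i * inner ℝ (Y d F 1 i z) (Y d F 0 i z)) := by
    rw [e2, e3, inner_add_left, inner_add_right, inner_add_right]
    simp only [real_inner_smul_left, real_inner_smul_right]
    rw [real_inner_comm (d.f1 i z) (d.f2 i z), real_inner_comm (d.f1 i z) (Y d F 1 i z)]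
    ring
  have e7 : (inner ℝ (𝓔.A1 F i z) (𝓔.A2 F i z) : ℝ)
      = d.E12 F i z + (inner ℝ (d.f1 i z) (d.f2 i z) + d.G12 i z.1) := by
    simp only [EData.E12]; ring
  rw [e5, e6, e7]
  simp only [smul_eq_mul, lift]
  ring

/-! means -/

/-- `K = <W, P> + <R, U2>` -/
noncomputable def K (d : EData 𝓔) (F : 𝓔.I → Q → E4) : 𝓔.I → Q → ℝ := fun i z =>
  inner ℝ (d.Wl i z) (P d F i z) + inner ℝ (R d F i z) (U2 d F i z)

lemma KB (h : d.Hyp) (hG : d.Good F) : 𝓔.toFam.B (𝓔.W 2 7 2) (K d F) :=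
  EFam.B_add (EFam.B_innerR h.WB (PB hG) (by omega) (by omega) (by omega))
    (EFam.B_innerR (RB h hG) (U2B h hG) (by omega) (by omega) (by omega))

lemma mean_P (h : d.Hyp) (hG : d.Good F) (i : 𝓔.I) {z : Q} (hz : z.1 ∈ 𝓔.D i) :
    mean (P d F i) z = 0 :=
  mean_pd2 (𝓔.isOpen i) (hG.rho_osc.smooth i) (perOn_osc (rho_per h hG i)) hz

lemma mean_U2 (h : d.Hyp) (hG : d.Good F) (i : 𝓔.I) {z : Q} (hz : z.1 ∈ 𝓔.D i) :
    mean (U2 d F i) z = 0 := by
  have : mean (U2 d F i) z = mean (d.Wl i) z + mean (P d F i) z :=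
    mean_add (Sl.of (h.WB.smooth i) hz) (Sl.of ((PB hG).smooth i) hz)
  rw [this, h.Wmean i z hz, mean_P h hG i hz, add_zero]

lemma mean_N (h : d.Hyp) (hG : d.Good F) (i : 𝓔.I) {z : Q} (hz : z.1 ∈ 𝓔.D i) :
    mean (N d F i) z = 𝓔.a i z.1 ^ 2 + mean (K d F i) z := by
  -- `N = a² + <f1, P> - <f1, W> + K`
  have e : ∀ s, N d F i (z.1, s) = (fun z => ((fun z => (fun z => 𝓔.a i z.1 ^ 2) z
      + (fun z => (inner ℝ (d.f1 i z) (P d F i z) : ℝ)) z) z
      - (fun z => (inner ℝ (d.f1 i z) (d.Wl i z) : ℝ)) z) + K d F i z) (z.1, s) := by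
    intro s
    have hz' : ((z.1, s) : Q).1 ∈ 𝓔.D i := hz
    have h1 := A1F' h hG i hz'
    have h2 := h.circle i (z.1, s) hz'
    simp only [EData.w] at h2
    rw [inner_add_left, inner_add_right, inner_add_right] at h2
    rw [real_inner_comm (d.f1 i (z.1, s)) (d.Wl i (z.1, s))] at h2
    simp only [N, h1, U2, K]
    simp only [inner_add_left, inner_add_right]
    linarith
  have cf : ∀ s, d.f1 i (z.1, s) = d.f1 i z := fun s => rfl
  have sW := Sl.of (h.WB.smooth i) hz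
  have sP := Sl.of ((PB hG).smooth i) hz
  have sf : Sl (d.f1 i) z.1 := show Continuous (fun _ : ℝ => d.f1 i (z.1, 0)) from continuous_const
  have sK := Sl.of ((KB h hG).smooth i) hz
  have sa : Sl (fun z : Q => 𝓔.a i z.1 ^ 2) z.1 :=
    show Continuous (fun _ : ℝ => 𝓔.a i z.1 ^ 2) from continuous_const
  rw [mean_congr (v := fun z => ((fun z => (fun z => 𝓔.a i z.1 ^ 2) z
      + (fun z => (inner ℝ (d.f1 i z) (P d F i z) : ℝ)) z) z
      - (fun z => (inner ℝ (d.f1 i z) (d.Wl i z) : ℝ)) z) + K d F i z) e,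
    mean_add (u := fun z => ((fun z => (fun z => 𝓔.a i z.1 ^ 2) z
      + (fun z => (inner ℝ (d.f1 i z) (P d F i z) : ℝ)) z) z
      - (fun z => (inner ℝ (d.f1 i z) (d.Wl i z) : ℝ)) z)) ?_ sK]
  · rw [mean_sub (u := (fun z => (fun z => 𝓔.a i z.1 ^ 2) z
      + (fun z => (inner ℝ (d.f1 i z) (P d F i z) : ℝ)) z)) (sa.add (sf.inner sP)) (sf.inner sW),
      mean_add sa (sf.inner sP), mean_inner_c cf sP, mean_inner_c cf sW, mean_P h hG i hz,
      h.Wmean i z hz, inner_zero_right, mean_const (fun s => rfl)]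
    ring
  · exact Continuous.sub (sa.add (sf.inner sP)) (sf.inner sW)

lemma mean_H (h : d.Hyp) (hG : d.Good F) (i : 𝓔.I) {z : Q} (hz : z.1 ∈ 𝓔.D i) :
    mean (H d F i) z = 𝓔.eps i • mean (fun z => (inner ℝ (S' d F i z) (U2 d F i z) : ℝ)) z := by
  let c : Q → E4 := fun z => d.f2 i z + 𝓔.eps i • pd 1 (mean (d.rho F i)) z
  have hc : ∀ s, c (z.1, s) = c z := by
    intro s
    have : pd 1 (mean (d.rho F i)) (z.1, s) = pd 1 (mean (d.rho F i)) z := by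
      rw [pd_mean (𝓔.isOpen i) (rho_sm h hG.sm i) 1 (by decide) (z := (z.1, s)) hz,
        pd_mean (𝓔.isOpen i) (rho_sm h hG.sm i) 1 (by decide) hz]
      rfl
    show d.f2 i (z.1, s) + 𝓔.eps i • pd 1 (mean (d.rho F i)) (z.1, s) = _
    rw [this]
    rfl
  have e : ∀ s, H d F i (z.1, s) = (fun z => (inner ℝ (c z) (U2 d F i z) : ℝ)
      + (fun z => 𝓔.eps i • (inner ℝ (S' d F i z) (U2 d F i z) : ℝ)) z) (z.1, s) := by
    intro s
    have hz' : ((z.1, s) : Q).1 ∈ 𝓔.D i := hz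
    have h1 := pd1F h hG i hz'
    simp only [H, h1, c]
    have h2 : d.f2 i (z.1, s) + 𝓔.eps i • Y d F 1 i (z.1, s)
        = (d.f2 i (z.1, s) + 𝓔.eps i • pd 1 (mean (d.rho F i)) (z.1, s))
          + 𝓔.eps i • S' d F i (z.1, s) := by
      simp only [Y, S', smul_add]; abel
    rw [h2, inner_add_left, real_inner_smul_left, smul_eq_mul]
  have sU := Sl.of ((U2B h hG).smooth i) hz
  have sS := Sl.of ((S'B h hG).smooth i) hz
  have sc : Sl c z.1 := by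
    have : (fun s : ℝ => c (z.1, s)) = fun _ => c z := by funext s; exact hc s
    show Continuous (fun s : ℝ => c (z.1, s))
    rw [this]; exact continuous_const
  rw [mean_congr (v := fun z => (inner ℝ (c z) (U2 d F i z) : ℝ)
      + (fun z => 𝓔.eps i • (inner ℝ (S' d F i z) (U2 d F i z) : ℝ)) z) e,
    mean_add (sc.inner sU)
    (show Sl (fun z => 𝓔.eps i • (inner ℝ (S' d F i z) (U2 d F i z) : ℝ)) z.1 from
      (sS.inner sU).csmul _), mean_inner_c hc sU, mean_U2 h hG i hz,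
    inner_zero_right, zero_add, mean_csmul]

/-! errors of the shifted state -/

lemma pd_F' (hG : d.Good F) {γ : 𝓔.I → X2 → ℝ} (hγ : ∀ i, ContDiffOn ℝ ∞ (γ i) (𝓔.D i))
    (i : 𝓔.I) (j : Fin 3) {z : Q} (hz : z.1 ∈ 𝓔.D i) :
    pd j (shift (γ i) (F i)) z = pd j (F i) (shm (γ i) z)
      + pd j (lift (γ i)) z • pd 2 (F i) (shm (γ i) z) :=
  pd_shift (𝓔.isOpen i) (hG.sm i) (hγ i) j hz

lemma A1_F' (h : d.Hyp) (hG : d.Good F) {γ : 𝓔.I → X2 → ℝ}
    (hγ : ∀ i, ContDiffOn ℝ ∞ (γ i) (𝓔.D i)) (i : 𝓔.I) {z : Q} (hz : z.1 ∈ 𝓔.D i) :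
    𝓔.A1 (fun i => shift (γ i) (F i)) i z = 𝓔.A1 F i (shm (γ i) z)
      + (𝓔.eps i • pd 0 (lift (γ i)) z) • U2 d F i (shm (γ i) z) := by
  have hz' : (shm (γ i) z).1 ∈ 𝓔.D i := hz
  show pd 0 (shift (γ i) (F i)) z + (𝓔.eps i)⁻¹ • pd 2 (shift (γ i) (F i)) z
    = pd 0 (F i) (shm (γ i) z) + (𝓔.eps i)⁻¹ • pd 2 (F i) (shm (γ i) z) + _
  rw [pd_F' hG hγ i 0 hz, pd_F' hG hγ i 2 hz, Shf.pd2_lift (𝓔.isOpen i) (hγ i) hz, zero_smul,
    add_zero, pd2F h hG i hz', smul_smul, smul_eq_mul, mul_comm (pd 0 (lift (γ i)) z)]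
  abel

lemma A2_F' (h : d.Hyp) (hG : d.Good F) {γ : 𝓔.I → X2 → ℝ}
    (hγ : ∀ i, ContDiffOn ℝ ∞ (γ i) (𝓔.D i)) (i : 𝓔.I) {z : Q} (hz : z.1 ∈ 𝓔.D i) :
    𝓔.A2 (fun i => shift (γ i) (F i)) i z = 𝓔.A2 F i (shm (γ i) z)
      + (𝓔.eps i • pd 1 (lift (γ i)) z) • U2 d F i (shm (γ i) z) := by
  have hz' : (shm (γ i) z).1 ∈ 𝓔.D i := hz
  show pd 1 (shift (γ i) (F i)) z = pd 1 (F i) (shm (γ i) z) + _
  rw [pd_F' hG hγ i 1 hz, pd2F h hG i hz', smul_smul, smul_eq_mul,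
    mul_comm (pd 1 (lift (γ i)) z)]

lemma E11_F' (h : d.Hyp) (hG : d.Good F) {γ : 𝓔.I → X2 → ℝ}
    (hγ : ∀ i, ContDiffOn ℝ ∞ (γ i) (𝓔.D i)) (i : 𝓔.I) (z : Q) (hz : z.1 ∈ 𝓔.D i) :
    d.E11 (fun i => shift (γ i) (F i)) i z = shift (γ i) (d.E11 F i) z
      + (2 * (𝓔.eps i • pd 0 (lift (γ i)) z)) * shift (γ i) (N d F i) z
      + 0 * shift (γ i) (H d F i) z
      + ((𝓔.eps i • pd 0 (lift (γ i)) z) * (𝓔.eps i • pd 0 (lift (γ i)) z))
        * shift (γ i) (L d F i) z := by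
  have e1 := A1_F' h hG hγ i hz
  show (inner ℝ (𝓔.A1 (fun i => shift (γ i) (F i)) i z)
      (𝓔.A1 (fun i => shift (γ i) (F i)) i z) : ℝ)
      - (inner ℝ (d.f1 i z) (d.f1 i z) + 𝓔.a i z.1 ^ 2 + d.G11 i z.1)
    = (inner ℝ (𝓔.A1 F i (shm (γ i) z)) (𝓔.A1 F i (shm (γ i) z))
      - (inner ℝ (d.f1 i z) (d.f1 i z) + 𝓔.a i z.1 ^ 2 + d.G11 i z.1))
      + (2 * (𝓔.eps i • pd 0 (lift (γ i)) z))
        * inner ℝ (𝓔.A1 F i (shm (γ i) z)) (U2 d F i (shm (γ i) z))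
      + 0 * inner ℝ (𝓔.A2 F i (shm (γ i) z)) (U2 d F i (shm (γ i) z))
      + ((𝓔.eps i • pd 0 (lift (γ i)) z) * (𝓔.eps i • pd 0 (lift (γ i)) z))
        * inner ℝ (U2 d F i (shm (γ i) z)) (U2 d F i (shm (γ i) z))
  rw [e1, inner_add_left, inner_add_right, inner_add_right, real_inner_smul_left,
    real_inner_smul_left, real_inner_smul_right, real_inner_smul_right,
    real_inner_comm (𝓔.A1 F i (shm (γ i) z)) (U2 d F i (shm (γ i) z))]
  ring

lemma E12_F' (h : d.Hyp) (hG : d.Good F) {γ : 𝓔.I → X2 → ℝ}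
    (hγ : ∀ i, ContDiffOn ℝ ∞ (γ i) (𝓔.D i)) (i : 𝓔.I) (z : Q) (hz : z.1 ∈ 𝓔.D i) :
    d.E12 (fun i => shift (γ i) (F i)) i z = shift (γ i) (d.E12 F i) z
      + (𝓔.eps i • pd 1 (lift (γ i)) z) * shift (γ i) (N d F i) z
      + (𝓔.eps i • pd 0 (lift (γ i)) z) * shift (γ i) (H d F i) z
      + ((𝓔.eps i • pd 0 (lift (γ i)) z) * (𝓔.eps i • pd 1 (lift (γ i)) z))
        * shift (γ i) (L d F i) z := by
  have e1 := A1_F' h hG hγ i hz
  have e2 := A2_F' h hG hγ i hz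
  show (inner ℝ (𝓔.A1 (fun i => shift (γ i) (F i)) i z)
      (𝓔.A2 (fun i => shift (γ i) (F i)) i z) : ℝ)
      - (inner ℝ (d.f1 i z) (d.f2 i z) + d.G12 i z.1)
    = (inner ℝ (𝓔.A1 F i (shm (γ i) z)) (𝓔.A2 F i (shm (γ i) z))
      - (inner ℝ (d.f1 i z) (d.f2 i z) + d.G12 i z.1))
      + (𝓔.eps i • pd 1 (lift (γ i)) z)
        * inner ℝ (𝓔.A1 F i (shm (γ i) z)) (U2 d F i (shm (γ i) z))
      + (𝓔.eps i • pd 0 (lift (γ i)) z)
        * inner ℝ (𝓔.A2 F i (shm (γ i) z)) (U2 d F i (shm (γ i) z))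
      + ((𝓔.eps i • pd 0 (lift (γ i)) z) * (𝓔.eps i • pd 1 (lift (γ i)) z))
        * inner ℝ (U2 d F i (shm (γ i) z)) (U2 d F i (shm (γ i) z))
  rw [e1, e2, inner_add_left, inner_add_right, inner_add_right, real_inner_smul_left,
    real_inner_smul_left, real_inner_smul_right, real_inner_smul_right,
    real_inner_comm (𝓔.A2 F i (shm (γ i) z)) (U2 d F i (shm (γ i) z))]
  ring

lemma E22_F' (h : d.Hyp) (hG : d.Good F) {γ : 𝓔.I → X2 → ℝ}
    (hγ : ∀ i, ContDiffOn ℝ ∞ (γ i) (𝓔.D i)) (i : 𝓔.I) (z : Q) (hz : z.1 ∈ 𝓔.D i) :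
    d.E22 (fun i => shift (γ i) (F i)) i z = shift (γ i) (d.E22 F i) z
      + 0 * shift (γ i) (N d F i) z
      + (2 * (𝓔.eps i • pd 1 (lift (γ i)) z)) * shift (γ i) (H d F i) z
      + ((𝓔.eps i • pd 1 (lift (γ i)) z) * (𝓔.eps i • pd 1 (lift (γ i)) z))
        * shift (γ i) (L d F i) z := by
  have e2 := A2_F' h hG hγ i hz
  show (inner ℝ (𝓔.A2 (fun i => shift (γ i) (F i)) i z)
      (𝓔.A2 (fun i => shift (γ i) (F i)) i z) : ℝ)
      - (inner ℝ (d.f2 i z) (d.f2 i z) + d.G22 i z.1)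
    = (inner ℝ (𝓔.A2 F i (shm (γ i) z)) (𝓔.A2 F i (shm (γ i) z))
      - (inner ℝ (d.f2 i z) (d.f2 i z) + d.G22 i z.1))
      + 0 * inner ℝ (𝓔.A1 F i (shm (γ i) z)) (U2 d F i (shm (γ i) z))
      + (2 * (𝓔.eps i • pd 1 (lift (γ i)) z))
        * inner ℝ (𝓔.A2 F i (shm (γ i) z)) (U2 d F i (shm (γ i) z))
      + ((𝓔.eps i • pd 1 (lift (γ i)) z) * (𝓔.eps i • pd 1 (lift (γ i)) z))
        * inner ℝ (U2 d F i (shm (γ i) z)) (U2 d F i (shm (γ i) z))
  rw [e2, inner_add_left, inner_add_right, inner_add_right, real_inner_smul_left,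
    real_inner_smul_left, real_inner_smul_right, real_inner_smul_right,
    real_inner_comm (𝓔.A2 F i (shm (γ i) z)) (U2 d F i (shm (γ i) z))]
  ring

/-! smoothness and periodicity of the errors -/

lemma E11_sm (h : d.Hyp) (hG : d.Good F) : 𝓔.toFam.Sm (d.E11 F) := fun i =>
  ((A1B h hG).smooth i |>.inner ℝ ((A1B h hG).smooth i)).sub
    ((((h.f1B.smooth i).inner ℝ (h.f1B.smooth i)).add ((EFam.B_apow 2).smooth i)).add
      (h.G11B.smooth i))

lemma E12_sm (h : d.Hyp) (hG : d.Good F) : 𝓔.toFam.Sm (d.E12 F) := fun i =>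
  ((A1B h hG).smooth i |>.inner ℝ ((A2B h hG).smooth i)).sub
    (((h.f1B.smooth i).inner ℝ (h.f2B.smooth i)).add (h.G12B.smooth i))

lemma E22_sm (h : d.Hyp) (hG : d.Good F) : 𝓔.toFam.Sm (d.E22 F) := fun i =>
  ((A2B h hG).smooth i |>.inner ℝ ((A2B h hG).smooth i)).sub
    (((h.f2B.smooth i).inner ℝ (h.f2B.smooth i)).add (h.G22B.smooth i))

lemma A1_per (hG : d.Good F) (i : 𝓔.I) : PerOn (𝓔.D i) (𝓔.A1 F i) := by
  intro x hx t
  show pd 0 (F i) (x, t + 2 * Real.pi) + (𝓔.eps i)⁻¹ • pd 2 (F i) (x, t + 2 * Real.pi)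
    = pd 0 (F i) (x, t) + (𝓔.eps i)⁻¹ • pd 2 (F i) (x, t)
  rw [perOn_pd (𝓔.isOpen i) (hG.per i) 0 x hx t, perOn_pd (𝓔.isOpen i) (hG.per i) 2 x hx t]

lemma A2_per (hG : d.Good F) (i : 𝓔.I) : PerOn (𝓔.D i) (𝓔.A2 F i) :=
  perOn_pd (𝓔.isOpen i) (hG.per i) 1

lemma U2_per (h : d.Hyp) (hG : d.Good F) (i : 𝓔.I) : PerOn (𝓔.D i) (U2 d F i) := by
  intro x hx t
  show d.Wl i (x, t + 2 * Real.pi) + pd 2 (osc (d.rho F i)) (x, t + 2 * Real.pi)
    = d.Wl i (x, t) + pd 2 (osc (d.rho F i)) (x, t)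
  rw [h.Wper i x hx t, perOn_pd (𝓔.isOpen i) (perOn_osc (rho_per h hG i)) 2 x hx t]

lemma inner_per {D : Set X2} {u v : Q → E4} (hu : PerOn D u) (hv : PerOn D v) :
    PerOn D (fun z => (inner ℝ (u z) (v z) : ℝ)) := fun x hx t => by
  simp only [hu x hx t, hv x hx t]

lemma E11_per (hG : d.Good F) (i : 𝓔.I) : PerOn (𝓔.D i) (d.E11 F i) := fun x hx t => by
  have h1 := A1_per hG i x hx t
  simp only [EData.E11, h1]
  rfl

lemma E12_per (hG : d.Good F) (i : 𝓔.I) : PerOn (𝓔.D i) (d.E12 F i) := fun x hx t => by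
  have h1 := A1_per hG i x hx t
  have h2 := A2_per hG i x hx t
  simp only [EData.E12, h1, h2]
  rfl

lemma E22_per (hG : d.Good F) (i : 𝓔.I) : PerOn (𝓔.D i) (d.E22 F i) := fun x hx t => by
  have h2 := A2_per hG i x hx t
  simp only [EData.E22, h2]
  rfl

/-- classes of the means -/
lemma mNB (h : d.Hyp) (hG : d.Good F) : 𝓔.toFam.B (𝓔.W 2 0 0) (fun i => mean (N d F i)) := by
  have h1 := EFam.B_add (EFam.B_apow (𝓔 := 𝓔) 2)
    (EFam.B_le (j' := 2) (m' := 0) (l' := 0) (Fam.B.mean (EFam.W_nn _ _ _) (KB h hG))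
      (by omega) (by omega) (by omega))
  exact h1.congr (fun i z hz => (mean_N h hG i hz).symm)

lemma mHB (h : d.Hyp) (hG : d.Good F) : 𝓔.toFam.B (𝓔.W 2 16 1) (fun i => mean (H d F i)) := by
  have h1 := EFam.B_eps (Fam.B.mean (EFam.W_nn _ _ _) (EFam.B_inner (S'B h hG) (U2B h hG)))
  exact h1.congr (fun i z hz => (mean_H h hG i hz).symm)

/-! the new `ρ` -/

lemma rhoF' (d : EData 𝓔) (F : 𝓔.I → Q → E4) (γ : 𝓔.I → X2 → ℝ) (i : 𝓔.I) (z : Q) :
    d.rho (fun i => shift (γ i) (F i)) i z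
      = shift (γ i) (d.rho F i) z + (shift (γ i) (d.u1 i) z - d.u1 i z) := by
  show (𝓔.eps i)⁻¹ • (F i (shm (γ i) z) - d.f i z.1) - d.u1 i z
    = ((𝓔.eps i)⁻¹ • (F i (shm (γ i) z) - d.f i z.1) - d.u1 i (shm (γ i) z))
      + (d.u1 i (shm (γ i) z) - d.u1 i z)
  abel

lemma rhoF'_mean (h : d.Hyp) (hG : d.Good F) (γ : 𝓔.I → X2 → ℝ) (i : 𝓔.I) {z : Q}
    (hz : z.1 ∈ 𝓔.D i) :
    mean (d.rho (fun i => shift (γ i) (F i)) i) z = mean (d.rho F i) z := by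
  have s1 : Sl (shift (γ i) (d.rho F i)) z.1 := Sl.shift (rho_sm h hG.sm i) hz (γ i)
  have s2 : Sl (shift (γ i) (d.u1 i)) z.1 := Sl.shift ((u1B h).smooth i) hz (γ i)
  have s3 : Sl (d.u1 i) z.1 := Sl.of ((u1B h).smooth i) hz
  rw [mean_congr (v := fun z => shift (γ i) (d.rho F i) z
      + (fun z => shift (γ i) (d.u1 i) z - d.u1 i z) z) (fun s => rhoF' d F γ i (z.1, s)),
    mean_add s1 (s2.sub s3), mean_sub s2 s3,
    mean_shift (rho_sm h hG.sm i) (rho_per h hG i) (γ i) hz,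
    mean_shift ((u1B h).smooth i) (u1_per h i) (γ i) hz]
  abel

lemma rhoF'_osc (h : d.Hyp) (hG : d.Good F) (γ : 𝓔.I → X2 → ℝ) (i : 𝓔.I) {z : Q}
    (hz : z.1 ∈ 𝓔.D i) :
    osc (d.rho (fun i => shift (γ i) (F i)) i) z
      = shift (γ i) (osc (d.rho F i)) z + (shift (γ i) (d.u1 i) z - d.u1 i z) := by
  have h1 := rhoF'_mean h hG γ i hz
  have h2 := rhoF' d F γ i z
  have h3 : shift (γ i) (osc (d.rho F i)) z
      = shift (γ i) (d.rho F i) z - mean (d.rho F i) z := rfl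
  show d.rho (fun i => shift (γ i) (F i)) i z - mean (d.rho (fun i => shift (γ i) (F i)) i) z = _
  rw [h1, h2, h3]
  abel

end data
end Stp2

namespace EData
open Stp2 Shf CT
variable {𝓔 : EFam} {d : EData 𝓔}

/-- Step 2: phase shift by `γ = - int2 (mean E12 / (ε a²))` -/
theorem step2 (h : d.Hyp) (n : ℕ) {F : 𝓔.I → Q → E4} (hG : d.Good F)
    (hE : d.Err (15+n) (15+n) (15+n) (23+n) (27+n) (28+n) F) :
    ∃ F', d.Good F' ∧ d.Err (15+n) (15+n) (15+n) (24+n) (27+n) (28+n) F' := by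
  -- the shift
  set v : 𝓔.I → X2 → ℝ := fun i x =>
    -((𝓔.eps i)⁻¹ • ((𝓔.a i x ^ 2)⁻¹ • mean (d.E12 F i) (x, 0))) with hvdef
  have hq : 𝓔.toFam.B (𝓔.W 0 (23+n) 0)
      (fun i z => (𝓔.a i z.1 ^ 2)⁻¹ • mean (d.E12 F i) z) :=
    EFam.B_div (j := 0) (k := 2) (u := fun i => mean (d.E12 F i)) hE.m12
  have hv0 : 𝓔.toFam.B (𝓔.W 0 (7+n) 0) (fun i => lift (v i)) := by
    have h1 := EFam.B_neg (EFam.B_epsInv (EFam.B_le (j' := 0) (m' := (7+n)+16) (l' := 0) hq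
      (by omega) (by omega) (by omega)))
    exact h1
  have hvc : 𝓔.toFam.B (fun i _ => 𝓔.η i ^ (7+n)) (fun i => lift (v i)) :=
    hv0.weight_congr (fun i x _ => by simp [EFam.W])
  have hη0 : ∀ i, 0 ≤ 𝓔.η i ^ (7+n) := fun i => pow_nonneg (𝓔.η_pos i).le _
  set γ : 𝓔.I → X2 → ℝ := fun i => int2 (v i) with hγdef
  have hγ0 : 𝓔.toFam.B (fun i _ => 𝓔.η i ^ (7+n)) (fun i => lift (γ i)) :=
    Fam.B.int2 hη0 h.star h.bdd2 hvc
  have hγW : 𝓔.toFam.B (𝓔.W 0 (7+n) 0) (fun i => lift (γ i)) :=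
    hγ0.weight_congr (fun i x _ => by simp [EFam.W])
  have hγs : ∀ i, ContDiffOn ℝ ∞ (γ i) (𝓔.D i) := fun i => contDiffOn_of_lift (hγ0.smooth i)
  have hvs : ∀ i, ContDiffOn ℝ ∞ (v i) (𝓔.D i) := fun i => contDiffOn_of_lift (hv0.smooth i)
  have hLg : ∃ C, ∀ i, 𝓔.Lam i * 𝓔.η i ^ (7+n) ≤ C := by
    refine ⟨1, fun i => le_trans ?_ (𝓔.Lam_η i)⟩
    have h1 : 𝓔.Lam i ≤ 𝓔.Lam i ^ 10 := le_self_pow₀ (𝓔.one_le i) (by norm_num)
    have h2 : 𝓔.η i ^ (7+n) ≤ 𝓔.η i :=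
      pow_le_of_le_one (𝓔.η_pos i).le (EFam.η_le_one i) (by omega)
    exact mul_le_mul h1 h2 (hη0 i) (pow_nonneg (EFam.Lam_pos' i).le _)
  have shiftB : ∀ {j m l : ℕ} {u : 𝓔.I → Q → ℝ}, 𝓔.toFam.B (𝓔.W j m l) u →
      𝓔.toFam.B (𝓔.W j m l) (fun i => shift (γ i) (u i)) := fun hu =>
    Fam.B.shift (EFam.W_nn _ _ _) hη0 hu hγ0 hLg
  -- coefficients
  have hg2 : ∀ i, ∀ z ∈ 𝓔.toFam.dom i, pd 1 (lift (γ i)) z = v i z.1 := fun i z hz =>
    pd1_int2 (𝓔.isOpen i) (h.star i) (hvs i) hz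
  have he1 : 𝓔.toFam.B (𝓔.W 0 (7+n+16) 1) (fun i z => 𝓔.eps i • pd 0 (lift (γ i)) z) :=
    EFam.B_eps (EFam.B_pd hγW 0)
  have he2 : 𝓔.toFam.B (𝓔.W 0 (7+n+16) 0) (fun i z => 𝓔.eps i • pd 1 (lift (γ i)) z) :=
    (EFam.B_eps hv0).congr (fun i z hz => by
      show 𝓔.eps i • v i z.1 = 𝓔.eps i • pd 1 (lift (γ i)) z
      rw [hg2 i z hz])
  have ind : ∀ (j : Fin 3) i, ∀ x ∈ 𝓔.D i, ∀ s t,
      pd j (lift (γ i)) (x, s) = pd j (lift (γ i)) (x, t) := by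
    intro j i x hx s t
    rw [pd, pd, (lift_hasFDerivAt (𝓔.isOpen i) (hγs i) (z := (x, s)) hx).fderiv,
      (lift_hasFDerivAt (𝓔.isOpen i) (hγs i) (z := (x, t)) hx).fderiv]
  -- classes of the ingredients
  have h12 : 𝓔.toFam.B (𝓔.W 1 15 0) (d.E12 F) := by
    have h1 := EFam.B_add (EFam.B_le (j' := 1) (m' := 15) (l' := 0) hE.o12
      (by omega) (by omega) (by omega))
      (EFam.B_le (j' := 1) (m' := 15) (l' := 0) hE.m12 (by omega) (by omega) (by omega))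
    refine h1.congr (fun i z _ => ?_)
    show d.E12 F i z - mean (d.E12 F i) z + mean (d.E12 F i) z = _
    ring
  have bN := NB h hG
  have bH := HB h hG h12
  have bL := LB h hG
  have oN := shiftB (Fam.B.osc (EFam.W_nn _ _ _) bN)
  have oH := shiftB (Fam.B.osc (EFam.W_nn _ _ _) bH)
  have oL := shiftB (Fam.B.osc (EFam.W_nn _ _ _) bL)
  have mN := mNB h hG
  have mH := mHB h hG
  have mL := Fam.B.mean (EFam.W_nn _ _ _) bL
  have pN : ∀ i, PerOn (𝓔.D i) (N d F i) := fun i => inner_per (A1_per hG i) (U2_per h hG i)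
  have pH : ∀ i, PerOn (𝓔.D i) (H d F i) := fun i => inner_per (A2_per hG i) (U2_per h hG i)
  have pL : ∀ i, PerOn (𝓔.D i) (L d F i) := fun i => inner_per (U2_per h hG i) (U2_per h hG i)
  have z0' : ∀ m : ℕ, 𝓔.toFam.B (𝓔.W 0 m 0) (fun _ _ => (0:ℝ)) := fun m => EFam.B_zero
  have z0 := z0' (7+n+16)
  refine ⟨fun i => shift (γ i) (F i), ⟨?_, ?_, ?_, ?_⟩, ⟨?_, ?_, ?_, ?_, ?_, ?_⟩⟩
  · exact fun i => shift_contDiffOn (hG.sm i) (hγs i)
  · intro i x hx t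
    show F i (x, t + 2 * Real.pi + γ i x) = F i (x, t + γ i x)
    rw [show t + 2 * Real.pi + γ i x = (t + γ i x) + 2 * Real.pi by ring]
    exact hG.per i x hx _
  · -- rho_osc
    have hs1 := Fam.B.shift (EFam.W_nn _ _ _) hη0 hG.rho_osc hγ0 hLg
    have hs2 : 𝓔.toFam.B (𝓔.W 1 7 1) (fun i z => shift (γ i) (d.u1 i) z - d.u1 i z) :=
      EFam.B_le (EFam.B_weq (j := 1) (m := 7+n) (l := 1)
        (Fam.B.shift_sub (EFam.W_nn _ _ _) hη0 (u1B h) hγ0 hLg)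
        (fun i x _ => by simp only [EFam.W]; ring)) (by omega) (by omega) (by omega)
    refine (EFam.B_add hs1 hs2).congr (fun i z hz => ?_)
    exact (rhoF'_osc h hG γ i hz).symm
  · -- rho_mean
    exact hG.rho_mean.congr (fun i z hz => (rhoF'_mean h hG γ i hz).symm)
  · -- o11
    refine (EFam.B_add (EFam.B_add (EFam.B_add (shiftB hE.o11)
      (EFam.B_mulR (j'' := 1) (m'' := 15+n) (l'' := 0) (EFam.B_cmul 2 he1) oN
        (by omega) (by omega) (by omega)))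
      (EFam.B_mulR (j'' := 1) (m'' := 15+n) (l'' := 0) z0 oH (by omega) (by omega) (by omega)))
      (EFam.B_mulR (j'' := 1) (m'' := 15+n) (l'' := 0) (EFam.B_mul he1 he1) oL
        (by omega) (by omega) (by omega))).congr (fun i z hz => ?_)
    exact (comb_osc (E11_sm h hG i) (bN.smooth i) (bH.smooth i) (bL.smooth i)
      (E11_per hG i) (pN i) (pH i) (pL i) (c1 := fun z => 2 * (𝓔.eps i • pd 0 (lift (γ i)) z))
      (c2 := fun _ => 0)
      (c3 := fun z => (𝓔.eps i • pd 0 (lift (γ i)) z) * (𝓔.eps i • pd 0 (lift (γ i)) z))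
      (E11_F' h hG hγs i)
      (fun x hx s t => by simp only [ind 0 i x hx s t]) (fun _ _ _ _ => rfl)
      (fun x hx s t => by simp only [ind 0 i x hx s t]) hz).symm
  · -- m11
    refine (EFam.B_add (EFam.B_add (EFam.B_add hE.m11
      (EFam.B_mulR (j'' := 2) (m'' := 15+n) (l'' := 0) (EFam.B_cmul 2 he1) mN
        (by omega) (by omega) (by omega)))
      (EFam.B_mulR (j'' := 2) (m'' := 15+n) (l'' := 0) z0 mH (by omega) (by omega) (by omega)))
      (EFam.B_mulR (j'' := 2) (m'' := 15+n) (l'' := 0) (EFam.B_mul he1 he1) mL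
        (by omega) (by omega) (by omega))).congr (fun i z hz => ?_)
    exact (comb (E11_sm h hG i) (bN.smooth i) (bH.smooth i) (bL.smooth i)
      (E11_per hG i) (pN i) (pH i) (pL i) (c1 := fun z => 2 * (𝓔.eps i • pd 0 (lift (γ i)) z))
      (c2 := fun _ => 0)
      (c3 := fun z => (𝓔.eps i • pd 0 (lift (γ i)) z) * (𝓔.eps i • pd 0 (lift (γ i)) z))
      (E11_F' h hG hγs i)
      (fun x hx s t => by simp only [ind 0 i x hx s t]) (fun _ _ _ _ => rfl)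
      (fun x hx s t => by simp only [ind 0 i x hx s t]) hz).symm
  · -- o12
    refine (EFam.B_add (EFam.B_add (EFam.B_add (shiftB hE.o12)
      (EFam.B_mulR (j'' := 1) (m'' := 15+n) (l'' := 0) he2 oN
        (by omega) (by omega) (by omega)))
      (EFam.B_mulR (j'' := 1) (m'' := 15+n) (l'' := 0) he1 oH (by omega) (by omega) (by omega)))
      (EFam.B_mulR (j'' := 1) (m'' := 15+n) (l'' := 0) (EFam.B_mul he1 he2) oL
        (by omega) (by omega) (by omega))).congr (fun i z hz => ?_)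
    exact (comb_osc (E12_sm h hG i) (bN.smooth i) (bH.smooth i) (bL.smooth i)
      (E12_per hG i) (pN i) (pH i) (pL i) (c1 := fun z => 𝓔.eps i • pd 1 (lift (γ i)) z)
      (c2 := fun z => 𝓔.eps i • pd 0 (lift (γ i)) z)
      (c3 := fun z => (𝓔.eps i • pd 0 (lift (γ i)) z) * (𝓔.eps i • pd 1 (lift (γ i)) z))
      (E12_F' h hG hγs i)
      (fun x hx s t => by simp only [ind 1 i x hx s t])
      (fun x hx s t => by simp only [ind 0 i x hx s t])
      (fun x hx s t => by simp only [ind 0 i x hx s t, ind 1 i x hx s t]) hz).symm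
  · -- m12
    have hK := Fam.B.mean (EFam.W_nn _ _ _) (KB h hG)
    refine (EFam.B_add (EFam.B_add (EFam.B_neg
      (EFam.B_mulR (j'' := 2) (m'' := 24+n) (l'' := 0) hq hK (by omega) (by omega) (by omega)))
      (EFam.B_mulR (j'' := 2) (m'' := 24+n) (l'' := 0) he1 mH (by omega) (by omega) (by omega)))
      (EFam.B_mulR (j'' := 2) (m'' := 24+n) (l'' := 0) (EFam.B_mul he1 he2) mL
        (by omega) (by omega) (by omega))).congr (fun i z hz => ?_)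
    have hc := comb (E12_sm h hG i) (bN.smooth i) (bH.smooth i) (bL.smooth i)
      (E12_per hG i) (pN i) (pH i) (pL i) (c1 := fun z => 𝓔.eps i • pd 1 (lift (γ i)) z)
      (c2 := fun z => 𝓔.eps i • pd 0 (lift (γ i)) z)
      (c3 := fun z => (𝓔.eps i • pd 0 (lift (γ i)) z) * (𝓔.eps i • pd 1 (lift (γ i)) z))
      (E12_F' h hG hγs i)
      (fun x hx s t => by simp only [ind 1 i x hx s t])
      (fun x hx s t => by simp only [ind 0 i x hx s t])
      (fun x hx s t => by simp only [ind 0 i x hx s t, ind 1 i x hx s t]) hz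
    rw [hc, mean_N h hG i hz]
    have ha := (𝓔.a_pos i z.1 hz).ne'
    have he := (EFam.eps_pos (𝓔 := 𝓔) i).ne'
    have e1 : 𝓔.eps i • pd 1 (lift (γ i)) z = -((𝓔.a i z.1 ^ 2)⁻¹ * mean (d.E12 F i) z) := by
      rw [hg2 i z hz]
      show 𝓔.eps i * (-((𝓔.eps i)⁻¹ * ((𝓔.a i z.1 ^ 2)⁻¹ * mean (d.E12 F i) z))) = _
      field_simp
    have e2 : -((𝓔.a i z.1 ^ 2)⁻¹ * mean (d.E12 F i) z) * (𝓔.a i z.1 ^ 2 + mean (K d F i) z)
        = - mean (d.E12 F i) z - (𝓔.a i z.1 ^ 2)⁻¹ * mean (d.E12 F i) z * mean (K d F i) z := by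
      field_simp
      ring
    simp only [e1, e2, smul_eq_mul]
    ring
  · -- o22
    refine (EFam.B_add (EFam.B_add (EFam.B_add (shiftB hE.o22)
      (EFam.B_mulR (j'' := 1) (m'' := 27+n) (l'' := 0) (z0' (27+n)) oN
        (by omega) (by omega) (by omega)))
      (EFam.B_mulR (j'' := 1) (m'' := 27+n) (l'' := 0) (EFam.B_cmul 2 he2) oH
        (by omega) (by omega) (by omega)))
      (EFam.B_mulR (j'' := 1) (m'' := 27+n) (l'' := 0) (EFam.B_mul he2 he2) oL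
        (by omega) (by omega) (by omega))).congr (fun i z hz => ?_)
    exact (comb_osc (E22_sm h hG i) (bN.smooth i) (bH.smooth i) (bL.smooth i)
      (E22_per hG i) (pN i) (pH i) (pL i) (c1 := fun _ => 0)
      (c2 := fun z => 2 * (𝓔.eps i • pd 1 (lift (γ i)) z))
      (c3 := fun z => (𝓔.eps i • pd 1 (lift (γ i)) z) * (𝓔.eps i • pd 1 (lift (γ i)) z))
      (E22_F' h hG hγs i) (fun _ _ _ _ => rfl)
      (fun x hx s t => by simp only [ind 1 i x hx s t])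
      (fun x hx s t => by simp only [ind 1 i x hx s t]) hz).symm
  · -- m22
    refine (EFam.B_add (EFam.B_add (EFam.B_add hE.m22
      (EFam.B_mulR (j'' := 2) (m'' := 28+n) (l'' := 0) (z0' (28+n)) mN
        (by omega) (by omega) (by omega)))
      (EFam.B_mulR (j'' := 2) (m'' := 28+n) (l'' := 0) (EFam.B_cmul 2 he2) mH
        (by omega) (by omega) (by omega)))
      (EFam.B_mulR (j'' := 2) (m'' := 28+n) (l'' := 0) (EFam.B_mul he2 he2) mL
        (by omega) (by omega) (by omega))).congr (fun i z hz => ?_)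
    exact (comb (E22_sm h hG i) (bN.smooth i) (bH.smooth i) (bL.smooth i)
      (E22_per hG i) (pN i) (pH i) (pL i) (c1 := fun _ => 0)
      (c2 := fun z => 2 * (𝓔.eps i • pd 1 (lift (γ i)) z))
      (c3 := fun z => (𝓔.eps i • pd 1 (lift (γ i)) z) * (𝓔.eps i • pd 1 (lift (γ i)) z))
      (E22_F' h hG hγs i) (fun _ _ _ _ => rfl)
      (fun x hx s t => by simp only [ind 1 i x hx s t])
      (fun x hx s t => by simp only [ind 1 i x hx s t]) hz).symm

end EData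

end Crest.Agent.R216.TE
end

-- ▼ part R216/Step3
section

/-!
# Row 216, Theorem E, Step 3 of the engine: amplitude correction
`F' = F + β osc F`, `β = - mean E11 / (2 a²)`. All helpers are in the namespace `TE.S3`.
-/

open Set Topology MeasureTheory
open scoped ContDiff

set_option linter.unusedSectionVars false

namespace Crest.Agent.R216.TE
namespace S3

section slice
variable {V V' : Type*} [NormedAddCommGroup V] [NormedSpace ℝ V]
  [NormedAddCommGroup V'] [NormedSpace ℝ V']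

/-- continuity of the `t`-slice at `x` -/
def Cs (u : Q → V) (x : X2) : Prop := Continuous fun s : ℝ => u (x, s)

lemma Cs.of_contDiffOn {D : Set X2} {u : Q → V} (hu : ContDiffOn ℝ ∞ u {z | z.1 ∈ D}) {x : X2}
    (hx : x ∈ D) : Cs u x :=
  hu.continuousOn.comp_continuous (by fun_prop) (fun s => hx)

lemma Cs.add {u v : Q → V} {x : X2} (hu : Cs u x) (hv : Cs v x) : Cs (fun z => u z + v z) x :=
  Continuous.add hu hv

lemma Cs.sub {u v : Q → V} {x : X2} (hu : Cs u x) (hv : Cs v x) : Cs (fun z => u z - v z) x :=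
  Continuous.sub hu hv

lemma Cs.smul {g : Q → ℝ} {u : Q → V} {x : X2} (hg : Cs g x) (hu : Cs u x) :
    Cs (fun z => g z • u z) x := Continuous.smul hg hu

lemma Cs.mul {g u : Q → ℝ} {x : X2} (hg : Cs g x) (hu : Cs u x) :
    Cs (fun z => g z * u z) x := Continuous.mul hg hu

lemma Cs.const_smul {c : ℝ} {u : Q → V} {x : X2} (hu : Cs u x) :
    Cs (fun z => c • u z) x := Continuous.const_smul hu c

lemma Cs.const_mul {c : ℝ} {u : Q → ℝ} {x : X2} (hu : Cs u x) :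
    Cs (fun z => c * u z) x := Continuous.const_mul hu c

lemma Cs.inner {u v : Q → E4} {x : X2} (hu : Cs u x) (hv : Cs v x) :
    Cs (fun z => inner ℝ (u z) (v z)) x := Continuous.inner hu hv

lemma Cs.tindep {u : Q → V} {x : X2} (h : ∀ s, u (x, s) = u (x, 0)) : Cs u x := by
  have : (fun s : ℝ => u (x, s)) = fun _ => u (x, 0) := funext h
  show Continuous (fun s : ℝ => u (x, s))
  rw [this]; exact continuous_const

lemma Cs.mean (u : Q → V) (x : X2) : Cs (Crest.Agent.R216.TE.mean u) x :=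
  Cs.tindep (fun _ => rfl)

lemma Cs.osc {u : Q → V} {x : X2} (hu : Cs u x) : Cs (Crest.Agent.R216.TE.osc u) x :=
  Cs.sub hu (Cs.mean u x)

lemma Cs.int {u : Q → V} {x : X2} (h : Cs u x) (a b : ℝ) :
    IntervalIntegrable (fun s => u (x, s)) volume a b := Continuous.intervalIntegrable h a b

/-! ### algebra of `mean` -/


lemma mean_indep' (u : Q → V) (z : Q) (s : ℝ) : mean u (z.1, s) = mean u z := rfl

lemma mean_congr {u v : Q → V} {z : Q} (h : ∀ s, u (z.1, s) = v (z.1, s)) :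
    mean u z = mean v z := by
  simp only [mean, h]

lemma mean_tindep [CompleteSpace V] {u : Q → V} {z : Q} (h : ∀ s, u (z.1, s) = u z) :
    mean u z = u z := by
  have h2 : (2 * Real.pi) ≠ 0 := by positivity
  simp only [mean, h, intervalIntegral.integral_const, sub_zero, smul_smul]
  rw [inv_mul_cancel₀ h2, one_smul]

lemma mean_add {u v : Q → V} {z : Q} (hu : Cs u z.1) (hv : Cs v z.1) :
    mean (fun z => u z + v z) z = mean u z + mean v z := by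
  simp only [mean]
  rw [intervalIntegral.integral_add (hu.int _ _) (hv.int _ _), smul_add]

lemma mean_sub {u v : Q → V} {z : Q} (hu : Cs u z.1) (hv : Cs v z.1) :
    mean (fun z => u z - v z) z = mean u z - mean v z := by
  simp only [mean]
  rw [intervalIntegral.integral_sub (hu.int _ _) (hv.int _ _), smul_sub]


lemma mean_const_smul (c : ℝ) (u : Q → V) (z : Q) :
    mean (fun z => c • u z) z = c • mean u z := by
  simp only [mean]
  rw [intervalIntegral.integral_smul, smul_comm]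

lemma mean_const_mul (c : ℝ) (u : Q → ℝ) (z : Q) :
    mean (fun z => c * u z) z = c * mean u z := mean_const_smul c u z

lemma mean_smul_tindep {g : Q → ℝ} {u : Q → V} {z : Q} (h : ∀ s, g (z.1, s) = g z) :
    mean (fun z => g z • u z) z = g z • mean u z := by
  simp only [mean, h]
  rw [intervalIntegral.integral_smul, smul_comm]

lemma mean_mul_tindep {g : Q → ℝ} {u : Q → ℝ} {z : Q} (h : ∀ s, g (z.1, s) = g z) :
    mean (fun z => g z * u z) z = g z * mean u z := mean_smul_tindep h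

lemma mean_clm [CompleteSpace V] [CompleteSpace V'] (L : V →L[ℝ] V') {u : Q → V} {z : Q}
    (hu : Cs u z.1) : mean (fun z => L (u z)) z = L (mean u z) := by
  simp only [mean, map_smul]
  rw [← L.intervalIntegral_comp_comm (hu.int _ _)]

lemma mean_inner_tindep {c v : Q → E4} {z : Q} (h : ∀ s, c (z.1, s) = c z) (hv : Cs v z.1) :
    mean (fun z => inner ℝ (c z) (v z)) z = inner ℝ (c z) (mean v z) := by
  have h1 : mean (fun z' => inner ℝ (c z') (v z')) z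
      = mean (fun z' => (innerSL ℝ (c z)) (v z')) z :=
    mean_congr (fun s => by simp [h s])
  rw [h1, mean_clm _ hv]; simp

lemma mean_inner_tindep' {c v : Q → E4} {z : Q} (h : ∀ s, c (z.1, s) = c z) (hv : Cs v z.1) :
    mean (fun z => inner ℝ (v z) (c z)) z = inner ℝ (mean v z) (c z) := by
  rw [real_inner_comm, ← mean_inner_tindep h hv]
  exact mean_congr (fun s => real_inner_comm _ _)

lemma mean_osc [CompleteSpace V] {u : Q → V} {z : Q} (hu : Cs u z.1) : mean (osc u) z = 0 := by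
  have h1 : mean (osc u) z = mean u z - mean (mean u) z := mean_sub hu (Cs.mean u z.1)
  rw [h1, mean_tindep (u := mean u) (fun s => rfl), sub_self]

lemma eq_mean_add_osc (u : Q → V) (z : Q) : u z = mean u z + osc u z := by
  simp [osc]

/-- if `mean u = 0` at `z` then `osc u = u` -/
lemma osc_of_mean_zero {u : Q → V} {z : Q} (h : mean u z = 0) : osc u z = u z := by
  simp [osc, h]

lemma osc_congr {u v : Q → V} {z : Q} (h : ∀ s, u (z.1, s) = v (z.1, s)) :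
    osc u z = osc v z := by
  simp only [osc, mean_congr h]
  rw [show u z = v z from h z.2]

lemma osc_add {u v : Q → V} {z : Q} (hu : Cs u z.1) (hv : Cs v z.1) :
    osc (fun z => u z + v z) z = osc u z + osc v z := by
  simp only [osc, mean_add hu hv]; abel



lemma osc_const_smul (c : ℝ) (u : Q → V) (z : Q) :
    osc (fun z => c • u z) z = c • osc u z := by
  simp only [osc, mean_const_smul, smul_sub]


lemma osc_tindep [CompleteSpace V] {u : Q → V} {z : Q} (h : ∀ s, u (z.1, s) = u z) :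
    osc u z = 0 := by
  simp [osc, mean_tindep h]

/-- product rule for the mean -/
lemma mean_inner {u v : Q → E4} {z : Q} (hu : Cs u z.1) (hv : Cs v z.1) :
    mean (fun z => inner ℝ (u z) (v z)) z
      = inner ℝ (mean u z) (mean v z) + mean (fun z => inner ℝ (osc u z) (osc v z)) z := by
  have e : (fun z' : Q => (inner ℝ (u z') (v z') : ℝ)) = fun z' => (inner ℝ (mean u z') (mean v z')
      + inner ℝ (mean u z') (osc v z')) + (inner ℝ (osc u z') (mean v z')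
      + inner ℝ (osc u z') (osc v z')) := by
    funext z'
    conv_lhs => rw [eq_mean_add_osc u z', eq_mean_add_osc v z']
    rw [inner_add_left, inner_add_right, inner_add_right]
  have hmu := Cs.mean u z.1
  have hmv := Cs.mean v z.1
  have hou := hu.osc
  have hov := hv.osc
  rw [e,
    mean_add ((hmu.inner hmv).add (hmu.inner hov)) ((hou.inner hmv).add (hou.inner hov)),
    mean_add (hmu.inner hmv) (hmu.inner hov), mean_add (hou.inner hmv) (hou.inner hov),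
    mean_inner_tindep (fun s => rfl) hmv, mean_inner_tindep (fun s => rfl) hov,
    mean_inner_tindep' (fun s => rfl) hou, mean_osc hu, mean_osc hv,
    mean_tindep (u := mean v) (fun s => rfl)]
  simp

/-- product rule when the second factor has mean zero -/
lemma mean_inner_osc {u v : Q → E4} {z : Q} (hu : Cs u z.1) (hv : Cs v z.1)
    (h0 : mean v z = 0) :
    mean (fun z => inner ℝ (u z) (v z)) z = mean (fun z => inner ℝ (osc u z) (v z)) z := by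
  rw [mean_inner hu hv, h0, inner_zero_right, zero_add]
  exact mean_congr (fun s => by
    rw [osc_of_mean_zero (u := v) (z := (z.1, s)) (by rw [mean_indep']; exact h0)])


end slice

/-! ### derivatives -/
section deriv
variable {V V' : Type*} [NormedAddCommGroup V] [NormedSpace ℝ V]
  [NormedAddCommGroup V'] [NormedSpace ℝ V']

lemma pd_add {u v : Q → V} {z : Q} (hu : DifferentiableAt ℝ u z) (hv : DifferentiableAt ℝ v z)
    (j : Fin 3) : pd j (fun z => u z + v z) z = pd j u z + pd j v z := by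
  simp only [pd]; rw [fderiv_fun_add hu hv]; rfl

lemma pd_sub {u v : Q → V} {z : Q} (hu : DifferentiableAt ℝ u z) (hv : DifferentiableAt ℝ v z)
    (j : Fin 3) : pd j (fun z => u z - v z) z = pd j u z - pd j v z := by
  simp only [pd]; rw [fderiv_fun_sub hu hv]; rfl


lemma pd_const_smul {u : Q → V} {z : Q} (hu : DifferentiableAt ℝ u z) (c : ℝ) (j : Fin 3) :
    pd j (fun z => c • u z) z = c • pd j u z := by
  simp only [pd]; rw [fderiv_fun_const_smul hu]; rfl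

lemma pd_smul {g : Q → ℝ} {u : Q → V} {z : Q} (hg : DifferentiableAt ℝ g z)
    (hu : DifferentiableAt ℝ u z) (j : Fin 3) :
    pd j (fun z => g z • u z) z = g z • pd j u z + pd j g z • u z := by
  simp only [pd]; rw [fderiv_fun_smul hg hu]; simp




/-- derivatives of a function of `x` -/
lemma pd_lift {f : X2 → V} {z : Q} (hf : DifferentiableAt ℝ f z.1) (j : Fin 3) :
    pd j (lift f) z = fderiv ℝ f z.1 (bas j).1 := by
  have h1 : HasFDerivAt (fun z : Q => f z.1) ((fderiv ℝ f z.1).comp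
      (ContinuousLinearMap.fst ℝ X2 ℝ)) z := hf.hasFDerivAt.comp z hasFDerivAt_fst
  show fderiv ℝ (fun z : Q => f z.1) z (bas j) = _
  rw [h1.fderiv]; rfl

lemma pd0_lift {f : X2 → V} {z : Q} (hf : DifferentiableAt ℝ f z.1) :
    pd 0 (lift f) z = lift (d1 f) z := pd_lift hf 0

lemma pd1_lift {f : X2 → V} {z : Q} (hf : DifferentiableAt ℝ f z.1) :
    pd 1 (lift f) z = lift (d2 f) z := pd_lift hf 1


/-- a `t`-independent function has zero `t`-derivative -/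
lemma pd2_tindep {u : Q → V} {z : Q} (h : ∀ x t, u (x, t) = u (x, 0)) : pd 2 u z = 0 := by
  by_cases hd : DifferentiableAt ℝ u z
  · have h1 : HasDerivAt (fun s : ℝ => u (z.1, s)) (pd 2 u z) z.2 := by
      have h2 : HasDerivAt (fun s : ℝ => ((z.1, s) : Q)) (bas 2) z.2 := by
        have : HasDerivAt (fun s : ℝ => ((z.1, s) : Q)) ((0 : X2), (1:ℝ)) z.2 :=
          (hasDerivAt_const z.2 z.1).prodMk (hasDerivAt_id z.2)
        exact this
      exact hd.hasFDerivAt.comp_hasDerivAt z.2 h2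
    have h3 : (fun s : ℝ => u (z.1, s)) = fun _ => u (z.1, 0) := funext (fun s => h z.1 s)
    rw [h3] at h1
    exact h1.unique (hasDerivAt_const _ _)
  · simp [pd, fderiv_zero_of_not_differentiableAt hd]

/-- the `x`-derivatives of a `t`-independent function are `t`-independent -/
lemma pd_tindep {u : Q → V} (h : ∀ x t, u (x, t) = u (x, 0)) (j : Fin 3) (x : X2) (t : ℝ) :
    pd j u (x, t) = pd j u (x, 0) := by
  have h1 : u = fun z => u (z + ((0 : X2), t)) := by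
    funext z
    rw [show u z = u (z.1, 0) from h z.1 z.2,
      show z + ((0 : X2), t) = (z.1, z.2 + t) by ext <;> simp, h z.1 (z.2 + t)]
  have h2 : fderiv ℝ (fun z => u (z + ((0 : X2), t))) (x, 0) = fderiv ℝ u ((x, 0) + ((0 : X2), t)) :=
    fderiv_comp_add_right _
  simp only [pd]
  rw [← h1] at h2
  rw [h2]
  congr 2
  ext <;> simp

end deriv


/-! ### pieces of a good state -/
section state
variable {𝓔 : EFam} {d : EData 𝓔}


lemma cs {V : Type*} [NormedAddCommGroup V] [NormedSpace ℝ V] {u : 𝓔.I → Q → V}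
    (hu : 𝓔.toFam.Sm u) {i : 𝓔.I} {z : Q} (hz : z ∈ 𝓔.toFam.dom i) : Cs (u i) z.1 :=
  Cs.of_contDiffOn (hu i) hz

lemma df {V : Type*} [NormedAddCommGroup V] [NormedSpace ℝ V] {u : 𝓔.I → Q → V}
    (hu : 𝓔.toFam.Sm u) {i : 𝓔.I} {z : Q} (hz : z ∈ 𝓔.toFam.dom i) :
    DifferentiableAt ℝ (u i) z := diffAt (𝓔.toFam.isOpen_dom i) (hu i) hz

lemma B_mean {V : Type*} [NormedAddCommGroup V] [NormedSpace ℝ V] [CompleteSpace V]
    {j m l : ℕ} {u : 𝓔.I → Q → V} (h : 𝓔.toFam.B (𝓔.W j m l) u) :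
    𝓔.toFam.B (𝓔.W j m l) (fun i => mean (u i)) := Fam.B.mean (EFam.W_nn _ _ _) h

lemma B_osc {V : Type*} [NormedAddCommGroup V] [NormedSpace ℝ V] [CompleteSpace V]
    {j m l : ℕ} {u : 𝓔.I → Q → V} (h : 𝓔.toFam.B (𝓔.W j m l) u) :
    𝓔.toFam.B (𝓔.W j m l) (fun i => osc (u i)) := Fam.B.osc (EFam.W_nn _ _ _) h

/-- `u₁` is in `B(a)` -/
lemma u1B (h : d.Hyp) : 𝓔.toFam.B (𝓔.W 1 0 0) d.u1 :=
  Fam.B.prim (EFam.W_nn _ _ _) h.WB h.Wper

lemma mean_u1 (h : d.Hyp) {i : 𝓔.I} {z : Q} (hz : z ∈ 𝓔.toFam.dom i) : mean (d.u1 i) z = 0 :=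
  mean_prim (D := 𝓔.D i) (h.WB.smooth i) hz

lemma pd2_u1 (h : d.Hyp) {i : 𝓔.I} {z : Q} (hz : z ∈ 𝓔.toFam.dom i) :
    pd 2 (d.u1 i) z = d.Wl i z := by
  show pd 2 (prim (d.Wl i)) z = _
  rw [pd2_prim (𝓔.isOpen i) (h.WB.smooth i) hz]
  exact osc_of_mean_zero (h.Wmean i z hz)

lemma F_eq (F : 𝓔.I → Q → E4) (i : 𝓔.I) (z : Q) :
    F i z = d.f i z.1 + 𝓔.eps i • (d.u1 i z + d.rho F i z) := by
  have he := (EFam.eps_pos i).ne'
  simp only [EData.rho, add_sub_cancel]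
  rw [smul_smul, mul_inv_cancel₀ he, one_smul, add_sub_cancel]

lemma rho_sm (h : d.Hyp) {F : 𝓔.I → Q → E4} (hF : 𝓔.toFam.Sm F) : 𝓔.toFam.Sm (d.rho F) :=
  fun i => (((hF i).sub (h.fsm i)).const_smul _).sub ((u1B h).smooth i)

lemma osc_F (h : d.Hyp) {F : 𝓔.I → Q → E4} (hF : 𝓔.toFam.Sm F) {i : 𝓔.I} {z : Q}
    (hz : z ∈ 𝓔.toFam.dom i) :
    osc (F i) z = 𝓔.eps i • (d.u1 i z + osc (d.rho F i) z) := by
  have e : F i = fun z => lift (d.f i) z + 𝓔.eps i • (d.u1 i z + d.rho F i z) :=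
    funext (fun z => F_eq F i z)
  have c1 := cs (u1B h).smooth hz
  have c2 := cs (rho_sm h hF) hz
  have c3 : Cs (lift (d.f i)) z.1 := Cs.tindep (fun _ => rfl)
  rw [e, osc_add c3 (c1.add c2).const_smul, osc_const_smul, osc_add c1 c2,
    osc_tindep (u := lift (d.f i)) (fun _ => rfl), zero_add,
    osc_of_mean_zero (mean_u1 h hz)]

lemma mean_F (h : d.Hyp) {F : 𝓔.I → Q → E4} (hF : 𝓔.toFam.Sm F) {i : 𝓔.I} {z : Q}
    (hz : z ∈ 𝓔.toFam.dom i) :
    mean (F i) z = lift (d.f i) z + 𝓔.eps i • mean (d.rho F i) z := by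
  have e : F i = fun z => lift (d.f i) z + 𝓔.eps i • (d.u1 i z + d.rho F i z) :=
    funext (fun z => F_eq F i z)
  have c1 := cs (u1B h).smooth hz
  have c2 := cs (rho_sm h hF) hz
  have c3 : Cs (lift (d.f i)) z.1 := Cs.tindep (fun _ => rfl)
  rw [e, mean_add c3 (c1.add c2).const_smul, mean_const_smul, mean_add c1 c2,
    mean_tindep (u := lift (d.f i)) (fun _ => rfl), mean_u1 h hz, zero_add]

lemma B_oF (h : d.Hyp) {F : 𝓔.I → Q → E4} (hG : d.Good F) :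
    𝓔.toFam.B (𝓔.W 1 16 0) (fun i => osc (F i)) := by
  have h1 : 𝓔.toFam.B (𝓔.W 1 0 0) (fun i => osc (d.rho F i)) :=
    EFam.B_le hG.rho_osc le_rfl (by omega) (by omega)
  have h2 := EFam.B_eps (EFam.B_add (u1B h) h1)
  exact h2.congr (fun i z hz => (osc_F h hG.sm hz).symm)

/-! derivatives of the mean and oscillating parts -/

variable {F : 𝓔.I → Q → E4}


lemma pd2_oF (h : d.Hyp) (hG : d.Good F) {i : 𝓔.I} {z : Q} (hz : z ∈ 𝓔.toFam.dom i) :
    (𝓔.eps i)⁻¹ • pd 2 (osc (F i)) z = d.Wl i z + pd 2 (osc (d.rho F i)) z := by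
  have he := (EFam.eps_pos i).ne'
  have e : EqOn (osc (F i)) (fun z => 𝓔.eps i • (d.u1 i z + osc (d.rho F i) z)) (𝓔.toFam.dom i) :=
    fun z hz => osc_F h hG.sm hz
  have d1 := df (u1B h).smooth hz
  have d2 := df hG.rho_osc.smooth hz
  rw [pd_eqOn (𝓔.toFam.isOpen_dom i) e 2 hz, pd_const_smul (d1.fun_add d2), pd_add d1 d2, smul_smul,
    inv_mul_cancel₀ he, one_smul, pd2_u1 h hz]

lemma mean_A1 (h : d.Hyp) (hG : d.Good F) {i : 𝓔.I} {z : Q} (hz : z ∈ 𝓔.toFam.dom i) :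
    mean (𝓔.A1 F i) z = d.f1 i z + 𝓔.eps i • pd 0 (mean (d.rho F i)) z := by
  have c1 := cs (hG.sm.pd 0) hz
  have c2 := cs (hG.sm.pd 2) hz
  have e : EqOn (mean (F i)) (fun z => lift (d.f i) z + 𝓔.eps i • mean (d.rho F i) z)
    (𝓔.toFam.dom i) := fun z hz => mean_F h hG.sm hz
  have d1 := df h.fsm hz
  have d2 := df hG.rho_mean.smooth hz
  have hf : DifferentiableAt ℝ (d.f i) z.1 := by
    have h2 : DifferentiableAt ℝ (fun x : X2 => ((x, z.2) : Q)) z.1 := by fun_prop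
    exact DifferentiableAt.comp (g := lift (d.f i)) (f := fun x : X2 => ((x, z.2) : Q)) z.1 d1 h2
  have e1 : mean (𝓔.A1 F i) z = mean (pd 0 (F i)) z + (𝓔.eps i)⁻¹ • mean (pd 2 (F i)) z := by
    have := mean_add (z := z) c1 (Cs.const_smul (c := (𝓔.eps i)⁻¹) c2)
    rw [mean_const_smul] at this
    exact this
  rw [e1, mean_pd2 (𝓔.isOpen i) (hG.sm i) (hG.per i) hz, smul_zero, add_zero,
    ← pd_mean (𝓔.isOpen i) (hG.sm i) 0 (by decide) hz, pd_eqOn (𝓔.toFam.isOpen_dom i) e 0 hz,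
    pd_add d1 (d2.fun_const_smul _), pd_const_smul d2, pd0_lift hf]
  rfl

lemma mean_A2 (h : d.Hyp) (hG : d.Good F) {i : 𝓔.I} {z : Q} (hz : z ∈ 𝓔.toFam.dom i) :
    mean (𝓔.A2 F i) z = d.f2 i z + 𝓔.eps i • pd 1 (mean (d.rho F i)) z := by
  have e : EqOn (mean (F i)) (fun z => lift (d.f i) z + 𝓔.eps i • mean (d.rho F i) z)
    (𝓔.toFam.dom i) := fun z hz => mean_F h hG.sm hz
  have d1 := df h.fsm hz
  have d2 := df hG.rho_mean.smooth hz
  have hf : DifferentiableAt ℝ (d.f i) z.1 := by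
    have h2 : DifferentiableAt ℝ (fun x : X2 => ((x, z.2) : Q)) z.1 := by fun_prop
    exact DifferentiableAt.comp (g := lift (d.f i)) (f := fun x : X2 => ((x, z.2) : Q)) z.1 d1 h2
  show mean (pd 1 (F i)) z = _
  rw [← pd_mean (𝓔.isOpen i) (hG.sm i) 1 (by decide) hz, pd_eqOn (𝓔.toFam.isOpen_dom i) e 1 hz,
    pd_add d1 (d2.fun_const_smul _), pd_const_smul d2, pd1_lift hf]
  rfl

/-- the mean of `F` is smooth -/
lemma sm_meanF (h : d.Hyp) (hG : d.Good F) : 𝓔.toFam.Sm (fun i => mean (F i)) := fun i =>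
  ((h.fsm i).add ((hG.rho_mean.smooth i).const_smul (𝓔.eps i))).congr
    (fun _ hz => mean_F h hG.sm hz)

lemma osc_A1 (h : d.Hyp) (hG : d.Good F) {i : 𝓔.I} {z : Q} (hz : z ∈ 𝓔.toFam.dom i) :
    osc (𝓔.A1 F i) z = pd 0 (osc (F i)) z + (𝓔.eps i)⁻¹ • pd 2 (osc (F i)) z := by
  have c1 := cs (hG.sm.pd 0) hz
  have c2 := cs (hG.sm.pd 2) hz
  have d1 := df hG.sm hz
  have d2 := df (sm_meanF h hG) hz
  have e1 : mean (𝓔.A1 F i) z = pd 0 (mean (F i)) z := by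
    have := mean_add (z := z) c1 (Cs.const_smul (c := (𝓔.eps i)⁻¹) c2)
    rw [mean_const_smul, mean_pd2 (𝓔.isOpen i) (hG.sm i) (hG.per i) hz, smul_zero, add_zero,
      ← pd_mean (𝓔.isOpen i) (hG.sm i) 0 (by decide) hz] at this
    exact this
  have e2 : ∀ j, pd j (osc (F i)) z = pd j (F i) z - pd j (mean (F i)) z := fun j =>
    pd_sub d1 d2 j
  show 𝓔.A1 F i z - mean (𝓔.A1 F i) z = _
  rw [e1, e2, e2, pd2_mean]
  simp only [EFam.A1, sub_zero]
  abel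

lemma osc_A2 (h : d.Hyp) (hG : d.Good F) {i : 𝓔.I} {z : Q} (hz : z ∈ 𝓔.toFam.dom i) :
    osc (𝓔.A2 F i) z = pd 1 (osc (F i)) z := by
  have d1 := df hG.sm hz
  have d2 := df (sm_meanF h hG) hz
  have e2 : pd 1 (osc (F i)) z = pd 1 (F i) z - pd 1 (mean (F i)) z := pd_sub d1 d2 1
  rw [e2, pd_mean (𝓔.isOpen i) (hG.sm i) 1 (by decide) hz]
  rfl

/-- `osc (A1 F) - W` -/
lemma B_R (h : d.Hyp) (hG : d.Good F) :
    𝓔.toFam.B (𝓔.W 1 7 2) (fun i z => osc (𝓔.A1 F i) z - d.Wl i z) := by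
  have h1 : 𝓔.toFam.B (𝓔.W 1 7 2) (fun i => pd 0 (osc (F i))) :=
    EFam.B_le (EFam.B_pd (B_oF h hG) 0) le_rfl (by omega) (by omega)
  have h2 : 𝓔.toFam.B (𝓔.W 1 7 2) (fun i => pd 2 (osc (d.rho F i))) :=
    EFam.B_pd hG.rho_osc 2
  refine (EFam.B_add h1 h2).congr (fun i z hz => ?_)
  show _ = osc (𝓔.A1 F i) z - d.Wl i z
  rw [osc_A1 h hG hz, pd2_oF h hG hz]
  module

lemma B_oP (h : d.Hyp) (hG : d.Good F) :
    𝓔.toFam.B (𝓔.W 1 0 0) (fun i => osc (𝓔.A1 F i)) := by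
  have h1 : 𝓔.toFam.B (𝓔.W 1 0 0) (fun i z => osc (𝓔.A1 F i) z - d.Wl i z) :=
    EFam.B_le (B_R h hG) le_rfl (by omega) (by omega)
  refine (EFam.B_add h1 h.WB).congr (fun i z hz => ?_)
  exact sub_add_cancel _ _

lemma B_oS (h : d.Hyp) (hG : d.Good F) :
    𝓔.toFam.B (𝓔.W 1 16 1) (fun i => osc (𝓔.A2 F i)) :=
  (EFam.B_pd (B_oF h hG) 1).congr (fun _ _ hz => (osc_A2 h hG hz).symm)

lemma B_mP (h : d.Hyp) (hG : d.Good F) :
    𝓔.toFam.B (𝓔.W 0 0 0) (fun i => mean (𝓔.A1 F i)) := by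
  have h1 : 𝓔.toFam.B (𝓔.W 0 0 0) (fun i z => 𝓔.eps i • pd 0 (mean (d.rho F i)) z) :=
    EFam.B_le (EFam.B_eps (EFam.B_pd hG.rho_mean 0)) (by omega) (by omega) (by omega)
  exact (EFam.B_add h.f1B h1).congr (fun i z hz => (mean_A1 h hG hz).symm)

lemma B_mS (h : d.Hyp) (hG : d.Good F) :
    𝓔.toFam.B (𝓔.W 0 0 0) (fun i => mean (𝓔.A2 F i)) := by
  have h1 : 𝓔.toFam.B (𝓔.W 0 0 0) (fun i z => 𝓔.eps i • pd 1 (mean (d.rho F i)) z) :=
    EFam.B_le (EFam.B_eps (EFam.B_pd hG.rho_mean 1)) (by omega) (by omega) (by omega)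
  exact (EFam.B_add h.f2B h1).congr (fun i z hz => (mean_A2 h hG hz).symm)

lemma B_P (h : d.Hyp) (hG : d.Good F) : 𝓔.toFam.B (𝓔.W 0 0 0) (𝓔.A1 F) := by
  have h1 : 𝓔.toFam.B (𝓔.W 0 0 0) (fun i => osc (𝓔.A1 F i)) :=
    EFam.B_le (B_oP h hG) (by omega) (by omega) (by omega)
  exact (EFam.B_add (B_mP h hG) h1).congr (fun _ _ _ => (eq_mean_add_osc _ _).symm)

lemma B_S (h : d.Hyp) (hG : d.Good F) : 𝓔.toFam.B (𝓔.W 0 0 0) (𝓔.A2 F) := by
  have h1 : 𝓔.toFam.B (𝓔.W 0 0 0) (fun i => osc (𝓔.A2 F i)) :=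
    EFam.B_le (B_oS h hG) (by omega) (by omega) (by omega)
  exact (EFam.B_add (B_mS h hG) h1).congr (fun _ _ _ => (eq_mean_add_osc _ _).symm)

/-- the mean of `|W|²` is `a²` -/
lemma mean_WW (h : d.Hyp) {i : 𝓔.I} {z : Q} (hz : z ∈ 𝓔.toFam.dom i) :
    mean (fun z' => (inner ℝ (d.Wl i z') (d.Wl i z') : ℝ)) z = 𝓔.a i z.1 ^ 2 := by
  have c1 := cs h.WB.smooth hz
  have e : ∀ s, (inner ℝ (d.Wl i (z.1, s)) (d.Wl i (z.1, s)) : ℝ)
      = 𝓔.a i z.1 ^ 2 - 2 * inner ℝ (d.f1 i (z.1, s)) (d.Wl i (z.1, s)) := by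
    intro s
    have h1 := h.circle i (z.1, s) hz
    simp only [EData.w] at h1
    rw [inner_add_left, inner_add_right, inner_add_right,
      real_inner_comm (d.f1 i (z.1, s)) (d.Wl i (z.1, s))] at h1
    linarith
  have c2 : Cs (fun z' => (inner ℝ (d.f1 i z') (d.Wl i z') : ℝ)) z.1 :=
    Cs.inner (Cs.tindep (fun _ => rfl)) c1
  rw [mean_congr (v := fun z' => 𝓔.a i z'.1 ^ 2 - 2 • (inner ℝ (d.f1 i z') (d.Wl i z') : ℝ))
    (fun s => by rw [e s]; simp),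
    mean_sub (Cs.tindep (fun _ => rfl)) (by simpa using c2.const_smul (c := 2))]
  have e2 : mean (fun z' => (2:ℕ) • (inner ℝ (d.f1 i z') (d.Wl i z') : ℝ)) z = 0 := by
    have : mean (fun z' => (2:ℝ) • (inner ℝ (d.f1 i z') (d.Wl i z') : ℝ)) z = 0 := by
      rw [mean_const_smul, mean_inner_tindep (fun _ => rfl) c1, h.Wmean i z hz]; simp
    simpa using this
  rw [e2, mean_tindep (u := fun z' => 𝓔.a i z'.1 ^ 2) (fun _ => rfl), sub_zero]


/-! ### the amplitude correction -/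

/-- `β = - mean E11 / (2 a²)` -/
noncomputable def bet (d : EData 𝓔) (F : 𝓔.I → Q → E4) (i : 𝓔.I) : Q → ℝ :=
  fun z => (-(1/2) : ℝ) * ((𝓔.a i z.1 ^ 2)⁻¹ * mean (d.E11 F i) z)

/-- the new state -/
noncomputable def Fn (d : EData 𝓔) (F : 𝓔.I → Q → E4) (i : 𝓔.I) : Q → E4 :=
  fun z => F i z + bet d F i z • osc (F i) z

/-- increment of `A1` -/
noncomputable def XX (d : EData 𝓔) (F : 𝓔.I → Q → E4) (i : 𝓔.I) : Q → E4 :=
  fun z => bet d F i z • osc (𝓔.A1 F i) z + pd 0 (bet d F i) z • osc (F i) z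

/-- increment of `A2` -/
noncomputable def YY (d : EData 𝓔) (F : 𝓔.I → Q → E4) (i : 𝓔.I) : Q → E4 :=
  fun z => bet d F i z • osc (𝓔.A2 F i) z + pd 1 (bet d F i) z • osc (F i) z

lemma bet_t (i : 𝓔.I) (x : X2) (t : ℝ) : bet d F i (x, t) = bet d F i (x, 0) := rfl

lemma bet_t' (i : 𝓔.I) (z : Q) (s : ℝ) : bet d F i (z.1, s) = bet d F i z := rfl

lemma pd_bet_t (i : 𝓔.I) (j : Fin 3) (z : Q) (s : ℝ) :
    pd j (bet d F i) (z.1, s) = pd j (bet d F i) z := by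
  rw [pd_tindep (bet_t i) j z.1 s, ← pd_tindep (bet_t i) j z.1 z.2]

variable {m : ℕ}

lemma B_bet (hm : 𝓔.toFam.B (𝓔.W 2 m 0) (fun i => mean (d.E11 F i))) :
    𝓔.toFam.B (𝓔.W 0 m 0) (bet d F) := by
  have h1 := EFam.B_div (j := 0) (k := 2) (u := fun i => mean (d.E11 F i)) (by simpa using hm)
  exact EFam.B_cmul (-(1/2)) h1

/-- classes of `X` -/
lemma B_X (h : d.Hyp) (hG : d.Good F)
    (hm : 𝓔.toFam.B (𝓔.W 2 m 0) (fun i => mean (d.E11 F i))) :
    𝓔.toFam.B (𝓔.W 1 m 0) (XX d F) := by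
  have h1 : 𝓔.toFam.B (𝓔.W 1 m 0) (fun i z => bet d F i z • osc (𝓔.A1 F i) z) :=
    EFam.B_le (EFam.B_smul (B_bet hm) (B_oP h hG)) (by omega) (by omega) (by omega)
  have h2 : 𝓔.toFam.B (𝓔.W 1 m 0) (fun i z => pd 0 (bet d F i) z • osc (F i) z) :=
    EFam.B_le (EFam.B_smul (EFam.B_pd (B_bet hm) 0) (B_oF h hG)) (by omega) (by omega) (by omega)
  exact EFam.B_add h1 h2

lemma B_Y (h : d.Hyp) (hG : d.Good F)
    (hm : 𝓔.toFam.B (𝓔.W 2 m 0) (fun i => mean (d.E11 F i))) :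
    𝓔.toFam.B (𝓔.W 1 (m+16) 1) (YY d F) := by
  have h1 : 𝓔.toFam.B (𝓔.W 1 (m+16) 1) (fun i z => bet d F i z • osc (𝓔.A2 F i) z) :=
    EFam.B_le (EFam.B_smul (B_bet hm) (B_oS h hG)) (by omega) (by omega) (by omega)
  have h2 : 𝓔.toFam.B (𝓔.W 1 (m+16) 1) (fun i z => pd 1 (bet d F i) z • osc (F i) z) :=
    EFam.B_le (EFam.B_smul (EFam.B_pd (B_bet hm) 1) (B_oF h hG)) (by omega) (by omega) (by omega)
  exact EFam.B_add h1 h2

lemma mean_X (h : d.Hyp) (hG : d.Good F) {i : 𝓔.I} {z : Q} (hz : z ∈ 𝓔.toFam.dom i) :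
    mean (XX d F i) z = 0 := by
  have c1 := cs (B_P h hG).smooth hz
  have c2 := cs hG.sm hz
  have cb : Cs (bet d F i) z.1 := Cs.tindep (fun _ => rfl)
  have cb' : Cs (pd 0 (bet d F i)) z.1 := Cs.tindep (pd_tindep (bet_t i) 0 z.1)
  have := mean_add (z := z) (cb.smul c1.osc) (cb'.smul c2.osc)
  rw [mean_smul_tindep (bet_t' i z), mean_smul_tindep (pd_bet_t i 0 z), mean_osc c1,
    mean_osc c2, smul_zero, smul_zero, add_zero] at this
  exact this

lemma mean_Y (h : d.Hyp) (hG : d.Good F) {i : 𝓔.I} {z : Q} (hz : z ∈ 𝓔.toFam.dom i) :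
    mean (YY d F i) z = 0 := by
  have c1 := cs (B_S h hG).smooth hz
  have c2 := cs hG.sm hz
  have cb : Cs (bet d F i) z.1 := Cs.tindep (fun _ => rfl)
  have cb' : Cs (pd 1 (bet d F i)) z.1 := Cs.tindep (pd_tindep (bet_t i) 1 z.1)
  have := mean_add (z := z) (cb.smul c1.osc) (cb'.smul c2.osc)
  rw [mean_smul_tindep (bet_t' i z), mean_smul_tindep (pd_bet_t i 1 z), mean_osc c1,
    mean_osc c2, smul_zero, smul_zero, add_zero] at this
  exact this

lemma A1_Fn (h : d.Hyp) (hG : d.Good F)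
    (hm : 𝓔.toFam.B (𝓔.W 2 m 0) (fun i => mean (d.E11 F i))) {i : 𝓔.I} {z : Q}
    (hz : z ∈ 𝓔.toFam.dom i) : 𝓔.A1 (Fn d F) i z = 𝓔.A1 F i z + XX d F i z := by
  have d1 := df hG.sm hz
  have d2 := df (B_oF h hG).smooth hz
  have d3 := df (B_bet hm).smooth hz
  have e : ∀ j, pd j (Fn d F i) z
      = pd j (F i) z + (bet d F i z • pd j (osc (F i)) z + pd j (bet d F i) z • osc (F i) z) := by
    intro j
    rw [← pd_smul d3 d2]
    exact pd_add d1 (d3.fun_smul d2) j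
  simp only [EFam.A1, XX]
  rw [osc_A1 h hG hz, e, e, pd2_tindep (bet_t i)]
  module

lemma A2_Fn (h : d.Hyp) (hG : d.Good F)
    (hm : 𝓔.toFam.B (𝓔.W 2 m 0) (fun i => mean (d.E11 F i))) {i : 𝓔.I} {z : Q}
    (hz : z ∈ 𝓔.toFam.dom i) : 𝓔.A2 (Fn d F) i z = 𝓔.A2 F i z + YY d F i z := by
  have d1 := df hG.sm hz
  have d2 := df (B_oF h hG).smooth hz
  have d3 := df (B_bet hm).smooth hz
  have e : ∀ j, pd j (Fn d F i) z
      = pd j (F i) z + (bet d F i z • pd j (osc (F i)) z + pd j (bet d F i) z • osc (F i) z) := by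
    intro j
    rw [← pd_smul d3 d2]
    exact pd_add d1 (d3.fun_smul d2) j
  simp only [EFam.A2, YY]
  rw [osc_A2 h hG hz, e]

/-- the new state is good -/
lemma Good_Fn (h : d.Hyp) (hG : d.Good F)
    (hm : 𝓔.toFam.B (𝓔.W 2 m 0) (fun i => mean (d.E11 F i))) (h7 : 7 ≤ m) : d.Good (Fn d F) := by
  have sB := (B_bet hm).smooth
  have sO := (B_oF h hG).smooth
  have sm : 𝓔.toFam.Sm (Fn d F) := fun i => (hG.sm i).add ((sB i).smul (sO i))
  -- the increment of `rho`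
  have he : ∀ i, 𝓔.eps i ≠ 0 := fun i => (EFam.eps_pos i).ne'
  have hrho : ∀ i z, z ∈ 𝓔.toFam.dom i → d.rho (Fn d F) i z
      = d.rho F i z + bet d F i z • (d.u1 i z + osc (d.rho F i) z) := by
    intro i z hz
    simp only [EData.rho, Fn]
    rw [osc_F h hG.sm hz]
    have : (𝓔.eps i)⁻¹ • (bet d F i z • 𝓔.eps i • (d.u1 i z + osc (d.rho F i) z))
        = bet d F i z • (d.u1 i z + osc (d.rho F i) z) := by
      rw [smul_comm (bet d F i z) (𝓔.eps i), smul_smul, inv_mul_cancel₀ (he i), one_smul]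
    rw [add_sub_right_comm, smul_add, this]
    abel
  have hus : ∀ i z, z ∈ 𝓔.toFam.dom i → Cs (fun z => d.u1 i z + osc (d.rho F i) z) z.1 :=
    fun i z hz => (cs (u1B h).smooth hz).add (cs (rho_sm h hG.sm) hz).osc
  have hmu : ∀ i z, z ∈ 𝓔.toFam.dom i → mean (fun z => d.u1 i z + osc (d.rho F i) z) z = 0 := by
    intro i z hz
    rw [mean_add (cs (u1B h).smooth hz) (cs (rho_sm h hG.sm) hz).osc, mean_u1 h hz,
      mean_osc (cs (rho_sm h hG.sm) hz), add_zero]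
  have hmean : ∀ i z, z ∈ 𝓔.toFam.dom i → mean (d.rho (Fn d F) i) z = mean (d.rho F i) z := by
    intro i z hz
    have e1 : mean (d.rho (Fn d F) i) z
        = mean (fun z => d.rho F i z + bet d F i z • (d.u1 i z + osc (d.rho F i) z)) z :=
      mean_congr (fun s => hrho i (z.1, s) hz)
    rw [e1, mean_add (cs (rho_sm h hG.sm) hz)
      (Cs.smul (Cs.tindep (fun _ => rfl)) (hus i z hz)), mean_smul_tindep (bet_t' i z),
      hmu i z hz, smul_zero, add_zero]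
  refine ⟨sm, ?_, ?_, ?_⟩
  · intro i x hx t
    have e1 : mean (F i) (x, t + 2 * Real.pi) = mean (F i) (x, t) := rfl
    have e2 : bet d F i (x, t + 2 * Real.pi) = bet d F i (x, t) := rfl
    simp only [Fn, osc, hG.per i x hx t, e1, e2]
  · have h1 : 𝓔.toFam.B (𝓔.W 1 0 0) (fun i => osc (d.rho F i)) :=
      EFam.B_le hG.rho_osc le_rfl (by omega) (by omega)
    have h2 : 𝓔.toFam.B (𝓔.W 1 7 1)
        (fun i z => bet d F i z • (d.u1 i z + osc (d.rho F i) z)) :=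
      EFam.B_le (EFam.B_smul (B_bet hm) (EFam.B_add (u1B h) h1)) (by omega) (by omega) (by omega)
    refine (EFam.B_add hG.rho_osc h2).congr (fun i z hz => ?_)
    show osc (d.rho F i) z + bet d F i z • (d.u1 i z + osc (d.rho F i) z)
      = d.rho (Fn d F) i z - mean (d.rho (Fn d F) i) z
    rw [hmean i z hz, hrho i z hz]
    simp only [osc]
    abel
  · exact hG.rho_mean.congr (fun i z hz => (hmean i z hz).symm)

end state

end S3

open S3 in
/-- Step 3 -/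
theorem EData.step3 {𝓔 : EFam} {d : EData 𝓔} (h : d.Hyp) (n : ℕ) {F : 𝓔.I → Q → E4}
    (hG : d.Good F)
    (hE : d.Err (15+n) (15+n) (15+n) (24+n) (27+n) (28+n) F) :
    ∃ F', d.Good F' ∧ d.Err (15+n) (16+n) (15+n) (24+n) (27+n) (28+n) F' := by
  have hm := hE.m11
  have bB := B_bet hm
  have bX := B_X h hG hm
  have bY := B_Y h hG hm
  have bP := B_P h hG
  have bS := B_S h hG
  have boP := B_oP h hG
  have boS := B_oS h hG
  have boF := B_oF h hG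
  have bR := B_R h hG
  -- smoothness of the errors of `F`
  have s11 : 𝓔.toFam.Sm (d.E11 F) := fun i => by
    have hf := h.f1B.smooth i
    have ha : ContDiffOn ℝ ∞ (fun z : Q => 𝓔.a i z.1) (𝓔.toFam.dom i) := 𝓔.a_B.smooth i
    exact ((bP.smooth i).inner ℝ (bP.smooth i)).sub
      (((hf.inner ℝ hf).add (ha.pow 2)).add (h.G11B.smooth i))
  have s12 : 𝓔.toFam.Sm (d.E12 F) := fun i =>
    ((bP.smooth i).inner ℝ (bS.smooth i)).sub
      (((h.f1B.smooth i).inner ℝ (h.f2B.smooth i)).add (h.G12B.smooth i))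
  have s22 : 𝓔.toFam.Sm (d.E22 F) := fun i =>
    ((bS.smooth i).inner ℝ (bS.smooth i)).sub
      (((h.f2B.smooth i).inner ℝ (h.f2B.smooth i)).add (h.G22B.smooth i))
  refine ⟨Fn d F, Good_Fn h hG hm (by omega), ?_⟩
  -- increments
  have e11 : ∀ i z, z ∈ 𝓔.toFam.dom i → d.E11 (Fn d F) i z = d.E11 F i z
      + (2 * inner ℝ (𝓔.A1 F i z) (XX d F i z) + inner ℝ (XX d F i z) (XX d F i z)) := by
    intro i z hz
    simp only [EData.E11]
    rw [A1_Fn h hG hm hz, inner_add_left, inner_add_right, inner_add_right,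
      real_inner_comm (𝓔.A1 F i z) (XX d F i z)]
    ring
  have e12 : ∀ i z, z ∈ 𝓔.toFam.dom i → d.E12 (Fn d F) i z = d.E12 F i z
      + ((inner ℝ (𝓔.A1 F i z) (YY d F i z) + inner ℝ (XX d F i z) (𝓔.A2 F i z))
        + inner ℝ (XX d F i z) (YY d F i z)) := by
    intro i z hz
    simp only [EData.E12]
    rw [A1_Fn h hG hm hz, A2_Fn h hG hm hz, inner_add_left, inner_add_right, inner_add_right]
    ring
  have e22 : ∀ i z, z ∈ 𝓔.toFam.dom i → d.E22 (Fn d F) i z = d.E22 F i z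
      + (2 * inner ℝ (𝓔.A2 F i z) (YY d F i z) + inner ℝ (YY d F i z) (YY d F i z)) := by
    intro i z hz
    simp only [EData.E22]
    rw [A2_Fn h hG hm hz, inner_add_left, inner_add_right, inner_add_right,
      real_inner_comm (𝓔.A2 F i z) (YY d F i z)]
    ring
  -- classes of the increments
  have z11 : 𝓔.toFam.B (𝓔.W 1 (15+n) 0) (fun i z => 2 * inner ℝ (𝓔.A1 F i z) (XX d F i z)
      + inner ℝ (XX d F i z) (XX d F i z)) :=
    EFam.B_add (EFam.B_cmul 2 (EFam.B_innerR bP bX (by omega) (by omega) (by omega)))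
      (EFam.B_innerR bX bX (by omega) (by omega) (by omega))
  have z12 : 𝓔.toFam.B (𝓔.W 1 (15+n) 0) (fun i z =>
      (inner ℝ (𝓔.A1 F i z) (YY d F i z) + inner ℝ (XX d F i z) (𝓔.A2 F i z))
        + inner ℝ (XX d F i z) (YY d F i z)) :=
    EFam.B_add (EFam.B_add (EFam.B_innerR bP bY (by omega) (by omega) (by omega))
      (EFam.B_innerR bX bS (by omega) (by omega) (by omega)))
      (EFam.B_innerR bX bY (by omega) (by omega) (by omega))
  have z22 : 𝓔.toFam.B (𝓔.W 1 (27+n) 0) (fun i z => 2 * inner ℝ (𝓔.A2 F i z) (YY d F i z)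
      + inner ℝ (YY d F i z) (YY d F i z)) :=
    EFam.B_add (EFam.B_cmul 2 (EFam.B_innerR bS bY (by omega) (by omega) (by omega)))
      (EFam.B_innerR bY bY (by omega) (by omega) (by omega))
  -- splitting of osc and mean of a sum
  have hosc : ∀ (E E' Z : 𝓔.I → Q → ℝ) (j m l : ℕ), 𝓔.toFam.Sm E →
      (∀ i z, z ∈ 𝓔.toFam.dom i → E' i z = E i z + Z i z) →
      𝓔.toFam.B (𝓔.W j m l) (fun i => osc (E i)) → 𝓔.toFam.B (𝓔.W j m l) Z →
      𝓔.toFam.B (𝓔.W j m l) (fun i => osc (E' i)) := by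
    intro E E' Z j m l sE he hE hZ
    refine (EFam.B_add hE (B_osc hZ)).congr (fun i z hz => ?_)
    show _ = osc (E' i) z
    rw [osc_congr (v := fun z => E i z + Z i z) (fun s => he i (z.1, s) hz),
      osc_add (cs sE hz) (cs hZ.smooth hz)]
  have hmean : ∀ (E E' Z : 𝓔.I → Q → ℝ), 𝓔.toFam.Sm E → 𝓔.toFam.Sm Z →
      (∀ i z, z ∈ 𝓔.toFam.dom i → E' i z = E i z + Z i z) →
      ∀ i z, z ∈ 𝓔.toFam.dom i → mean (E' i) z = mean (E i) z + mean (Z i) z := by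
    intro E E' Z sE sZ he i z hz
    rw [mean_congr (v := fun z => E i z + Z i z) (fun s => he i (z.1, s) hz),
      mean_add (cs sE hz) (cs sZ hz)]
  refine ⟨hosc _ _ _ _ _ _ s11 e11 hE.o11 z11, ?_, hosc _ _ _ _ _ _ s12 e12 hE.o12 z12, ?_,
    hosc _ _ _ _ _ _ s22 e22 hE.o22 z22, ?_⟩
  · -- mean E11
    have b1 : 𝓔.toFam.B (𝓔.W 2 7 2) (fun i z => 2 * mean (fun z' => (inner ℝ (d.Wl i z')
        (osc (𝓔.A1 F i) z' - d.Wl i z') : ℝ)) z + mean (fun z' =>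
        (inner ℝ (osc (𝓔.A1 F i) z' - d.Wl i z') (osc (𝓔.A1 F i) z' - d.Wl i z') : ℝ)) z) :=
      EFam.B_add (EFam.B_cmul 2 (B_mean (EFam.B_innerR h.WB bR (by omega) (by omega) (by omega))))
        (B_mean (EFam.B_innerR bR bR (by omega) (by omega) (by omega)))
    have b2 : 𝓔.toFam.B (𝓔.W 2 16 0) (fun i => mean (fun z' =>
        (inner ℝ (osc (𝓔.A1 F i) z') (osc (F i) z') : ℝ))) :=
      B_mean (EFam.B_innerR boP boF (by omega) (by omega) (by omega))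
    have b3 : 𝓔.toFam.B (𝓔.W 2 (16+n) 0) (fun i => mean (fun z' =>
        (inner ℝ (XX d F i z') (XX d F i z') : ℝ))) :=
      B_mean (EFam.B_innerR bX bX (by omega) (by omega) (by omega))
    have b4 : 𝓔.toFam.B (𝓔.W 2 (16+n) 0) (fun i z => 2 * (bet d F i z * (2 * mean (fun z' =>
        (inner ℝ (d.Wl i z') (osc (𝓔.A1 F i) z' - d.Wl i z') : ℝ)) z + mean (fun z' =>
        (inner ℝ (osc (𝓔.A1 F i) z' - d.Wl i z') (osc (𝓔.A1 F i) z' - d.Wl i z') : ℝ)) z))) :=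
      EFam.B_cmul 2 (EFam.B_mulR bB b1 (by omega) (by omega) (by omega))
    have b5 : 𝓔.toFam.B (𝓔.W 2 (16+n) 0) (fun i z => 2 * (pd 0 (bet d F i) z * mean (fun z' =>
        (inner ℝ (osc (𝓔.A1 F i) z') (osc (F i) z') : ℝ)) z)) :=
      EFam.B_cmul 2 (EFam.B_mulR (EFam.B_pd bB 0) b2 (by omega) (by omega) (by omega))
    refine (EFam.B_add (EFam.B_add b4 b5) b3).congr (fun i z hz => ?_)
    show _ = mean (d.E11 (Fn d F) i) z
    rw [hmean _ _ _ s11 z11.smooth e11 i z hz]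
    have cP := cs bP.smooth hz
    have cX := cs bX.smooth hz
    have coP := cs boP.smooth hz
    have coF := cs boF.smooth hz
    have cW := cs h.WB.smooth hz
    have cR := cs bR.smooth hz
    have ha : 𝓔.a i z.1 ≠ 0 := (𝓔.a_pos i z.1 hz).ne'
    -- mean of `P·X`
    have m1 : mean (fun z => (2 * inner ℝ (𝓔.A1 F i z) (XX d F i z)
        + inner ℝ (XX d F i z) (XX d F i z) : ℝ)) z
        = 2 * mean (fun z => (inner ℝ (osc (𝓔.A1 F i) z) (XX d F i z) : ℝ)) z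
          + mean (fun z => (inner ℝ (XX d F i z) (XX d F i z) : ℝ)) z := by
      rw [mean_add (Cs.const_mul (c := 2) (cP.inner cX)) (cX.inner cX), mean_const_mul,
        mean_inner_osc cP cX (mean_X h hG hz)]
    have cb : Cs (bet d F i) z.1 := Cs.tindep (fun _ => rfl)
    have cb' : Cs (pd 0 (bet d F i)) z.1 := Cs.tindep (pd_tindep (bet_t i) 0 z.1)
    have m2 : mean (fun z => (inner ℝ (osc (𝓔.A1 F i) z) (XX d F i z) : ℝ)) z
        = bet d F i z * mean (fun z => (inner ℝ (osc (𝓔.A1 F i) z) (osc (𝓔.A1 F i) z) : ℝ)) z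
          + pd 0 (bet d F i) z * mean (fun z => (inner ℝ (osc (𝓔.A1 F i) z) (osc (F i) z) : ℝ)) z
        := by
      rw [mean_congr (v := fun z => bet d F i z * inner ℝ (osc (𝓔.A1 F i) z) (osc (𝓔.A1 F i) z)
        + pd 0 (bet d F i) z * inner ℝ (osc (𝓔.A1 F i) z) (osc (F i) z))
        (fun s => by simp only [XX, inner_add_right, real_inner_smul_right]),
        mean_add (cb.mul (coP.inner coP)) (cb'.mul (coP.inner coF)),
        mean_mul_tindep (bet_t' i z), mean_mul_tindep (pd_bet_t i 0 z)]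
    have m3 : mean (fun z => (inner ℝ (osc (𝓔.A1 F i) z) (osc (𝓔.A1 F i) z) : ℝ)) z
        = 𝓔.a i z.1 ^ 2 + (2 * mean (fun z' => (inner ℝ (d.Wl i z')
        (osc (𝓔.A1 F i) z' - d.Wl i z') : ℝ)) z + mean (fun z' =>
        (inner ℝ (osc (𝓔.A1 F i) z' - d.Wl i z') (osc (𝓔.A1 F i) z' - d.Wl i z') : ℝ)) z) := by
      rw [← mean_WW h hz, ← mean_const_mul, ← mean_add (Cs.const_mul (c := 2) (cW.inner cR))
        (cR.inner cR), ← mean_add (cW.inner cW)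
        ((Cs.const_mul (c := 2) (cW.inner cR)).add (cR.inner cR))]
      refine mean_congr (fun s => ?_)
      have e1 : osc (𝓔.A1 F i) (z.1, s) = d.Wl i (z.1, s) + (osc (𝓔.A1 F i) (z.1, s)
        - d.Wl i (z.1, s)) := by abel
      conv_lhs => rw [e1, inner_add_left, inner_add_right, inner_add_right,
        real_inner_comm (d.Wl i (z.1, s)) (osc (𝓔.A1 F i) (z.1, s) - d.Wl i (z.1, s))]
      ring
    have m4 : mean (d.E11 F i) z = - 2 * bet d F i z * 𝓔.a i z.1 ^ 2 := by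
      simp only [bet]; field_simp
    rw [m1, m2, m3, m4]
    ring
  · -- mean E12
    have b1 : 𝓔.toFam.B (𝓔.W 2 (24+n) 0) (fun i => mean (fun z' =>
        (inner ℝ (osc (𝓔.A1 F i) z') (YY d F i z') : ℝ))) :=
      B_mean (EFam.B_innerR boP bY (by omega) (by omega) (by omega))
    have b2 : 𝓔.toFam.B (𝓔.W 2 (24+n) 0) (fun i => mean (fun z' =>
        (inner ℝ (osc (𝓔.A2 F i) z') (XX d F i z') : ℝ))) :=
      B_mean (EFam.B_innerR boS bX (by omega) (by omega) (by omega))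
    have b3 : 𝓔.toFam.B (𝓔.W 2 (24+n) 0) (fun i => mean (fun z' =>
        (inner ℝ (XX d F i z') (YY d F i z') : ℝ))) :=
      B_mean (EFam.B_innerR bX bY (by omega) (by omega) (by omega))
    refine (EFam.B_add hE.m12 (EFam.B_add (EFam.B_add b1 b2) b3)).congr (fun i z hz => ?_)
    show _ = mean (d.E12 (Fn d F) i) z
    have cP := cs bP.smooth hz
    have cS := cs bS.smooth hz
    have cX := cs bX.smooth hz
    have cY := cs bY.smooth hz
    rw [hmean _ _ _ s12 z12.smooth e12 i z hz,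
      mean_add ((cP.inner cY).add (cX.inner cS)) (cX.inner cY),
      mean_add (cP.inner cY) (cX.inner cS), mean_inner_osc cP cY (mean_Y h hG hz),
      mean_congr (u := fun z => (inner ℝ (XX d F i z) (𝓔.A2 F i z) : ℝ))
        (v := fun z => (inner ℝ (𝓔.A2 F i z) (XX d F i z) : ℝ)) (fun s => real_inner_comm _ _),
      mean_inner_osc cS cX (mean_X h hG hz)]
  · -- mean E22
    have b1 : 𝓔.toFam.B (𝓔.W 2 (28+n) 0) (fun i => mean (fun z' =>
        (inner ℝ (osc (𝓔.A2 F i) z') (YY d F i z') : ℝ))) :=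
      B_mean (EFam.B_innerR boS bY (by omega) (by omega) (by omega))
    have b2 : 𝓔.toFam.B (𝓔.W 2 (28+n) 0) (fun i => mean (fun z' =>
        (inner ℝ (YY d F i z') (YY d F i z') : ℝ))) :=
      B_mean (EFam.B_innerR bY bY (by omega) (by omega) (by omega))
    refine (EFam.B_add hE.m22 (EFam.B_add (EFam.B_cmul 2 b1) b2)).congr (fun i z hz => ?_)
    show _ = mean (d.E22 (Fn d F) i) z
    have cS := cs bS.smooth hz
    have cY := cs bY.smooth hz
    rw [hmean _ _ _ s22 z22.smooth e22 i z hz,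
      mean_add (Cs.const_mul (c := 2) (cS.inner cY)) (cY.inner cY), mean_const_mul,
      mean_inner_osc cS cY (mean_Y h hG hz)]

end Crest.Agent.R216.TE
end

-- ▼ part R216/Step4

/-!
# Row 216, Theorem E: step 4 of the engine (oscillating correction)
-/

open Set Topology MeasureTheory
open scoped ContDiff

set_option linter.unusedSectionVars false

namespace Crest.Agent.R216.TE.S4

open EB

section step4
variable {𝓔 : EFam} {d : EData 𝓔} {F : 𝓔.I → Q → E4}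

/-! ### increments -/

theorem e11_alg (A A' w : E4) (E11 E11o G11 X : ℝ) (hE : E11 = inner ℝ A A - G11)
    (hw : inner ℝ w A' = X - E11o / 2) :
    inner ℝ (A + A') (A + A') - G11
      = (E11 - E11o) + 2 * X + 2 * inner ℝ (A - w) A' + inner ℝ A' A' := by
  have h1 : inner ℝ (A + A') (A + A') = inner ℝ A A + 2 * inner ℝ A A' + inner ℝ A' A' := by
    rw [inner_add_left, inner_add_right, inner_add_right, real_inner_comm A' A]; ring
  rw [h1, hE, inner_sub_left]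
  linarith

theorem e12_alg (A A' Bv B' f2 : E4) (E12 E12o G12 X : ℝ) (hE : E12 = inner ℝ A Bv - G12)
    (hw : inner ℝ f2 A' = X - E12o) :
    inner ℝ (A + A') (Bv + B') - G12
      = (E12 - E12o) + X + inner ℝ (Bv - f2) A' + inner ℝ A B' + inner ℝ A' B' := by
  rw [inner_add_left, inner_add_right, inner_add_right, hE, inner_sub_left,
    real_inner_comm Bv A']
  linarith

theorem e22_alg (Bv B' f2 : E4) (E22 E22o G22 : ℝ) (hE : E22 = inner ℝ Bv Bv - G22)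
    (hw : inner ℝ f2 B' = - E22o / 2) :
    inner ℝ (Bv + B') (Bv + B') - G22
      = (E22 - E22o) + 2 * inner ℝ (Bv - f2) B' + inner ℝ B' B' := by
  have h1 : inner ℝ (Bv + B') (Bv + B') = inner ℝ Bv Bv + 2 * inner ℝ Bv B' + inner ℝ B' B' := by
    rw [inner_add_left, inner_add_right, inner_add_right, real_inner_comm B' Bv]; ring
  rw [h1, hE, inner_sub_left]
  linarith

theorem radial_alg (G κ α β r2 : ℝ) (hr : α ^ 2 + β ^ 2 = r2) (hr0 : r2 ≠ 0) :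
    α * (G / r2 * α - κ * β) + β * (G / r2 * β + κ * α) = G := by
  have : G / r2 * (α ^ 2 + β ^ 2) = G := by rw [hr]; field_simp
  linear_combination this

/-! ### the scalar functions `X`, `Z`, `G` -/

noncomputable def X4 (d : EData 𝓔) (F : 𝓔.I → Q → E4) : 𝓔.I → Q → ℝ := fun i z =>
  -(𝓔.eps i * prim (osc (d.E12 F i)) z)

noncomputable def Z4 (d : EData 𝓔) (F : 𝓔.I → Q → E4) : 𝓔.I → Q → ℝ := fun i z =>
  pd 1 (X4 d F i) z + 2⁻¹ * osc (d.E22 F i) z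

noncomputable def cB (d : EData 𝓔) : 𝓔.I → Q → ℝ := fun i z =>
  inner ℝ (d.f1 i z) (xiB (d.f2 i z) (d.f22 i z))

noncomputable def cC (d : EData 𝓔) : 𝓔.I → Q → ℝ := fun i z =>
  inner ℝ (d.f1 i z) (xiC (d.f2 i z) (d.f22 i z))

noncomputable def G4 (d : EData 𝓔) (F : 𝓔.I → Q → E4) : 𝓔.I → Q → ℝ := fun i z =>
  (-(2⁻¹ * 𝓔.eps i)) * osc (d.E11 F i) z - cB d i z * pd 2 (X4 d F i) z
    - cC d i z * pd 2 (Z4 d F i) z

lemma B_cB (h : d.Hyp) : 𝓔.toFam.B (𝓔.W 0 0 0) (cB d) := EFam.B_inner h.f1B (B_xiB h)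
lemma B_cC (h : d.Hyp) : 𝓔.toFam.B (𝓔.W 0 0 0) (cC d) := EFam.B_inner h.f1B (B_xiC h)

lemma mean_cB_mul (i : 𝓔.I) (u : Q → ℝ) (z : Q) :
    mean (fun z => cB d i z * u z) z = cB d i z * mean u z :=
  mean_mul_lift (fun x => cB d i (x, 0)) u z

lemma mean_cC_mul (i : 𝓔.I) (u : Q → ℝ) (z : Q) :
    mean (fun z => cC d i z * u z) z = cC d i z * mean u z :=
  mean_mul_lift (fun x => cC d i (x, 0)) u z

section X

lemma B_X4 (hG : d.Good F) {m : ℕ}
    (ho : 𝓔.toFam.B (𝓔.W 1 m 0) (fun i => osc (d.E12 F i))) :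
    𝓔.toFam.B (𝓔.W 1 (m+16) 0) (X4 d F) := by
  have h1 := B_prim' ho (fun i => PerOn.osc (per_E12 hG i))
  exact EFam.B_neg (EFam.B_eps h1)

lemma pd2_X4 (h : d.Hyp) (hG : d.Good F) {m : ℕ}
    (ho : 𝓔.toFam.B (𝓔.W 1 m 0) (fun i => osc (d.E12 F i))) (i : 𝓔.I) {z : Q}
    (hz : z ∈ 𝓔.toFam.dom i) : pd 2 (X4 d F i) z = -(𝓔.eps i * osc (d.E12 F i) z) := by
  have h1 := B_prim' ho (fun i => PerOn.osc (per_E12 hG i))
  have hd : DifferentiableAt ℝ (prim (osc (d.E12 F i))) z :=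
    diffAt (𝓔.toFam.isOpen_dom i) (h1.smooth i) hz
  have hx : z.1 ∈ 𝓔.D i := hz
  have e : X4 d F i = fun z => (-𝓔.eps i) * prim (osc (d.E12 F i)) z := by
    funext z; simp [X4]
  rw [e, pd_const_mul hd, pd2_prim (𝓔.isOpen i) (ho.smooth i) hx,
    osc_of_mean_zero (mean_osc (D := 𝓔.D i) (sm_E12 h hG i) hx)]
  ring

lemma mean_X4 {m : ℕ}
    (ho : 𝓔.toFam.B (𝓔.W 1 m 0) (fun i => osc (d.E12 F i))) (i : 𝓔.I) {z : Q}
    (hz : z ∈ 𝓔.toFam.dom i) : mean (X4 d F i) z = 0 := by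
  have hx : z.1 ∈ 𝓔.D i := hz
  have e : X4 d F i = fun z => (-𝓔.eps i) * prim (osc (d.E12 F i)) z := by
    funext z; simp [X4]
  rw [e, mean_const_mul, mean_prim (ho.smooth i) hx, mul_zero]

lemma per_X4 (hG : d.Good F) {m : ℕ}
    (ho : 𝓔.toFam.B (𝓔.W 1 m 0) (fun i => osc (d.E12 F i))) (i : 𝓔.I) :
    PerOn (𝓔.D i) (X4 d F i) := by
  intro x hx t
  simp only [X4]
  rw [per_prim (ho.smooth i) (PerOn.osc (per_E12 hG i)) hx t]

/-- the mean of an `x`-derivative of a mean-zero function vanishes -/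
lemma mean_pd_zero {V : Type*} [NormedAddCommGroup V] [NormedSpace ℝ V] [CompleteSpace V]
    {D : Set X2} (hD : IsOpen D) {u : Q → V} (hu : ContDiffOn ℝ ∞ u (cyl D))
    (hm : ∀ z ∈ cyl D, mean u z = 0) (j : Fin 3) (hj : j ≠ 2) {z : Q} (hz : z.1 ∈ D) :
    mean (pd j u) z = 0 := by
  rw [← pd_mean hD hu j hj hz]
  have : EqOn (mean u) (fun _ => (0 : V)) (cyl D) := fun z hz => hm z hz
  rw [pd_eqOn (isOpen_cyl hD) this j hz]
  simp [pd]

lemma B_Z4 (h : d.Hyp) (hG : d.Good F) {m m' k : ℕ}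
    (ho : 𝓔.toFam.B (𝓔.W 1 m 0) (fun i => osc (d.E12 F i)))
    (ho' : 𝓔.toFam.B (𝓔.W 1 m' 0) (fun i => osc (d.E22 F i)))
    (hk : k ≤ m') (hk' : k < m + 16) : 𝓔.toFam.B (𝓔.W 1 k 0) (Z4 d F) :=
  EFam.B_add (EFam.B_le (EFam.B_pd (B_X4 hG ho) 1) (by omega) (by omega) (by omega))
    (EFam.B_cmul _ (EFam.B_le ho' (by omega) (by omega) (by omega)))

lemma mean_Z4 (h : d.Hyp) (hG : d.Good F) {m m' : ℕ}
    (ho : 𝓔.toFam.B (𝓔.W 1 m 0) (fun i => osc (d.E12 F i)))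
    (ho' : 𝓔.toFam.B (𝓔.W 1 m' 0) (fun i => osc (d.E22 F i))) (i : 𝓔.I) {z : Q}
    (hz : z ∈ 𝓔.toFam.dom i) : mean (Z4 d F i) z = 0 := by
  have hx : z.1 ∈ 𝓔.D i := hz
  have s1 : ContDiffOn ℝ ∞ (X4 d F i) (cyl (𝓔.D i)) := (B_X4 hG ho).smooth i
  have s2 : ContDiffOn ℝ ∞ (pd 1 (X4 d F i)) (cyl (𝓔.D i)) :=
    pd_contDiffOn (isOpen_cyl (𝓔.isOpen i)) s1 1
  have s3 : ContDiffOn ℝ ∞ (fun z => 2⁻¹ * osc (d.E22 F i) z) (cyl (𝓔.D i)) :=
    contDiffOn_const.mul (ho'.smooth i)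
  have e : Z4 d F i = fun z => pd 1 (X4 d F i) z + 2⁻¹ * osc (d.E22 F i) z := rfl
  rw [e, mean_add s2 s3 hx, mean_const_mul, mean_osc (D := 𝓔.D i) (sm_E22 h hG i) hx,
    mean_pd_zero (𝓔.isOpen i) s1 (fun z hz => mean_X4 ho i hz) 1 (by decide) hx]
  simp

lemma per_Z4 (hG : d.Good F) {m : ℕ}
    (ho : 𝓔.toFam.B (𝓔.W 1 m 0) (fun i => osc (d.E12 F i))) (i : 𝓔.I) :
    PerOn (𝓔.D i) (Z4 d F i) := by
  have h1 := PerOn.pd (𝓔.isOpen i) (per_X4 hG ho i) 1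
  have h2 := PerOn.osc (per_E22 hG i)
  intro x hx t
  simp only [Z4, h1 x hx t, h2 x hx t]

lemma B_G4 (h : d.Hyp) (hG : d.Good F) {m m1 m' k : ℕ}
    (ho1 : 𝓔.toFam.B (𝓔.W 1 m1 0) (fun i => osc (d.E11 F i)))
    (ho : 𝓔.toFam.B (𝓔.W 1 m 0) (fun i => osc (d.E12 F i)))
    (ho' : 𝓔.toFam.B (𝓔.W 1 m' 0) (fun i => osc (d.E22 F i)))
    (hk : k ≤ m') (hk' : k < m + 16) (hk1 : k ≤ m1 + 16) :
    𝓔.toFam.B (𝓔.W 1 k 1) (G4 d F) := by
  have a1 := EFam.B_cmul (-2⁻¹) (EFam.B_eps ho1)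
  have a1' : 𝓔.toFam.B (𝓔.W 1 k 1) (fun i z => (-(2⁻¹ * 𝓔.eps i)) * osc (d.E11 F i) z) := by
    refine (EFam.B_le a1 (by omega) (by omega) (by omega)).congr (fun i z hz => ?_)
    simp only [smul_eq_mul]; ring
  have a2 := EFam.B_mul (B_cB h) (EFam.B_pd (B_X4 hG ho) 2)
  have a3 := EFam.B_mul (B_cC h) (EFam.B_pd (B_Z4 h hG ho ho' hk hk') 2)
  exact EFam.B_sub (EFam.B_sub a1' (EFam.B_le a2 (by omega) (by omega) (by omega)))
    (EFam.B_le a3 (by omega) (by omega) (by omega))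

lemma mean_G4 (h : d.Hyp) (hG : d.Good F) {m m1 m' : ℕ}
    (ho1 : 𝓔.toFam.B (𝓔.W 1 m1 0) (fun i => osc (d.E11 F i)))
    (ho : 𝓔.toFam.B (𝓔.W 1 m 0) (fun i => osc (d.E12 F i)))
    (ho' : 𝓔.toFam.B (𝓔.W 1 m' 0) (fun i => osc (d.E22 F i))) (i : 𝓔.I) {z : Q}
    (hz : z ∈ 𝓔.toFam.dom i) : mean (G4 d F i) z = 0 := by
  have hx : z.1 ∈ 𝓔.D i := hz
  have hD := 𝓔.isOpen i
  have sX : ContDiffOn ℝ ∞ (X4 d F i) (cyl (𝓔.D i)) := (B_X4 hG ho).smooth i
  have sZ : ContDiffOn ℝ ∞ (Z4 d F i) (cyl (𝓔.D i)) :=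
    (B_Z4 (k := 0) h hG ho ho' (by omega) (by omega)).smooth i
  have s1 : ContDiffOn ℝ ∞ (fun z => (-(2⁻¹ * 𝓔.eps i)) * osc (d.E11 F i) z) (cyl (𝓔.D i)) :=
    contDiffOn_const.mul (ho1.smooth i)
  have s2 : ContDiffOn ℝ ∞ (fun z => cB d i z * pd 2 (X4 d F i) z) (cyl (𝓔.D i)) :=
    ((B_cB h).smooth i).mul (pd_contDiffOn (isOpen_cyl hD) sX 2)
  have s3 : ContDiffOn ℝ ∞ (fun z => cC d i z * pd 2 (Z4 d F i) z) (cyl (𝓔.D i)) :=
    ((B_cC h).smooth i).mul (pd_contDiffOn (isOpen_cyl hD) sZ 2)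
  have e : G4 d F i = fun z => ((-(2⁻¹ * 𝓔.eps i)) * osc (d.E11 F i) z
      - cB d i z * pd 2 (X4 d F i) z) - cC d i z * pd 2 (Z4 d F i) z := rfl
  rw [e, mean_sub (s1.sub s2) s3 hx, mean_sub s1 s2 hx, mean_const_mul, mean_cB_mul, mean_cC_mul,
    mean_osc (D := 𝓔.D i) (sm_E11 h hG i) hx, mean_pd2 hD sX (per_X4 hG ho i) hx,
    mean_pd2 hD sZ (per_Z4 hG ho i) hx]
  simp


lemma per_G4 (hG : d.Good F) {m : ℕ}
    (ho : 𝓔.toFam.B (𝓔.W 1 m 0) (fun i => osc (d.E12 F i))) (i : 𝓔.I) :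
    PerOn (𝓔.D i) (G4 d F i) := by
  have h1 := PerOn.pd (𝓔.isOpen i) (per_X4 hG ho i) 2
  have h2 := PerOn.pd (𝓔.isOpen i) (per_Z4 hG ho i) 2
  have h3 := PerOn.osc (per_E11 hG i)
  intro x hx t
  simp only [G4, h1 x hx t, h2 x hx t, h3 x hx t]
  rfl

end X

/-! ### the main step -/

theorem step4_aux (h : d.Hyp) (n : ℕ) (hG : d.Good F)
    (hE : d.Err (15+n) (16+n) (15+n) (24+n) (27+n) (28+n) F) :
    ∃ v : 𝓔.I → Q → E4, 𝓔.toFam.B (𝓔.W 1 (27+n) 1) v ∧ (∀ i, PerOn (𝓔.D i) (v i)) ∧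
      (∀ i, ∀ z ∈ 𝓔.toFam.dom i, mean (v i) z = 0) ∧
      (∀ i, ∀ z ∈ 𝓔.toFam.dom i, inner ℝ (d.f2 i z) (v i z) = X4 d F i z) ∧
      (∀ i, ∀ z ∈ 𝓔.toFam.dom i, inner ℝ (d.f22 i z) (v i z) = Z4 d F i z) ∧
      (∀ i, ∀ z ∈ 𝓔.toFam.dom i, inner ℝ (d.w i z) (pd 2 (v i) z)
        = (-(2⁻¹ * 𝓔.eps i)) * osc (d.E11 F i) z) := by
  have BX := B_X4 hG hE.o12
  have BZ := B_Z4 (k := 27+n) h hG hE.o12 hE.o22 (by omega) (by omega)
  have BG := B_G4 (k := 27+n) h hG hE.o11 hE.o12 hE.o22 (by omega) (by omega) (by omega)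
  have mG := fun i z hz => mean_G4 h hG hE.o11 hE.o12 hE.o22 i (z := z) hz
  obtain ⟨ζ, Bζ, pζ, hζ⟩ := EData.plane h BG (fun i => per_G4 hG hE.o12 i) mG
  -- the two components
  set H1 : 𝓔.I → Q → ℝ := fun i z => G4 d F i z / d.r2 i z * (d.p1 i z + d.W1 i z)
    - ζ i z * (d.p2 i z + d.W2 i z) with hH1
  set H2 : 𝓔.I → Q → ℝ := fun i z => G4 d F i z / d.r2 i z * (d.p2 i z + d.W2 i z)
    + ζ i z * (d.p1 i z + d.W1 i z) with hH2
  have Ba1 : 𝓔.toFam.B (𝓔.W 0 0 0) (fun i z => d.p1 i z + d.W1 i z) :=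
    EFam.B_add (B_p1 h) (EFam.B_le (B_W1 h) (by omega) (by omega) (by omega))
  have Ba2 : 𝓔.toFam.B (𝓔.W 0 0 0) (fun i z => d.p2 i z + d.W2 i z) :=
    EFam.B_add (B_p2 h) (EFam.B_le (B_W2 h) (by omega) (by omega) (by omega))
  have BGr : 𝓔.toFam.B (𝓔.W 1 (27+n) 1) (fun i z => G4 d F i z / d.r2 i z) := by
    refine (B_r2_div h BG).congr (fun i z hz => ?_)
    simp only [smul_eq_mul]; ring
  have BH1 : 𝓔.toFam.B (𝓔.W 1 (27+n) 1) H1 := EFam.B_sub
    (EFam.B_le (EFam.B_mul BGr Ba1) (by omega) (by omega) (by omega))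
    (EFam.B_le (EFam.B_mul Bζ Ba2) (by omega) (by omega) (by omega))
  have BH2 : 𝓔.toFam.B (𝓔.W 1 (27+n) 1) H2 := EFam.B_add
    (EFam.B_le (EFam.B_mul BGr Ba2) (by omega) (by omega) (by omega))
    (EFam.B_le (EFam.B_mul Bζ Ba1) (by omega) (by omega) (by omega))
  have pW1 : ∀ i, PerOn (𝓔.D i) (d.W1 i) := fun i x hx t => by
    simp only [EData.W1, h.Wper i x hx t]
  have pW2 : ∀ i, PerOn (𝓔.D i) (d.W2 i) := fun i x hx t => by
    simp only [EData.W2, h.Wper i x hx t]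
  have pG := fun i => per_G4 hG hE.o12 i
  have pH1 : ∀ i, PerOn (𝓔.D i) (H1 i) := fun i x hx t => by
    simp only [hH1, pG i x hx t, pζ i x hx t, pW1 i x hx t, pW2 i x hx t]; rfl
  have pH2 : ∀ i, PerOn (𝓔.D i) (H2 i) := fun i x hx t => by
    simp only [hH2, pG i x hx t, pζ i x hx t, pW1 i x hx t, pW2 i x hx t]; rfl
  have mH1 : ∀ i, ∀ z ∈ 𝓔.toFam.dom i, mean (H1 i) z = 0 := fun i z hz => (hζ i z hz).1
  have mH2 : ∀ i, ∀ z ∈ 𝓔.toFam.dom i, mean (H2 i) z = 0 := fun i z hz => (hζ i z hz).2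
  have BP1 := B_prim' BH1 pH1
  have BP2 := B_prim' BH2 pH2
  -- the four pieces
  have T1 := EFam.B_smul BP1 h.b1B
  have T2 := EFam.B_smul BP2 h.b2B
  have T3 := EFam.B_smul BX (B_xiB h)
  have T4 := EFam.B_smul BZ (B_xiC h)
  have T1' := EFam.B_le (j' := 1) (m' := 27+n) (l' := 1) T1 (by omega) (by omega) (by omega)
  have T2' := EFam.B_le (j' := 1) (m' := 27+n) (l' := 1) T2 (by omega) (by omega) (by omega)
  have T3' := EFam.B_le (j' := 1) (m' := 27+n) (l' := 1) T3 (by omega) (by omega) (by omega)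
  have T4' := EFam.B_le (j' := 1) (m' := 27+n) (l' := 1) T4 (by omega) (by omega) (by omega)
  have Bv := EFam.B_add (EFam.B_add T1' T2') (EFam.B_add T3' T4')
  refine ⟨_, Bv, ?_, ?_, ?_, ?_, ?_⟩
  · -- periodicity
    intro i x hx t
    have q1 := per_prim (BH1.smooth i) (pH1 i) hx t
    have q2 := per_prim (BH2.smooth i) (pH2 i) hx t
    have q3 := per_X4 hG hE.o12 i x hx t
    have q4 := per_Z4 hG hE.o12 i x hx t
    simp only [q1, q2, q3, q4]
    rfl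
  · -- mean
    intro i z hz
    have hx : z.1 ∈ 𝓔.D i := hz
    rw [mean_add ((T1'.smooth i).add (T2'.smooth i)) ((T3'.smooth i).add (T4'.smooth i)) hx,
      mean_add (T1'.smooth i) (T2'.smooth i) hx, mean_add (T3'.smooth i) (T4'.smooth i) hx]
    have r1 : mean (fun z => prim (H1 i) z • lift (d.b1 i) z) z = 0 := by
      have := mean_smul_vec (D := 𝓔.D i) (d.b1 i) (BP1.smooth i) hx
      rw [mean_prim (BH1.smooth i) hx, zero_smul] at this
      exact this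
    have r2 : mean (fun z => prim (H2 i) z • lift (d.b2 i) z) z = 0 := by
      have := mean_smul_vec (D := 𝓔.D i) (d.b2 i) (BP2.smooth i) hx
      rw [mean_prim (BH2.smooth i) hx, zero_smul] at this
      exact this
    have r3 : mean (fun z => X4 d F i z • xiB (d.f2 i z) (d.f22 i z)) z = 0 := by
      have := mean_smul_vec (D := 𝓔.D i) (fun x => xiB (d.f2 i (x, 0)) (d.f22 i (x, 0)))
        (BX.smooth i) hx
      rw [mean_X4 hE.o12 i hz, zero_smul] at this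
      exact this
    have r4 : mean (fun z => Z4 d F i z • xiC (d.f2 i z) (d.f22 i z)) z = 0 := by
      have := mean_smul_vec (D := 𝓔.D i) (fun x => xiC (d.f2 i (x, 0)) (d.f22 i (x, 0)))
        (BZ.smooth i) hx
      rw [mean_Z4 h hG hE.o12 hE.o22 i hz, zero_smul] at this
      exact this
    rw [r1, r2, r3, r4]; simp
  · -- inner with f2
    intro i z hz
    obtain ⟨p1, p2, p3, p4⟩ := h.b_perp i z hz
    have hg := gram_ne h i hz
    simp only [inner_add_right, real_inner_smul_right, lift]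
    rw [real_inner_comm (d.b1 i z.1), p1, real_inner_comm (d.b2 i z.1), p3,
      real_inner_comm (xiB _ _), g_xiB_B hg, real_inner_comm (xiC _ _), g_xiC_B]
    ring
  · intro i z hz
    obtain ⟨p1, p2, p3, p4⟩ := h.b_perp i z hz
    have hg := gram_ne h i hz
    simp only [inner_add_right, real_inner_smul_right, lift]
    rw [real_inner_comm (d.b1 i z.1), p2, real_inner_comm (d.b2 i z.1), p4,
      real_inner_comm (xiB _ _), g_xiB_C, real_inner_comm (xiC _ _), g_xiC_C hg]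
    ring
  · intro i z hz
    have hx : z.1 ∈ 𝓔.D i := hz
    have ho := 𝓔.toFam.isOpen_dom i
    have hD := 𝓔.isOpen i
    have dP1 := diffAt ho (BP1.smooth i) hz
    have dP2 := diffAt ho (BP2.smooth i) hz
    have dX := diffAt ho (BX.smooth i) hz
    have dZ := diffAt ho (BZ.smooth i) hz
    have db1 := diffAt ho (h.b1B.smooth i) hz
    have db2 := diffAt ho (h.b2B.smooth i) hz
    have dxB := diffAt ho ((B_xiB h).smooth i) hz
    have dxC := diffAt ho ((B_xiC h).smooth i) hz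
    have e1 : pd 2 (prim (H1 i)) z = H1 i z := by
      rw [pd2_prim hD (BH1.smooth i) hx, osc_of_mean_zero (mH1 i z hz)]
    have e2 : pd 2 (prim (H2 i)) z = H2 i z := by
      rw [pd2_prim hD (BH2.smooth i) hx, osc_of_mean_zero (mH2 i z hz)]
    have tB : pd 2 (fun z => xiB (d.f2 i z) (d.f22 i z)) z = 0 :=
      pd2_lift (fun x => xiB (d.f2 i (x, 0)) (d.f22 i (x, 0))) z
    have tC : pd 2 (fun z => xiC (d.f2 i z) (d.f22 i z)) z = 0 :=
      pd2_lift (fun x => xiC (d.f2 i (x, 0)) (d.f22 i (x, 0))) z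
    rw [pd_add ((dP1.fun_smul db1).fun_add (dP2.fun_smul db2))
        ((dX.fun_smul dxB).fun_add (dZ.fun_smul dxC)),
      pd_add (dP1.fun_smul db1) (dP2.fun_smul db2), pd_add (dX.fun_smul dxB) (dZ.fun_smul dxC),
      pd_smul dP1 db1, pd_smul dP2 db2, pd_smul dX dxB, pd_smul dZ dxC, e1, e2, tB, tC,
      pd2_lift, pd2_lift]
    simp only [smul_zero, zero_add, inner_add_right, real_inner_smul_right]
    obtain ⟨q1, q2⟩ := h.Wperp i z hz
    have w1 : (inner ℝ (d.w i z) (lift (d.b1 i) z) : ℝ) = d.p1 i z + d.W1 i z := by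
      simp only [EData.w, inner_add_left, EData.p1, EData.W1, lift]
    have w2 : (inner ℝ (d.w i z) (lift (d.b2 i) z) : ℝ) = d.p2 i z + d.W2 i z := by
      simp only [EData.w, inner_add_left, EData.p2, EData.W2, lift]
    have w3 : (inner ℝ (d.w i z) (xiB (d.f2 i z) (d.f22 i z)) : ℝ) = cB d i z := by
      simp only [EData.w, inner_add_left, g_perp_xiB q1 q2, cB, add_zero]
    have w4 : (inner ℝ (d.w i z) (xiC (d.f2 i z) (d.f22 i z)) : ℝ) = cC d i z := by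
      simp only [EData.w, inner_add_left, g_perp_xiC q1 q2, cC, add_zero]
    rw [w1, w2, w3, w4]
    have hc := circ_eq h i hz
    have key := radial_alg (G4 d F i z) (ζ i z) (d.p1 i z + d.W1 i z) (d.p2 i z + d.W2 i z)
      (d.r2 i z) hc (r2_ne h i hz)
    have hGd : G4 d F i z = (-(2⁻¹ * 𝓔.eps i)) * osc (d.E11 F i) z
      - cB d i z * pd 2 (X4 d F i) z - cC d i z * pd 2 (Z4 d F i) z := rfl
    simp only [hH1, hH2]
    linear_combination key + hGd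

/-- Step4.lean : oscillating correction -/
theorem step4' (h : d.Hyp) (n : ℕ) (hG : d.Good F)
    (hE : d.Err (15+n) (16+n) (15+n) (24+n) (27+n) (28+n) F) :
    ∃ F', d.Good F' ∧ d.Err (16+n) (16+n) (16+n) (24+n) (28+n) (28+n) F' := by
  obtain ⟨v, Bv, pv, mv, f2v, f22v, wv⟩ := step4_aux h n hG hE
  have Bv' := EFam.B_le (j' := 1) (m' := 23) (l' := 1) Bv (by omega) (by omega) (by omega)
  have hmz : 𝓔.toFam.B (𝓔.W 2 23 1) (fun i => mean (v i)) := by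
    refine (EFam.B_zero (V := E4)).congr (fun i z hz => ?_)
    exact (mv i z hz).symm
  have hG' := Good_add hG pv Bv.smooth (B_osc' Bv') hmz
  refine ⟨_, hG', ?_⟩
  have ho := fun i => 𝓔.toFam.isOpen_dom i
  have hD := fun i => 𝓔.isOpen i
  -- the pieces
  have BX := B_X4 hG hE.o12
  have B0v := EFam.B_pd Bv 0
  have B1v := EFam.B_pd Bv 1
  have BAv : 𝓔.toFam.B (𝓔.W 1 (11+n) 2) (𝓔.A1 v) := by
    have : 𝓔.toFam.B (𝓔.W 1 ((11+n)+16) 1) v := EFam.B_le Bv (by omega) (by omega) (by omega)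
    exact EFam.B_A1 this
  have BRR := B_RR h hG
  have BSS := B_SS h hG
  -- derivatives of the new state
  have A1' : ∀ i, ∀ z ∈ 𝓔.toFam.dom i, 𝓔.A1 (fun i z => F i z + v i z) i z
      = 𝓔.A1 F i z + 𝓔.A1 v i z := by
    intro i z hz
    have d1 := diffAt (ho i) (hG.sm i) hz
    have d2 := diffAt (ho i) (Bv.smooth i) hz
    simp only [EFam.A1]
    rw [pd_add d1 d2, pd_add d1 d2, smul_add]; abel
  have A2' : ∀ i, ∀ z ∈ 𝓔.toFam.dom i, 𝓔.A2 (fun i z => F i z + v i z) i z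
      = 𝓔.A2 F i z + pd 1 (v i) z := by
    intro i z hz
    have d1 := diffAt (ho i) (hG.sm i) hz
    have d2 := diffAt (ho i) (Bv.smooth i) hz
    simp only [EFam.A2]
    rw [pd_add d1 d2]
  -- inner products
  have I1 : ∀ i, ∀ z ∈ 𝓔.toFam.dom i, inner ℝ (d.w i z) (𝓔.A1 v i z)
      = inner ℝ (d.w i z) (pd 0 (v i) z) - osc (d.E11 F i) z / 2 := by
    intro i z hz
    have he := (EFam.eps_pos (𝓔 := 𝓔) i).ne'
    simp only [EFam.A1, inner_add_right, real_inner_smul_right]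
    rw [wv i z hz]
    field_simp
    ring
  have df2 : ∀ i, ∀ z ∈ 𝓔.toFam.dom i, DifferentiableAt ℝ (d.f2 i) z := fun i z hz =>
    diffAt (ho i) (h.f2B.smooth i) hz
  have dv : ∀ i, ∀ z ∈ 𝓔.toFam.dom i, DifferentiableAt ℝ (v i) z := fun i z hz =>
    diffAt (ho i) (Bv.smooth i) hz
  have P : ∀ i, ∀ z ∈ 𝓔.toFam.dom i, ∀ j, inner ℝ (d.f2 i z) (pd j (v i) z)
      = pd j (X4 d F i) z - inner ℝ (pd j (d.f2 i) z) (v i z) := by
    intro i z hz j
    have e : pd j (fun z => (inner ℝ (d.f2 i z) (v i z) : ℝ)) z = pd j (X4 d F i) z :=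
      pd_eqOn (ho i) (fun z hz => f2v i z hz) j hz
    rw [pd_inner (df2 i z hz) (dv i z hz)] at e
    linarith
  have I2 : ∀ i, ∀ z ∈ 𝓔.toFam.dom i, inner ℝ (d.f2 i z) (𝓔.A1 v i z)
      = (pd 0 (X4 d F i) z - inner ℝ (d.f12 i z) (v i z)) - osc (d.E12 F i) z := by
    intro i z hz
    have he := (EFam.eps_pos (𝓔 := 𝓔) i).ne'
    simp only [EFam.A1, inner_add_right, real_inner_smul_right]
    rw [P i z hz 0, P i z hz 2, pd0_f2, pd2_f2, inner_zero_left, sub_zero,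
      pd2_X4 h hG hE.o12 i hz]
    field_simp
    ring
  have I3 : ∀ i, ∀ z ∈ 𝓔.toFam.dom i, inner ℝ (d.f2 i z) (pd 1 (v i) z)
      = - osc (d.E22 F i) z / 2 := by
    intro i z hz
    rw [P i z hz 1, pd1_f2, f22v i z hz]
    simp only [Z4]; ring
  -- the three errors
  have K11 : ∀ i, EqOn (fun z => (2 * inner ℝ (d.f1 i z) (pd 0 (v i) z) : ℝ)
      + (mean (d.E11 F i) z + 2 * inner ℝ (d.Wl i z) (pd 0 (v i) z)
        + 2 * inner ℝ (RR d F i z) (𝓔.A1 v i z) + inner ℝ (𝓔.A1 v i z) (𝓔.A1 v i z)))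
      (d.E11 (fun i z => F i z + v i z) i) (𝓔.toFam.dom i) := by
    intro i z hz
    have e := e11_alg (𝓔.A1 F i z) (𝓔.A1 v i z) (d.w i z) (d.E11 F i z) (osc (d.E11 F i) z)
      (inner ℝ (d.f1 i z) (d.f1 i z) + 𝓔.a i z.1 ^ 2 + d.G11 i z.1)
      (inner ℝ (d.w i z) (pd 0 (v i) z)) rfl (I1 i z hz)
    have e' : d.E11 (fun i z => F i z + v i z) i z
      = inner ℝ (𝓔.A1 F i z + 𝓔.A1 v i z) (𝓔.A1 F i z + 𝓔.A1 v i z)
        - (inner ℝ (d.f1 i z) (d.f1 i z) + 𝓔.a i z.1 ^ 2 + d.G11 i z.1) := by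
      simp only [EData.E11, A1' i z hz]
    have hm : d.E11 F i z - osc (d.E11 F i) z = mean (d.E11 F i) z := by simp [osc]
    have hR : 𝓔.A1 F i z - d.w i z = RR d F i z := by rw [A1_F h hG i hz]; abel
    rw [e', e, hm, hR]
    simp only [EData.w, inner_add_left]
    ring
  have K12 : ∀ i, EqOn (fun z => ((pd 0 (X4 d F i) z - inner ℝ (d.f12 i z) (v i z)
        + inner ℝ (d.f1 i z) (pd 1 (v i) z) : ℝ))
      + (mean (d.E12 F i) z + inner ℝ (SS d F i z) (𝓔.A1 v i z)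
        + inner ℝ (𝓔.A1 F i z - d.f1 i z) (pd 1 (v i) z)
        + inner ℝ (𝓔.A1 v i z) (pd 1 (v i) z)))
      (d.E12 (fun i z => F i z + v i z) i) (𝓔.toFam.dom i) := by
    intro i z hz
    have e := e12_alg (𝓔.A1 F i z) (𝓔.A1 v i z) (𝓔.A2 F i z) (pd 1 (v i) z) (d.f2 i z)
      (d.E12 F i z) (osc (d.E12 F i) z) (inner ℝ (d.f1 i z) (d.f2 i z) + d.G12 i z.1)
      (pd 0 (X4 d F i) z - inner ℝ (d.f12 i z) (v i z)) rfl (I2 i z hz)
    have e' : d.E12 (fun i z => F i z + v i z) i z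
      = inner ℝ (𝓔.A1 F i z + 𝓔.A1 v i z) (𝓔.A2 F i z + pd 1 (v i) z)
        - (inner ℝ (d.f1 i z) (d.f2 i z) + d.G12 i z.1) := by
      simp only [EData.E12, A1' i z hz, A2' i z hz]
    have hm : d.E12 F i z - osc (d.E12 F i) z = mean (d.E12 F i) z := by simp [osc]
    have hR : 𝓔.A2 F i z - d.f2 i z = SS d F i z := by rw [A2_F h hG i hz]; abel
    rw [e', e, hm, hR]
    simp only [inner_sub_left]
    ring
  have K22 : ∀ i, EqOn (fun z => (0 : ℝ)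
      + (mean (d.E22 F i) z + 2 * inner ℝ (SS d F i z) (pd 1 (v i) z)
        + inner ℝ (pd 1 (v i) z) (pd 1 (v i) z)))
      (d.E22 (fun i z => F i z + v i z) i) (𝓔.toFam.dom i) := by
    intro i z hz
    have e := e22_alg (𝓔.A2 F i z) (pd 1 (v i) z) (d.f2 i z)
      (d.E22 F i z) (osc (d.E22 F i) z) (inner ℝ (d.f2 i z) (d.f2 i z) + d.G22 i z.1)
      rfl (I3 i z hz)
    have e' : d.E22 (fun i z => F i z + v i z) i z
      = inner ℝ (𝓔.A2 F i z + pd 1 (v i) z) (𝓔.A2 F i z + pd 1 (v i) z)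
        - (inner ℝ (d.f2 i z) (d.f2 i z) + d.G22 i z.1) := by
      simp only [EData.E22, A2' i z hz]
    have hm : d.E22 F i z - osc (d.E22 F i) z = mean (d.E22 F i) z := by simp [osc]
    have hR : 𝓔.A2 F i z - d.f2 i z = SS d F i z := by rw [A2_F h hG i hz]; abel
    rw [e', e, hm, hR]
    ring
  -- means
  have mpd : ∀ i, ∀ z ∈ 𝓔.toFam.dom i, ∀ j : Fin 3, j ≠ 2 → mean (pd j (v i)) z = 0 :=
    fun i z hz j hj => mean_pd_zero (hD i) (Bv.smooth i) (fun z hz => mv i z hz) j hj hz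
  have mf1 : ∀ i, ∀ z ∈ 𝓔.toFam.dom i, ∀ j : Fin 3, j ≠ 2 →
      mean (fun z => (inner ℝ (d.f1 i z) (pd j (v i) z) : ℝ)) z = 0 := by
    intro i z hz j hj
    have := mean_inner_lift (D := 𝓔.D i) (fun x => d.f1 i (x, 0))
      (pd_contDiffOn (ho i) (Bv.smooth i) j) (z := z) hz
    rw [mpd i z hz j hj, inner_zero_right] at this
    exact this
  -- classes
  have a11 : 𝓔.toFam.B (𝓔.W 1 (16+n) 0)
      (fun i z => (2 * inner ℝ (d.f1 i z) (pd 0 (v i) z) : ℝ)) :=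
    EFam.B_cmul 2 (EFam.B_innerR h.f1B B0v (by omega) (by omega) (by omega))
  have b11 : 𝓔.toFam.B (𝓔.W 2 (16+n) 0) (fun i z => mean (d.E11 F i) z
        + 2 * inner ℝ (d.Wl i z) (pd 0 (v i) z)
        + 2 * inner ℝ (RR d F i z) (𝓔.A1 v i z) + inner ℝ (𝓔.A1 v i z) (𝓔.A1 v i z)) :=
    EFam.B_add (EFam.B_add (EFam.B_add hE.m11
      (EFam.B_cmul 2 (EFam.B_innerR h.WB B0v (by omega) (by omega) (by omega))))
      (EFam.B_cmul 2 (EFam.B_innerR BRR BAv (by omega) (by omega) (by omega))))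
      (EFam.B_innerR BAv BAv (by omega) (by omega) (by omega))
  have a12 : 𝓔.toFam.B (𝓔.W 1 (16+n) 0) (fun i z => (pd 0 (X4 d F i) z
        - inner ℝ (d.f12 i z) (v i z) + inner ℝ (d.f1 i z) (pd 1 (v i) z) : ℝ)) :=
    EFam.B_add (EFam.B_sub (EFam.B_le (EFam.B_pd BX 0) (by omega) (by omega) (by omega))
      (EFam.B_innerR h.f12B Bv (by omega) (by omega) (by omega)))
      (EFam.B_innerR h.f1B B1v (by omega) (by omega) (by omega))
  have b12 : 𝓔.toFam.B (𝓔.W 2 (24+n) 0) (fun i z => mean (d.E12 F i) z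
        + inner ℝ (SS d F i z) (𝓔.A1 v i z)
        + inner ℝ (𝓔.A1 F i z - d.f1 i z) (pd 1 (v i) z)
        + inner ℝ (𝓔.A1 v i z) (pd 1 (v i) z)) :=
    EFam.B_add (EFam.B_add (EFam.B_add hE.m12
      (EFam.B_innerR BSS BAv (by omega) (by omega) (by omega)))
      (EFam.B_innerR (B_A1F_sub h hG) B1v (by omega) (by omega) (by omega)))
      (EFam.B_innerR BAv B1v (by omega) (by omega) (by omega))
  have b22 : 𝓔.toFam.B (𝓔.W 2 (28+n) 0) (fun i z => mean (d.E22 F i) z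
        + 2 * inner ℝ (SS d F i z) (pd 1 (v i) z) + inner ℝ (pd 1 (v i) z) (pd 1 (v i) z)) :=
    EFam.B_add (EFam.B_add hE.m22
      (EFam.B_cmul 2 (EFam.B_innerR BSS B1v (by omega) (by omega) (by omega))))
      (EFam.B_innerR B1v B1v (by omega) (by omega) (by omega))
  -- mean zero parts
  have z11 : ∀ i, ∀ z ∈ 𝓔.toFam.dom i,
      mean (fun z => (2 * inner ℝ (d.f1 i z) (pd 0 (v i) z) : ℝ)) z = 0 := fun i z hz => by
    rw [mean_const_mul, mf1 i z hz 0 (by decide), mul_zero]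
  have z12 : ∀ i, ∀ z ∈ 𝓔.toFam.dom i,
      mean (fun z => (pd 0 (X4 d F i) z
        - inner ℝ (d.f12 i z) (v i z) + inner ℝ (d.f1 i z) (pd 1 (v i) z) : ℝ)) z = 0 := by
    intro i z hz
    have hx : z.1 ∈ 𝓔.D i := hz
    have s1 : ContDiffOn ℝ ∞ (pd 0 (X4 d F i)) (cyl (𝓔.D i)) :=
      pd_contDiffOn (ho i) (BX.smooth i) 0
    have s2 : ContDiffOn ℝ ∞ (fun z => (inner ℝ (d.f12 i z) (v i z) : ℝ)) (cyl (𝓔.D i)) :=
      (h.f12B.smooth i).inner ℝ (Bv.smooth i)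
    have s3 : ContDiffOn ℝ ∞ (fun z => (inner ℝ (d.f1 i z) (pd 1 (v i) z) : ℝ))
        (cyl (𝓔.D i)) :=
      (h.f1B.smooth i).inner ℝ (pd_contDiffOn (ho i) (Bv.smooth i) 1)
    have m2 : mean (fun z => (inner ℝ (d.f12 i z) (v i z) : ℝ)) z = 0 := by
      have := mean_inner_lift (D := 𝓔.D i) (fun x => d.f12 i (x, 0)) (Bv.smooth i) (z := z) hz
      rw [mv i z hz, inner_zero_right] at this
      exact this
    rw [mean_add (s1.sub s2) s3 hx, mean_sub s1 s2 hx, m2, mf1 i z hz 1 (by decide),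
      mean_pd_zero (hD i) (BX.smooth i) (fun z hz => mean_X4 hE.o12 i hz) 0 (by decide) hx]
    simp
  have R11 := split a11 b11 z11 (by omega) (by omega) (by omega)
  have R12 := split a12 b12 z12 (by omega) (by omega) (by omega)
  have R22 := split (EFam.B_zero (V := ℝ) (j := 1) (m := 28+n) (l := 0)) b22
    (fun i z _ => mean_zero z) (by omega) (by omega) (by omega)
  refine ⟨?_, ?_, ?_, ?_, ?_, ?_⟩
  · exact R11.1.congr (fun i z hz => osc_congr (K11 i) hz)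
  · exact R11.2.congr (fun i z hz => mean_congr (K11 i) hz)
  · exact R12.1.congr (fun i z hz => osc_congr (K12 i) hz)
  · exact R12.2.congr (fun i z hz => mean_congr (K12 i) hz)
  · exact R22.1.congr (fun i z hz => osc_congr (K22 i) hz)
  · exact R22.2.congr (fun i z hz => mean_congr (K22 i) hz)

end step4
end Crest.Agent.R216.TE.S4

namespace Crest.Agent.R216.TE.EData

/-- Step4.lean : oscillating correction -/
theorem step4 {𝓔 : EFam} {d : EData 𝓔} (h : d.Hyp) (n : ℕ) {F : 𝓔.I → Q → E4} (hG : d.Good F)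
    (hE : d.Err (15+n) (16+n) (15+n) (24+n) (27+n) (28+n) F) :
    ∃ F', d.Good F' ∧ d.Err (16+n) (16+n) (16+n) (24+n) (28+n) (28+n) F' :=
  S4.step4' h n hG hE

end Crest.Agent.R216.TE.EData
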