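import Crest.Agent.R216.Step0
import Crest.Agent.R216.Step4_Mg
import Crest.Agent.R216.StageG
import Crest.Agent.R216.StageBudget_Mg
import Crest.Agent.R216.MicroHyp_Mg
import Crest.Agent.R216.Cut
import Crest.Agent.R216.MacData
import Crest.Agent.R216.MacAmp
import Crest.Agent.R216.EngGood
import Crest.Agent.R216.MacFrame
import Crest.Agent.R216.MacLoop

-- ▼ part R216/Engine
section

/-!
# Row 216, Theorem E: the engine (assembly of the base state and the four steps).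
-/

open Set Topology MeasureTheory
open scoped ContDiff

namespace Crest.Agent.R216.TE
namespace EData
variable {𝓔 : EFam} {d : EData 𝓔}

/-- **The engine**: states with errors of arbitrarily high order. -/
theorem engine (h : d.Hyp) (n : ℕ) : ∃ F, d.Good F ∧ d.Err0 n F := by
  induction n with
  | zero => exact ⟨d.base, step0 h⟩
  | succ n ih =>
    obtain ⟨F, hG, hE⟩ := ih
    obtain ⟨F1, hG1, hE1⟩ := step1 h n hG hE
    obtain ⟨F2, hG2, hE2⟩ := step2 h n hG1 hE1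
    obtain ⟨F3, hG3, hE3⟩ := step3 h n hG2 hE2
    obtain ⟨F4, hG4, hE4⟩ := step4 h n hG3 hE3
    refine ⟨F4, hG4, ?_⟩
    have e : ∀ k, k + 1 + n = k + (n + 1) := fun k => by ring
    simpa [Err0, ← e] using hE4

end EData
end Crest.Agent.R216.TE
end

-- ▼ part R216/StageFin
section

/-!
# Row 216, Theorem E, module STAGE: assembly.
-/

set_option linter.unusedSectionVars false
set_option linter.unusedVariables false

open Set Topology MeasureTheory Metric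
open scoped ContDiff

namespace Crest.Agent.R216.TE
namespace SPar

/-- engine data of the stage -/
noncomputable def dat (P : SPar) : EData P.efam :=
  microData P.efam (fun i : P.Idx => i.ft)
    (fun i : P.Idx => Smooth.P P.K (i.L ^ 2)⁻¹ i.R11)
    (fun i : P.Idx => Smooth.P P.K (i.L ^ 2)⁻¹ i.R12)
    (fun i : P.Idx => Smooth.P P.K (i.L ^ 2)⁻¹ i.R22)

/-- quantitative independence of the smoothed maps -/
def Low (P : SPar) : Prop := ∀ i : P.Idx, ∀ x ∈ P.S.W,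
  P.c0 / 2 ≤ gram (d2 i.ft x) (d2 (d2 i.ft) x) ∧
  Real.sqrt (P.c0 / 2) ≤ ‖ppr (d1 i.ft x) (d2 i.ft x) (d2 (d2 i.ft) x)‖

theorem hyp (P : SPar) (hL1 : P.Large1) (hlow : P.Low) : P.dat.Hyp :=
  microData_hyp P.efam _ _ _ _ (fun i => Idx.ft_sm i) P.B_d1 P.B_d2 P.B_d12 P.B_d22
    ⟨P.c0/2, by have := P.c0pos; positivity, fun i x hx => (hlow i x (Idx.D_sub_W i hx)).1⟩
    ⟨Real.sqrt (P.c0/2), Real.sqrt_pos.2 (by have := P.c0pos; positivity),
      fun i x hx => (hlow i x (Idx.D_sub_W i hx)).2⟩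
    (P.G_class hL1 _ (fun i => i.R11_smooth.continuous) (fun i x => i.R11_le x)
      (fun i x h => i.R11_zero h))
    (P.G_class hL1 _ (fun i => i.R12_smooth.continuous) (fun i x => i.R12_le x)
      (fun i x h => i.R12_zero h))
    (P.G_class hL1 _ (fun i => i.R22_smooth.continuous) (fun i x => i.R22_le x)
      (fun i x h => i.R22_zero h))
    P.star' P.bdd2'

theorem cutHyp (P : SPar) (hL1 : P.Large1) (hlow : P.Low) {F : P.efam.I → Q → E4}
    (hF : P.dat.Good F) : P.dat.CutHyp F (fun i => P.th i) where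
  hyp := P.hyp hL1 hlow
  good := hF
  fsm := fun i => Idx.ft_sm i
  θsm := fun i => P.th_smooth i
  θsupp := fun i => P.th_supp i
  θ_nonneg := fun i x => P.th_nonneg i x
  θ_le := fun i x => P.th_le i x
  θB := P.th_B

/-- the correction -/
noncomputable def cv (P : SPar) (F : P.efam.I → Q → E4) (i : P.Idx) : X2 → E4 :=
  fun x => P.dat.cutU F (fun i => P.th i) i (x, x.1 / P.efam.eps i + 0)

lemma inner_alg (A At V B Bt W : E4) : (inner ℝ (A + V) (B + W) : ℝ) =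
    inner ℝ A B + (inner ℝ (At + V) (Bt + W) - inner ℝ At Bt) + inner ℝ V (B - Bt)
      + inner ℝ (A - At) W := by
  simp only [inner_add_left, inner_add_right, inner_sub_left, inner_sub_right]
  ring

lemma inner_alg_le {A At V B Bt W : E4} {s M R e : ℝ} (hV : ‖V‖ ≤ M) (hW : ‖W‖ ≤ M)
    (hA : ‖A - At‖ ≤ s) (hB : ‖B - Bt‖ ≤ s) (hM : 0 ≤ M) (hs : 0 ≤ s)
    (h : |(inner ℝ (At + V) (Bt + W) : ℝ) - (inner ℝ At Bt + R)| ≤ e) :
    |(inner ℝ (A + V) (B + W) : ℝ) - (inner ℝ A B + R)| ≤ e + 2 * M * s := by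
  have h1 : |(inner ℝ V (B - Bt) : ℝ)| ≤ M * s :=
    (abs_real_inner_le_norm _ _).trans (mul_le_mul hV hB (norm_nonneg _) hM)
  have h2 : |(inner ℝ (A - At) W : ℝ)| ≤ s * M :=
    (abs_real_inner_le_norm _ _).trans (mul_le_mul hA hW (norm_nonneg _) hs)
  have e1 : (inner ℝ (A + V) (B + W) : ℝ) - (inner ℝ A B + R) =
      ((inner ℝ (At + V) (Bt + W) : ℝ) - (inner ℝ At Bt + R)) + inner ℝ V (B - Bt)
        + inner ℝ (A - At) W := by
    rw [inner_alg A At V B Bt W]; ring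
  rw [e1]
  calc _ ≤ |((inner ℝ (At + V) (Bt + W) : ℝ) - (inner ℝ At Bt + R))| + |(inner ℝ V (B - Bt) : ℝ)|
        + |(inner ℝ (A - At) W : ℝ)| := (abs_add_le _ _).trans (add_le_add_left (abs_add_le _ _) _)
    _ ≤ e + M * s + s * M := add_le_add (add_le_add h h1) h2
    _ = _ := by ring

section main
variable {P : SPar} {F : P.efam.I → Q → E4}

lemma cv_smooth (h : P.dat.CutHyp F (fun i => P.th i)) (i : P.Idx) : ContDiff ℝ ∞ (P.cv F i) :=
  h.corr_smooth i 0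

lemma cutMap_eq (F : P.efam.I → Q → E4) (i : P.Idx) :
    P.dat.cutMap F (fun i => P.th i) i 0 = fun x => i.ft x + P.cv F i x := rfl

lemma d1_add' {f g : X2 → E4} (hf : ContDiff ℝ ∞ f) (hg : ContDiff ℝ ∞ g) (x : X2) :
    d1 (fun y => f y + g y) x = d1 f x + d1 g x := by
  unfold d1
  rw [fderiv_fun_add (hf.differentiable (by simp) x) (hg.differentiable (by simp) x)]
  rfl

lemma d2_add' {f g : X2 → E4} (hf : ContDiff ℝ ∞ f) (hg : ContDiff ℝ ∞ g) (x : X2) :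
    d2 (fun y => f y + g y) x = d2 f x + d2 g x := by
  unfold d2
  rw [fderiv_fun_add (hf.differentiable (by simp) x) (hg.differentiable (by simp) x)]
  rfl

/-- the correction vanishes near points off the support of the cut-off -/
lemma cv_zero (h : P.dat.CutHyp F (fun i => P.th i)) (i : P.Idx) {x : X2} (hx : x ∉ i.D) :
    P.cv F i =ᶠ[𝓝 x] fun _ => 0 := by
  have h1 : x ∉ tsupport (P.th i) := fun hc => hx (P.th_supp i hc)
  have : ∀ᶠ y in 𝓝 x, y ∉ tsupport (P.th i) := (isClosed_tsupport _).isOpen_compl.mem_nhds h1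
  filter_upwards [this] with y hy
  exact h.zero_off i 0 hy

lemma cv_zero' (h : P.dat.CutHyp F (fun i => P.th i)) (i : P.Idx) {x : X2} (hx : x ∉ i.D) :
    P.cv F i x = 0 := (cv_zero h i hx).self_of_nhds

/-- first derivatives of the correction -/
lemma cv_d (h : P.dat.CutHyp F (fun i => P.th i)) : ∃ C : ℝ, 0 < C ∧ ∀ (i : P.Idx) (x : X2),
    x ∈ i.D → ‖d1 (P.cv F i) x‖ ≤ C * i.a x ∧ ‖d2 (P.cv F i) x‖ ≤ C * i.a x := by
  obtain ⟨C, hC, hb⟩ := h.corr_crude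
  refine ⟨C, hC, fun i x hx => ?_⟩
  have := hb i 0 x hx
  rw [cutMap_eq, d1_add' (Idx.ft_sm i) (cv_smooth h i), d2_add' (Idx.ft_sm i) (cv_smooth h i)] at this
  have e1 : d1 (P.dat.f i) x = d1 i.ft x := rfl
  have e2 : d2 (P.dat.f i) x = d2 i.ft x := rfl
  rw [e1, e2, add_sub_cancel_left, add_sub_cancel_left] at this
  exact this

lemma eps_eq (i : P.Idx) : P.efam.eps i = ((i.L ^ 20)⁻¹) ^ 16 := rfl

lemma Lam_eq (i : P.Idx) : P.efam.Lam i = i.L ^ 2 := rfl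

lemma eps_le (i : P.Idx) : ((i.L ^ 20)⁻¹) ^ 16 ≤ 1 :=
  pow_le_one₀ (inv_nonneg.2 (pow_nonneg (Idx.L_pos i).le _))
    (inv_le_one_of_one_le₀ (one_le_pow₀ (Idx.L_one i)))

/-- bounds of all derivatives of the correction -/
theorem cv_iter (h : P.dat.CutHyp F (fun i => P.th i)) (j : ℕ) : ∃ C : ℝ, 0 < C ∧
    ∀ (i : P.Idx) (x : X2), ‖iteratedFDeriv ℝ j (P.cv F i) x‖ ≤
      C * i.L ^ (400 * j) / i.L ^ (400 * P.k) := by
  obtain ⟨C, hC, hb⟩ := h.corr_iter (fun _ => 0) j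
  obtain ⟨C', hC', ha⟩ := P.a_le_exp
  refine ⟨C * C', by positivity, fun i x => ?_⟩
  have hLp := Idx.L_pos i
  have hL1 := Idx.L_one i
  by_cases hx : x ∈ i.D
  · have h1 := hb i x hx
    refine h1.trans ?_
    rw [eps_eq, Lam_eq]
    have e1 : i.L ^ 2 * (((i.L ^ 20)⁻¹) ^ 16)⁻¹ = i.L ^ 322 := by
      rw [inv_pow, inv_inv, ← pow_mul, ← pow_add]
    have e2 := eps_le i
    have e3 : i.a x ≤ C' * (i.L ^ (400 * P.k))⁻¹ := by
      have := exp_l i 1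
      rw [Nat.cast_one, one_mul, one_mul] at this
      rw [← this]
      exact ha i x (Idx.D_sub_W i hx)
    have h0 : 0 ≤ i.a x := Idx.a_nonneg i x
    have e4 : i.a x * ((i.L ^ 20)⁻¹) ^ 16 ≤ C' * (i.L ^ (400 * P.k))⁻¹ := by
      calc i.a x * ((i.L ^ 20)⁻¹) ^ 16 ≤ i.a x * 1 := mul_le_mul_of_nonneg_left e2 h0
        _ = i.a x := mul_one _
        _ ≤ _ := e3
    have e5 : (i.L ^ 322) ^ j ≤ i.L ^ (400 * j) := by
      rw [← pow_mul]
      exact pow_le_pow_right₀ hL1 (by omega)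
    rw [e1]
    show C * ((i.L ^ 322) ^ j * (i.a x * ((i.L ^ 20)⁻¹) ^ 16)) ≤ _
    calc C * ((i.L ^ 322) ^ j * (i.a x * ((i.L ^ 20)⁻¹) ^ 16))
        ≤ C * (i.L ^ (400 * j) * (C' * (i.L ^ (400 * P.k))⁻¹)) := by
          refine mul_le_mul_of_nonneg_left ?_ hC.le
          refine mul_le_mul e5 e4 ?_ (by positivity)
          exact mul_nonneg h0 (by positivity)
      _ = _ := by rw [div_eq_mul_inv]; ring
  · have e := (cv_zero h i hx).iteratedFDeriv ℝ j |>.self_of_nhds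
    rw [e, iteratedFDeriv_fun_zero]
    simp only [Pi.zero_apply, norm_zero]
    positivity

/-- the new target -/
noncomputable def T11 (P : SPar) (i : P.Idx) (x : X2) : ℝ :=
  inner ℝ (d1 P.S.f0 x) (d1 P.S.f0 x) + P.S.A x ^ 2 * (1 - Prof.kap i.l' (P.S.u x))

lemma tri {X Y R R' T e1 e2 : ℝ} (h1 : |X - (Y + R')| ≤ e1) (h2 : |R' - R| ≤ e2)
    (hT : T = Y + R) : |X - T| ≤ e1 + e2 := by
  have : X - T = (X - (Y + R')) + (R' - R) := by rw [hT]; ring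
  rw [this]
  exact (abs_add_le _ _).trans (add_le_add h1 h2)

/-- the error of the stage -/
noncomputable def er (P : SPar) (i : P.Idx) (C : ℝ) : ℝ :=
  C * (i.L ^ 20)⁻¹ ^ (15 + 192000 * (P.k + 1)) + C * Real.exp (-(14 * i.l')) +
      C * (i.L ^ 4 * (i.L)⁻¹ ^ P.K)

lemma er_ge {P : SPar} (i : P.Idx) {C a b c : ℝ} (ha : a ≤ C) (hb : b ≤ C) (hc : c ≤ C) :
    a * (i.L ^ 20)⁻¹ ^ (15 + 192000 * (P.k + 1)) + b * Real.exp (-(14 * i.l')) +
      c * (i.L ^ 4 * (i.L)⁻¹ ^ P.K) ≤ P.er i C := by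
  have hLp := Idx.L_pos i
  have h1 : 0 ≤ (i.L ^ 20)⁻¹ ^ (15 + 192000 * (P.k + 1)) :=
    pow_nonneg (inv_nonneg.2 (pow_nonneg hLp.le _)) _
  have h2 : 0 ≤ i.L ^ 4 * (i.L)⁻¹ ^ P.K :=
    mul_nonneg (pow_nonneg hLp.le _) (pow_nonneg (inv_nonneg.2 hLp.le) _)
  unfold er
  have e1 := mul_le_mul_of_nonneg_right ha h1
  have e2 := mul_le_mul_of_nonneg_right hb (Real.exp_pos (-(14 * i.l'))).le
  have e3 := mul_le_mul_of_nonneg_right hc h2
  linarith

theorem met (h : P.dat.CutHyp F (fun i => P.th i))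
    (hE : P.dat.Err0 (192000 * (P.k + 1)) F) : ∃ C : ℝ, ∀ (i : P.Idx) (x : X2),
    |(inner ℝ (d1 i.f x + d1 (P.cv F i) x) (d1 i.f x + d1 (P.cv F i) x) : ℝ) - P.T11 i x|
      ≤ P.er i C ∧
    |(inner ℝ (d1 i.f x + d1 (P.cv F i) x) (d2 i.f x + d2 (P.cv F i) x) : ℝ)
      - inner ℝ (d1 P.S.f0 x) (d2 P.S.f0 x)| ≤ P.er i C ∧
    |(inner ℝ (d2 i.f x + d2 (P.cv F i) x) (d2 i.f x + d2 (P.cv F i) x) : ℝ)
      - inner ℝ (d2 P.S.f0 x) (d2 P.S.f0 x)| ≤ P.er i C := by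
  obtain ⟨C1, hC1, hone⟩ := h.metric_one hE
  obtain ⟨C2, hC2, hcr⟩ := h.metric_crude
  obtain ⟨C3, hC3, hd⟩ := cv_d h
  obtain ⟨C4, hC4, hR11⟩ := P.close_R0 (fun i => i.R11) (fun i => i.R11_smooth) P.R11_bd
  obtain ⟨C5, hC5, hR12⟩ := P.close_R0 (fun i => i.R12) (fun i => i.R12_smooth) P.R12_bd
  obtain ⟨C6, hC6, hR22⟩ := P.close_R0 (fun i => i.R22) (fun i => i.R22_smooth) P.R22_bd
  obtain ⟨C7, hC7, hfar⟩ := P.far
  obtain ⟨C8, hC8, htail⟩ := P.a_le_tail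
  obtain ⟨C9, hC9, hexp⟩ := P.a_le_exp
  set C : ℝ := C1 + C2 * C8 + C7 + C4 + C5 + C6 + 2 * (C3 * C9) with hC
  have hp1 : 0 < C2 * C8 := mul_pos hC2 hC8
  have hp2 : 0 < C3 * C9 := mul_pos hC3 hC9
  refine ⟨C, fun i x => ?_⟩
  have hLp := Idx.L_pos i
  have hL1 := Idx.L_one i
  have hS0 : 0 ≤ (i.L)⁻¹ ^ P.K := pow_nonneg (inv_nonneg.2 hLp.le) _
  have hs0 : 0 ≤ i.L ^ 2 * (i.L)⁻¹ ^ P.K := mul_nonneg (pow_nonneg hLp.le _) hS0
  have hs1 : i.L ^ 2 * (i.L)⁻¹ ^ P.K ≤ i.L ^ 4 * (i.L)⁻¹ ^ P.K :=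
    mul_le_mul_of_nonneg_right (pow_le_pow_right₀ hL1 (by norm_num)) hS0
  have h28 : Real.exp (-(28 * i.l')) ≤ Real.exp (-(14 * i.l')) :=
    Real.exp_le_exp.2 (by have := Idx.l'_pos i; linarith)
  by_cases hx : x ∈ i.D
  · have hxW := Idx.D_sub_W i hx
    have hcl := Idx.close_all i hxW
    have hM : ∀ {y : E4}, ‖y‖ ≤ C3 * i.a x → ‖y‖ ≤ C3 * C9 := fun {y} hy => hy.trans
      (mul_le_mul_of_nonneg_left ((hexp i x hxW).trans (mul_le_of_le_one_right hC9.le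
        (Real.exp_le_one_iff.2 (by have := Idx.l_pos i; linarith)))) hC3.le)
    have hV1 := hM (hd i x hx).1
    have hV2 := hM (hd i x hx).2
    have hA1 : ‖d1 i.f x - d1 i.ft x‖ ≤ i.L ^ 2 * (i.L)⁻¹ ^ P.K := by
      rw [norm_sub_rev]; exact hcl.1
    have hA2 : ‖d2 i.f x - d2 i.ft x‖ ≤ i.L ^ 2 * (i.L)⁻¹ ^ P.K := by
      rw [norm_sub_rev]; exact hcl.2.1
    rcases le_or_gt (i.Kc)⁻¹ (2 * i.l' * P.S.u x - 1) with hu | hu
    · -- the cut-off is `1`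
      have h1 := hone i 0 x hx (P.th_one i hu)
      rw [cutMap_eq, d1_add' (Idx.ft_sm i) (cv_smooth h i),
        d2_add' (Idx.ft_sm i) (cv_smooth h i)] at h1
      obtain ⟨m11, m12, m22⟩ := h1
      have eη : P.efam.η i = (i.L ^ 20)⁻¹ := rfl
      rw [eη] at m11 m12 m22
      have m11' : |(inner ℝ (d1 i.ft x + d1 (P.cv F i) x) (d1 i.ft x + d1 (P.cv F i) x) : ℝ)
          - (inner ℝ (d1 i.ft x) (d1 i.ft x) + (i.a x ^ 2 + Smooth.P P.K (i.L ^ 2)⁻¹ i.R11 x))|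
          ≤ C1 * (i.L ^ 20)⁻¹ ^ (15 + 192000 * (P.k + 1)) := by
        rw [← add_assoc]; exact m11
      have r11 := tri (inner_alg_le hV1 hV1 hA1 hA1 hp2.le hs0 m11')
        (R := i.a x ^ 2 + i.R11 x) (e2 := C4 * i.L ^ 4 * (i.L)⁻¹ ^ P.K)
        (by rw [add_sub_add_left_eq_sub]; exact hR11 i x hxW)
        (T := P.T11 i x) (by
          rw [Idx.a_sq]; unfold T11 Idx.R11; ring)
      have r12 := tri (inner_alg_le hV1 hV2 hA1 hA2 hp2.le hs0 m12) (hR12 i x hxW)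
        (T := inner ℝ (d1 P.S.f0 x) (d2 P.S.f0 x)) (by unfold Idx.R12; ring)
      have r22 := tri (inner_alg_le hV2 hV2 hA2 hA2 hp2.le hs0 m22) (hR22 i x hxW)
        (T := inner ℝ (d2 P.S.f0 x) (d2 P.S.f0 x)) (by unfold Idx.R22; ring)
      have key : ∀ c : ℝ, 0 < c → c ≤ C4 + C5 + C6 →
          C1 * (i.L ^ 20)⁻¹ ^ (15 + 192000 * (P.k + 1)) + 2 * (C3 * C9) *
            (i.L ^ 2 * (i.L)⁻¹ ^ P.K) + c * i.L ^ 4 * (i.L)⁻¹ ^ P.K ≤ P.er i C := by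
        intro c hc0 hc
        refine le_trans ?_ (er_ge i (C := C) (a := C1) (b := 0) (c := 2 * (C3 * C9) + c)
          (by rw [hC]; linarith) (by rw [hC]; linarith) (by rw [hC]; linarith))
        have := mul_le_mul_of_nonneg_left hs1 (show 0 ≤ 2 * (C3 * C9) by linarith)
        rw [zero_mul, add_zero, add_mul]
        linarith
      exact ⟨r11.trans (key C4 hC4 (by linarith)), r12.trans (key C5 hC5 (by linarith)),
        r22.trans (key C6 hC6 (by linarith))⟩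
    · -- the amplitude is tiny
      obtain ⟨hlt, hA⟩ := hfar i x hu
      have hnear := i.eq_near hlt
      have e1 : d1 i.f x = d1 P.S.f0 x := by unfold d1; rw [hnear.fderiv_eq]
      have e2 : d2 i.f x = d2 P.S.f0 x := by unfold d2; rw [hnear.fderiv_eq]
      have hta := htail i x hxW hu.le
      have h1 := hcr i 0 x hx
      rw [cutMap_eq, d1_add' (Idx.ft_sm i) (cv_smooth h i),
        d2_add' (Idx.ft_sm i) (cv_smooth h i)] at h1
      obtain ⟨m11, m12, m22⟩ := h1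
      have hb : C2 * i.a x ≤ C2 * C8 * Real.exp (-(14 * i.l')) := by
        rw [mul_assoc]; exact mul_le_mul_of_nonneg_left hta hC2.le
      have conv : ∀ {p q : ℝ}, |p - q| ≤ C2 * i.a x →
          |p - (q + 0)| ≤ C2 * C8 * Real.exp (-(14 * i.l')) := fun {p q} hpq => by
        rw [add_zero]; exact hpq.trans hb
      have r11 := tri (inner_alg_le hV1 hV1 hA1 hA1 hp2.le hs0 (conv m11))
        (R := P.S.A x ^ 2 * (1 - Prof.kap i.l' (P.S.u x))) (e2 := C7 * Real.exp (-(28 * i.l')))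
        (by rw [zero_sub, abs_neg]; exact hA) (T := P.T11 i x) (by rw [e1]; rfl)
      have r12 := tri (inner_alg_le hV1 hV2 hA1 hA2 hp2.le hs0 (conv m12))
        (R := 0) (e2 := 0) (by simp) (T := inner ℝ (d1 P.S.f0 x) (d2 P.S.f0 x))
        (by rw [e1, e2, add_zero])
      have r22 := tri (inner_alg_le hV2 hV2 hA2 hA2 hp2.le hs0 (conv m22))
        (R := 0) (e2 := 0) (by simp) (T := inner ℝ (d2 P.S.f0 x) (d2 P.S.f0 x))
        (by rw [e2, add_zero])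
      have h28' : C7 * Real.exp (-(28 * i.l')) ≤ C7 * Real.exp (-(14 * i.l')) :=
        mul_le_mul_of_nonneg_left h28 hC7.le
      have key : ∀ c : ℝ, c ≤ C7 * Real.exp (-(14 * i.l')) →
          C2 * C8 * Real.exp (-(14 * i.l')) + 2 * (C3 * C9) *
            (i.L ^ 2 * (i.L)⁻¹ ^ P.K) + c ≤ P.er i C := by
        intro c hc
        refine le_trans ?_ (er_ge i (C := C) (a := 0) (b := C2 * C8 + C7) (c := 2 * (C3 * C9))
          (by rw [hC]; linarith) (by rw [hC]; linarith) (by rw [hC]; linarith))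
        have := mul_le_mul_of_nonneg_left hs1 (show 0 ≤ 2 * (C3 * C9) by linarith)
        rw [zero_mul, zero_add, add_mul]
        linarith
      have h70 : (0:ℝ) ≤ C7 * Real.exp (-(14 * i.l')) := by positivity
      exact ⟨r11.trans (key _ h28'), r12.trans (key 0 h70), r22.trans (key 0 h70)⟩
  · -- off the domain
    have hu : 2 * i.l' * P.S.u x - 1 < (i.Kc)⁻¹ := by
      have h1 : 2 * i.l' * P.S.u x - 1 ≤ (2 * i.Kc)⁻¹ := not_lt.1 hx
      have h2 := Idx.Kc_pos i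
      refine h1.trans_lt ?_
      apply inv_strictAnti₀ h2; linarith
    obtain ⟨hlt, hA⟩ := hfar i x hu
    have hnear := i.eq_near hlt
    have e1 : d1 i.f x = d1 P.S.f0 x := by unfold d1; rw [hnear.fderiv_eq]
    have e2 : d2 i.f x = d2 P.S.f0 x := by unfold d2; rw [hnear.fderiv_eq]
    have hz := cv_zero h i hx
    have z1 : d1 (P.cv F i) x = 0 := by unfold d1; rw [hz.fderiv_eq]; simp
    have z2 : d2 (P.cv F i) x = 0 := by unfold d2; rw [hz.fderiv_eq]; simp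
    rw [z1, z2, add_zero, add_zero, e1, e2, sub_self, sub_self, abs_zero]
    have hC0 : 0 ≤ C := by rw [hC]; positivity
    have h0 : 0 ≤ P.er i C := by
      have := er_ge i (C := C) hC0 hC0 hC0
      simpa using this
    refine ⟨?_, h0, h0⟩
    have : (inner ℝ (d1 P.S.f0 x) (d1 P.S.f0 x) : ℝ) - P.T11 i x =
      -(P.S.A x ^ 2 * (1 - Prof.kap i.l' (P.S.u x))) := by unfold T11; ring
    rw [this, abs_neg]
    refine hA.trans ?_
    refine le_trans ?_ (er_ge i (C := C) (a := 0) (b := C7) (c := 0)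
          hC0 (by rw [hC]; linarith) hC0)
    rw [zero_mul, zero_mul, zero_add, add_zero]
    exact mul_le_mul_of_nonneg_left h28 hC7.le

end main

/-- one stage -/
theorem stage (P : SPar) (hL1 : P.Large1) (hlow : P.Low) (hK : P.K = 3840000 * (P.k + 1) + 6) :
    ∃ T : ℝ, ∃ C : ℕ → ℝ, ∀ L : ℝ, T ≤ L → ∀ f : X2 → E4, ContDiff ℝ ∞ f →
      GC P.c0 P.B0 P.S.N P.S.W f → StC 400 12 P.S.f0 P.S.u P.S.A P.k L f →
      (∀ j, 1 ≤ j → j ≤ P.K + 4 → ∀ x ∈ P.S.N, ‖iteratedFDeriv ℝ j f x‖ ≤ L ^ j) →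
      ∀ k', (k' = P.k ∨ k' = P.k + 1) → ∃ v : X2 → E4, ContDiff ℝ ∞ v ∧
        (∀ x, x ∉ {x | 0 < P.S.u x} → v x = 0) ∧
        (∀ j x, ‖iteratedFDeriv ℝ j v x‖ ≤ C j * L ^ (400 * j) / L ^ (400 * P.k)) ∧
        StC 400 12 P.S.f0 P.S.u P.S.A k' (L ^ (2 * 400)) (f + v) := by
  obtain ⟨F, hG, hE⟩ := EData.engine (P.hyp hL1 hlow) (192000 * (P.k + 1))
  have h := P.cutHyp hL1 hlow hG
  choose C hC hCb using fun j => cv_iter h j
  obtain ⟨C0, hm⟩ := met h hE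
  obtain ⟨T1, hb⟩ := P.budget C0
  refine ⟨max P.T T1, C, fun L hL f hf hG st bd k' hk' => ?_⟩
  obtain ⟨i, hiL, hif, hik⟩ : ∃ i : P.Idx, i.L = L ∧ i.f = f ∧ i.k' = k' :=
    ⟨⟨L, (le_max_left _ _).trans hL, k', hk', f, hf, hG, st, bd⟩, rfl, rfl, rfl⟩
  subst hiL hif hik
  have hbud : P.er i C0 ≤ Real.exp (-(12 * i.l')) := by
    unfold er; rw [hK]; exact hb i ((le_max_right _ _).trans hL)
  have hlam : lam 400 i.k' (i.L ^ (2 * 400)) = i.l' := rfl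
  have hlam0 : lam 400 P.k i.L = i.l := rfl
  have e1 : ∀ x, d1 (i.f + P.cv F i) x = d1 i.f x + d1 (P.cv F i) x := fun x =>
    d1_add' i.hf (cv_smooth h i) x
  have e2 : ∀ x, d2 (i.f + P.cv F i) x = d2 i.f x + d2 (P.cv F i) x := fun x =>
    d2_add' i.hf (cv_smooth h i) x
  refine ⟨P.cv F i, cv_smooth h i, fun x hx => cv_zero' h i (fun hD => hx (Idx.u_pos_of_D i hD)),
    fun j x => hCb j i x, ?_, ?_, ?_, ?_⟩
  · intro x hx
    rw [hlam] at hx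
    have hv : P.cv F i x = 0 := cv_zero' h i (fun hD => by
      have := Idx.one_lt_of_D i hD; linarith)
    have hf0 : i.f x = P.S.f0 x := by
      apply i.st.eq0
      show 2 * i.l * P.S.u x ≤ 1
      have h1 := Idx.l'_ge_l i
      have h2 := Idx.l_pos i
      rcases le_or_gt (P.S.u x) 0 with hu | hu
      · have : i.l * P.S.u x ≤ 0 := mul_nonpos_of_nonneg_of_nonpos h2.le hu
        linarith
      · have : i.l * P.S.u x ≤ i.l' * P.S.u x := mul_le_mul_of_nonneg_right (by linarith) hu.le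
        linarith
    rw [Pi.add_apply, hv, add_zero, hf0]
  · intro x
    rw [hlam, e1]
    exact ((hm i x).1.trans hbud)
  · intro x
    rw [hlam, e1, e2]
    exact ((hm i x).2.1.trans hbud)
  · intro x
    rw [hlam, e2]
    exact ((hm i x).2.2.trans hbud)

end SPar

/-- **STAGE** -/
theorem stageThm : StageThm 400 12 3 (fun k => 3840000 * (k + 1) + 10) := by
  intro f₀ u β hf₀ hA N hN hsub c B hc k hk
  obtain ⟨P, hS, hc0, hB0, hPk, hPK, hL1, hlow⟩ := exists_SPar'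
    (S := (⟨f₀, u, β, N, hf₀, hA, hN, hsub⟩ : SData)) hc (B0 := max B 1)
    (lt_of_lt_of_le one_pos (le_max_right _ _)) (k := k) (by omega)
    (K := 3840000 * (k + 1) + 6) (by omega)
  obtain ⟨T, C, hst⟩ := P.stage hL1 (by unfold SPar.Low; rw [hc0]; exact hlow)
    (by rw [hPK, hPk])
  rw [hS, hc0, hB0, hPk, hPK] at hst
  refine ⟨T, C, fun L hL f hf hG hstate hbd k' hk' => ?_⟩
  refine hst L hL f hf ⟨fun x hx => ?_, hG.2⟩ hstate (fun j h1 h2 => hbd j h1 (by omega)) k' hk'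
  obtain ⟨b1, b2, b3, b4⟩ := hG.1 x hx
  exact ⟨b1.trans (le_max_left _ _), b2.trans (le_max_left _ _), b3.trans (le_max_left _ _),
    b4.trans (le_max_left _ _)⟩

end Crest.Agent.R216.TE
end

-- ▼ part R216/MacCut
section

/-!
# Row 216, Theorem E, MACRO: the cut-off of the macro family (helper323).
-/

open Set Topology MeasureTheory
open scoped ContDiff

namespace Crest.Agent.R216.TE

section cut
variable {u : X2 → ℝ} {L' K : ℝ}

lemma cutoff_one (hK : 0 < K) {x : X2} (hx : K⁻¹ ≤ 2 * L' * u x - 1) : cutoff u L' K x = 1 := by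
  unfold cutoff
  refine Real.smoothTransition.one_of_one_le ?_
  have h1 : 1 ≤ K * (2 * L' * u x - 1) := by rwa [inv_le_iff_one_le_mul₀' hK] at hx
  nlinarith

lemma cutoff_zero {x : X2} (hx : K * (2 * L' * u x - 1) ≤ 3 / 4) : cutoff u L' K x = 0 := by
  unfold cutoff
  exact Real.smoothTransition.zero_of_nonpos (by nlinarith)

lemma cutoff_supp (hu : Continuous u) (hK : 0 < K) :
    tsupport (cutoff u L' K) ⊆ {x | 3 / 4 ≤ K * (2 * L' * u x - 1)} := by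
  refine closure_minimal (fun x hx => ?_)
    (isClosed_le continuous_const (continuous_const.mul ((continuous_const.mul hu).sub
      continuous_const)))
  by_contra hc
  exact hx (cutoff_zero (le_of_lt (not_le.1 hc)))

lemma cutoff_supp' (hu : Continuous u) (hK : 0 < K) :
    tsupport (cutoff u L' K) ⊆ profDom u L' (2 * K) := by
  intro x hx
  have h1 : 3 / 4 ≤ K * (2 * L' * u x - 1) := cutoff_supp hu hK hx
  show (2 * K)⁻¹ < _
  rw [inv_lt_iff_one_lt_mul₀ (by positivity)]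
  nlinarith

lemma cutoff_nonneg (x : X2) : 0 ≤ cutoff u L' K x := Real.smoothTransition.nonneg _
lemma cutoff_le_one (x : X2) : cutoff u L' K x ≤ 1 := Real.smoothTransition.le_one _

end cut

section
variable {f : X2 → E4} {u β : X2 → ℝ} {O : Set (X2 × ℝ)} {W : X2 × ℝ → ℝ → E4}
  {c N : ℕ} {h0 : ℝ}

/-- the cut-off functions of the macro family -/
noncomputable def thM (u : X2 → ℝ) (c N : ℕ) (h : ℝ) : X2 → ℝ := cutoff u (Lp c h) (Lp N h)

lemma thM_B (ha : AmpHyp u β) (hc : 1 ≤ c) (hN : 1 ≤ N) (h0 : ℝ) :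
    (famM u ha.hu.continuous c N h0).B (fun _ _ => 1) (fun i => lift (thM u c N i.1)) := by
  have hP := profHyp_M ha hc hN h0
  obtain ⟨C, hC, hcost⟩ := hP.cost
  have := Fam.B.comp_affine (𝓕 := famM u ha.hu.continuous c N h0) hP.compact hP.sub hP.u_smooth
    (c := fun i => 8 * Lp N i.1 * Lp c i.1)
    (b := fun i => - 4 * Lp N i.1 - 3) (m := fun i => 1) (fun _ => one_pos)
    ⟨8 * C, by positivity, fun i => by
      have h1 := (hcost i).2
      have h2 := Lp_ge hc i.2.1 i.2.2.2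
      have h3 := Lp_ge hN i.2.1 i.2.2.2
      rw [abs_of_nonneg (by positivity), mul_one]
      have h4 : 0 ≤ Lp N i.1 * Lp c i.1 := by positivity
      have h5 : Lp N i.1 * Lp c i.1 ≤ (2 * Lp N i.1) ^ 2 * (1 + Lp c i.1) := by nlinarith
      nlinarith⟩
    (w := fun _ _ => 1) (g := fun _ => Real.smoothTransition)
    (fun _ => Real.smoothTransition.contDiff) (fun _ _ _ => zero_le_one) ?_
  · refine this.congr (fun i z _ => ?_)
    simp only [lift, thM, cutoff]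
    congr 1; ring
  · intro n
    obtain ⟨C, hC, hb⟩ := Prof.st_bdd n
    exact ⟨C + 1, by positivity, fun i x _ => by
      rw [one_pow, mul_one, mul_one]; exact (hb _).trans (by linarith)⟩

lemma cutHyp_M (h : MacHyp f u β O W) (hc : 1 ≤ c) (hN : 1 ≤ N)
    (hy : (dataM h hc hN h0).Hyp) {F : MIx h0 → Q → E4} (hG : (dataM h hc hN h0).Good F) :
    (dataM h hc hN h0).CutHyp F (fun i => thM u c N i.1) where
  hyp := hy
  good := hG
  fsm _ := h.hf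
  θsm i := contDiff_cutoff _ _ h.ha.hu
  θsupp i := cutoff_supp' h.ha.hu.continuous
    (lt_of_lt_of_le one_pos (Lp_ge hN i.2.1 i.2.2.2))
  θ_nonneg i x := cutoff_nonneg x
  θ_le i x := cutoff_le_one x
  θB := thM_B h.ha hc hN h0

/-- the amplitude is tiny where the cut-off is not `1` -/
lemma am_tiny (ha : AmpHyp u β) (hc : 1 ≤ c) (hN : 1 ≤ N) : ∃ C : ℝ, 0 < C ∧
    ∀ (h0 : ℝ) (i : MIx h0) (x : X2), 2 * Lp c i.1 * u x - 1 ≤ (Lp N i.1)⁻¹ →
      am u β c i.1 x ≤ C * i.1 ^ N := by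
  obtain ⟨Cb, hCb⟩ := ha.cpt.exists_bound_of_continuousOn ha.hβ.continuous.continuousOn
  refine ⟨Real.exp 2 * (|Cb| + 1), by positivity, fun h0 i x hx => ?_⟩
  have hL := Lp_ge hc i.2.1 i.2.2.2
  have hK := Lp_ge hN i.2.1 i.2.2.2
  have hi := i.2.1
  have adm : Prof.Adm 0 (Lp c i.1) := ⟨le_rfl, by linarith, hL⟩
  by_cases hx0 : x ∈ closure {x | 0 < u x}
  · have h1 := hCb x hx0
    rw [Real.norm_eq_abs, abs_of_pos (ha.pos x)] at h1
    have h2 := Prof.alph_le_exp adm (lt_of_lt_of_le one_pos hK) hx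
    rw [exp_Lp N hi] at h2
    have h3 := (ha.pos x).le
    have h4 := Prof.alph_nonneg 0 (Lp c i.1) (u x)
    show Prof.alph 0 (Lp c i.1) (u x) * β x ≤ _
    calc _ ≤ (Real.exp 2 * i.1 ^ N) * (|Cb| + 1) :=
          mul_le_mul h2 (by linarith [le_abs_self Cb]) h3 (by positivity)
      _ = _ := by ring
  · have h1 : u x ≤ 0 := by
      by_contra hc'
      exact hx0 (subset_closure (not_le.1 hc'))
    have h2 : Prof.alph 0 (Lp c i.1) (u x) = 0 := by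
      refine Prof.alph_eq_zero ?_
      have : Lp c i.1 * u x ≤ 0 := mul_nonpos_of_nonneg_of_nonpos (by linarith) h1
      linarith
    show Prof.alph 0 (Lp c i.1) (u x) * β x ≤ _
    rw [h2, zero_mul]
    positivity

lemma am_nonneg (ha : AmpHyp u β) (c : ℕ) (h : ℝ) (x : X2) : 0 ≤ am u β c h x :=
  mul_nonneg (Prof.alph_nonneg _ _ _) (ha.pos x).le

lemma am_sq (hc : 1 ≤ c) {h0 : ℝ} (i : MIx h0) (x : X2) :
    am u β c i.1 x ^ 2 = ampX u β x ^ 2 * (1 - Prof.kap (Lp c i.1) (u x)) := by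
  have hL := Lp_ge hc i.2.1 i.2.2.2
  have adm : Prof.Adm 0 (Lp c i.1) := ⟨le_rfl, by linarith, hL⟩
  have := Prof.alph_sq adm (u x)
  rw [Prof.kap_zero] at this
  show (Prof.alph 0 (Lp c i.1) (u x) * β x) ^ 2 = (expNegInvGlue (u x) * β x) ^ 2 * _
  rw [mul_pow, this]; ring

end

/-! ### uniform version of `corr_iter` -/

namespace EData
variable {𝓔 : EFam} {d : EData 𝓔} {F : 𝓔.I → Q → E4} {θ : 𝓔.I → X2 → ℝ}

theorem CutHyp.corr_iter_unif (h : d.CutHyp F θ) (j : ℕ) : ∃ C : ℝ, 0 < C ∧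
    ∀ (i : 𝓔.I) (t0 : ℝ) (x : X2), x ∈ 𝓔.D i →
      ‖iteratedFDeriv ℝ j (fun x : X2 => d.cutU F θ i (x, x.1 / 𝓔.eps i + t0)) x‖
        ≤ C * ((𝓔.Lam i * (𝓔.eps i)⁻¹) ^ j * (𝓔.a i x * 𝓔.eps i)) := by
  have hμ : ∀ i, 1 ≤ (𝓔.eps i)⁻¹ := fun i =>
    (one_le_inv₀ (EFam.eps_pos i)).2 (EFam.eps_le_one i)
  obtain ⟨C, hC, b⟩ := Fam.ev_iterated
    (𝓕 := 𝓔.toFam.reindex (Prod.fst : 𝓔.I × ℝ → 𝓔.I)) (fun p => (𝓔.eps p.1)⁻¹) (fun p => p.2)
    (fun p => hμ p.1) j (h.cutU_B.reindex Prod.fst) (fun p x hx => EFam.W_nn _ _ _ p.1 x hx)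
  refine ⟨C, hC, fun i t0 x hx => ?_⟩
  rw [ev_div]
  refine (b (i, t0) x hx).trans (le_of_eq ?_)
  simp only [EFam.W, pow_one, pow_zero, mul_one, EFam.eps, Fam.reindex]

end EData

end Crest.Agent.R216.TE
end

-- ▼ part R216/MacSt
section

/-!
# Row 216, Theorem E, MACRO: the state `StC` of the macroscopic map (helper323).
-/

open Set Topology MeasureTheory
open scoped ContDiff

namespace Crest.Agent.R216.TE

section
variable {f : X2 → E4} {u β : X2 → ℝ} {O : Set (X2 × ℝ)} {W : X2 × ℝ → ℝ → E4}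
  {c N : ℕ} {h0 : ℝ}

lemma lam_Lp (q k₀ : ℕ) (h : ℝ) :
    lam q k₀ ((h ^ 32)⁻¹) = Lp (32 * q * k₀) h := by
  unfold lam Lp
  rw [one_div, Real.log_inv, Real.log_inv, Real.log_pow]
  push_cast
  ring

lemma exp_lam (q m k₀ : ℕ) {h : ℝ} (hh : 0 < h) :
    Real.exp (-(m * lam q k₀ ((h ^ 32)⁻¹))) = h ^ (m * (32 * q * k₀)) := by
  rw [lam_Lp q k₀ _]
  have : (-(m * Lp (32 * q * k₀) h) : ℝ) = - Lp (m * (32 * q * k₀)) h := by
    unfold Lp; push_cast; ring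
  rw [this, exp_Lp _ hh]

lemma off_D (h : MacHyp f u β O W) (hc : 1 ≤ c) (hN : 1 ≤ N)
    {F : MIx h0 → Q → E4}
    (hC : (dataM h hc hN h0).CutHyp F (fun i => thM u c N i.1)) (i : MIx h0) (t0 : ℝ)
    {x : X2} (hx : x ∉ (famM u h.ha.hu.continuous c N h0).D i) :
    (dataM h hc hN h0).cutMap F (fun i => thM u c N i.1) i t0 =ᶠ[𝓝 x] f := by
  refine hC.eq_off i t0 (fun hx' => hx ?_)
  exact hC.θsupp i hx'

/-- trichotomy -/
lemma mac_cases (h : MacHyp f u β O W) (hN : 1 ≤ N) (i : MIx h0) (x : X2) :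
    (x ∈ (famM u h.ha.hu.continuous c N h0).D i ∧ (Lp N i.1)⁻¹ < 2 * Lp c i.1 * u x - 1 ∧
      thM u c N i.1 =ᶠ[𝓝 x] 1) ∨
    (2 * Lp c i.1 * u x - 1 ≤ (Lp N i.1)⁻¹) := by
  have hK := Lp_ge hN i.2.1 i.2.2.2
  rcases lt_or_ge (Lp N i.1)⁻¹ (2 * Lp c i.1 * u x - 1) with h1 | h1
  · left
    refine ⟨?_, h1, ?_⟩
    · show (2 * Lp N i.1)⁻¹ < _
      refine lt_of_le_of_lt ?_ h1
      exact inv_anti₀ (by linarith) (by linarith)
    · have h2 : Continuous (fun y => 2 * Lp c i.1 * u y - 1) :=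
        (continuous_const.mul h.ha.hu.continuous).sub continuous_const
      have h3 : ∀ᶠ y in 𝓝 x, (Lp N i.1)⁻¹ < 2 * Lp c i.1 * u y - 1 :=
        (isOpen_lt continuous_const h2).mem_nhds h1
      filter_upwards [h3] with y hy
      exact cutoff_one (by linarith) hy.le
  · exact Or.inr h1

/-- **StC** for the macroscopic map -/
theorem mac_st (h : MacHyp f u β O W) (q m k₀ : ℕ) (hc : 1 ≤ 32 * q * k₀)
    (hN : 1 ≤ m * (32 * q * k₀) + 1) {h0 : ℝ}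
    (hy : (dataM h hc hN h0).Hyp) {F : MIx h0 → Q → E4} (hG : (dataM h hc hN h0).Good F)
    (hE : (dataM h hc hN h0).Err0 (m * (32 * q * k₀)) F) :
    ∃ h1 : ℝ, 0 < h1 ∧ ∀ i : MIx h0, i.1 < h1 → ∀ t0 : ℝ,
      StC q m f u (ampX u β) k₀ ((i.1 ^ 32)⁻¹)
        ((dataM h hc hN h0).cutMap F
          (fun i => thM u (32 * q * k₀) (m * (32 * q * k₀) + 1) i.1) i t0) := by
  set c := 32 * q * k₀ with hcdef
  set N := m * c + 1 with hNdef
  have hC := cutHyp_M h hc hN hy hG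
  obtain ⟨C1, hC1, hm1⟩ := hC.metric_one hE
  obtain ⟨C2, hC2, hm2⟩ := hC.metric_crude
  obtain ⟨C3, hC3, ht⟩ := am_tiny (c := c) (N := N) h.ha hc hN
  set C4 := C1 + C2 * C3 + C3 * C3 + 1 with hC4
  have hC4p : 0 < C4 := by positivity
  refine ⟨C4⁻¹, by positivity, fun i hi t0 => ?_⟩
  have hh := i.2.1
  have hh1 : i.1 ≤ 1 := by linarith [i.2.2.2]
  have hK := Lp_ge hN i.2.1 i.2.2.2
  have hL := Lp_ge hc i.2.1 i.2.2.2
  have hsm : C4 * i.1 ≤ 1 := by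
    have := mul_le_mul_of_nonneg_left hi.le hC4p.le
    rwa [mul_inv_cancel₀ hC4p.ne'] at this
  have hpw : (0:ℝ) < i.1 ^ (m * c) := by positivity
  -- the two basic numerical facts
  have num1 : C1 * i.1 ^ (15 + m * c) ≤ i.1 ^ (m * c) := by
    rw [pow_add, ← mul_assoc]
    have h1 : i.1 ^ 15 ≤ i.1 := by
      calc i.1 ^ 15 ≤ i.1 ^ 1 := pow_le_pow_of_le_one hh.le hh1 (by norm_num)
        _ = i.1 := pow_one _
    have h2 : C1 * i.1 ^ 15 ≤ 1 := by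
      calc C1 * i.1 ^ 15 ≤ C4 * i.1 :=
            mul_le_mul (by rw [hC4]; nlinarith [mul_pos hC2 hC3, mul_pos hC3 hC3]) h1
              (by positivity) hC4p.le
        _ ≤ 1 := hsm
    nlinarith
  have num2 : ∀ a : ℝ, 0 ≤ a → a ≤ C3 * i.1 ^ N → C2 * a + a ^ 2 ≤ i.1 ^ (m * c) := by
    intro a ha0 ha
    have hN1 : i.1 ^ N ≤ 1 := pow_le_one₀ hh.le hh1
    have h1 : a ≤ C3 := ha.trans (by nlinarith)
    have h2 : C2 * a + a ^ 2 ≤ (C2 + C3) * (C3 * i.1 ^ N) := by nlinarith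
    refine h2.trans ?_
    rw [hNdef, pow_succ]
    have h3 : (C2 + C3) * C3 ≤ C4 := by rw [hC4]; nlinarith
    have h4 : (C2 + C3) * C3 * i.1 ≤ 1 :=
      (mul_le_mul_of_nonneg_right h3 hh.le).trans hsm
    calc (C2 + C3) * (C3 * (i.1 ^ (m * c) * i.1)) = ((C2 + C3) * C3 * i.1) * i.1 ^ (m * c) := by
          ring
      _ ≤ 1 * i.1 ^ (m * c) := mul_le_mul_of_nonneg_right h4 hpw.le
      _ = _ := one_mul _
  -- the trichotomy
  have key : ∀ x : X2,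
      |inner ℝ (d1 ((dataM h hc hN h0).cutMap F (fun i => thM u c N i.1) i t0) x)
          (d1 ((dataM h hc hN h0).cutMap F (fun i => thM u c N i.1) i t0) x)
        - (inner ℝ (d1 f x) (d1 f x) + am u β c i.1 x ^ 2)| ≤ i.1 ^ (m * c) ∧
      |inner ℝ (d1 ((dataM h hc hN h0).cutMap F (fun i => thM u c N i.1) i t0) x)
          (d2 ((dataM h hc hN h0).cutMap F (fun i => thM u c N i.1) i t0) x)
        - inner ℝ (d1 f x) (d2 f x)| ≤ i.1 ^ (m * c) ∧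
      |inner ℝ (d2 ((dataM h hc hN h0).cutMap F (fun i => thM u c N i.1) i t0) x)
          (d2 ((dataM h hc hN h0).cutMap F (fun i => thM u c N i.1) i t0) x)
        - inner ℝ (d2 f x) (d2 f x)| ≤ i.1 ^ (m * c) := by
    intro x
    rcases mac_cases (h0 := h0) (c := c) h hN i x with ⟨hx, hs, hθ⟩ | hs
    · obtain ⟨e1, e2, e3⟩ := hm1 i t0 x hx hθ.eq_of_nhds
      have e1' : |inner ℝ (d1 ((dataM h hc hN h0).cutMap F (fun i => thM u c N i.1) i t0) x)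
          (d1 ((dataM h hc hN h0).cutMap F (fun i => thM u c N i.1) i t0) x)
        - (inner ℝ (d1 f x) (d1 f x) + am u β c i.1 x ^ 2 + 0)| ≤ C1 * i.1 ^ (15 + m * c) := e1
      have e2' : |inner ℝ (d1 ((dataM h hc hN h0).cutMap F (fun i => thM u c N i.1) i t0) x)
          (d2 ((dataM h hc hN h0).cutMap F (fun i => thM u c N i.1) i t0) x)
        - (inner ℝ (d1 f x) (d2 f x) + 0)| ≤ C1 * i.1 ^ (15 + m * c) := e2
      have e3' : |inner ℝ (d2 ((dataM h hc hN h0).cutMap F (fun i => thM u c N i.1) i t0) x)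
          (d2 ((dataM h hc hN h0).cutMap F (fun i => thM u c N i.1) i t0) x)
        - (inner ℝ (d2 f x) (d2 f x) + 0)| ≤ C1 * i.1 ^ (15 + m * c) := e3
      rw [add_zero] at e1' e2' e3'
      exact ⟨e1'.trans num1, e2'.trans num1, e3'.trans num1⟩
    · have ha0 := am_nonneg h.ha c i.1 x
      have ha := ht h0 i x hs
      have hn := num2 _ ha0 ha
      have hsq := sq_nonneg (am u β c i.1 x)
      have hC2a : 0 ≤ C2 * am u β c i.1 x := mul_nonneg hC2.le ha0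
      by_cases hx : x ∈ (famM u h.ha.hu.continuous c N h0).D i
      · obtain ⟨e1, e2, e3⟩ := hm2 i t0 x hx
        have e1' : |inner ℝ (d1 ((dataM h hc hN h0).cutMap F (fun i => thM u c N i.1) i t0) x)
          (d1 ((dataM h hc hN h0).cutMap F (fun i => thM u c N i.1) i t0) x)
          - inner ℝ (d1 f x) (d1 f x)| ≤ C2 * am u β c i.1 x := e1
        have hle : C2 * am u β c i.1 x ≤ i.1 ^ (m * c) := by linarith
        refine ⟨?_, e2.trans hle, e3.trans hle⟩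
        rw [abs_le] at e1' ⊢
        constructor <;> linarith [e1'.1, e1'.2]
      · have e := off_D h hc hN hC i t0 hx
        have g1 : d1 ((dataM h hc hN h0).cutMap F (fun i => thM u c N i.1) i t0) x = d1 f x := by
          unfold d1; rw [e.fderiv_eq]
        have g2 : d2 ((dataM h hc hN h0).cutMap F (fun i => thM u c N i.1) i t0) x = d2 f x := by
          unfold d2; rw [e.fderiv_eq]
        rw [g1, g2]
        refine ⟨?_, ?_, ?_⟩
        · rw [abs_le]; constructor <;> linarith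
        · rw [sub_self, abs_zero]; exact hpw.le
        · rw [sub_self, abs_zero]; exact hpw.le
  constructor
  · intro x hx
    rw [lam_Lp q k₀ _] at hx
    have hx' : 2 * Lp c i.1 * u x ≤ 1 := hx
    show f x + thM u c N i.1 x • _ = f x
    have : thM u c N i.1 x = 0 := by
      refine cutoff_zero ?_
      have : 2 * Lp c i.1 * u x - 1 ≤ 0 := by linarith
      have h2 : Lp N i.1 * (2 * Lp c i.1 * u x - 1) ≤ 0 :=
        mul_nonpos_of_nonneg_of_nonpos (by linarith) this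
      linarith
    rw [this, zero_smul, add_zero]
  · intro x
    rw [exp_lam q m k₀ hh, lam_Lp q k₀ _]
    have h3 := (key x).1
    rw [am_sq hc i x] at h3
    exact h3
  · intro x
    rw [exp_lam q m k₀ hh]
    exact (key x).2.1
  · intro x
    rw [exp_lam q m k₀ hh]
    exact (key x).2.2

end

end Crest.Agent.R216.TE
end

-- ▼ part R216/MacIter
section

/-!
# Row 216, Theorem E, MACRO: derivative bounds of the macroscopic map (helper323).
-/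

open Set Topology MeasureTheory
open scoped ContDiff

namespace Crest.Agent.R216.TE

section
variable {f : X2 → E4} {u β : X2 → ℝ} {O : Set (X2 × ℝ)} {W : X2 × ℝ → ℝ → E4}
  {c N : ℕ} {h0 : ℝ}

theorem mac_iter (h : MacHyp f u β O W) (hc : 1 ≤ c) (hN : 1 ≤ N) {h0 : ℝ}
    (hy : (dataM h hc hN h0).Hyp) {F : MIx h0 → Q → E4} (hG : (dataM h hc hN h0).Good F)
    (K₀ : ℕ) {N' : Set X2} (hN' : IsCompact N') :
    ∃ h1 : ℝ, 0 < h1 ∧ ∀ i : MIx h0, i.1 < h1 → ∀ t0 : ℝ, ∀ j, 1 ≤ j → j ≤ K₀ → ∀ x ∈ N',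
      ‖iteratedFDeriv ℝ j
        ((dataM h hc hN h0).cutMap F (fun i => thM u c N i.1) i t0) x‖
        ≤ ((i.1 ^ 32)⁻¹) ^ j := by
  have hC := cutHyp_M h hc hN hy hG
  choose C hCp hCb using fun j => hC.corr_iter_unif j
  obtain ⟨A, hA, ha⟩ := (efamM h.ha hc hN h0).a_le
  have hM : ∀ j : ℕ, ∃ M : ℝ, 0 ≤ M ∧ ∀ x ∈ N', ‖iteratedFDeriv ℝ j f x‖ ≤ M := by
    intro j
    obtain ⟨M, hM⟩ := hN'.exists_bound_of_continuousOn
      ((h.hf.continuous_iteratedFDeriv (m := j) (by exact_mod_cast le_top)).continuousOn)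
    exact ⟨|M|, abs_nonneg _, fun x hx => (hM x hx).trans (le_abs_self _)⟩
  choose M hM0 hMb using hM
  set T := ∑ j ∈ Finset.range (K₀ + 1), (C j * A + M j) + 1 with hT
  have hTj : ∀ j, j ≤ K₀ → C j * A + M j ≤ T := by
    intro j hj
    have : C j * A + M j ≤ ∑ j ∈ Finset.range (K₀ + 1), (C j * A + M j) :=
      Finset.single_le_sum (f := fun j => C j * A + M j)
        (fun k _ => by have := mul_pos (hCp k) hA; linarith [hM0 k])
        (Finset.mem_range.2 (by omega))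
    linarith
  have hTp : 1 ≤ T := by
    have : 0 ≤ ∑ j ∈ Finset.range (K₀ + 1), (C j * A + M j) :=
      Finset.sum_nonneg (fun k _ => by have := mul_pos (hCp k) hA; linarith [hM0 k])
    linarith
  refine ⟨T⁻¹, by positivity, fun i hi t0 j hj hjK x hx => ?_⟩
  have hh := i.2.1
  have hh1 : i.1 ≤ 1 := by linarith [i.2.2.2]
  have hTh : T ≤ (i.1)⁻¹ := by
    rw [le_inv_comm₀ (by linarith) hh]; exact hi.le
  -- powers
  have e1 : (1:ℝ) ≤ (i.1 ^ 17)⁻¹ := (one_le_inv₀ (by positivity)).2 (pow_le_one₀ hh.le hh1)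
  have e2 : (i.1)⁻¹ ≤ (i.1 ^ 15)⁻¹ := by
    refine inv_anti₀ (by positivity) ?_
    calc i.1 ^ 15 ≤ i.1 ^ 1 := pow_le_pow_of_le_one hh.le hh1 (by norm_num)
      _ = _ := pow_one _
  have e3 : (i.1 ^ 15)⁻¹ ≤ ((i.1 ^ 15)⁻¹) ^ j :=
    le_self_pow₀ ((one_le_inv₀ (by positivity)).2 (pow_le_one₀ hh.le hh1)) (by omega)
  have fin : T * ((i.1 ^ 17)⁻¹) ^ j ≤ ((i.1 ^ 32)⁻¹) ^ j := by
    have : ((i.1 ^ 32)⁻¹) ^ j = ((i.1 ^ 15)⁻¹) ^ j * ((i.1 ^ 17)⁻¹) ^ j := by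
      rw [← mul_pow, ← mul_inv, ← pow_add]
    rw [this]
    exact mul_le_mul_of_nonneg_right (hTh.trans (e2.trans e3)) (by positivity)
  refine le_trans ?_ fin
  by_cases hxD : x ∈ (famM u h.ha.hu.continuous c N h0).D i
  · have h1 : ContDiff ℝ ∞ (fun x : X2 => (dataM h hc hN h0).cutU F (fun i => thM u c N i.1) i
        (x, x.1 / (efamM h.ha hc hN h0).eps i + t0)) := hC.corr_smooth i t0
    have h2 : iteratedFDeriv ℝ j
        ((dataM h hc hN h0).cutMap F (fun i => thM u c N i.1) i t0) x =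
        iteratedFDeriv ℝ j f x + iteratedFDeriv ℝ j
        (fun x : X2 => (dataM h hc hN h0).cutU F (fun i => thM u c N i.1) i
        (x, x.1 / (efamM h.ha hc hN h0).eps i + t0)) x := by
      have := iteratedFDeriv_add_apply (x := x) (i := j) (𝕜 := ℝ)
        (f := f) (g := fun x : X2 => (dataM h hc hN h0).cutU F (fun i => thM u c N i.1) i
        (x, x.1 / (efamM h.ha hc hN h0).eps i + t0))
        (h.hf.contDiffAt.of_le (by exact_mod_cast le_top))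
        (h1.contDiffAt.of_le (by exact_mod_cast le_top))
      exact this
    rw [h2]
    refine (norm_add_le _ _).trans ?_
    have b1 := hMb j x hx
    have b2 := hCb j i t0 x hxD
    have b3 := ha i x hxD
    have b4 := ((efamM h.ha hc hN h0).a_pos i x hxD).le
    have hLam : (efamM h.ha hc hN h0).Lam i ≤ (i.1)⁻¹ := by
      show i.1 ^ (-(1 / 10 : ℝ)) ≤ _
      rw [← Real.rpow_neg_one]
      exact Real.rpow_le_rpow_of_exponent_ge hh hh1 (by norm_num)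
    have hLam0 : 0 < (efamM h.ha hc hN h0).Lam i :=
      lt_of_lt_of_le one_pos ((efamM h.ha hc hN h0).one_le i)
    have heps : (efamM h.ha hc hN h0).eps i = i.1 ^ 16 := rfl
    have heps1 : (efamM h.ha hc hN h0).eps i ≤ 1 := EFam.eps_le_one (𝓔 := efamM h.ha hc hN h0) i
    have heps0 : 0 < (efamM h.ha hc hN h0).eps i := EFam.eps_pos (𝓔 := efamM h.ha hc hN h0) i
    have hmu : (efamM h.ha hc hN h0).Lam i * ((efamM h.ha hc hN h0).eps i)⁻¹ ≤ (i.1 ^ 17)⁻¹ := by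
      rw [heps, pow_succ' i.1 16, mul_inv]
      exact mul_le_mul_of_nonneg_right hLam (by positivity)
    have b5 : C j * (((efamM h.ha hc hN h0).Lam i * ((efamM h.ha hc hN h0).eps i)⁻¹) ^ j *
        ((efamM h.ha hc hN h0).a i x * (efamM h.ha hc hN h0).eps i)) ≤
        C j * (((i.1 ^ 17)⁻¹) ^ j * A) := by
      refine mul_le_mul_of_nonneg_left ?_ (hCp j).le
      refine mul_le_mul (pow_le_pow_left₀ (by positivity) hmu j) ?_ (by positivity) (by positivity)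
      calc _ ≤ A * 1 := mul_le_mul b3 heps1 heps0.le hA.le
        _ = A := mul_one A
    have e4 : (1:ℝ) ≤ ((i.1 ^ 17)⁻¹) ^ j := one_le_pow₀ e1
    calc _ ≤ M j + C j * (((i.1 ^ 17)⁻¹) ^ j * A) := add_le_add b1 (b2.trans b5)
      _ ≤ M j * ((i.1 ^ 17)⁻¹) ^ j + C j * (((i.1 ^ 17)⁻¹) ^ j * A) := by
          have := mul_le_mul_of_nonneg_left e4 (hM0 j); linarith
      _ = (C j * A + M j) * ((i.1 ^ 17)⁻¹) ^ j := by ring
      _ ≤ T * ((i.1 ^ 17)⁻¹) ^ j := mul_le_mul_of_nonneg_right (hTj j hjK) (by positivity)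
  · rw [((off_D h hc hN hC i t0 hxD).iteratedFDeriv (𝕜 := ℝ) j).eq_of_nhds]
    have e4 : (1:ℝ) ≤ ((i.1 ^ 17)⁻¹) ^ j := one_le_pow₀ e1
    have h5 : 0 < C j * A := mul_pos (hCp j) hA
    calc _ ≤ M j := hMb j x hx
      _ ≤ T := by linarith [hTj j hjK]
      _ ≤ T * ((i.1 ^ 17)⁻¹) ^ j := by nlinarith

end
end Crest.Agent.R216.TE
end

-- ▼ part R216/MacOut
section

/-!
# Row 216, Theorem E, MACRO: second derivatives of the cut-off map and sizes of its pieces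
(helper35).
-/

open Set Topology
open scoped ContDiff

set_option linter.unusedSectionVars false

namespace Crest.Agent.R216.TE

/-! ### `d1`, `d2` calculus -/

section calculus
variable {V : Type*} [NormedAddCommGroup V] [NormedSpace ℝ V] {f g : X2 → V} {x : X2}

lemma d1_congr (h : f =ᶠ[𝓝 x] g) : d1 f x = d1 g x := by unfold d1; rw [h.fderiv_eq]
lemma d2_congr (h : f =ᶠ[𝓝 x] g) : d2 f x = d2 g x := by unfold d2; rw [h.fderiv_eq]

lemma d1_add_at (hf : DifferentiableAt ℝ f x) (hg : DifferentiableAt ℝ g x) :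
    d1 (fun y => f y + g y) x = d1 f x + d1 g x := by
  unfold d1; rw [fderiv_fun_add hf hg]; rfl

lemma d2_add_at (hf : DifferentiableAt ℝ f x) (hg : DifferentiableAt ℝ g x) :
    d2 (fun y => f y + g y) x = d2 f x + d2 g x := by
  unfold d2; rw [fderiv_fun_add hf hg]; rfl

lemma contDiff_d1' (hf : ContDiff ℝ ∞ f) : ContDiff ℝ ∞ (d1 f) := by
  unfold d1
  exact (hf.fderiv_right (m := ∞) (by simp)).clm_apply contDiff_const

lemma contDiff_d2' (hf : ContDiff ℝ ∞ f) : ContDiff ℝ ∞ (d2 f) := by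
  unfold d2
  exact (hf.fderiv_right (m := ∞) (by simp)).clm_apply contDiff_const

/-- symmetry of the mixed derivative -/
lemma d1_d2_comm' (hf : ContDiff ℝ ∞ f) (x : X2) : d1 (d2 f) x = d2 (d1 f) x := by
  have hsym : IsSymmSndFDerivAt ℝ f x := by
    refine (hf.contDiffAt (x := x)).isSymmSndFDerivAt ?_
    rw [minSmoothness_of_isRCLikeNormedField]
    exact WithTop.coe_le_coe.2 le_top
  have hd : DifferentiableAt ℝ (fderiv ℝ f) x :=
    (hf.fderiv_right (m := ∞) (by simp)).differentiable (by simp) x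
  have e1 : d2 (d1 f) x = fderiv ℝ (fderiv ℝ f) x (0, 1) (1, 0) := by
    have := (hd.hasFDerivAt.clm_apply (hasFDerivAt_const ((1 : ℝ), (0 : ℝ)) x)).fderiv
    have e : d1 f = fun y => (fderiv ℝ f y) (1, 0) := rfl
    rw [d2, e, this]
    simp
  have e2 : d1 (d2 f) x = fderiv ℝ (fderiv ℝ f) x (1, 0) (0, 1) := by
    have := (hd.hasFDerivAt.clm_apply (hasFDerivAt_const ((0 : ℝ), (1 : ℝ)) x)).fderiv
    have e : d2 f = fun y => (fderiv ℝ f y) (0, 1) := rfl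
    rw [d1, e, this]
    simp
  rw [e1, e2]
  exact hsym.eq _ _

end calculus

namespace EData
variable {𝓔 : EFam} {d : EData 𝓔} {F : 𝓔.I → Q → E4} {θ : 𝓔.I → X2 → ℝ}
open Cut

/-- second derivatives of the cut-off map on `D i` -/
theorem CutHyp.dd (h : d.CutHyp F θ) (i : 𝓔.I) (t0 : ℝ) {x : X2} (hx : x ∈ 𝓔.D i) :
    d2 (d2 (d.cutMap F θ i t0)) x = d2 (d2 (d.f i)) x
      + pd 1 (𝓔.A2 (d.cutU F θ) i) (x, x.1 / 𝓔.eps i + t0) ∧
    d2 (d1 (d.cutMap F θ i t0)) x = d2 (d1 (d.f i)) x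
      + pd 1 (𝓔.A1 (d.cutU F θ) i) (x, x.1 / 𝓔.eps i + t0) ∧
    d1 (d1 (d.cutMap F θ i t0)) x = d1 (d1 (d.f i)) x
      + pd 0 (𝓔.A1 (d.cutU F θ) i) (x, x.1 / 𝓔.eps i + t0)
      + (𝓔.eps i)⁻¹ • pd 2 (𝓔.A1 (d.cutU F θ) i) (x, x.1 / 𝓔.eps i + t0) := by
  have ho : ∀ᶠ y in 𝓝 x, y ∈ 𝓔.D i := (𝓔.isOpen i).mem_nhds hx
  have e1 : d1 (d.cutMap F θ i t0) =ᶠ[𝓝 x] fun y =>
      d1 (d.f i) y + 𝓔.A1 (d.cutU F θ) i (y, y.1 / 𝓔.eps i + t0) :=
    ho.mono fun y hy => h.d1_eq i t0 hy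
  have e2 : d2 (d.cutMap F θ i t0) =ᶠ[𝓝 x] fun y =>
      d2 (d.f i) y + 𝓔.A2 (d.cutU F θ) i (y, y.1 / 𝓔.eps i + t0) :=
    ho.mono fun y hy => h.d2_eq i t0 hy
  have s1 : DifferentiableAt ℝ (d1 (d.f i)) x :=
    (contDiff_d1' (h.fsm i)).differentiable (by simp) x
  have s2 : DifferentiableAt ℝ (d2 (d.f i)) x :=
    (contDiff_d2' (h.fsm i)).differentiable (by simp) x
  have sA1 := (B_A1_cutU h).smooth i
  have sA2 := (B_A2_cutU h).smooth i
  have hev : ContDiff ℝ ∞ (fun x : X2 => ((x, x.1 / 𝓔.eps i + t0) : Q)) := by fun_prop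
  have c1 : DifferentiableAt ℝ (fun y : X2 =>
      𝓔.A1 (d.cutU F θ) i (y, y.1 / 𝓔.eps i + t0)) x := by
    have : ContDiffOn ℝ ∞ (fun y : X2 => 𝓔.A1 (d.cutU F θ) i (y, y.1 / 𝓔.eps i + t0)) (𝓔.D i) :=
      sA1.comp hev.contDiffOn (fun y hy => hy)
    exact (this.contDiffAt ((𝓔.isOpen i).mem_nhds hx)).differentiableAt (by simp)
  have c2 : DifferentiableAt ℝ (fun y : X2 =>
      𝓔.A2 (d.cutU F θ) i (y, y.1 / 𝓔.eps i + t0)) x := by
    have : ContDiffOn ℝ ∞ (fun y : X2 => 𝓔.A2 (d.cutU F θ) i (y, y.1 / 𝓔.eps i + t0)) (𝓔.D i) :=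
      sA2.comp hev.contDiffOn (fun y hy => hy)
    exact (this.contDiffAt ((𝓔.isOpen i).mem_nhds hx)).differentiableAt (by simp)
  refine ⟨?_, ?_, ?_⟩
  · rw [d2_congr e2, d2_add_at s2 c2, ev_d2 (𝓔.isOpen i) sA2 _ _ hx]
  · rw [d2_congr e1, d2_add_at s1 c1, ev_d2 (𝓔.isOpen i) sA1 _ _ hx]
  · rw [d1_congr e1, d1_add_at s1 c1, ev_d1 (𝓔.isOpen i) sA1 _ _ hx, add_assoc]

theorem CutHyp.d12_comm (h : d.CutHyp F θ) (i : 𝓔.I) (t0 : ℝ) (x : X2) :
    d1 (d2 (d.cutMap F θ i t0)) x = d2 (d1 (d.cutMap F θ i t0)) x :=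
  d1_d2_comm' (h.smooth i t0) x

namespace Cut

lemma θB0 (h : d.CutHyp F θ) : 𝓔.toFam.B (𝓔.W 0 0 0) (fun i => lift (θ i)) :=
  h.θB.weight_congr (fun i x _ => by simp [EFam.W])

/-- `A2 (θ (F - f))` is of class `B(a η^16 Λ)` -/
lemma B_A2c (h : d.CutHyp F θ) : 𝓔.toFam.B (𝓔.W 1 16 1) (𝓔.A2 (d.cutU F θ)) := by
  have t1 := EFam.B_smul (θB0 h) (S4.B_SS h.hyp h.good)
  have t2 := EFam.B_smul (EFam.B_pd (θB0 h) 1) (B_sub h.good h.hyp)
  have t1' : 𝓔.toFam.B (𝓔.W 1 16 1) (fun i z => lift (θ i) z • S4.SS d F i z) :=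
    EFam.B_le t1 (by omega) (by omega) (by omega)
  have t2' : 𝓔.toFam.B (𝓔.W 1 16 1) (fun i z => pd 1 (lift (θ i)) z • (F i z - d.f i z.1)) :=
    EFam.B_le t2 (by omega) (by omega) (by omega)
  refine (t1'.add t2').congr (fun i z hz => ?_)
  rw [A2_cutU h hz, S4.A2_F h.hyp h.good i hz, add_sub_cancel_left]
  rfl

/-- where `θ = 1` near `z.1`, `A1 (θ (F - f)) = W + R` near `z` -/
lemma A1c_near (h : d.CutHyp F θ) {i : 𝓔.I} {z : Q} (hz : z ∈ 𝓔.toFam.dom i)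
    (h1 : θ i =ᶠ[𝓝 z.1] 1) :
    𝓔.A1 (d.cutU F θ) i =ᶠ[𝓝 z] fun z => d.Wl i z + S4.RR d F i z := by
  have ho : ∀ᶠ y in 𝓝 z, y ∈ 𝓔.toFam.dom i := (𝓔.toFam.isOpen_dom i).mem_nhds hz
  have h2 : ∀ᶠ y in 𝓝 z, θ i y.1 = 1 := continuous_fst.continuousAt.eventually h1
  filter_upwards [ho, h2] with y hy hy2
  rw [A1_cutU h hy, pdθ0 h hy2, hy2, one_smul, zero_smul, add_zero,
    S4.A1_F h.hyp h.good i hy]
  simp only [EData.w]
  abel

end Cut

/-- sizes of the pieces of the cut-off map -/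
theorem CutHyp.pieces (h : d.CutHyp F θ) : ∃ C : ℝ, 0 < C ∧
    (∀ i, ∀ z ∈ 𝓔.toFam.dom i,
      ‖𝓔.A1 (d.cutU F θ) i z‖ ≤ C * 𝓔.a i z.1 ∧
      ‖𝓔.A2 (d.cutU F θ) i z‖ ≤ C * 𝓔.a i z.1 * 𝓔.η i ^ 14 ∧
      ‖pd 1 (𝓔.A2 (d.cutU F θ) i) z‖ ≤ C * 𝓔.a i z.1 * 𝓔.η i ^ 14 ∧
      ‖pd 1 (𝓔.A1 (d.cutU F θ) i) z‖ ≤ C * 𝓔.a i z.1 * 𝓔.Lam i ∧
      ‖pd 2 (𝓔.A1 (d.cutU F θ) i) z‖ ≤ C * 𝓔.a i z.1 * 𝓔.Lam i ∧
      ‖𝓔.eps i • pd 0 (𝓔.A1 (d.cutU F θ) i) z‖ ≤ C * 𝓔.a i z.1 * 𝓔.η i ^ 14) ∧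
    (∀ i, ∀ z ∈ 𝓔.toFam.dom i, θ i =ᶠ[𝓝 z.1] 1 →
      ‖𝓔.A1 (d.cutU F θ) i z - d.Wl i z‖ ≤ C * 𝓔.a i z.1 * 𝓔.η i ^ 6 ∧
      ‖pd 1 (𝓔.A1 (d.cutU F θ) i) z - pd 1 (d.Wl i) z‖ ≤ C * 𝓔.a i z.1 * 𝓔.η i ^ 6 ∧
      ‖pd 2 (𝓔.A1 (d.cutU F θ) i) z - pd 2 (d.Wl i) z‖ ≤ C * 𝓔.a i z.1 * 𝓔.η i ^ 6) := by
  have b1 := B_A1_cutU h
  have b2 : 𝓔.toFam.B (𝓔.W 1 14 0) (𝓔.A2 (d.cutU F θ)) :=
    EFam.B_le (B_A2c h) le_rfl (by omega) (by omega)
  have b3 : 𝓔.toFam.B (𝓔.W 1 14 0) (fun i => pd 1 (𝓔.A2 (d.cutU F θ) i)) :=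
    EFam.B_le (EFam.B_pd (B_A2c h) 1) le_rfl (by omega) (by omega)
  have b4 : 𝓔.toFam.B (𝓔.W 1 0 1) (fun i => pd 1 (𝓔.A1 (d.cutU F θ) i)) := EFam.B_pd b1 1
  have b5 : 𝓔.toFam.B (𝓔.W 1 0 1) (fun i => pd 2 (𝓔.A1 (d.cutU F θ) i)) := EFam.B_pd b1 2
  have b6 : 𝓔.toFam.B (𝓔.W 1 14 0) (fun i z => 𝓔.eps i • pd 0 (𝓔.A1 (d.cutU F θ) i) z) :=
    EFam.B_le (EFam.B_eps (EFam.B_pd b1 0)) le_rfl (by omega) (by omega)
  have bR := S4.B_RR h.hyp h.good
  have c1 : 𝓔.toFam.B (𝓔.W 1 6 0) (S4.RR d F) := EFam.B_le bR le_rfl (by omega) (by omega)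
  have c2 : 𝓔.toFam.B (𝓔.W 1 6 0) (fun i => pd 1 (S4.RR d F i)) :=
    EFam.B_le (EFam.B_pd bR 1) le_rfl (by omega) (by omega)
  have c3 : 𝓔.toFam.B (𝓔.W 1 6 0) (fun i => pd 2 (S4.RR d F i)) :=
    EFam.B_le (EFam.B_pd bR 2) le_rfl (by omega) (by omega)
  obtain ⟨C1, k1, z1⟩ := b1.sz
  obtain ⟨C2, k2, z2⟩ := b2.sz
  obtain ⟨C3, k3, z3⟩ := b3.sz
  obtain ⟨C4, k4, z4⟩ := b4.sz
  obtain ⟨C5, k5, z5⟩ := b5.sz
  obtain ⟨C6, k6, z6⟩ := b6.sz
  obtain ⟨D1, l1, y1⟩ := c1.sz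
  obtain ⟨D2, l2, y2⟩ := c2.sz
  obtain ⟨D3, l3, y3⟩ := c3.sz
  set C := C1 + C2 + C3 + C4 + C5 + C6 + D1 + D2 + D3 with hC
  have key : ∀ {c : ℝ} (i : 𝓔.I) (x : X2) (m l : ℕ), x ∈ 𝓔.D i → c ≤ C →
      c * 𝓔.W 1 m l i x ≤ C * 𝓔.a i x * (𝓔.η i ^ m * 𝓔.Lam i ^ l) := by
    intro c i x m l hx hc
    have hw : 𝓔.W 1 m l i x = 𝓔.a i x * (𝓔.η i ^ m * 𝓔.Lam i ^ l) := by
      simp only [EFam.W]; ring
    rw [hw, mul_assoc C]
    refine mul_le_mul_of_nonneg_right hc ?_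
    rw [← hw]
    exact (EFam.W_pos 1 m l i hx).le
  refine ⟨C, by positivity, fun i z hz => ⟨?_, ?_, ?_, ?_, ?_, ?_⟩, fun i z hz h1 => ?_⟩
  · simpa using (z1 i z hz).trans (key i z.1 0 0 hz (by linarith))
  · simpa using (z2 i z hz).trans (key i z.1 14 0 hz (by linarith))
  · simpa using (z3 i z hz).trans (key i z.1 14 0 hz (by linarith))
  · simpa using (z4 i z hz).trans (key i z.1 0 1 hz (by linarith))
  · simpa using (z5 i z hz).trans (key i z.1 0 1 hz (by linarith))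
  · simpa using (z6 i z hz).trans (key i z.1 14 0 hz (by linarith))
  · have e := A1c_near h hz h1
    have dW : DifferentiableAt ℝ (d.Wl i) z := diffAt (𝓔.toFam.isOpen_dom i) (h.hyp.WB.smooth i) hz
    have dR : DifferentiableAt ℝ (S4.RR d F i) z :=
      diffAt (𝓔.toFam.isOpen_dom i) (bR.smooth i) hz
    have p : ∀ j, pd j (𝓔.A1 (d.cutU F θ) i) z = pd j (d.Wl i) z + pd j (S4.RR d F i) z := by
      intro j
      rw [← S0.pd_add j dW dR]
      unfold pd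
      rw [e.fderiv_eq]
    refine ⟨?_, ?_, ?_⟩
    · rw [e.eq_of_nhds, add_sub_cancel_left]
      simpa using (y1 i z hz).trans (key i z.1 6 0 hz (by linarith))
    · rw [p 1, add_sub_cancel_left]
      simpa using (y2 i z hz).trans (key i z.1 6 0 hz (by linarith))
    · rw [p 2, add_sub_cancel_left]
      simpa using (y3 i z hz).trans (key i z.1 6 0 hz (by linarith))

/-! ### the same in terms of the map `cutMap` -/

/-- everywhere on `D i` -/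
theorem CutHyp.close_crude (h : d.CutHyp F θ) : ∃ C : ℝ, 0 < C ∧
    ∀ (i : 𝓔.I) (t0 : ℝ) (x : X2), x ∈ 𝓔.D i →
      ‖d1 (d.cutMap F θ i t0) x - d1 (d.f i) x‖ ≤ C * 𝓔.a i x ∧
      ‖d2 (d.cutMap F θ i t0) x - d2 (d.f i) x‖ ≤ C * 𝓔.a i x * 𝓔.η i ^ 14 ∧
      ‖d2 (d2 (d.cutMap F θ i t0)) x - d2 (d2 (d.f i)) x‖ ≤ C * 𝓔.a i x * 𝓔.η i ^ 14 ∧
      ‖d1 (d2 (d.cutMap F θ i t0)) x - d1 (d2 (d.f i)) x‖ ≤ C * 𝓔.a i x * 𝓔.Lam i ∧
      ‖𝓔.eps i • (d1 (d1 (d.cutMap F θ i t0)) x - d1 (d1 (d.f i)) x)‖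
        ≤ C * 𝓔.a i x * 𝓔.Lam i := by
  obtain ⟨C, hC, hb, -⟩ := h.pieces
  refine ⟨2 * C, by positivity, fun i t0 x hx => ?_⟩
  obtain ⟨z1, z2, z3, z4, z5, z6⟩ := hb i (x, x.1 / 𝓔.eps i + t0) hx
  obtain ⟨e1, e2, e3⟩ := h.dd i t0 hx
  have ha := 𝓔.a_pos i x hx
  have hη := 𝓔.η_pos i
  have hη1 : 𝓔.η i ^ 14 ≤ 1 := pow_le_one₀ hη.le (EFam.η_le_one i)
  have hL := 𝓔.one_le i
  have hCa : 0 < C * 𝓔.a i x := mul_pos hC ha
  have hw : 0 < C * 𝓔.a i x * 𝓔.η i ^ 14 := by positivity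
  have hw' : 0 < C * 𝓔.a i x * 𝓔.Lam i := by
    have := lt_of_lt_of_le one_pos hL
    positivity
  refine ⟨?_, ?_, ?_, ?_, ?_⟩
  · rw [h.d1_eq i t0 hx, add_sub_cancel_left]
    exact z1.trans (by linarith)
  · rw [h.d2_eq i t0 hx, add_sub_cancel_left]
    exact z2.trans (by linarith)
  · rw [e1, add_sub_cancel_left]
    exact z3.trans (by linarith)
  · rw [h.d12_comm, d1_d2_comm' (h.fsm i), e2, add_sub_cancel_left]
    exact z4.trans (by linarith)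
  · rw [e3]
    have e : 𝓔.eps i • (d1 (d1 (d.f i)) x + pd 0 (𝓔.A1 (d.cutU F θ) i) (x, x.1 / 𝓔.eps i + t0)
        + (𝓔.eps i)⁻¹ • pd 2 (𝓔.A1 (d.cutU F θ) i) (x, x.1 / 𝓔.eps i + t0)
        - d1 (d1 (d.f i)) x) = 𝓔.eps i • pd 0 (𝓔.A1 (d.cutU F θ) i) (x, x.1 / 𝓔.eps i + t0)
          + pd 2 (𝓔.A1 (d.cutU F θ) i) (x, x.1 / 𝓔.eps i + t0) := by
      simp only [smul_sub, smul_add, smul_smul, mul_inv_cancel₀ (EFam.eps_pos i).ne', one_smul]
      abel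
    rw [e]
    refine (norm_add_le _ _).trans ((add_le_add z6 z5).trans ?_)
    have : C * 𝓔.a i x * 𝓔.η i ^ 14 ≤ C * 𝓔.a i x * 𝓔.Lam i :=
      mul_le_mul_of_nonneg_left (hη1.trans hL) hCa.le
    simp only
    linarith

/-- where `θ = 1` -/
theorem CutHyp.close_one (h : d.CutHyp F θ) : ∃ C : ℝ, 0 < C ∧
    ∀ (i : 𝓔.I) (t0 : ℝ) (x : X2), x ∈ 𝓔.D i → θ i =ᶠ[𝓝 x] 1 →
      ‖d1 (d.cutMap F θ i t0) x - (d1 (d.f i) x + d.Wl i (x, x.1 / 𝓔.eps i + t0))‖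
        ≤ C * 𝓔.a i x * 𝓔.η i ^ 6 ∧
      ‖d2 (d.cutMap F θ i t0) x - d2 (d.f i) x‖ ≤ C * 𝓔.a i x * 𝓔.η i ^ 6 ∧
      ‖d2 (d2 (d.cutMap F θ i t0)) x - d2 (d2 (d.f i)) x‖ ≤ C * 𝓔.a i x * 𝓔.η i ^ 6 ∧
      ‖d1 (d2 (d.cutMap F θ i t0)) x
        - (d1 (d2 (d.f i)) x + pd 1 (d.Wl i) (x, x.1 / 𝓔.eps i + t0))‖
        ≤ C * 𝓔.a i x * 𝓔.η i ^ 6 ∧
      ‖𝓔.eps i • d1 (d1 (d.cutMap F θ i t0)) x - pd 2 (d.Wl i) (x, x.1 / 𝓔.eps i + t0)‖
        ≤ C * 𝓔.a i x * 𝓔.η i ^ 6 + 𝓔.eps i * ‖d1 (d1 (d.f i)) x‖ := by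
  obtain ⟨C, hC, hb, hc⟩ := h.pieces
  refine ⟨2 * C, by positivity, fun i t0 x hx h1 => ?_⟩
  obtain ⟨z1, z2, z3, z4, z5, z6⟩ := hb i (x, x.1 / 𝓔.eps i + t0) hx
  obtain ⟨y1, y2, y3⟩ := hc i (x, x.1 / 𝓔.eps i + t0) hx h1
  obtain ⟨e1, e2, e3⟩ := h.dd i t0 hx
  simp only at z1 z2 z3 z4 z5 z6 y1 y2 y3
  have ha := 𝓔.a_pos i x hx
  have hη := 𝓔.η_pos i
  have hη1 : 𝓔.η i ^ 14 ≤ 𝓔.η i ^ 6 := pow_le_pow_of_le_one hη.le (EFam.η_le_one i) (by omega)
  have hCa : 0 < C * 𝓔.a i x := mul_pos hC ha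
  have hw : 0 < C * 𝓔.a i x * 𝓔.η i ^ 6 := by positivity
  have hle : C * 𝓔.a i x * 𝓔.η i ^ 14 ≤ C * 𝓔.a i x * 𝓔.η i ^ 6 :=
    mul_le_mul_of_nonneg_left hη1 hCa.le
  refine ⟨?_, ?_, ?_, ?_, ?_⟩
  · rw [h.d1_eq i t0 hx, add_sub_add_left_eq_sub]
    exact y1.trans (by linarith)
  · rw [h.d2_eq i t0 hx, add_sub_cancel_left]
    exact z2.trans (by linarith)
  · rw [e1, add_sub_cancel_left]
    exact z3.trans (by linarith)
  · rw [h.d12_comm, d1_d2_comm' (h.fsm i), e2, add_sub_add_left_eq_sub]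
    exact y2.trans (by linarith)
  · rw [e3]
    have e : 𝓔.eps i • (d1 (d1 (d.f i)) x + pd 0 (𝓔.A1 (d.cutU F θ) i) (x, x.1 / 𝓔.eps i + t0)
        + (𝓔.eps i)⁻¹ • pd 2 (𝓔.A1 (d.cutU F θ) i) (x, x.1 / 𝓔.eps i + t0))
        - pd 2 (d.Wl i) (x, x.1 / 𝓔.eps i + t0)
        = 𝓔.eps i • pd 0 (𝓔.A1 (d.cutU F θ) i) (x, x.1 / 𝓔.eps i + t0)
          + (pd 2 (𝓔.A1 (d.cutU F θ) i) (x, x.1 / 𝓔.eps i + t0)
            - pd 2 (d.Wl i) (x, x.1 / 𝓔.eps i + t0)) + 𝓔.eps i • d1 (d1 (d.f i)) x := by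
      simp only [smul_add, smul_smul, mul_inv_cancel₀ (EFam.eps_pos i).ne', one_smul]
      abel
    rw [e]
    refine (norm_add_le _ _).trans (add_le_add ?_ ?_)
    · refine (norm_add_le _ _).trans ((add_le_add z6 y3).trans ?_)
      linarith
    · rw [norm_smul, Real.norm_of_nonneg (EFam.eps_pos i).le]

end EData

end Crest.Agent.R216.TE
end

-- ▼ part R216/MacUnif
section

/-!
# Row 216, Theorem E, MACRO: uniform estimates for the loop family `W` (helper961).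
-/

open Set Topology
open scoped ContDiff

namespace Crest.Agent.R216.TE

section
variable {f : X2 → E4} {u β : X2 → ℝ} {O : Set (X2 × ℝ)} {W : X2 × ℝ → ℝ → E4}

/-- the loop family as a function on a product -/
def Wh (W : X2 × ℝ → ℝ → E4) : (X2 × ℝ) × ℝ → E4 := fun z => W z.1 z.2

namespace MU

lemma Wh_smooth (h : MacHyp f u β O W) : ContDiffOn ℝ ∞ (Wh W) (O ×ˢ univ) := h.hW.smooth

lemma isOpen_O2 (h : MacHyp f u β O W) : IsOpen (O ×ˢ (univ : Set ℝ)) :=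
  h.hW.isOpen.prod isOpen_univ

lemma Wh_diff (h : MacHyp f u β O W) {z : X2 × ℝ} (hz : z ∈ O) (t : ℝ) :
    DifferentiableAt ℝ (Wh W) (z, t) :=
  ((Wh_smooth h).contDiffAt ((isOpen_O2 h).mem_nhds ⟨hz, mem_univ _⟩)).differentiableAt (by simp)

lemma fderiv_cont (h : MacHyp f u β O W) : ContinuousOn (fderiv ℝ (Wh W)) (O ×ˢ univ) :=
  ((Wh_smooth h).fderiv_of_isOpen (isOpen_O2 h) (m := ∞) (by simp)).continuousOn

lemma Wh_per (h : MacHyp f u β O W) {z : X2 × ℝ} (hz : z ∈ O) (t : ℝ) :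
    Wh W (z, t + 2 * Real.pi) = Wh W (z, t) := h.hW.per z hz t

lemma fderiv_per (h : MacHyp f u β O W) {z : X2 × ℝ} (hz : z ∈ O) (t : ℝ) :
    fderiv ℝ (Wh W) (z, t + 2 * Real.pi) = fderiv ℝ (Wh W) (z, t) := by
  have h1 : (fun p : (X2 × ℝ) × ℝ => Wh W (p + (0, 2 * Real.pi))) =ᶠ[𝓝 (z, t)] Wh W := by
    filter_upwards [(isOpen_O2 h).mem_nhds (⟨hz, mem_univ _⟩ : (z, t) ∈ O ×ˢ univ)] with p hp'
    have := Wh_per h hp'.1 p.2
    simpa [Prod.add_def] using this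
  have h2 := h1.fderiv_eq (𝕜 := ℝ)
  have h3 := fderiv_comp_add_right (𝕜 := ℝ) (F := E4) (f := Wh W)
    (x := (z, t)) ((0, 2 * Real.pi) : (X2 × ℝ) × ℝ)
  have h4 : ((z, t) : (X2 × ℝ) × ℝ) + (0, 2 * Real.pi) = (z, t + 2 * Real.pi) := by simp
  rw [h4] at h3
  rw [← h3, ← h2]

/-- the compact tube -/
lemma tube_cpt {K : Set X2} (hK : IsCompact K) {A : X2 → ℝ} (hA : Continuous A) (r : ℝ) :
    IsCompact {p : X2 × ℝ | p.1 ∈ K ∧ |p.2 - A p.1| ≤ r} := by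
  have h1 : IsCompact ((fun q : X2 × ℝ => ((q.1, A q.1 + q.2) : X2 × ℝ)) ''
      (K ×ˢ Icc (-r) r)) := (hK.prod isCompact_Icc).image (by fun_prop)
  convert h1 using 1
  ext p
  constructor
  · rintro ⟨h2, h3⟩
    exact ⟨(p.1, p.2 - A p.1), ⟨h2, abs_le.1 h3⟩, by simp⟩
  · rintro ⟨q, ⟨h2, h3⟩, rfl⟩
    refine ⟨h2, ?_⟩
    simpa using abs_le.2 h3

/-- uniform smallness near the zero set of a periodic function -/
lemma small_near {V : Type*} [NormedAddCommGroup V] {K : Set X2} (hK : IsCompact K)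
    {u : X2 → ℝ} (hu : Continuous u) {Ψ : X2 → ℝ → V}
    (hc : ContinuousOn (fun p : X2 × ℝ => Ψ p.1 p.2) (K ×ˢ univ))
    (hp : ∀ x ∈ K, ∀ t, Ψ x (t + 2 * Real.pi) = Ψ x t)
    (h0 : ∀ x ∈ K, u x ≤ 0 → ∀ t, Ψ x t = 0) {η : ℝ} (hη : 0 < η) :
    ∃ τ : ℝ, 0 < τ ∧ ∀ x ∈ K, u x ≤ τ → ∀ t, ‖Ψ x t‖ ≤ η := by
  set B : Set (X2 × ℝ) := (K ×ˢ Icc (0:ℝ) (2 * Real.pi)) ∩
    (fun p : X2 × ℝ => ‖Ψ p.1 p.2‖) ⁻¹' Ici η with hB
  have hKK : IsCompact (K ×ˢ Icc (0:ℝ) (2 * Real.pi)) := hK.prod isCompact_Icc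
  have hc' : ContinuousOn (fun p : X2 × ℝ => ‖Ψ p.1 p.2‖) (K ×ˢ Icc (0:ℝ) (2 * Real.pi)) :=
    (hc.mono (prod_mono Subset.rfl (subset_univ _))).norm
  have hBc : IsCompact B :=
    hKK.of_isClosed_subset (hc'.preimage_isClosed_of_isClosed hKK.isClosed isClosed_Ici)
      inter_subset_left
  obtain ⟨τ, hτ, h1⟩ := hBc.exists_forall_le' (f := fun p : X2 × ℝ => u p.1)
    (by fun_prop) (a := 0) (by
      rintro ⟨x, t⟩ ⟨⟨hx, ht⟩, h2⟩
      by_contra h3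
      have := h0 x hx (not_lt.1 h3) t
      simp only [mem_preimage, mem_Ici, this, norm_zero] at h2
      linarith)
  refine ⟨τ / 2, by positivity, fun x hx hux t => ?_⟩
  obtain ⟨s, hs, hst⟩ := Function.Periodic.exists_mem_Ico (f := fun t => Ψ x t)
    (fun t => hp x hx t) (by positivity : (0:ℝ) < 2 * Real.pi) t 0
  rw [hst]
  by_contra h3
  have := h1 (x, s) ⟨⟨hx, hs.1, by linarith [hs.2]⟩, (not_le.1 h3).le⟩
  simp only at this
  linarith

lemma fderiv_ampX_zero (h : AmpHyp u β) {x : X2} (hx : u x ≤ 0) :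
    ampX u β x = 0 ∧ fderiv ℝ (ampX u β) x = 0 := by
  have h0 : ampX u β x = 0 := by
    unfold ampX; rw [expNegInvGlue.zero_of_nonpos hx, zero_mul]
  refine ⟨h0, ?_⟩
  have hmin : IsLocalMin (ampX u β) x :=
    Filter.Eventually.of_forall (fun y => by rw [h0]; exact ML.ampX_nonneg h y)
  exact hmin.fderiv_eq_zero

lemma symm2 {f : X2 → E4} (hf : ContDiff ℝ ∞ f) (x : X2) : d2 (d1 f) x = d1 (d2 f) x := by
  have h1 : IsSymmSndFDerivAt ℝ f x :=
    (hf.contDiffAt (x := x)).isSymmSndFDerivAt (by simp; exact WithTop.coe_le_coe.2 le_top)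
  have hd : DifferentiableAt ℝ (fderiv ℝ f) x :=
    ((hf.fderiv_right (m := ∞) (by simp)).differentiable (by simp)) x
  have e1 : d2 (d1 f) x = fderiv ℝ (fderiv ℝ f) x (0, 1) (1, 0) := by
    unfold d1 d2
    rw [fderiv_clm_apply hd (differentiableAt_const _)]
    simp
  have e2 : d1 (d2 f) x = fderiv ℝ (fderiv ℝ f) x (1, 0) (0, 1) := by
    unfold d1 d2
    rw [fderiv_clm_apply hd (differentiableAt_const _)]
    simp
  rw [e1, e2]
  exact h1.eq _ _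

end MU

open MU

theorem unif_near (h : MacHyp f u β O W) {η : ℝ} (hη : 0 < η) :
    ∃ r : ℝ, 0 < r ∧ ∀ x ∈ closure {x | 0 < u x}, ∀ α : ℝ, |α - ampX u β x| ≤ r →
      (x, α) ∈ O ∧ ∀ t, ‖Wh W ((x, α), t) - Wh W ((x, ampX u β x), t)‖ ≤ η ∧
        ‖fderiv ℝ (Wh W) ((x, α), t) - fderiv ℝ (Wh W) ((x, ampX u β x), t)‖ ≤ η := by
  set K := closure {x | 0 < u x} with hKdef
  have hK : IsCompact K := h.ha.cpt
  set A := ampX u β with hAdef
  have hAc : Continuous A := ML.ampX_cont h.ha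
  obtain ⟨r1, hr1, ht⟩ := ML.exists_tube h.hW.isOpen hK hAc h.hW.mem
  set S : Set (X2 × ℝ) := {p | p.1 ∈ K ∧ |p.2 - A p.1| ≤ r1} with hS
  have hSc : IsCompact S := tube_cpt hK hAc r1
  have hSO : S ⊆ O := fun p hp => ht p.1 hp.1 p.2 hp.2
  have hSS : IsCompact (S ×ˢ Icc (0:ℝ) (2 * Real.pi)) := hSc.prod isCompact_Icc
  have hsub : S ×ˢ Icc (0:ℝ) (2 * Real.pi) ⊆ O ×ˢ univ := prod_mono hSO (subset_univ _)
  have hu1 := hSS.uniformContinuousOn_of_continuous ((Wh_smooth h).continuousOn.mono hsub)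
  have hu2 := hSS.uniformContinuousOn_of_continuous ((fderiv_cont h).mono hsub)
  rw [Metric.uniformContinuousOn_iff_le] at hu1 hu2
  obtain ⟨δ1, hδ1, h1⟩ := hu1 η hη
  obtain ⟨δ2, hδ2, h2⟩ := hu2 η hη
  refine ⟨min r1 (min δ1 δ2), by positivity, fun x hx α hα => ?_⟩
  have hα1 : |α - A x| ≤ r1 := hα.trans (min_le_left _ _)
  have hα2 : |α - A x| ≤ δ1 := hα.trans ((min_le_right _ _).trans (min_le_left _ _))
  have hα3 : |α - A x| ≤ δ2 := hα.trans ((min_le_right _ _).trans (min_le_right _ _))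
  have hxO : (x, α) ∈ O := ht x hx α hα1
  have hxO' : (x, A x) ∈ O := h.hW.mem x hx
  refine ⟨hxO, fun t => ?_⟩
  obtain ⟨s, hs, hst⟩ := Function.Periodic.exists_mem_Ico
    (f := fun t => (((Wh W ((x, α), t), Wh W ((x, A x), t)),
      (fderiv ℝ (Wh W) ((x, α), t), fderiv ℝ (Wh W) ((x, A x), t))) :
        (E4 × E4) × ((((X2 × ℝ) × ℝ) →L[ℝ] E4) × (((X2 × ℝ) × ℝ) →L[ℝ] E4))))
    (fun t => by
      simp only [Wh_per h hxO, Wh_per h hxO', fderiv_per h hxO, fderiv_per h hxO'])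
    (by positivity : (0:ℝ) < 2 * Real.pi) t 0
  simp only [Prod.mk.injEq] at hst
  obtain ⟨⟨e1, e2⟩, e3, e4⟩ := hst
  rw [e1, e2, e3, e4]
  have hs' : s ∈ Icc (0:ℝ) (2 * Real.pi) := ⟨hs.1, by linarith [hs.2]⟩
  have m1 : (((x, α), s) : (X2 × ℝ) × ℝ) ∈ S ×ˢ Icc (0:ℝ) (2 * Real.pi) := ⟨⟨hx, hα1⟩, hs'⟩
  have m2 : (((x, A x), s) : (X2 × ℝ) × ℝ) ∈ S ×ˢ Icc (0:ℝ) (2 * Real.pi) :=
    ⟨⟨hx, by simpa using hr1.le⟩, hs'⟩
  have hd : dist (((x, α), s) : (X2 × ℝ) × ℝ) ((x, A x), s) = |α - A x| := by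
    rw [Prod.dist_eq, Prod.dist_eq, dist_self, dist_self, Real.dist_eq]
    simp [abs_nonneg]
  have h3 := h1 _ m1 _ m2 (by rw [hd]; exact hα2)
  have h4 := h2 _ m1 _ m2 (by rw [hd]; exact hα3)
  rw [dist_eq_norm] at h3 h4
  exact ⟨h3, h4⟩

theorem fderiv_bdd (h : MacHyp f u β O W) : ∃ r C : ℝ, 0 < r ∧ 0 < C ∧
    ∀ x ∈ closure {x | 0 < u x}, ∀ α : ℝ, |α - ampX u β x| ≤ r →
      ∀ t, ‖fderiv ℝ (Wh W) ((x, α), t)‖ ≤ C := by
  set K := closure {x | 0 < u x} with hKdef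
  have hK : IsCompact K := h.ha.cpt
  set A := ampX u β with hAdef
  have hAc : Continuous A := ML.ampX_cont h.ha
  obtain ⟨r1, hr1, ht⟩ := ML.exists_tube h.hW.isOpen hK hAc h.hW.mem
  set S : Set (X2 × ℝ) := {p | p.1 ∈ K ∧ |p.2 - A p.1| ≤ r1} with hS
  have hSc : IsCompact S := tube_cpt hK hAc r1
  have hSO : S ⊆ O := fun p hp => ht p.1 hp.1 p.2 hp.2
  obtain ⟨C, hC⟩ := ML.bdd_of_per h.hW.isOpen (Wh_smooth h) (fun z hz t => Wh_per h hz t) hSc hSO 1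
  refine ⟨r1, max C 1, hr1, by positivity, fun x hx α hα t => ?_⟩
  have := hC ((x, α), t) ⟨⟨hx, hα⟩, mem_univ _⟩
  rw [norm_iteratedFDeriv_one] at this
  exact this.trans (le_max_left _ _)

lemma d2_W_comp (h : MacHyp f u β O W) {a : X2 → ℝ} {x : X2} (ha : DifferentiableAt ℝ a x)
    (hx : (x, a x) ∈ O) (t : ℝ) :
    d2 (fun y => W (y, a y) t) x = fderiv ℝ (Wh W) ((x, a x), t) (((0, 1), d2 a x), 0) := by
  have hd := (Wh_diff h hx t).hasFDerivAt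
  have hi : HasFDerivAt (fun y : X2 => (((y, a y), t) : (X2 × ℝ) × ℝ))
      (((ContinuousLinearMap.id ℝ X2).prod (fderiv ℝ a x)).prod 0) x :=
    ((hasFDerivAt_id x).prodMk ha.hasFDerivAt).prodMk (hasFDerivAt_const t x)
  have hc := hd.comp x hi
  have he : (fun y => W (y, a y) t) = Wh W ∘ (fun y : X2 => (((y, a y), t) : (X2 × ℝ) × ℝ)) := rfl
  unfold d2
  rw [he, hc.fderiv]
  simp

lemma deriv_W (h : MacHyp f u β O W) {x : X2} {α : ℝ} (hx : (x, α) ∈ O) (t : ℝ) :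
    deriv (fun t => W (x, α) t) t = fderiv ℝ (Wh W) ((x, α), t) ((0, 0), 1) := by
  have hd := (Wh_diff h hx t).hasFDerivAt
  have hi : HasDerivAt (fun t : ℝ => (((x, α), t) : (X2 × ℝ) × ℝ)) ((0, 0), 1) t :=
    (hasDerivAt_const t (x, α)).prodMk (hasDerivAt_id t)
  have hc : HasDerivAt (fun t => W (x, α) t) _ t := hd.comp_hasDerivAt t hi
  exact hc.deriv

theorem near_boundary (h : MacHyp f u β O W) {η : ℝ} (hη : 0 < η) :
    ∃ τ : ℝ, 0 < τ ∧ ∀ x ∈ closure {x | 0 < u x}, u x ≤ τ → ∀ t,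
      ‖W (x, ampX u β x) t - d1 f x‖ ≤ η ∧
      ‖d2 (fun y => W (y, ampX u β y) t) x - d1 (d2 f) x‖ ≤ η ∧
      ‖deriv (fun t => W (x, ampX u β x) t) t‖ ≤ η ∧ ampX u β x ≤ η := by
  set K := closure {x | 0 < u x} with hKdef
  have hK : IsCompact K := h.ha.cpt
  set A := ampX u β with hAdef
  have hAs : ContDiff ℝ ∞ A := contDiff_ampX h.ha
  have hAc : Continuous A := hAs.continuous
  have huc : Continuous u := h.ha.hu.continuous
  have hmem : ∀ x ∈ K, (x, A x) ∈ O := h.hW.mem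
  have hmap : MapsTo (fun p : X2 × ℝ => (((p.1, A p.1), p.2) : (X2 × ℝ) × ℝ)) (K ×ˢ univ)
      (O ×ˢ univ) := fun p hp => ⟨hmem p.1 hp.1, mem_univ _⟩
  have hmc : ContinuousOn (fun p : X2 × ℝ => (((p.1, A p.1), p.2) : (X2 × ℝ) × ℝ))
      (K ×ˢ univ) := by fun_prop
  have hWc : ContinuousOn (fun p : X2 × ℝ => Wh W ((p.1, A p.1), p.2)) (K ×ˢ univ) :=
    (Wh_smooth h).continuousOn.comp hmc hmap
  have hFc : ContinuousOn (fun p : X2 × ℝ => fderiv ℝ (Wh W) ((p.1, A p.1), p.2))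
      (K ×ˢ univ) := (fderiv_cont h).comp hmc hmap
  have hd1c : Continuous (d1 f) := (contDiff_d1 h.hf).continuous
  have hd12c : Continuous (d1 (d2 f)) := (contDiff_d1 (contDiff_d2 h.hf)).continuous
  have hd2A : Continuous (d2 A) := by
    unfold d2
    exact ((hAs.fderiv_right (m := ∞) (by simp)).clm_apply contDiff_const).continuous
  -- on the zero set
  have hzero : ∀ x ∈ K, u x ≤ 0 → A x = 0 ∧ fderiv ℝ A x = 0 ∧ (x, (0:ℝ)) ∈ O := by
    intro x hx hux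
    obtain ⟨h1, h2⟩ := fderiv_ampX_zero h.ha hux
    refine ⟨h1, h2, ?_⟩
    have := hmem x hx
    rwa [hAdef, h1] at this
  -- (1)
  obtain ⟨τ1, hτ1, h1⟩ := small_near hK huc (Ψ := fun x t => Wh W ((x, A x), t) - d1 f x)
    (hWc.sub (by fun_prop)) (fun x hx t => by simp only [Wh_per h (hmem x hx)])
    (fun x hx hux t => by
      obtain ⟨e1, _, e3⟩ := hzero x hx hux
      simp only [e1]
      exact sub_eq_zero.2 (h.hW.at_zero e3 t)) hη
  -- (2)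
  obtain ⟨τ2, hτ2, h2⟩ := small_near hK huc
    (Ψ := fun x t => fderiv ℝ (Wh W) ((x, A x), t) (((0, 1), d2 A x), 0) - d1 (d2 f) x)
    ((hFc.clm_apply (by fun_prop)).sub (by fun_prop))
    (fun x hx t => by simp only [fderiv_per h (hmem x hx)])
    (fun x hx hux t => by
      obtain ⟨e1, e2, e3⟩ := hzero x hx hux
      have e4 : d2 A x = 0 := by unfold d2; rw [e2]; rfl
      have e5 := d2_W_comp h (a := fun _ => (0:ℝ)) (differentiableAt_const _) e3 t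
      have e6 : d2 (fun _ : X2 => (0:ℝ)) x = 0 := by unfold d2; simp
      rw [e6] at e5
      have e7 : (fun y => W (y, (0:ℝ)) t) =ᶠ[𝓝 x] d1 f := by
        have : (fun y : X2 => ((y, (0:ℝ)) : X2 × ℝ)) ⁻¹' O ∈ 𝓝 x :=
          (h.hW.isOpen.preimage (by fun_prop)).mem_nhds e3
        filter_upwards [this] with y hy
        exact h.hW.at_zero hy t
      have e8 : d2 (fun y => W (y, (0:ℝ)) t) x = d2 (d1 f) x := by
        unfold d2; rw [e7.fderiv_eq]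
      simp only [e1, e4]
      rw [← e5, e8, symm2 h.hf, sub_self]) hη
  -- (3)
  obtain ⟨τ3, hτ3, h3⟩ := small_near hK huc
    (Ψ := fun x t => fderiv ℝ (Wh W) ((x, A x), t) ((0, 0), 1))
    (hFc.clm_apply continuousOn_const)
    (fun x hx t => by simp only [fderiv_per h (hmem x hx)])
    (fun x hx hux t => by
      obtain ⟨e1, _, e3⟩ := hzero x hx hux
      simp only [e1]
      rw [← deriv_W h e3]
      have : (fun t => W (x, (0:ℝ)) t) = fun _ => d1 f x := by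
        funext s; exact h.hW.at_zero e3 s
      rw [this]; simp) hη
  -- (4)
  obtain ⟨τ4, hτ4, h4⟩ := small_near hK huc (Ψ := fun x _ => A x)
    (by fun_prop) (fun x hx t => rfl)
    (fun x hx hux t => (hzero x hx hux).1) hη
  refine ⟨min (min τ1 τ2) (min τ3 τ4), by positivity, fun x hx hux t => ⟨?_, ?_, ?_, ?_⟩⟩
  · exact h1 x hx (hux.trans ((min_le_left _ _).trans (min_le_left _ _))) t
  · rw [d2_W_comp h ((hAs.differentiable (by simp)) x) (hmem x hx)]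
    exact h2 x hx (hux.trans ((min_le_left _ _).trans (min_le_right _ _))) t
  · rw [deriv_W h (hmem x hx)]
    exact h3 x hx (hux.trans ((min_le_right _ _).trans (min_le_left _ _))) t
  · exact (le_abs_self _).trans
      (h4 x hx (hux.trans ((min_le_right _ _).trans (min_le_right _ _))) t)

end

end Crest.Agent.R216.TE
end

-- ▼ part R216/MacClose
section

/-!
# Row 216, Theorem E, MACRO: closeness of the macroscopic corrugation to the loops (helper35).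
-/

open Set Topology
open scoped ContDiff

namespace Crest.Agent.R216.TE

section
variable {f : X2 → E4} {u β : X2 → ℝ} {O : Set (X2 × ℝ)} {W : X2 × ℝ → ℝ → E4}
  {c N : ℕ} {h0 : ℝ}

namespace MClose

lemma contDiff_am (ha : AmpHyp u β) (hc : 1 ≤ c) (i : MIx h0) :
    ContDiff ℝ ∞ (am u β c i.1) := by
  have hL := Lp_ge hc i.2.1 i.2.2.2
  have adm : Prof.Adm 0 (Lp c i.1) := ⟨le_rfl, by linarith, hL⟩
  exact ((Prof.contDiff_alph adm).comp ha.hu).mul ha.hβ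

/-- derivatives of the loop part of the data -/
lemma fderiv_loop (h : MacHyp f u β O W) {a : X2 → ℝ} {x : X2} (t : ℝ)
    (ha : DifferentiableAt ℝ a x) (hx : (x, a x) ∈ O) (v : Q) :
    fderiv ℝ (fun z : Q => W (z.1, a z.1) z.2 - d1 f z.1) (x, t) v =
      fderiv ℝ (Wh W) ((x, a x), t) ((v.1, fderiv ℝ a x v.1), v.2)
        - fderiv ℝ (d1 f) x v.1 := by
  have hd := (MU.Wh_diff h hx t).hasFDerivAt
  have hf : HasFDerivAt (fun z : Q => z.1) (ContinuousLinearMap.fst ℝ X2 ℝ) (x, t) :=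
    hasFDerivAt_fst
  have hs : HasFDerivAt (fun z : Q => z.2) (ContinuousLinearMap.snd ℝ X2 ℝ) (x, t) :=
    hasFDerivAt_snd
  have ha' : HasFDerivAt (fun z : Q => a z.1)
      ((fderiv ℝ a x).comp (ContinuousLinearMap.fst ℝ X2 ℝ)) (x, t) :=
    HasFDerivAt.comp (g := a) (f := fun z : Q => z.1) (x, t) ha.hasFDerivAt hf
  have hi : HasFDerivAt (fun z : Q => (((z.1, a z.1), z.2) : (X2 × ℝ) × ℝ))
      (((ContinuousLinearMap.fst ℝ X2 ℝ).prod
        ((fderiv ℝ a x).comp (ContinuousLinearMap.fst ℝ X2 ℝ))).prod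
        (ContinuousLinearMap.snd ℝ X2 ℝ)) (x, t) := (hf.prodMk ha').prodMk hs
  have hc : HasFDerivAt (fun z : Q => W (z.1, a z.1) z.2) _ (x, t) :=
    HasFDerivAt.comp (g := Wh W) (f := fun z : Q => (((z.1, a z.1), z.2) : (X2 × ℝ) × ℝ))
      (x, t) hd hi
  have hf1 : DifferentiableAt ℝ (d1 f) x := (contDiff_d1 h.hf).differentiable (by simp) x
  have hf' : HasFDerivAt (fun z : Q => d1 f z.1)
      ((fderiv ℝ (d1 f) x).comp (ContinuousLinearMap.fst ℝ X2 ℝ)) (x, t) :=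
    HasFDerivAt.comp (g := d1 f) (f := fun z : Q => z.1) (x, t) hf1.hasFDerivAt hf
  rw [(hc.fun_sub hf').fderiv]
  simp

lemma pd1_loop (h : MacHyp f u β O W) {a : X2 → ℝ} {x : X2} (t : ℝ)
    (ha : DifferentiableAt ℝ a x) (hx : (x, a x) ∈ O) :
    pd 1 (fun z : Q => W (z.1, a z.1) z.2 - d1 f z.1) (x, t) =
      fderiv ℝ (Wh W) ((x, a x), t) (((0, 1), d2 a x), 0) - d2 (d1 f) x := by
  unfold pd
  rw [fderiv_loop h t ha hx]
  simp [bas, d2]

lemma pd2_loop (h : MacHyp f u β O W) {a : X2 → ℝ} {x : X2} (t : ℝ)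
    (ha : DifferentiableAt ℝ a x) (hx : (x, a x) ∈ O) :
    pd 2 (fun z : Q => W (z.1, a z.1) z.2 - d1 f z.1) (x, t) =
      fderiv ℝ (Wh W) ((x, a x), t) ((0, 0), 1) := by
  have e0 : (((0, 0) : X2)) = 0 := rfl
  unfold pd
  rw [fderiv_loop h t ha hx]
  simp [bas, e0]

lemma eventually_d1 {V : Type*} [NormedAddCommGroup V] [NormedSpace ℝ V] {g k : X2 → V} {x : X2}
    (h : g =ᶠ[𝓝 x] k) : d1 g =ᶠ[𝓝 x] d1 k := by
  filter_upwards [h.fderiv (𝕜 := ℝ)] with y hy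
  unfold d1; rw [hy]

lemma eventually_d2 {V : Type*} [NormedAddCommGroup V] [NormedSpace ℝ V] {g k : X2 → V} {x : X2}
    (h : g =ᶠ[𝓝 x] k) : d2 g =ᶠ[𝓝 x] d2 k := by
  filter_upwards [h.fderiv (𝕜 := ℝ)] with y hy
  unfold d2; rw [hy]

/-- `h Λ ≤ √h` -/
lemma h_Lam {h : ℝ} (h0 : 0 < h) (h1 : h ≤ 1 / 3) : h * h ^ (-(1 / 10 : ℝ)) ≤ Real.sqrt h := by
  have e : h * h ^ (-(1 / 10 : ℝ)) = h ^ (9 / 10 : ℝ) := by
    nth_rewrite 1 [← Real.rpow_one h]
    rw [← Real.rpow_add h0]; norm_num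
  rw [e, Real.sqrt_eq_rpow]
  exact Real.rpow_le_rpow_of_exponent_ge h0 (by linarith) (by norm_num)

/-- where the cut-off is `1` -/
lemma region1 (h : MacHyp f u β O W) (hc : 1 ≤ c) (hN : 1 ≤ N) {h0 : ℝ}
    (hy : (dataM h hc hN h0).Hyp) {F : MIx h0 → Q → E4} (hG : (dataM h hc hN h0).Good F)
    {η : ℝ} (hη : 0 < η) : ∃ h1 : ℝ, 0 < h1 ∧ ∀ i : MIx h0, i.1 < h1 → ∀ t0 : ℝ,
      ∀ x ∈ closure {x : X2 | 0 < u x}, (Lp N i.1)⁻¹ < 2 * Lp c i.1 * u x - 1 →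
      ∀ g : X2 → E4, g = (dataM h hc hN h0).cutMap F (fun i => thM u c N i.1) i t0 →
        ‖d1 g x - W (x, ampX u β x) (x.1 / i.1 ^ 16 + t0)‖ ≤ η ∧
        ‖d2 g x - d2 f x‖ ≤ η ∧
        ‖d2 (d2 g) x - d2 (d2 f) x‖ ≤ η ∧
        ‖d1 (d2 g) x - d2 (fun y => W (y, ampX u β y) (x.1 / i.1 ^ 16 + t0)) x‖ ≤ η ∧
        ‖(i.1 ^ 16) • d1 (d1 g) x
          - deriv (fun t => W (x, ampX u β x) t) (x.1 / i.1 ^ 16 + t0)‖ ≤ η := by
  have hcut := cutHyp_M h hc hN hy hG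
  obtain ⟨C1, hC1, hcl⟩ := hcut.close_one
  obtain ⟨A, hA, haA⟩ := (efamM h.ha hc hN h0).a_le
  obtain ⟨r1, C2, hr1, hC2, hbd⟩ := fderiv_bdd h
  have hAs : ContDiff ℝ ∞ (ampX u β) := contDiff_ampX h.ha
  have hd2A : Continuous (d2 (ampX u β)) := by
    unfold d2
    exact ((hAs.fderiv_right (m := ∞) (by simp)).clm_apply contDiff_const).continuous
  obtain ⟨Cd0, hCd0⟩ := h.ha.cpt.exists_bound_of_continuousOn hd2A.continuousOn
  obtain ⟨Cf0, hCf0⟩ := h.ha.cpt.exists_bound_of_continuousOn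
    (contDiff_d1 (contDiff_d1 h.hf)).continuous.continuousOn
  set Cd := |Cd0| with hCd
  set Cf := |Cf0| with hCf
  have hCdn : 0 ≤ Cd := abs_nonneg _
  have hCfn : 0 ≤ Cf := abs_nonneg _
  set e' := η / (4 * (Cd + 3)) with he'
  have he'0 : 0 < e' := by positivity
  obtain ⟨r2, hr2, hun⟩ := unif_near h he'0
  set r := min r2 (min r1 (min 1 (η / (4 * (C2 + 1))))) with hr
  have hr0 : 0 < r := by
    refine lt_min hr2 (lt_min hr1 (lt_min one_pos ?_)); positivity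
  have rr2 : r ≤ r2 := min_le_left _ _
  have rr1 : r ≤ r1 := (min_le_right _ _).trans (min_le_left _ _)
  have rr3 : r ≤ 1 := (min_le_right _ _).trans ((min_le_right _ _).trans (min_le_left _ _))
  have rr4 : r ≤ η / (4 * (C2 + 1)) :=
    (min_le_right _ _).trans ((min_le_right _ _).trans (min_le_right _ _))
  obtain ⟨h2, hh2, ham⟩ := am_close h.ha hc hr0
  refine ⟨min h2 (min (η / (4 * (C1 * A + 1))) (η / (4 * (Cf + 1)))), by positivity,
    fun i hi t0 x hx hs g hg => ?_⟩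
  have hi0 : 0 < i.1 := i.2.1
  have hi3 : i.1 ≤ 1 / 3 := i.2.2.2
  have i1 : i.1 < h2 := hi.trans_le (min_le_left _ _)
  have i2 : i.1 < η / (4 * (C1 * A + 1)) :=
    hi.trans_le ((min_le_right _ _).trans (min_le_left _ _))
  have i3 : i.1 < η / (4 * (Cf + 1)) :=
    hi.trans_le ((min_le_right _ _).trans (min_le_right _ _))
  obtain ⟨m1, m2⟩ := ham i.1 hi0 i1 hi3 x hx
  have hK := Lp_ge hN i.2.1 i.2.2.2
  have hL := Lp_ge hc i.2.1 i.2.2.2
  have hKi : 0 < (Lp N i.1)⁻¹ := by positivity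
  -- membership and cut-off
  have hxD : x ∈ (efamM h.ha hc hN h0).D i := by
    show (2 * Lp N i.1)⁻¹ < 2 * Lp c i.1 * u x - 1
    have : (2 * Lp N i.1)⁻¹ ≤ (Lp N i.1)⁻¹ := by
      apply inv_anti₀ <;> linarith
    linarith
  have hθ : thM u c N i.1 =ᶠ[𝓝 x] 1 := by
    have ho : IsOpen {y : X2 | (Lp N i.1)⁻¹ < 2 * Lp c i.1 * u y - 1} :=
      isOpen_lt continuous_const ((continuous_const.mul h.ha.hu.continuous).sub continuous_const)
    filter_upwards [ho.mem_nhds hs] with y hy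
    exact cutoff_one (by linarith) (le_of_lt hy)
  -- bounds
  have ha0 := (efamM h.ha hc hN h0).a_pos i x hxD
  have haA' := haA i x hxD
  have hsm : C1 * (efamM h.ha hc hN h0).a i x * (efamM h.ha hc hN h0).η i ^ 6 ≤ η / 4 := by
    show C1 * (efamM h.ha hc hN h0).a i x * i.1 ^ 6 ≤ η / 4
    have p6 : i.1 ^ 6 ≤ i.1 := by
      calc i.1 ^ 6 ≤ i.1 ^ 1 := pow_le_pow_of_le_one hi0.le (by linarith) (by norm_num)
        _ = i.1 := pow_one _
    have p1 : C1 * (efamM h.ha hc hN h0).a i x ≤ C1 * A + 1 := by nlinarith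
    calc _ ≤ (C1 * A + 1) * i.1 := mul_le_mul p1 p6 (by positivity) (by positivity)
      _ ≤ (C1 * A + 1) * (η / (4 * (C1 * A + 1))) :=
          mul_le_mul_of_nonneg_left i2.le (by positivity)
      _ = η / 4 := by field_simp
  have heps : i.1 ^ 16 * ‖d1 (d1 f) x‖ ≤ η / 4 := by
    have p6 : i.1 ^ 16 ≤ i.1 := by
      calc i.1 ^ 16 ≤ i.1 ^ 1 := pow_le_pow_of_le_one hi0.le (by linarith) (by norm_num)
        _ = i.1 := pow_one _
    have p1 : ‖d1 (d1 f) x‖ ≤ Cf + 1 := by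
      have := hCf0 x hx
      linarith [le_abs_self Cf0]
    calc _ ≤ i.1 * (Cf + 1) := mul_le_mul p6 p1 (norm_nonneg _) hi0.le
      _ ≤ (η / (4 * (Cf + 1))) * (Cf + 1) := mul_le_mul_of_nonneg_right i3.le (by positivity)
      _ = η / 4 := by field_simp
  obtain ⟨k1, k2, k3, k4, k5⟩ := hcl i t0 x hxD hθ
  rw [← hg] at k1 k2 k3 k4 k5
  set t := x.1 / i.1 ^ 16 + t0 with ht
  have ama : DifferentiableAt ℝ (am u β c i.1) x :=
    (contDiff_am h.ha hc i).differentiable (by simp) x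
  have amX : DifferentiableAt ℝ (ampX u β) x := hAs.differentiable (by simp) x
  obtain ⟨hO, hun'⟩ := hun x hx (am u β c i.1 x) (m1.trans rr2)
  obtain ⟨u1, u2⟩ := hun' t
  have hOX : (x, ampX u β x) ∈ O := h.hW.mem x hx
  have e'le : e' ≤ η / 4 := by
    rw [he']
    apply div_le_div_of_nonneg_left hη.le (by norm_num)
    linarith
  refine ⟨?_, ?_, ?_, ?_, ?_⟩
  · have k1' : ‖d1 g x - (d1 f x + (W (x, am u β c i.1 x) t - d1 f x))‖ ≤ η / 4 := k1.trans hsm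
    rw [add_sub_cancel] at k1'
    have u1' : ‖W (x, am u β c i.1 x) t - W (x, ampX u β x) t‖ ≤ e' := u1
    calc ‖d1 g x - W (x, ampX u β x) t‖
        = ‖(d1 g x - W (x, am u β c i.1 x) t)
            + (W (x, am u β c i.1 x) t - W (x, ampX u β x) t)‖ := by congr 1; abel
      _ ≤ η / 4 + e' := (norm_add_le _ _).trans (add_le_add k1' u1')
      _ ≤ η := by linarith
  · exact (k2.trans hsm).trans (by linarith)
  · exact (k3.trans hsm).trans (by linarith)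
  · have q1 := pd1_loop h t ama hO
    have k4' : ‖d1 (d2 g) x - (d1 (d2 f) x +
        pd 1 (fun z : Q => W (z.1, am u β c i.1 z.1) z.2 - d1 f z.1) (x, t))‖ ≤ η / 4 :=
      k4.trans hsm
    rw [q1, d1_d2_comm' h.hf, add_sub_cancel] at k4'
    rw [d2_W_comp h amX hOX]
    set Φ := fderiv ℝ (Wh W) ((x, am u β c i.1 x), t)
    set Ψ := fderiv ℝ (Wh W) ((x, ampX u β x), t)
    have e1 : Φ (((0, 1), d2 (am u β c i.1) x), 0) - Ψ (((0, 1), d2 (ampX u β) x), 0)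
        = (Φ - Ψ) (((0, 1), d2 (am u β c i.1) x), 0)
          + Ψ (((0, 0), d2 (am u β c i.1) x - d2 (ampX u β) x), 0) := by
      have : ((((0, 0) : X2), d2 (am u β c i.1) x - d2 (ampX u β) x), (0:ℝ)) =
          ((((0, 1) : X2), d2 (am u β c i.1) x), (0:ℝ)) - (((0, 1), d2 (ampX u β) x), 0) := by
        simp
      rw [this, map_sub]
      simp
    have b1 : ‖((((0, 1) : X2), d2 (am u β c i.1) x), (0:ℝ))‖ ≤ Cd + 2 := by
      have h3 : |d2 (am u β c i.1) x| ≤ Cd + 1 := by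
        have h4 := hCd0 x hx
        rw [Real.norm_eq_abs] at h4
        have h5 : |d2 (am u β c i.1) x| ≤ |d2 (am u β c i.1) x - d2 (ampX u β) x|
          + |d2 (ampX u β) x| := by
          have := abs_add_le (d2 (am u β c i.1) x - d2 (ampX u β) x) (d2 (ampX u β) x)
          simpa using this
        linarith [le_abs_self Cd0]
      have h6 : ‖((0, 1) : X2)‖ = 1 := by simp
      rw [Prod.norm_mk, Prod.norm_mk, h6, Real.norm_eq_abs, norm_zero]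
      refine max_le (max_le (by linarith) (by linarith)) (by linarith)
    have b2 : ‖((((0, 0) : X2), d2 (am u β c i.1) x - d2 (ampX u β) x), (0:ℝ))‖ ≤ r := by
      have h6 : ‖((0, 0) : X2)‖ = 0 := by simp
      rw [Prod.norm_mk, Prod.norm_mk, h6, Real.norm_eq_abs, norm_zero]
      exact max_le (max_le hr0.le m2) hr0.le
    have b3 : ‖Ψ‖ ≤ C2 := hbd x hx _ (by simpa using hr1.le) t
    have b4 : ‖(Φ - Ψ) (((0, 1), d2 (am u β c i.1) x), 0)‖ ≤ η / 4 := by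
      calc _ ≤ ‖Φ - Ψ‖ * _ := (Φ - Ψ).le_opNorm _
        _ ≤ e' * (Cd + 3) := mul_le_mul u2 (b1.trans (by linarith)) (norm_nonneg _) he'0.le
        _ = η / 4 := by rw [he']; field_simp
    have b5 : ‖Ψ (((0, 0), d2 (am u β c i.1) x - d2 (ampX u β) x), 0)‖ ≤ η / 4 := by
      calc _ ≤ ‖Ψ‖ * _ := Ψ.le_opNorm _
        _ ≤ (C2 + 1) * (η / (4 * (C2 + 1))) :=
            mul_le_mul (b3.trans (by linarith)) (b2.trans rr4) (norm_nonneg _) (by positivity)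
        _ = η / 4 := by field_simp
    calc ‖d1 (d2 g) x - Ψ (((0, 1), d2 (ampX u β) x), 0)‖
        = ‖(d1 (d2 g) x - Φ (((0, 1), d2 (am u β c i.1) x), 0))
            + (Φ (((0, 1), d2 (am u β c i.1) x), 0) - Ψ (((0, 1), d2 (ampX u β) x), 0))‖ := by
          congr 1; abel
      _ ≤ η / 4 + (η / 4 + η / 4) := by
          refine (norm_add_le _ _).trans (add_le_add k4' ?_)
          rw [e1]
          exact (norm_add_le _ _).trans (add_le_add b4 b5)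
      _ ≤ η := by linarith
  · have q1 := pd2_loop h t ama hO
    have k5' : ‖(i.1 ^ 16) • d1 (d1 g) x -
        pd 2 (fun z : Q => W (z.1, am u β c i.1 z.1) z.2 - d1 f z.1) (x, t)‖ ≤
        η / 4 + η / 4 := k5.trans (add_le_add hsm heps)
    rw [q1] at k5'
    rw [deriv_W h hOX]
    set Φ := fderiv ℝ (Wh W) ((x, am u β c i.1 x), t)
    set Ψ := fderiv ℝ (Wh W) ((x, ampX u β x), t)
    have b4 : ‖(Φ - Ψ) ((0, 0), 1)‖ ≤ e' := by
      have h6 : ‖((((0, 0) : X2), (0:ℝ)), (1:ℝ))‖ = 1 := by simp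
      calc ‖(Φ - Ψ) (((0, 0), 0), 1)‖ ≤ ‖Φ - Ψ‖ * ‖((((0, 0) : X2), (0:ℝ)), (1:ℝ))‖ :=
            (Φ - Ψ).le_opNorm _
        _ ≤ e' := by rw [h6, mul_one]; exact u2
    calc ‖(i.1 ^ 16) • d1 (d1 g) x - Ψ ((0, 0), 1)‖
        = ‖((i.1 ^ 16) • d1 (d1 g) x - Φ ((0, 0), 1)) + (Φ - Ψ) ((0, 0), 1)‖ := by
          congr 1; simp
      _ ≤ η / 4 + η / 4 + e' := (norm_add_le _ _).trans (add_le_add k5' b4)
      _ ≤ η := by linarith

/-- where the cut-off is not `1` -/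
lemma region2 (h : MacHyp f u β O W) (hc : 1 ≤ c) (hN : 1 ≤ N) {h0 : ℝ}
    (hy : (dataM h hc hN h0).Hyp) {F : MIx h0 → Q → E4} (hG : (dataM h hc hN h0).Good F)
    {η : ℝ} (hη : 0 < η) : ∃ h1 : ℝ, 0 < h1 ∧ ∀ i : MIx h0, i.1 < h1 → ∀ t0 : ℝ,
      ∀ x ∈ closure {x : X2 | 0 < u x}, 2 * Lp c i.1 * u x - 1 ≤ (Lp N i.1)⁻¹ →
      ∀ g : X2 → E4, g = (dataM h hc hN h0).cutMap F (fun i => thM u c N i.1) i t0 →
        ‖d1 g x - W (x, ampX u β x) (x.1 / i.1 ^ 16 + t0)‖ ≤ η ∧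
        ‖d2 g x - d2 f x‖ ≤ η ∧
        ‖d2 (d2 g) x - d2 (d2 f) x‖ ≤ η ∧
        ‖d1 (d2 g) x - d2 (fun y => W (y, ampX u β y) (x.1 / i.1 ^ 16 + t0)) x‖ ≤ η ∧
        ‖(i.1 ^ 16) • d1 (d1 g) x
          - deriv (fun t => W (x, ampX u β x) t) (x.1 / i.1 ^ 16 + t0)‖ ≤ η := by
  have hcut := cutHyp_M h hc hN hy hG
  obtain ⟨C1, hC1, hcl⟩ := hcut.close_crude
  obtain ⟨Ct, hCt, htiny⟩ := am_tiny h.ha hc hN
  obtain ⟨Cf0, hCf0⟩ := h.ha.cpt.exists_bound_of_continuousOn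
    (contDiff_d1 (contDiff_d1 h.hf)).continuous.continuousOn
  set Cf := |Cf0| with hCf
  have hCfn : 0 ≤ Cf := abs_nonneg _
  obtain ⟨τ, hτ, hnb⟩ := near_boundary h (show 0 < η / 4 by positivity)
  refine ⟨min (Real.exp (-(1 / τ))) (min ((η / (4 * (C1 * Ct + 1))) ^ 2) (η / (4 * (Cf + 1)))),
    by positivity, fun i hi t0 x hx hs g hg => ?_⟩
  have hi0 : 0 < i.1 := i.2.1
  have hi3 : i.1 ≤ 1 / 3 := i.2.2.2
  have i1 : i.1 < Real.exp (-(1 / τ)) := hi.trans_le (min_le_left _ _)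
  have i2 : i.1 < (η / (4 * (C1 * Ct + 1))) ^ 2 :=
    hi.trans_le ((min_le_right _ _).trans (min_le_left _ _))
  have i3 : i.1 < η / (4 * (Cf + 1)) :=
    hi.trans_le ((min_le_right _ _).trans (min_le_right _ _))
  have hK := Lp_ge hN i.2.1 i.2.2.2
  have hL := Lp_ge hc i.2.1 i.2.2.2
  have hKi : (Lp N i.1)⁻¹ ≤ 1 := inv_le_one_of_one_le₀ hK
  -- `u x ≤ τ`
  have hLτ : 1 / τ ≤ Lp c i.1 := by
    have h1 : 1 / τ ≤ Real.log (1 / i.1) := by
      rw [one_div i.1, Real.log_inv, le_neg]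
      have := Real.log_le_log hi0 i1.le
      rwa [Real.log_exp] at this
    have h2 : (1:ℝ) ≤ c := by exact_mod_cast hc
    have h3 := log_ge_one hi0 hi3
    unfold Lp; nlinarith
  have hux : u x ≤ τ := by
    have h1 : Lp c i.1 * u x ≤ 1 := by linarith
    rcases le_or_gt (u x) 0 with h2 | h2
    · linarith
    · have h3 : 1 / τ * u x ≤ Lp c i.1 * u x := mul_le_mul_of_nonneg_right hLτ h2.le
      have h4 : 1 / τ * u x ≤ 1 := h3.trans h1
      rw [one_div, inv_mul_le_iff₀ hτ, mul_one] at h4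
      exact h4
  set t := x.1 / i.1 ^ 16 + t0 with ht
  obtain ⟨n1, n2, n3, n4⟩ := hnb x hx hux t
  have heps : ‖(i.1 ^ 16) • d1 (d1 f) x‖ ≤ η / 4 := by
    have p6 : i.1 ^ 16 ≤ i.1 := by
      calc i.1 ^ 16 ≤ i.1 ^ 1 := pow_le_pow_of_le_one hi0.le (by linarith) (by norm_num)
        _ = i.1 := pow_one _
    have p1 : ‖d1 (d1 f) x‖ ≤ Cf + 1 := by
      have := hCf0 x hx
      linarith [le_abs_self Cf0]
    rw [norm_smul, Real.norm_of_nonneg (by positivity)]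
    calc _ ≤ i.1 * (Cf + 1) := mul_le_mul p6 p1 (norm_nonneg _) hi0.le
      _ ≤ (η / (4 * (Cf + 1))) * (Cf + 1) := mul_le_mul_of_nonneg_right i3.le (by positivity)
      _ = η / 4 := by field_simp
  -- the five differences to `f`
  have key : ‖d1 g x - d1 f x‖ ≤ η / 4 ∧ ‖d2 g x - d2 f x‖ ≤ η / 4 ∧
      ‖d2 (d2 g) x - d2 (d2 f) x‖ ≤ η / 4 ∧ ‖d1 (d2 g) x - d1 (d2 f) x‖ ≤ η / 4 ∧
      ‖(i.1 ^ 16) • (d1 (d1 g) x - d1 (d1 f) x)‖ ≤ η / 4 := by
    by_cases hxD : x ∈ (efamM h.ha hc hN h0).D i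
    · obtain ⟨k1, k2, k3, k4, k5⟩ := hcl i t0 x hxD
      rw [← hg] at k1 k2 k3 k4 k5
      have ha0 := (efamM h.ha hc hN h0).a_pos i x hxD
      have hη0 := (efamM h.ha hc hN h0).η_pos i
      have hLam := (efamM h.ha hc hN h0).one_le i
      have hη14 : (efamM h.ha hc hN h0).η i ^ 14 ≤ 1 := pow_le_one₀ hη0.le
        (EFam.η_le_one (𝓔 := efamM h.ha hc hN h0) i)
      have hb : C1 * (efamM h.ha hc hN h0).a i x * (efamM h.ha hc hN h0).Lam i ≤ η / 4 := by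
        have h1 : (efamM h.ha hc hN h0).a i x ≤ Ct * i.1 := by
          refine (htiny h0 i x hs).trans (mul_le_mul_of_nonneg_left ?_ hCt.le)
          calc i.1 ^ N ≤ i.1 ^ 1 := pow_le_pow_of_le_one hi0.le (by linarith) hN
            _ = i.1 := pow_one _
        have h2 : i.1 * (efamM h.ha hc hN h0).Lam i ≤ Real.sqrt i.1 := h_Lam hi0 hi3
        have h3 : Real.sqrt i.1 ≤ η / (4 * (C1 * Ct + 1)) := by
          rw [Real.sqrt_le_left (by positivity)]; exact i2.le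
        calc C1 * (efamM h.ha hc hN h0).a i x * (efamM h.ha hc hN h0).Lam i
            ≤ C1 * (Ct * i.1) * (efamM h.ha hc hN h0).Lam i := by gcongr
          _ = (C1 * Ct) * (i.1 * (efamM h.ha hc hN h0).Lam i) := by ring
          _ ≤ (C1 * Ct + 1) * (η / (4 * (C1 * Ct + 1))) :=
              mul_le_mul (by linarith) (h2.trans h3) (by positivity) (by positivity)
          _ = η / 4 := by field_simp
      have hCa : 0 < C1 * (efamM h.ha hc hN h0).a i x := mul_pos hC1 ha0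
      have c1 : C1 * (efamM h.ha hc hN h0).a i x ≤ η / 4 := by
        refine le_trans ?_ hb
        nlinarith
      have c2 : C1 * (efamM h.ha hc hN h0).a i x * (efamM h.ha hc hN h0).η i ^ 14 ≤ η / 4 := by
        refine le_trans ?_ c1
        nlinarith
      exact ⟨k1.trans c1, k2.trans c2, k3.trans c2, k4.trans hb, k5.trans hb⟩
    · have hsup : x ∉ tsupport (thM u c N i.1) := fun hc' => hxD (hcut.θsupp i hc')
      have he : g =ᶠ[𝓝 x] f := by rw [hg]; exact hcut.eq_off i t0 hsup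
      have z : (0:ℝ) ≤ η / 4 := by positivity
      rw [d1_congr he, d2_congr he, d2_congr (eventually_d2 he), d1_congr (eventually_d2 he),
        d1_congr (eventually_d1 he)]
      simp only [sub_self, norm_zero, smul_zero]
      exact ⟨z, z, z, z, z⟩
  obtain ⟨k1, k2, k3, k4, k5⟩ := key
  refine ⟨?_, by linarith, by linarith, ?_, ?_⟩
  · calc ‖d1 g x - W (x, ampX u β x) t‖
        = ‖(d1 g x - d1 f x) - (W (x, ampX u β x) t - d1 f x)‖ := by congr 1; abel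
      _ ≤ η / 4 + η / 4 := (norm_sub_le _ _).trans (add_le_add k1 n1)
      _ ≤ η := by linarith
  · calc ‖d1 (d2 g) x - d2 (fun y => W (y, ampX u β y) t) x‖
        = ‖(d1 (d2 g) x - d1 (d2 f) x)
            - (d2 (fun y => W (y, ampX u β y) t) x - d1 (d2 f) x)‖ := by congr 1; abel
      _ ≤ η / 4 + η / 4 := (norm_sub_le _ _).trans (add_le_add k4 n2)
      _ ≤ η := by linarith
  · calc ‖(i.1 ^ 16) • d1 (d1 g) x - deriv (fun t => W (x, ampX u β x) t) t‖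
        = ‖(i.1 ^ 16) • (d1 (d1 g) x - d1 (d1 f) x) + (i.1 ^ 16) • d1 (d1 f) x
            - deriv (fun t => W (x, ampX u β x) t) t‖ := by
          rw [smul_sub]; congr 1; abel
      _ ≤ η / 4 + η / 4 + η / 4 :=
          (norm_sub_le _ _).trans (add_le_add ((norm_add_le _ _).trans (add_le_add k5 heps)) n3)
      _ ≤ η := by linarith

end MClose

open MClose in
/-- **closeness of the macroscopic corrugation to the loops** -/
theorem mac_closeX (h : MacHyp f u β O W) (hc : 1 ≤ c) (hN : 1 ≤ N) {h0 : ℝ}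
    (hy : (dataM h hc hN h0).Hyp) {F : MIx h0 → Q → E4} (hG : (dataM h hc hN h0).Good F)
    {η : ℝ} (hη : 0 < η) : ∃ h1 : ℝ, 0 < h1 ∧ ∀ i : MIx h0, i.1 < h1 → ∀ t0 : ℝ,
      CloseX f u β W (i.1 ^ 16) t0 η
        ((dataM h hc hN h0).cutMap F (fun i => thM u c N i.1) i t0) := by
  obtain ⟨a, ha, h1⟩ := region1 h hc hN hy hG hη
  obtain ⟨b, hb, h2⟩ := region2 h hc hN hy hG hη
  refine ⟨min a b, lt_min ha hb, fun i hi t0 x hx => ?_⟩
  rcases lt_or_ge (Lp N i.1)⁻¹ (2 * Lp c i.1 * u x - 1) with hs | hs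
  · exact h1 i (hi.trans_le (min_le_left _ _)) t0 x hx hs _ rfl
  · exact h2 i (hi.trans_le (min_le_right _ _)) t0 x hx hs _ rfl

end

end Crest.Agent.R216.TE
end

-- ▼ part R216/Macro

/-!
# Row 216, Theorem E, MACRO: the macroscopic step (helper323).
-/

open Set Topology MeasureTheory
open scoped ContDiff

namespace Crest.Agent.R216.TE

/-- **MACRO** -/
theorem macroThm (q m k₀ K₀ : ℕ) (hq : 2 ≤ q) (_hm : 1 ≤ m) (hk : 3 ≤ k₀) : MacroThm q m k₀ K₀ := by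
  intro f u β O W hf ha h2 h3 hL N' hN' η hη T
  have h : MacHyp f u β O W :=
    { hf := hf, ha := ha
      ind := fun x hx => (gram_pos_iff _ _).2 (h2 x hx)
      ind1 := fun x hx => ppr_ne_zero (h3 x hx)
      hW := hL }
  have hc : 1 ≤ 32 * q * k₀ := by nlinarith
  have hN : 1 ≤ m * (32 * q * k₀) + 1 := by omega
  obtain ⟨r, hr, hyp⟩ := dataM_hyp h hc hN
  obtain ⟨h0, hh0, hcl⟩ := am_close (c := 32 * q * k₀) ha hc hr
  have hy := hyp h0 (fun i x hx => (hcl i.1 i.2.1 i.2.2.1 i.2.2.2 x hx).1)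
  obtain ⟨F, hG, hE⟩ := EData.engine hy (m * (32 * q * k₀))
  obtain ⟨h1, hh1, hst⟩ := mac_st h q m k₀ hc hN hy hG hE
  obtain ⟨h2', hh2, hcx⟩ := mac_closeX h hc hN hy hG hη
  obtain ⟨h3', hh3, hit⟩ := mac_iter h hc hN hy hG K₀ hN'
  set h4 : ℝ := min (min h0 (min h1 (min h2' h3'))) (min (1 / 3) (min η (|T| + 1)⁻¹)) with hh4
  have hTp : 0 < |T| + 1 := by positivity
  have h4p : 0 < h4 := by
    rw [hh4]; positivity
  have l0 : h4 ≤ h0 := (min_le_left _ _).trans (min_le_left _ _)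
  have l1 : h4 ≤ h1 := (min_le_left _ _).trans ((min_le_right _ _).trans (min_le_left _ _))
  have l2 : h4 ≤ h2' := (min_le_left _ _).trans ((min_le_right _ _).trans
    ((min_le_right _ _).trans (min_le_left _ _)))
  have l3 : h4 ≤ h3' := (min_le_left _ _).trans ((min_le_right _ _).trans
    ((min_le_right _ _).trans (min_le_right _ _)))
  have l4 : h4 ≤ 1 / 3 := (min_le_right _ _).trans (min_le_left _ _)
  have l5 : h4 ≤ η := (min_le_right _ _).trans ((min_le_right _ _).trans (min_le_left _ _))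
  have l6 : h4 ≤ (|T| + 1)⁻¹ :=
    (min_le_right _ _).trans ((min_le_right _ _).trans (min_le_right _ _))
  have hhalf : h4 / 2 < h4 := by linarith
  have hp : 0 < h4 / 2 := by linarith
  have hle1 : h4 / 2 ≤ 1 := by linarith
  let i : MIx h0 := ⟨h4 / 2, hp, by linarith, by linarith⟩
  have hpow16 : (h4 / 2) ^ 16 ≤ h4 / 2 := by
    calc (h4 / 2) ^ 16 ≤ (h4 / 2) ^ 1 := pow_le_pow_of_le_one hp.le hle1 (by norm_num)
      _ = _ := pow_one _
  have hpow32 : (h4 / 2) ^ 32 ≤ h4 / 2 := by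
    calc (h4 / 2) ^ 32 ≤ (h4 / 2) ^ 1 := pow_le_pow_of_le_one hp.le hle1 (by norm_num)
      _ = _ := pow_one _
  refine ⟨(h4 / 2) ^ 16, by positivity, by linarith, ((h4 / 2) ^ 32)⁻¹, ?_, fun t0 => ?_⟩
  · have h5 : |T| + 1 ≤ ((h4 / 2) ^ 32)⁻¹ := by
      rw [le_inv_comm₀ hTp (by positivity)]
      linarith
    linarith [le_abs_self T]
  · have hC := cutHyp_M h hc hN hy hG
    exact ⟨_, hC.smooth i t0, hst i (by show h4 / 2 < h1; linarith) t0,
      fun j hj hjK x hx => hit i (by show h4 / 2 < h3'; linarith) t0 j hj hjK x hx,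
      hcx i (by show h4 / 2 < h2'; linarith) t0⟩

end Crest.Agent.R216.TE
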