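import Crest.Agent.R216.StageDefs

/-!
# Row 216, Theorem E, module STAGE, part A: parameters, profiles, the engine family.
-/

set_option linter.unusedSectionVars false

open Set Topology MeasureTheory Metric
open scoped ContDiff

namespace Crest.Agent.R216.TE
namespace SPar
variable {P : SPar}

namespace Idx
variable (i : P.Idx)

lemma log_pos' : 0 < Real.log i.L := Real.log_pos (by have := i.L_two; linarith)

lemma l_eq : i.l = (400 * P.k : ℕ) * Real.log i.L := rfl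

lemma l'_eq : i.l' = (400 * i.k' * 800 : ℕ) * Real.log i.L := by
  unfold l' lam qS
  rw [Real.log_pow]; push_cast; ring

lemma k_le_k' : P.k ≤ i.k' := by rcases i.hk' with h | h <;> omega
lemma k'_le : i.k' ≤ P.k + 1 := by rcases i.hk' with h | h <;> omega
lemma one_le_k' : 1 ≤ i.k' := P.hk.trans i.k_le_k'

lemma log_ge : (1/2 : ℝ) ≤ Real.log i.L := by
  have h1 : Real.log 2 ≤ Real.log i.L := Real.log_le_log (by norm_num) i.L_two
  have := Real.log_two_gt_d9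
  linarith

lemma l_ge : 200 ≤ i.l := by
  rw [l_eq]
  have h1 := i.log_ge
  have h2 : (400 : ℝ) ≤ ((400 * P.k : ℕ) : ℝ) := by
    have := P.hk
    have : 400 ≤ 400 * P.k := by omega
    exact_mod_cast this
  nlinarith

lemma l_pos : 0 < i.l := by have := i.l_ge; linarith

lemma l'_ge_l : 800 * i.l ≤ i.l' := by
  rw [l_eq, l'_eq]
  have h1 := i.log_pos'
  have h2 : (800 * (400 * P.k) : ℕ) ≤ 400 * i.k' * 800 := by
    have := i.k_le_k'
    nlinarith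
  have h3 : (800 : ℝ) * ((400 * P.k : ℕ) : ℝ) ≤ ((400 * i.k' * 800 : ℕ) : ℝ) := by
    exact_mod_cast h2
  calc 800 * (((400 * P.k : ℕ) : ℝ) * Real.log i.L) =
      (800 * ((400 * P.k : ℕ) : ℝ)) * Real.log i.L := by ring
    _ ≤ _ := mul_le_mul_of_nonneg_right h3 h1.le

lemma l'_pos : 0 < i.l' := by have := i.l'_ge_l; have := i.l_ge; linarith
lemma one_le_l' : 1 ≤ i.l' := by have := i.l'_ge_l; have := i.l_ge; linarith

lemma adm : Prof.Adm i.l i.l' :=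
  ⟨i.l_pos.le, by have := i.l'_ge_l; have := i.l_pos; linarith, i.one_le_l'⟩

lemma Kc_pos : 0 < i.Kc := by unfold Kc; have := i.l'_pos; linarith

lemma sqrtL_ge : 1 ≤ Real.sqrt i.L := by
  rw [show (1:ℝ) = Real.sqrt 1 by simp]; exact Real.sqrt_le_sqrt i.L_one

lemma log_le_sqrt : Real.log i.L ≤ 2 * Real.sqrt i.L := by
  have h1 : Real.log i.L = 2 * Real.log (Real.sqrt i.L) := by
    rw [Real.log_sqrt i.L_pos.le]; ring
  have h2 := Real.log_le_self (Real.sqrt_nonneg i.L)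
  linarith

lemma l'_le : 1 + i.l' ≤ (1 + 640000 * (P.k + 1)) * Real.sqrt i.L := by
  rw [l'_eq]
  have h1 := i.log_le_sqrt
  have h2 := i.sqrtL_ge
  have h3 : ((400 * i.k' * 800 : ℕ) : ℝ) ≤ 320000 * (P.k + 1) := by
    have := i.k'_le
    have : 400 * i.k' * 800 ≤ 320000 * (P.k + 1) := by omega
    exact_mod_cast this
  have h4 := i.log_pos'
  calc 1 + ((400 * i.k' * 800 : ℕ) : ℝ) * Real.log i.L
      ≤ Real.sqrt i.L + (320000 * (P.k + 1)) * (2 * Real.sqrt i.L) := by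
        refine add_le_add h2 (mul_le_mul h3 h1 h4.le (by positivity))
    _ = _ := by ring

/-- cost of the profiles -/
lemma cost3 : (1 + i.l') ^ 3 ≤ (1 + 640000 * (P.k + 1)) ^ 3 * i.L ^ 2 := by
  have h1 := i.l'_le
  have h2 := i.l'_pos
  have h3 := i.sqrtL_ge
  have h4 : Real.sqrt i.L ^ 2 = i.L := Real.sq_sqrt i.L_pos.le
  calc (1 + i.l') ^ 3 ≤ ((1 + 640000 * (P.k + 1)) * Real.sqrt i.L) ^ 3 :=
        pow_le_pow_left₀ (by linarith) h1 3
    _ = (1 + 640000 * (P.k + 1)) ^ 3 * Real.sqrt i.L ^ 3 := by ring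
    _ ≤ (1 + 640000 * (P.k + 1)) ^ 3 * Real.sqrt i.L ^ 4 := by
        apply mul_le_mul_of_nonneg_left _ (by positivity)
        exact pow_le_pow_right₀ h3 (by norm_num)
    _ = _ := by rw [show Real.sqrt i.L ^ 4 = (Real.sqrt i.L ^ 2) ^ 2 by ring, h4]

lemma u_pos_of_D {x : X2} (hx : x ∈ i.D) : 0 < P.S.u x := by
  have h1 : (2 * i.Kc)⁻¹ < 2 * i.l' * P.S.u x - 1 := hx
  have h2 : 0 < (2 * i.Kc)⁻¹ := inv_pos.2 (by have := i.Kc_pos; linarith)
  have h3 := i.l'_pos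
  by_contra hc
  have : i.l' * P.S.u x ≤ 0 := mul_nonpos_of_nonneg_of_nonpos h3.le (not_lt.1 hc)
  nlinarith

lemma one_lt_of_D {x : X2} (hx : x ∈ i.D) : 1 < 2 * i.l' * P.S.u x := by
  have h1 : (2 * i.Kc)⁻¹ < 2 * i.l' * P.S.u x - 1 := hx
  have h2 : 0 < (2 * i.Kc)⁻¹ := inv_pos.2 (by have := i.Kc_pos; linarith)
  linarith

lemma D_sub_W : i.D ⊆ P.S.W := fun _ hx => subset_closure (i.u_pos_of_D hx)

lemma star {x : X2} (hx : x ∈ i.D) {s : ℝ} (hs : s ∈ Icc (0:ℝ) 1) : (x.1, s * x.2) ∈ i.D := by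
  have h1 : (2 * i.Kc)⁻¹ < 2 * i.l' * P.S.u x - 1 := hx
  have h2 : 0 < (2 * i.Kc)⁻¹ := inv_pos.2 (by have := i.Kc_pos; linarith)
  have h3 := i.l'_pos
  have h4 : (1 + (2 * i.Kc)⁻¹) / (2 * i.l') < P.S.u x := by
    rw [div_lt_iff₀ (by linarith)]; linarith
  have h5 := P.S.h.star _ (by positivity) x h4 s hs
  rw [div_lt_iff₀ (by linarith)] at h5
  show (2 * i.Kc)⁻¹ < 2 * i.l' * P.S.u (x.1, s * x.2) - 1
  linarith

lemma a_pos {x : X2} (hx : x ∈ i.D) : 0 < i.a x :=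
  mul_pos (Prof.alph_pos i.adm (i.one_lt_of_D hx)) (P.S.h.pos x)

lemma a_nonneg (x : X2) : 0 ≤ i.a x := mul_nonneg (Prof.alph_nonneg _ _ _) (P.S.h.pos x).le

lemma a_sq (x : X2) : i.a x ^ 2 =
    P.S.A x ^ 2 * (Prof.kap i.l (P.S.u x) - Prof.kap i.l' (P.S.u x)) := by
  unfold a amp SData.A ampX
  rw [mul_pow, Prof.alph_sq i.adm]; ring

end Idx

/-- a bound for `β` on `W` -/
lemma exists_β (P : SPar) : ∃ C, 0 < C ∧ ∀ x ∈ P.S.W, P.S.β x ≤ C := by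
  obtain ⟨C, hC⟩ := P.S.hW.exists_bound_of_continuousOn P.S.h.hβ.continuous.continuousOn
  refine ⟨|C| + 1, by positivity, fun x hx => ?_⟩
  have := hC x hx
  have h2 := le_abs_self (P.S.β x)
  have h3 := le_abs_self C
  rw [Real.norm_eq_abs] at this
  linarith

/-- a positive lower bound for `β` on `W` -/
lemma exists_β_low (P : SPar) : ∃ c, 0 < c ∧ ∀ x ∈ P.S.W, c ≤ P.S.β x := by
  rcases P.S.W.eq_empty_or_nonempty with h | h
  · exact ⟨1, one_pos, fun x hx => by rw [h] at hx; exact hx.elim⟩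
  · obtain ⟨x0, hx0, hm⟩ := P.S.hW.exists_isMinOn h P.S.h.hβ.continuous.continuousOn
    exact ⟨P.S.β x0, P.S.h.pos x0, fun x hx => hm hx⟩

lemma a_le_exp (P : SPar) : ∃ C, 0 < C ∧ ∀ i : P.Idx, ∀ x ∈ P.S.W,
    i.a x ≤ C * Real.exp (-i.l) := by
  obtain ⟨C, hC, h⟩ := P.exists_β
  refine ⟨C, hC, fun i x hx => ?_⟩
  unfold Idx.a amp
  rw [mul_comm]
  exact mul_le_mul (h x hx) (Prof.alph_le i.adm _) (Prof.alph_nonneg _ _ _) hC.le

lemma a_le_tail (P : SPar) : ∃ C, 0 < C ∧ ∀ i : P.Idx, ∀ x ∈ P.S.W,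
    2 * i.l' * P.S.u x - 1 ≤ i.Kc⁻¹ → i.a x ≤ C * Real.exp (-(14 * i.l')) := by
  obtain ⟨C, hC, h⟩ := P.exists_β
  refine ⟨C * Real.exp 2, by positivity, fun i x hx hu => ?_⟩
  unfold Idx.a amp
  have h1 := Prof.alph_le_exp i.adm i.Kc_pos hu
  calc Prof.alph i.l i.l' (P.S.u x) * P.S.β x
      ≤ (Real.exp 2 * Real.exp (-i.Kc)) * C :=
        mul_le_mul h1 (h x hx) (P.S.h.pos x).le (by positivity)
    _ = _ := by unfold Idx.Kc; ring


/-- the profile hypotheses hold -/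
lemma profHyp (P : SPar) : ProfHyp P.fam P.S.W P.S.u P.S.β (fun i => i.l) (fun i => i.l')
    (fun i => 2 * i.Kc) where
  compact := P.S.hW
  sub := fun i => Idx.D_sub_W i
  u_smooth := P.S.h.hu
  β_smooth := P.S.h.hβ
  β_pos := P.S.h.pos
  adm := fun i => Idx.adm i
  K_ge := fun i => by
    have := Idx.one_le_l' i
    show 1 ≤ 2 * (14 * Idx.l' i)
    linarith
  dom := fun i x hx => le_of_lt hx
  cost := by
    refine ⟨784 * (1 + 640000 * (P.k + 1)) ^ 3, by positivity, fun i => ?_⟩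
    have h1 := Idx.cost3 i
    have h2 := Idx.l'_pos i
    have hL := Idx.L_pos i
    constructor
    · refine h1.trans ?_
      show _ ≤ 784 * (1 + 640000 * ((P.k:ℝ) + 1)) ^ 3 * i.L ^ 2
      nlinarith [show 0 ≤ (1 + 640000 * ((P.k:ℝ) + 1)) ^ 3 * i.L ^ 2 by positivity]
    · show (2 * (14 * Idx.l' i)) ^ 2 * (1 + Idx.l' i) ≤
        784 * (1 + 640000 * ((P.k:ℝ) + 1)) ^ 3 * i.L ^ 2
      calc (2 * (14 * Idx.l' i)) ^ 2 * (1 + Idx.l' i) = 784 * (Idx.l' i ^ 2 * (1 + Idx.l' i)) := by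
            ring
        _ ≤ 784 * (1 + Idx.l' i) ^ 3 := by
            have : Idx.l' i ^ 2 * (1 + Idx.l' i) ≤ (1 + Idx.l' i) ^ 3 := by
              nlinarith [sq_nonneg (Idx.l' i), mul_pos h2 h2]
            linarith
        _ ≤ 784 * ((1 + 640000 * ((P.k:ℝ) + 1)) ^ 3 * i.L ^ 2) := by linarith
        _ = _ := by ring

/-- the engine family of the stage -/
noncomputable def efam (P : SPar) : EFam where
  toFam := P.fam
  a := fun i => Idx.a i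
  η := fun i => (i.L ^ 20)⁻¹
  a_pos := fun i x hx => Idx.a_pos i hx
  a_le := by
    obtain ⟨C, hC, h⟩ := P.a_le_exp
    refine ⟨C, hC, fun i x hx => (h i x (Idx.D_sub_W i hx)).trans ?_⟩
    exact mul_le_of_le_one_right hC.le (Real.exp_le_one_iff.2 (by
      have := Idx.l_pos i; linarith))
  η_pos := fun i => inv_pos.2 (pow_pos (Idx.L_pos i) _)
  Lam_η := fun i => by
    show (i.L ^ 2) ^ 10 * (i.L ^ 20)⁻¹ ≤ 1
    have := (pow_pos (Idx.L_pos i) 20).ne'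
    rw [← pow_mul]
    norm_num
    rw [mul_inv_cancel₀ this]
  a_B := (P.profHyp).amp_B


lemma W000 (P : SPar) (i : P.Idx) (x : X2) : P.efam.W 0 0 0 i x = 1 := by simp [EFam.W]

/-! ### the smoothed map -/

namespace Idx
variable (i : P.Idx)

lemma t_pos : 0 < (i.L ^ 2)⁻¹ := inv_pos.2 (pow_pos i.L_pos 2)


lemma cd1 {V : Type*} [NormedAddCommGroup V] [NormedSpace ℝ V] {g : X2 → V} (h : ContDiff ℝ ∞ g) :
    ContDiff ℝ ∞ (d1 g) :=
  (h.fderiv_right (m := ∞) (by simp)).clm_apply contDiff_const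

lemma cd2 {V : Type*} [NormedAddCommGroup V] [NormedSpace ℝ V] {g : X2 → V} (h : ContDiff ℝ ∞ g) :
    ContDiff ℝ ∞ (d2 g) :=
  (h.fderiv_right (m := ∞) (by simp)).clm_apply contDiff_const

lemma ft_sm : ContDiff ℝ ∞ i.ft := Smooth.contDiff_P_top i.t_pos P.K i.hf.continuous

/-- partial derivatives commute with the smoothing -/
lemma d1_P {V : Type} [NormedAddCommGroup V] [NormedSpace ℝ V] [CompleteSpace V] {t : ℝ}
    (ht : t ≠ 0) (K : ℕ) {g : X2 → V} (hg : ContDiff ℝ ∞ g) :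
    d1 (Smooth.P K t g) = Smooth.P K t (d1 g) := by
  funext x
  exact Smooth.fderiv_P_apply ht K (hg.of_le (by exact_mod_cast le_top)) x _

lemma d2_P {V : Type} [NormedAddCommGroup V] [NormedSpace ℝ V] [CompleteSpace V] {t : ℝ}
    (ht : t ≠ 0) (K : ℕ) {g : X2 → V} (hg : ContDiff ℝ ∞ g) :
    d2 (Smooth.P K t g) = Smooth.P K t (d2 g) := by
  funext x
  exact Smooth.fderiv_P_apply ht K (hg.of_le (by exact_mod_cast le_top)) x _

lemma d1_ft : d1 i.ft = Smooth.P P.K (i.L ^ 2)⁻¹ (d1 i.f) := d1_P i.t_pos.ne' _ i.hf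
lemma d2_ft : d2 i.ft = Smooth.P P.K (i.L ^ 2)⁻¹ (d2 i.f) := d2_P i.t_pos.ne' _ i.hf
lemma d12_ft : d1 (d2 i.ft) = Smooth.P P.K (i.L ^ 2)⁻¹ (d1 (d2 i.f)) := by
  rw [d2_ft, d1_P i.t_pos.ne' _ (cd2 i.hf)]
lemma d22_ft : d2 (d2 i.ft) = Smooth.P P.K (i.L ^ 2)⁻¹ (d2 (d2 i.f)) := by
  rw [d2_ft, d2_P i.t_pos.ne' _ (cd2 i.hf)]

end Idx

/-- smoothed functions which are bounded on `N` are in `B(1)` -/
lemma B_P' (P : SPar) (g : P.Idx → X2 → E4) (hg : ∀ i, Continuous (g i))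
    (h : ∃ C, 0 < C ∧ ∀ i, ∀ x ∈ P.S.N, ‖g i x‖ ≤ C) :
    P.efam.toFam.B (P.efam.W 0 0 0) (fun i : P.Idx => lift (Smooth.P P.K (i.L ^ 2)⁻¹ (g i))) := by
  obtain ⟨C, hC, h⟩ := h
  have := Fam.B_P (𝓕 := P.fam) P.K g hg (fun _ => 1)
    ⟨C, hC, fun i x hx z hz => by
      rw [mul_one]
      exact h i z (Idx.ball_sub i (Idx.D_sub_W i hx) hz)⟩
  exact this.weight_congr (fun i x _ => (P.W000 i x).symm)

lemma B_d1 (P : SPar) : P.efam.toFam.B (P.efam.W 0 0 0) (fun i : P.Idx => lift (d1 i.ft)) := by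
  have := P.B_P' (fun i => d1 i.f) (fun i => (Idx.cd1 i.hf).continuous)
    ⟨P.B0, P.B0pos, fun i x hx => (i.G.1 x hx).1⟩
  simp only [Idx.d1_ft]; exact this

lemma B_d2 (P : SPar) : P.efam.toFam.B (P.efam.W 0 0 0) (fun i : P.Idx => lift (d2 i.ft)) := by
  have := P.B_P' (fun i => d2 i.f) (fun i => (Idx.cd2 i.hf).continuous)
    ⟨P.B0, P.B0pos, fun i x hx => (i.G.1 x hx).2.1⟩
  simp only [Idx.d2_ft]; exact this

lemma B_d12 (P : SPar) :
    P.efam.toFam.B (P.efam.W 0 0 0) (fun i : P.Idx => lift (d1 (d2 i.ft))) := by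
  have := P.B_P' (fun i => d1 (d2 i.f)) (fun i => (Idx.cd1 (Idx.cd2 i.hf)).continuous)
    ⟨P.B0, P.B0pos, fun i x hx => (i.G.1 x hx).2.2.1⟩
  simp only [Idx.d12_ft]; exact this

lemma B_d22 (P : SPar) :
    P.efam.toFam.B (P.efam.W 0 0 0) (fun i : P.Idx => lift (d2 (d2 i.ft))) := by
  have := P.B_P' (fun i => d2 (d2 i.f)) (fun i => (Idx.cd2 (Idx.cd2 i.hf)).continuous)
    ⟨P.B0, P.B0pos, fun i x hx => (i.G.1 x hx).2.2.2⟩
  simp only [Idx.d22_ft]; exact this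

lemma star' (P : SPar) : ∀ i, ∀ x ∈ P.efam.D i, ∀ l ∈ Icc (0:ℝ) 1, (x.1, l * x.2) ∈ P.efam.D i :=
  fun i _ hx _ hl => Idx.star i hx hl

lemma bdd2' (P : SPar) : ∃ L, 0 < L ∧ ∀ i, ∀ x ∈ P.efam.D i, |x.2| ≤ L := by
  obtain ⟨C, hC⟩ := P.S.hW.isBounded.exists_norm_le
  refine ⟨|C| + 1, by positivity, fun i x hx => ?_⟩
  have h1 := hC x (Idx.D_sub_W i hx)
  have h2 : ‖x.2‖ ≤ ‖x‖ := norm_snd_le x
  rw [Real.norm_eq_abs] at h2
  have := le_abs_self C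
  linarith

end SPar
end Crest.Agent.R216.TE
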