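import Crest.Agent.R216.EngExp
import Crest.Agent.R216.ClsT

/-!
# Row 216, Theorem E: base state (step 0 of the engine) and the pointwise identities it uses.
-/

open Set Topology MeasureTheory
open scoped ContDiff

set_option linter.unusedSectionVars false

namespace Crest.Agent.R216.TE.S0

section basic
variable {V : Type*} [NormedAddCommGroup V] [NormedSpace ℝ V]

/-- `t`-independent functions -/
def TI (u : Q → V) : Prop := ∀ x t s, u (x, t) = u (x, s)

lemma TI.lift (v : X2 → V) : TI (lift v) := fun _ _ _ => rfl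
lemma TI.mean (u : Q → V) : TI (mean u) := fun _ _ _ => rfl
lemma TI.eq {u : Q → V} (h : TI u) (z : Q) (s : ℝ) : u (z.1, s) = u z := h z.1 s z.2
lemma TI.add {u v : Q → V} (h : TI u) (h' : TI v) : TI (fun z => u z + v z) :=
  fun x t s => by simp only [h x t s, h' x t s]
lemma TI.sub {u v : Q → V} (h : TI u) (h' : TI v) : TI (fun z => u z - v z) :=
  fun x t s => by simp only [h x t s, h' x t s]
lemma TI.neg {u : Q → V} (h : TI u) : TI (fun z => - u z) :=
  fun x t s => by simp only [h x t s]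
lemma TI.const (c : V) : TI (fun _ => c) := fun _ _ _ => rfl
lemma TI.smul {u : Q → ℝ} {v : Q → V} (h : TI u) (h' : TI v) : TI (fun z => u z • v z) :=
  fun x t s => by simp only [h x t s, h' x t s]
lemma TI.mul {u v : Q → ℝ} (h : TI u) (h' : TI v) : TI (fun z => u z * v z) :=
  fun x t s => by simp only [h x t s, h' x t s]
lemma TI.inner {u v : Q → E4} (h : TI u) (h' : TI v) : TI (fun z => inner ℝ (u z) (v z)) :=
  fun x t s => by simp only [h x t s, h' x t s]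

lemma TI.pd {u : Q → V} (h : TI u) (j : Fin 3) : TI (pd j u) := by
  intro x t s
  have key : (fun z : Q => u (z + ((0 : X2), s - t))) = u := by
    funext z
    have : z + ((0 : X2), s - t) = (z.1, z.2 + (s - t)) := by
      ext <;> simp
    rw [this]; exact h _ _ _
  have h1 : fderiv ℝ u ((x, t) + ((0 : X2), s - t)) = fderiv ℝ u (x, t) := by
    have := fderiv_comp_add_right (𝕜 := ℝ) (f := u) (x := (x, t)) ((0 : X2), s - t)
    rw [← this, key]
  have h2 : ((x, t) : Q) + ((0 : X2), s - t) = (x, s) := by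
    ext <;> simp
  rw [h2] at h1
  simp only [Crest.Agent.R216.TE.pd, h1]

lemma pd2_TI {u : Q → V} (h : TI u) (z : Q) : pd 2 u z = 0 := by
  have key : (fun s : ℝ => u (z + s • ((0 : X2), (1:ℝ)))) = fun _ => u z := by
    funext s
    have : z + s • ((0 : X2), (1:ℝ)) = (z.1, z.2 + s) := by
      ext <;> simp
    rw [this]; exact h.eq z _
  by_cases hd : DifferentiableAt ℝ u z
  · have h1 : HasLineDerivAt ℝ u (fderiv ℝ u z ((0 : X2), (1:ℝ))) z ((0 : X2), (1:ℝ)) :=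
      hd.hasFDerivAt.hasLineDerivAt _
    have h2 : HasLineDerivAt ℝ u 0 z ((0 : X2), (1:ℝ)) := by
      unfold HasLineDerivAt
      rw [key]
      exact hasDerivAt_const _ _
    have h3 := h1.unique h2
    have hb : bas 2 = ((0 : X2), (1:ℝ)) := rfl
    show fderiv ℝ u z (bas 2) = 0
    rw [hb]; exact h3
  · simp [Crest.Agent.R216.TE.pd, fderiv_zero_of_not_differentiableAt hd]

/-! ### rules for `pd` -/

lemma pd_add {u v : Q → V} {z : Q} (j : Fin 3) (hu : DifferentiableAt ℝ u z)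
    (hv : DifferentiableAt ℝ v z) : pd j (fun z => u z + v z) z = pd j u z + pd j v z := by
  simp only [pd]; rw [fderiv_fun_add hu hv]; rfl

lemma pd_sub {u v : Q → V} {z : Q} (j : Fin 3) (hu : DifferentiableAt ℝ u z)
    (hv : DifferentiableAt ℝ v z) : pd j (fun z => u z - v z) z = pd j u z - pd j v z := by
  simp only [pd]; rw [fderiv_fun_sub hu hv]; rfl


lemma pd_const_smul {u : Q → V} {z : Q} (j : Fin 3) (c : ℝ) (hu : DifferentiableAt ℝ u z) :
    pd j (fun z => c • u z) z = c • pd j u z := by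
  simp only [pd]; rw [fderiv_fun_const_smul hu]; rfl

lemma pd_smul {c : Q → ℝ} {u : Q → V} {z : Q} (j : Fin 3) (hc : DifferentiableAt ℝ c z)
    (hu : DifferentiableAt ℝ u z) :
    pd j (fun z => c z • u z) z = c z • pd j u z + pd j c z • u z := by
  simp only [pd]; rw [fderiv_fun_smul hc hu]; simp


lemma pd_inner {u v : Q → E4} {z : Q} (j : Fin 3) (hu : DifferentiableAt ℝ u z)
    (hv : DifferentiableAt ℝ v z) :
    pd j (fun z => inner ℝ (u z) (v z)) z = inner ℝ (u z) (pd j v z) + inner ℝ (pd j u z) (v z) := by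
  simp only [pd]; rw [fderiv_inner_apply ℝ hu hv]

lemma lift_hasFDerivAt {v : X2 → V} {z : Q} {v' : X2 →L[ℝ] V} (h : HasFDerivAt v v' z.1) :
    HasFDerivAt (lift v) (v'.comp (ContinuousLinearMap.fst ℝ X2 ℝ)) z :=
  HasFDerivAt.comp z h (hasFDerivAt_fst)

lemma differentiableAt_of_lift {v : X2 → V} {z : Q} (h : DifferentiableAt ℝ (lift v) z) :
    DifferentiableAt ℝ v z.1 := by
  have h1 : DifferentiableAt ℝ (fun x : X2 => ((x, z.2) : Q)) z.1 :=
    differentiableAt_id.prodMk (differentiableAt_const _)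
  exact DifferentiableAt.comp (g := lift v) (f := fun x : X2 => ((x, z.2) : Q)) z.1 h h1

lemma pd0_lift (v : X2 → V) (z : Q) : pd 0 (lift v) z = d1 v z.1 := by
  by_cases h : DifferentiableAt ℝ v z.1
  · simp only [pd, (lift_hasFDerivAt h.hasFDerivAt).fderiv, d1]
    simp [bas]
  · have h' : ¬ DifferentiableAt ℝ (lift v) z := fun h' => h (differentiableAt_of_lift h')
    simp [pd, d1, fderiv_zero_of_not_differentiableAt h, fderiv_zero_of_not_differentiableAt h']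

lemma pd1_lift (v : X2 → V) (z : Q) : pd 1 (lift v) z = d2 v z.1 := by
  by_cases h : DifferentiableAt ℝ v z.1
  · simp only [pd, (lift_hasFDerivAt h.hasFDerivAt).fderiv, d2]
    simp [bas]
  · have h' : ¬ DifferentiableAt ℝ (lift v) z := fun h' => h (differentiableAt_of_lift h')
    simp [pd, d2, fderiv_zero_of_not_differentiableAt h, fderiv_zero_of_not_differentiableAt h']

/-! ### rules for `mean` -/

lemma contT {D : Set X2} {u : Q → V} (hu : ContDiffOn ℝ ∞ u {z | z.1 ∈ D}) {x : X2} (hx : x ∈ D) :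
    Continuous fun s : ℝ => u (x, s) := by
  have h1 : Continuous fun s : ℝ => ((x, s) : Q) := by fun_prop
  have h2 := hu.continuousOn.comp_continuous h1 (fun s => hx)
  exact h2

lemma intT {D : Set X2} {u : Q → V} (hu : ContDiffOn ℝ ∞ u {z | z.1 ∈ D}) {x : X2} (hx : x ∈ D)
    (a b : ℝ) : IntervalIntegrable (fun s : ℝ => u (x, s)) volume a b :=
  (contT hu hx).intervalIntegrable _ _

lemma mean_congr {D : Set X2} {u v : Q → V} (h : EqOn u v {z | z.1 ∈ D}) {z : Q} (hz : z.1 ∈ D) :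
    mean u z = mean v z := by
  unfold mean
  congr 1
  apply intervalIntegral.integral_congr
  intro s _
  exact h (show ((z.1, s) : Q).1 ∈ D from hz)

lemma mean_congr' {u v : Q → V} {z : Q} (h : ∀ s, u (z.1, s) = v (z.1, s)) :
    mean u z = mean v z := by
  unfold mean
  congr 1
  apply intervalIntegral.integral_congr
  intro s _
  exact h s

lemma mean_add {D : Set X2} {u v : Q → V} (hu : ContDiffOn ℝ ∞ u {z | z.1 ∈ D})
    (hv : ContDiffOn ℝ ∞ v {z | z.1 ∈ D}) {z : Q} (hz : z.1 ∈ D) :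
    mean (fun z => u z + v z) z = mean u z + mean v z := by
  unfold mean
  rw [intervalIntegral.integral_add (intT hu hz _ _) (intT hv hz _ _), smul_add]







lemma mean_TI {u : Q → V} [CompleteSpace V] (h : TI u) (z : Q) : mean u z = u z := by
  have h1 : mean u z = mean (fun _ => u z) z := mean_congr' (fun s => h.eq z s)
  rw [h1]
  unfold mean
  rw [intervalIntegral.integral_const, sub_zero, smul_smul,
    inv_mul_cancel₀ (by positivity), one_smul]

lemma osc_TI {u : Q → V} [CompleteSpace V] (h : TI u) (z : Q) : osc u z = 0 := by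
  unfold osc; rw [mean_TI h, sub_self]

lemma osc_congr {D : Set X2} {u v : Q → V} (h : EqOn u v {z | z.1 ∈ D}) {z : Q} (hz : z.1 ∈ D) :
    osc u z = osc v z := by
  unfold osc; rw [mean_congr h hz, h (show z.1 ∈ D from hz)]

lemma osc_add {D : Set X2} {u v : Q → V} (hu : ContDiffOn ℝ ∞ u {z | z.1 ∈ D})
    (hv : ContDiffOn ℝ ∞ v {z | z.1 ∈ D}) {z : Q} (hz : z.1 ∈ D) :
    osc (fun z => u z + v z) z = osc u z + osc v z := by
  unfold osc; rw [mean_add hu hv hz, add_sub_add_comm]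





end basic

/-! ### `prim` of functions orthogonal to `t`-independent vectors -/

lemma inner_prim_TI {D : Set X2} {c : Q → E4} (hc : TI c) {u : Q → E4}
    (hu : ContDiffOn ℝ ∞ u {z | z.1 ∈ D}) (hperp : ∀ z : Q, z.1 ∈ D → inner ℝ (u z) (c z) = 0)
    (hm : ∀ z : Q, z.1 ∈ D → mean u z = 0) {z : Q} (hz : z.1 ∈ D) :
    inner ℝ (prim u z) (c z) = 0 := by
  -- prim0 (osc u)
  have h0 : ∀ z : Q, z.1 ∈ D → prim0 (osc u) z = prim0 u z := by
    intro z hz
    unfold prim0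
    apply intervalIntegral.integral_congr
    intro s _
    show u (z.1, s) - mean u (z.1, s) = u (z.1, s)
    rw [hm (z.1, s) hz, sub_zero]
  have h1 : ∀ z : Q, z.1 ∈ D → inner ℝ (c z) (prim0 (osc u) z) = 0 := by
    intro z hz
    rw [h0 z hz]
    unfold prim0
    have := ContinuousLinearMap.intervalIntegral_comp_comm (innerSL ℝ (c z)) (intT hu hz 0 z.2)
    simp only [innerSL_apply_apply] at this
    rw [← this]
    have h2 : (fun s : ℝ => inner ℝ (c z) (u (z.1, s))) = fun _ => 0 := by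
      funext s
      rw [← hc.eq z s, real_inner_comm]
      exact hperp _ hz
    rw [h2, intervalIntegral.integral_zero]
  have h2 : inner ℝ (c z) (mean (prim0 (osc u)) z) = 0 := by
    by_cases hi : IntervalIntegrable (fun s : ℝ => prim0 (osc u) (z.1, s)) volume 0 (2 * Real.pi)
    · unfold mean
      rw [inner_smul_right]
      have := ContinuousLinearMap.intervalIntegral_comp_comm (innerSL ℝ (c z)) hi
      simp only [innerSL_apply_apply] at this
      rw [← this]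
      have h2 : (fun s : ℝ => inner ℝ (c z) (prim0 (osc u) (z.1, s))) = fun _ => 0 := by
        funext s
        rw [← hc.eq z s]
        exact h1 _ hz
      rw [h2, intervalIntegral.integral_zero, mul_zero]
    · unfold mean
      rw [intervalIntegral.integral_undef hi, smul_zero, inner_zero_right]
  show inner ℝ (prim0 (osc u) z - mean (prim0 (osc u)) z) (c z) = 0
  rw [inner_sub_left, real_inner_comm, h1 z hz, real_inner_comm, h2, sub_zero]

/-! ## engine -/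

section eng
variable {𝓔 : EFam} {d : EData 𝓔}
open Crest.Agent.R216.TE.Fam

lemma eps_ne (i : 𝓔.I) : 𝓔.eps i ≠ 0 := (EFam.eps_pos i).ne'

/-- `u = ε⁻¹ (F - f)` -/
noncomputable def uu (d : EData 𝓔) (F : 𝓔.I → Q → E4) : 𝓔.I → Q → E4 :=
  fun i z => (𝓔.eps i)⁻¹ • (F i z - d.f i z.1)

lemma uu_eq (F : 𝓔.I → Q → E4) (i : 𝓔.I) (z : Q) : uu d F i z = d.u1 i z + d.rho F i z := by
  simp [uu, EData.rho]

lemma F_eq (F : 𝓔.I → Q → E4) (i : 𝓔.I) (z : Q) :
    F i z = d.f i z.1 + 𝓔.eps i • uu d F i z := by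
  simp [uu, eps_ne]

lemma sm_f2 (h : d.Hyp) : 𝓔.toFam.Sm d.f2 := h.f2B.smooth

lemma u1B (h : d.Hyp) : 𝓔.toFam.B (𝓔.W 1 0 0) d.u1 := h.WB.prim (EFam.W_nn _ _ _) h.Wper

lemma sm_u1 (h : d.Hyp) : 𝓔.toFam.Sm d.u1 := (u1B h).smooth

lemma TI_f2 (i : 𝓔.I) : TI (d.f2 i) := TI.lift _
lemma TI_f22 (i : 𝓔.I) : TI (d.f22 i) := TI.lift _

lemma pd0_f (i : 𝓔.I) (z : Q) : pd 0 (lift (d.f i)) z = d.f1 i z := pd0_lift _ _
lemma pd1_f (i : 𝓔.I) (z : Q) : pd 1 (lift (d.f i)) z = d.f2 i z := pd1_lift _ _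
lemma pd1_f2 (i : 𝓔.I) (z : Q) : pd 1 (d.f2 i) z = d.f22 i z := pd1_lift _ _

lemma osc_W (h : d.Hyp) {i : 𝓔.I} {z : Q} (hz : z ∈ 𝓔.toFam.dom i) : osc (d.Wl i) z = d.Wl i z := by
  unfold osc; rw [h.Wmean i z hz, sub_zero]

lemma pd2_u1 (h : d.Hyp) {i : 𝓔.I} {z : Q} (hz : z ∈ 𝓔.toFam.dom i) :
    pd 2 (d.u1 i) z = d.Wl i z := by
  unfold EData.u1
  rw [pd2_prim (𝓔.toFam.isOpen i) (h.WB.smooth i) hz, osc_W h hz]

lemma u1_per (h : d.Hyp) (i : 𝓔.I) : PerOn (𝓔.D i) (d.u1 i) := fun _ hx t =>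
  per_prim (h.WB.smooth i) (h.Wper i) hx t


lemma u1_odd (h : d.Hyp) {i : 𝓔.I} {x : X2} (hx : x ∈ 𝓔.D i) (t : ℝ) :
    d.u1 i (x, -t) = - d.u1 i (x, t) :=
  prim_odd (h.WB.smooth i) (h.Wper i) hx (h.Weven i x hx) t

lemma u1_perp2 (h : d.Hyp) {i : 𝓔.I} {z : Q} (hz : z ∈ 𝓔.toFam.dom i) :
    inner ℝ (d.u1 i z) (d.f2 i z) = 0 :=
  inner_prim_TI (TI_f2 i) (h.WB.smooth i) (fun z hz => (h.Wperp i z hz).1)
    (fun z hz => h.Wmean i z hz) hz

lemma u1_perp22 (h : d.Hyp) {i : 𝓔.I} {z : Q} (hz : z ∈ 𝓔.toFam.dom i) :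
    inner ℝ (d.u1 i z) (d.f22 i z) = 0 :=
  inner_prim_TI (TI_f22 i) (h.WB.smooth i) (fun z hz => (h.Wperp i z hz).2)
    (fun z hz => h.Wmean i z hz) hz

lemma sm_uu (h : d.Hyp) {F : 𝓔.I → Q → E4} (hF : 𝓔.toFam.Sm F) : 𝓔.toFam.Sm (uu d F) := fun i =>
  ((hF i).sub (h.fsm i)).const_smul _

lemma sm_rho (h : d.Hyp) {F : 𝓔.I → Q → E4} (hF : 𝓔.toFam.Sm F) : 𝓔.toFam.Sm (d.rho F) := fun i =>
  (sm_uu h hF i).sub (sm_u1 h i)



lemma dF {F : 𝓔.I → Q → E4} (hF : 𝓔.toFam.Sm F) {i : 𝓔.I} {z : Q} (hz : z ∈ 𝓔.toFam.dom i) :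
    DifferentiableAt ℝ (F i) z := diffAt (𝓔.toFam.isOpen_dom i) (hF i) hz

lemma pd_F (h : d.Hyp) {F : 𝓔.I → Q → E4} (hF : 𝓔.toFam.Sm F) (j : Fin 3) {i : 𝓔.I} {z : Q}
    (hz : z ∈ 𝓔.toFam.dom i) :
    pd j (F i) z = pd j (lift (d.f i)) z + 𝓔.eps i • pd j (uu d F i) z := by
  have h1 : EqOn (F i) (fun z => lift (d.f i) z + 𝓔.eps i • uu d F i z) (𝓔.toFam.dom i) :=
    fun z _ => F_eq F i z
  have h2 : DifferentiableAt ℝ (fun z => 𝓔.eps i • uu d F i z) z :=
    (dF (sm_uu h hF) hz).fun_const_smul _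
  rw [pd_eqOn (𝓔.toFam.isOpen_dom i) h1 j hz, pd_add j (dF h.fsm hz) h2,
    pd_const_smul j _ (dF (sm_uu h hF) hz)]

/-- expansion of `D1 F` -/
lemma A1_eq (h : d.Hyp) {F : 𝓔.I → Q → E4} (hF : 𝓔.toFam.Sm F) {i : 𝓔.I} {z : Q}
    (hz : z ∈ 𝓔.toFam.dom i) :
    𝓔.A1 F i z = d.w i z + (pd 2 (d.rho F i) z + 𝓔.eps i • pd 0 (uu d F i) z) := by
  have h2 : pd 2 (uu d F i) z = d.Wl i z + pd 2 (d.rho F i) z := by
    have e : uu d F i = fun z => d.u1 i z + d.rho F i z := funext (uu_eq F i)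
    rw [e, pd_add 2 (dF (sm_u1 h) hz) (dF (sm_rho h hF) hz), pd2_u1 h hz]
  unfold EFam.A1
  rw [pd_F h hF 0 hz, pd_F h hF 2 hz, pd0_f, pd2_TI (TI.lift _), zero_add, smul_smul,
    inv_mul_cancel₀ (eps_ne i), one_smul, h2]
  unfold EData.w
  abel

/-- expansion of `D2 F` -/
lemma A2_eq (h : d.Hyp) {F : 𝓔.I → Q → E4} (hF : 𝓔.toFam.Sm F) {i : 𝓔.I} {z : Q}
    (hz : z ∈ 𝓔.toFam.dom i) :
    𝓔.A2 F i z = d.f2 i z + 𝓔.eps i • pd 1 (uu d F i) z := by
  unfold EFam.A2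
  rw [pd_F h hF 1 hz, pd1_f]


/-! ### increments -/







end eng

/-! ### parity and periodicity -/

lemma pd_per {D : Set X2} (hD : IsOpen D) {V : Type*} [NormedAddCommGroup V] [NormedSpace ℝ V]
    {u : Q → V} (hp : PerOn D u) (j : Fin 3) : PerOn D (pd j u) := by
  intro x hx t
  have hev : (fun z : Q => u (z + ((0 : X2), 2 * Real.pi))) =ᶠ[nhds (x, t)] u := by
    have ho : IsOpen {z : Q | z.1 ∈ D} := hD.preimage continuous_fst
    refine Filter.eventuallyEq_of_mem (ho.mem_nhds (show x ∈ D from hx)) (fun z hz => ?_)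
    have : z + ((0 : X2), 2 * Real.pi) = (z.1, z.2 + 2 * Real.pi) := by ext <;> simp
    show u (z + ((0 : X2), 2 * Real.pi)) = u z
    rw [this]; exact hp z.1 hz z.2
  have h1 := fderiv_comp_add_right (𝕜 := ℝ) (f := u) (x := (x, t)) ((0 : X2), 2 * Real.pi)
  have h2 : ((x, t) : Q) + ((0 : X2), 2 * Real.pi) = (x, t + 2 * Real.pi) := by ext <;> simp
  rw [h2] at h1
  show fderiv ℝ u (x, t + 2 * Real.pi) (bas j) = fderiv ℝ u (x, t) (bas j)
  rw [← h1, hev.fderiv_eq]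

/-- reflection `t ↦ -t` -/
noncomputable def refl : Q →L[ℝ] Q :=
  (ContinuousLinearMap.fst ℝ X2 ℝ).prod (-(ContinuousLinearMap.snd ℝ X2 ℝ))

lemma refl_apply (z : Q) : refl z = (z.1, -z.2) := rfl

lemma pd_odd {D : Set X2} (hD : IsOpen D) {V : Type*} [NormedAddCommGroup V] [NormedSpace ℝ V]
    {u : Q → V} (hu : ContDiffOn ℝ ∞ u {z | z.1 ∈ D}) (ho : ∀ x ∈ D, ∀ t, u (x, -t) = - u (x, t))
    (j : Fin 3) (hj : j ≠ 2) {x : X2} (hx : x ∈ D) (t : ℝ) : pd j u (x, -t) = - pd j u (x, t) := by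
  have hop : IsOpen {z : Q | z.1 ∈ D} := hD.preimage continuous_fst
  have hev : (fun z : Q => u (refl z)) =ᶠ[nhds (x, t)] (fun z => - u z) := by
    refine Filter.eventuallyEq_of_mem (hop.mem_nhds (show x ∈ D from hx)) (fun z hz => ?_)
    exact ho z.1 hz z.2
  have hd : DifferentiableAt ℝ u (refl (x, t)) := diffAt hop hu (show x ∈ D from hx)
  have h1 : fderiv ℝ (fun z : Q => u (refl z)) (x, t) = (fderiv ℝ u (refl (x, t))).comp refl := by
    exact (hd.hasFDerivAt.comp (x, t) refl.hasFDerivAt).fderiv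
  have h2 : fderiv ℝ (fun z : Q => u (refl z)) (x, t) = - fderiv ℝ u (x, t) := by
    rw [hev.fderiv_eq, fderiv_fun_neg]
  rw [h1] at h2
  have h3 := congrArg (fun L : Q →L[ℝ] V => L (bas j)) h2
  have hb : refl (bas j) = bas j := by
    fin_cases j
    · simp [refl_apply, bas]
    · simp [refl_apply, bas]
    · exact absurd rfl hj
  simp only [ContinuousLinearMap.comp_apply, hb, neg_apply] at h3
  exact h3

section eng2
variable {𝓔 : EFam} {d : EData 𝓔}
open Crest.Agent.R216.TE.Fam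

/-- decomposition of an error into an odd part and a quadratic part -/
lemma split {u T1 T2 : 𝓔.I → Q → ℝ} {m l m' l' : ℕ} (h1 : 𝓔.toFam.B (𝓔.W 1 m l) T1)
    (h2 : 𝓔.toFam.B (𝓔.W 2 m' l') T2) (hu : ∀ i, EqOn (u i) (fun z => T1 i z + T2 i z) (𝓔.toFam.dom i))
    (hT : ∀ i, ∀ z ∈ 𝓔.toFam.dom i, mean (T1 i) z = 0)
    {mo mm : ℕ} (c1 : mo ≤ m) (c2 : l + 10 * mo ≤ 10 * m) (c3 : mo ≤ m') (c4 : l' + 10 * mo ≤ 10 * m')
    (c5 : mm ≤ m') (c6 : l' + 10 * mm ≤ 10 * m') :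
    𝓔.toFam.B (𝓔.W 1 mo 0) (fun i => osc (u i)) ∧ 𝓔.toFam.B (𝓔.W 2 mm 0) (fun i => mean (u i)) := by
  have o1 : 𝓔.toFam.B (𝓔.W 1 mo 0) (fun i => osc (T1 i)) :=
    EFam.B_le (h1.osc (EFam.W_nn _ _ _)) le_rfl c1 (by omega)
  have o2 : 𝓔.toFam.B (𝓔.W 1 mo 0) (fun i => osc (T2 i)) :=
    EFam.B_le (h2.osc (EFam.W_nn _ _ _)) (by omega) c3 (by omega)
  have m2 : 𝓔.toFam.B (𝓔.W 2 mm 0) (fun i => mean (T2 i)) :=
    EFam.B_le (h2.mean (EFam.W_nn _ _ _)) le_rfl c5 (by omega)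
  refine ⟨(o1.add o2).congr (fun i z hz => ?_), m2.congr (fun i z hz => ?_)⟩
  · rw [osc_congr (D := 𝓔.D i) (hu i) hz, osc_add (h1.smooth i) (h2.smooth i) hz]
  · show mean (T2 i) z = mean (u i) z
    rw [mean_congr (D := 𝓔.D i) (hu i) hz, mean_add (h1.smooth i) (h2.smooth i) hz, hT i z hz,
      zero_add]

lemma rho_base (i : 𝓔.I) (z : Q) : d.rho d.base i z = 0 := by
  unfold EData.rho EData.base
  rw [add_sub_cancel_left, smul_smul, inv_mul_cancel₀ (eps_ne i), one_smul, sub_self]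

lemma uu_base (i : 𝓔.I) (z : Q) : uu d d.base i z = d.u1 i z := by
  rw [uu_eq, rho_base, add_zero]

lemma sm_base (h : d.Hyp) : 𝓔.toFam.Sm d.base := fun i =>
  (h.fsm i).add ((sm_u1 h i).const_smul _)

lemma A1_base (h : d.Hyp) {i : 𝓔.I} {z : Q} (hz : z ∈ 𝓔.toFam.dom i) :
    𝓔.A1 d.base i z = d.w i z + 𝓔.eps i • pd 0 (d.u1 i) z := by
  have e1 : d.rho d.base i = fun _ => 0 := funext (rho_base i)
  have e2 : uu d d.base i = d.u1 i := funext (uu_base i)
  rw [A1_eq h (sm_base h) hz, e1, e2, pd2_TI (TI.const _), zero_add]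

lemma A2_base (h : d.Hyp) {i : 𝓔.I} {z : Q} (hz : z ∈ 𝓔.toFam.dom i) :
    𝓔.A2 d.base i z = d.f2 i z + 𝓔.eps i • pd 1 (d.u1 i) z := by
  have e2 : uu d d.base i = d.u1 i := funext (uu_base i)
  rw [A2_eq h (sm_base h) hz, e2]

lemma w_B (h : d.Hyp) : 𝓔.toFam.B (𝓔.W 0 0 0) d.w :=
  h.f1B.add (EFam.B_le h.WB (by omega) le_rfl (by omega))

lemma w_even (h : d.Hyp) {i : 𝓔.I} {x : X2} (hx : x ∈ 𝓔.D i) (t : ℝ) :
    d.w i (x, -t) = d.w i (x, t) := by
  unfold EData.w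
  rw [h.Weven i x hx t]; rfl

lemma w_per (h : d.Hyp) (i : 𝓔.I) : PerOn (𝓔.D i) (d.w i) := by
  intro x hx t
  unfold EData.w
  rw [h.Wper i x hx t]; rfl

lemma pdu1_odd (h : d.Hyp) (j : Fin 3) (hj : j ≠ 2) {i : 𝓔.I} {x : X2} (hx : x ∈ 𝓔.D i) (t : ℝ) :
    pd j (d.u1 i) (x, -t) = - pd j (d.u1 i) (x, t) :=
  pd_odd (𝓔.isOpen i) (sm_u1 h i) (fun _ hx t => u1_odd h hx t) j hj hx t

lemma f2_pd1_u1 (h : d.Hyp) {i : 𝓔.I} {z : Q} (hz : z ∈ 𝓔.toFam.dom i) :
    inner ℝ (d.f2 i z) (pd 1 (d.u1 i) z) = 0 := by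
  have h1 : EqOn (fun z => inner ℝ (d.f2 i z) (d.u1 i z)) (fun _ => (0:ℝ)) (𝓔.toFam.dom i) :=
    fun z hz => by
      show inner ℝ (d.f2 i z) (d.u1 i z) = 0
      rw [real_inner_comm]; exact u1_perp2 h hz
  have h2 := pd_eqOn (𝓔.toFam.isOpen_dom i) h1 1 hz
  rw [pd_inner 1 (dF (sm_f2 h) hz) (dF (sm_u1 h) hz), pd1_f2] at h2
  have h3 : pd 1 (fun _ : Q => (0:ℝ)) z = 0 := by simp [pd]
  rw [h3, real_inner_comm (d.u1 i z) (d.f22 i z), u1_perp22 h hz, add_zero] at h2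
  exact h2

end eng2

end Crest.Agent.R216.TE.S0

namespace Crest.Agent.R216.TE.EData
open Crest.Agent.R216.TE.S0 Crest.Agent.R216.TE.Fam
variable {𝓔 : EFam} {d : EData 𝓔}

theorem step0 (h : d.Hyp) : d.Good d.base ∧ d.Err0 0 d.base := by
  have hu1 := u1B h
  have hp0 : 𝓔.toFam.B (𝓔.W 1 0 1) (fun i => pd 0 (d.u1 i)) := EFam.B_pd hu1 0
  have hp1 : 𝓔.toFam.B (𝓔.W 1 0 1) (fun i => pd 1 (d.u1 i)) := EFam.B_pd hu1 1
  have hw := w_B h
  constructor
  · refine ⟨sm_base h, fun i x hx t => ?_, ?_, ?_⟩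
    · unfold base
      rw [u1_per h i x hx t]
    · refine (B.zero (EFam.W_nn 1 7 1)).congr (fun i z hz => ?_)
      have e1 : d.rho d.base i = fun _ => 0 := funext (rho_base i)
      show (0 : E4) = osc (d.rho d.base i) z
      rw [e1, osc_TI (TI.const _)]
    · refine (B.zero (EFam.W_nn 2 7 1)).congr (fun i z hz => ?_)
      have e1 : d.rho d.base i = fun _ => 0 := funext (rho_base i)
      show (0 : E4) = mean (d.rho d.base i) z
      rw [e1, mean_TI (TI.const _)]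
  · -- E11
    have T11 : 𝓔.toFam.B (𝓔.W 1 16 1)
        (fun i z => 𝓔.eps i • (2 * inner ℝ (d.w i z) (pd 0 (d.u1 i) z))) := by
      have := EFam.B_eps ((EFam.B_inner hw hp0).const_smul 2 (EFam.W_nn _ _ _))
      simpa using this
    have S11 : 𝓔.toFam.B (𝓔.W 2 32 2)
        (fun i z => 𝓔.eps i • (𝓔.eps i • inner ℝ (pd 0 (d.u1 i) z) (pd 0 (d.u1 i) z))
          - d.G11 i z.1) :=
      (EFam.B_eps (EFam.B_eps (EFam.B_inner hp0 hp0))).sub (EFam.W_nn _ _ _)
        (EFam.B_le h.G11B le_rfl (by omega) (by omega))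
    have e11 : ∀ i, EqOn (d.E11 d.base i)
        (fun z => (𝓔.eps i • (2 * inner ℝ (d.w i z) (pd 0 (d.u1 i) z)))
          + (𝓔.eps i • (𝓔.eps i • inner ℝ (pd 0 (d.u1 i) z) (pd 0 (d.u1 i) z)) - d.G11 i z.1))
        (𝓔.toFam.dom i) := by
      intro i z hz
      show inner ℝ (𝓔.A1 d.base i z) (𝓔.A1 d.base i z) - _ = _
      rw [A1_base h hz]
      simp only [inner_add_left, inner_add_right, inner_smul_left, inner_smul_right,
        h.circle i z hz, real_inner_comm (d.w i z) (pd 0 (d.u1 i) z), smul_eq_mul,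
        RCLike.conj_to_real]
      ring
    have m11 : ∀ i, ∀ z ∈ 𝓔.toFam.dom i,
        mean (fun z => 𝓔.eps i • (2 * inner ℝ (d.w i z) (pd 0 (d.u1 i) z))) z = 0 := by
      intro i z hz
      apply mean_odd
      · intro t
        simp only [w_per h i z.1 hz t, pd_per (𝓔.isOpen i) (u1_per h i) 0 z.1 hz t]
      · intro t
        simp only [w_even h hz t, pdu1_odd h 0 (by decide) hz t, inner_neg_right, mul_neg, smul_neg]
    obtain ⟨o11, mm11⟩ := split T11 S11 e11 m11 (mo := 15) (mm := 15) (by omega) (by omega)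
      (by omega) (by omega) (by omega) (by omega)
    -- E12
    have T12 : 𝓔.toFam.B (𝓔.W 1 16 1)
        (fun i z => 𝓔.eps i • (inner ℝ (d.w i z) (pd 1 (d.u1 i) z)
          + inner ℝ (d.f2 i z) (pd 0 (d.u1 i) z))) := by
      have := EFam.B_eps ((EFam.B_inner hw hp1).add (EFam.B_inner h.f2B hp0))
      simpa using this
    have S12 : 𝓔.toFam.B (𝓔.W 2 32 2)
        (fun i z => 𝓔.eps i • (𝓔.eps i • inner ℝ (pd 0 (d.u1 i) z) (pd 1 (d.u1 i) z))
          - d.G12 i z.1) :=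
      (EFam.B_eps (EFam.B_eps (EFam.B_inner hp0 hp1))).sub (EFam.W_nn _ _ _)
        (EFam.B_le h.G12B le_rfl (by omega) (by omega))
    have e12 : ∀ i, EqOn (d.E12 d.base i)
        (fun z => (𝓔.eps i • (inner ℝ (d.w i z) (pd 1 (d.u1 i) z)
          + inner ℝ (d.f2 i z) (pd 0 (d.u1 i) z)))
          + (𝓔.eps i • (𝓔.eps i • inner ℝ (pd 0 (d.u1 i) z) (pd 1 (d.u1 i) z)) - d.G12 i z.1))
        (𝓔.toFam.dom i) := by
      intro i z hz
      show inner ℝ (𝓔.A1 d.base i z) (𝓔.A2 d.base i z) - _ = _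
      have hwf : inner ℝ (d.w i z) (d.f2 i z) = inner ℝ (d.f1 i z) (d.f2 i z) := by
        unfold EData.w
        rw [inner_add_left, (h.Wperp i z hz).1, add_zero]
      rw [A1_base h hz, A2_base h hz]
      simp only [inner_add_left, inner_add_right, inner_smul_left, inner_smul_right,
        hwf, real_inner_comm (d.f2 i z) (pd 0 (d.u1 i) z), smul_eq_mul,
        RCLike.conj_to_real]
      ring
    have m12 : ∀ i, ∀ z ∈ 𝓔.toFam.dom i,
        mean (fun z => 𝓔.eps i • (inner ℝ (d.w i z) (pd 1 (d.u1 i) z)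
          + inner ℝ (d.f2 i z) (pd 0 (d.u1 i) z))) z = 0 := by
      intro i z hz
      have hf : ∀ t s, d.f2 i (z.1, t) = d.f2 i (z.1, s) := fun t s => TI_f2 i _ _ _
      apply mean_odd
      · intro t
        simp only [w_per h i z.1 hz t, pd_per (𝓔.isOpen i) (u1_per h i) 0 z.1 hz t,
          pd_per (𝓔.isOpen i) (u1_per h i) 1 z.1 hz t, hf (t + 2 * Real.pi) t]
      · intro t
        simp only [w_even h hz t, pdu1_odd h 0 (by decide) hz t, pdu1_odd h 1 (by decide) hz t,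
          inner_neg_right, hf (-t) t]
        rw [← neg_add, smul_neg]
    obtain ⟨o12, mm12⟩ := split T12 S12 e12 m12 (mo := 15) (mm := 23) (by omega) (by omega)
      (by omega) (by omega) (by omega) (by omega)
    -- E22
    have S22 : 𝓔.toFam.B (𝓔.W 2 32 2)
        (fun i z => 𝓔.eps i • (𝓔.eps i • inner ℝ (pd 1 (d.u1 i) z) (pd 1 (d.u1 i) z))
          - d.G22 i z.1) :=
      (EFam.B_eps (EFam.B_eps (EFam.B_inner hp1 hp1))).sub (EFam.W_nn _ _ _)
        (EFam.B_le h.G22B le_rfl (by omega) (by omega))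
    have e22 : ∀ i, EqOn (d.E22 d.base i)
        (fun z => (0 : ℝ)
          + (𝓔.eps i • (𝓔.eps i • inner ℝ (pd 1 (d.u1 i) z) (pd 1 (d.u1 i) z)) - d.G22 i z.1))
        (𝓔.toFam.dom i) := by
      intro i z hz
      show inner ℝ (𝓔.A2 d.base i z) (𝓔.A2 d.base i z) - _ = _
      rw [A2_base h hz]
      simp only [inner_add_left, inner_add_right, inner_smul_left, inner_smul_right,
        real_inner_comm (d.f2 i z) (pd 1 (d.u1 i) z), f2_pd1_u1 h hz, smul_eq_mul,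
        RCLike.conj_to_real]
      ring
    obtain ⟨o22, mm22⟩ := split (T1 := fun _ _ => (0:ℝ)) (m := 32) (l := 0)
      (B.zero (EFam.W_nn _ _ _)) S22 e22
      (fun i z _ => mean_TI (TI.const _) z) (mo := 27) (mm := 27) (by omega) (by omega)
      (by omega) (by omega) (by omega) (by omega)
    exact ⟨o11, mm11, o12, mm12, o22, mm22⟩

end Crest.Agent.R216.TE.EData
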